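/-
R338/ADefs: definitions of the finite-dimensional part of row 338 (S0529, QMA-hardness of the Coulomb
ground energy).  Author: helper15.  FROZEN (ask helper15 for changes).  See `R338/Blueprint.lean`.

Chain: verifier circuit → real circuit of doubly controlled reflections (`compG`) → Kitaev Hamiltonian
(`kitH`, 6-local X/Z strings) → three gadget rounds (`roundH`, 6 → 4 → 3 → 2) → integer table `ktab`
("trine problem": a classical 2-local cost on zero-sum vectors) → lattice fermions (`latT`, `latV`).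
-/
import Mathlib
import Crest.Prelude.Def_CoulombProblem

set_option autoImplicit false
set_option linter.unusedSectionVars false

noncomputable section

namespace Crest.Agent.R338

open Crest.Quantum.GateCircuit Crest.Quantum.QMA
open scoped Matrix

/-! ### Real qubit Hamiltonians -/

/-- Real amplitude vectors on `n` wires. -/
abbrev RV (n : ℕ) : Type := (Fin n → Bool) → ℝ

/-- Squared norm. -/
def nsq {ι : Type} [Fintype ι] (ψ : ι → ℝ) : ℝ := ψ ⬝ᵥ ψ

/-- Self-adjointness for the dot product. -/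
def SA {ι : Type} [Fintype ι] (T : Module.End ℝ (ι → ℝ)) : Prop := ∀ φ ψ, T φ ⬝ᵥ ψ = φ ⬝ᵥ T ψ

/-- The bit on wire `i` (`false` if there is no such wire). -/
def bit {n : ℕ} (x : Fin n → Bool) (i : ℕ) : Bool := if h : i < n then x ⟨i, h⟩ else false

/-- Flip the bit on wire `i`. -/
def flp {n : ℕ} (x : Fin n → Bool) (i : ℕ) : Fin n → Bool :=
  fun j => if (j : ℕ) = i then !x j else x j

/-- `(-1)^b`. -/
def sgnB (b : Bool) : ℝ := if b then -1 else 1

/-- Multiplication by a function. -/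
def diagOp {ι : Type} (d : ι → ℝ) : Module.End ℝ (ι → ℝ) where
  toFun ψ x := d x * ψ x
  map_add' φ ψ := by ext x; simp [mul_add]
  map_smul' c ψ := by ext x; simp [mul_left_comm]

/-- Pauli `X`. -/
def opX {n : ℕ} (i : ℕ) : Module.End ℝ (RV n) where
  toFun ψ x := ψ (flp x i)
  map_add' _ _ := rfl
  map_smul' _ _ := rfl

/-- Pauli `Z`. -/
def opZ {n : ℕ} (i : ℕ) : Module.End ℝ (RV n) := diagOp fun x => sgnB (bit x i)

/-- The projection on the strings with bit `b` on wire `i`. -/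
def opP {n : ℕ} (i : ℕ) (b : Bool) : Module.End ℝ (RV n) :=
  diagOp fun x => if bit x i = b then 1 else 0

/-- A letter: wire, and `true` for `X`, `false` for `Z`. -/
abbrev Letter : Type := ℕ × Bool

/-- The operator of a letter. -/
def opL {n : ℕ} (p : Letter) : Module.End ℝ (RV n) := if p.2 then opX p.1 else opZ p.1

/-- The operator of a string of letters. -/
def pauli {n : ℕ} (L : List Letter) : Module.End ℝ (RV n) := (L.map opL).prod

/-- A weighted string. -/
abbrev Term : Type := ℚ × List Letter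

/-- A Hamiltonian. -/
abbrev Ham : Type := List Term

/-- The operator of a Hamiltonian. -/
def opH {n : ℕ} (H : Ham) : Module.End ℝ (RV n) := (H.map fun τ => (τ.1 : ℝ) • pauli τ.2).sum

/-- The quadratic form of a Hamiltonian. -/
def form {n : ℕ} (H : Ham) (ψ : RV n) : ℝ := ψ ⬝ᵥ opH H ψ

/-- Least eigenvalue at most `a`. -/
def Yes (n : ℕ) (H : Ham) (a : ℝ) : Prop := ∃ ψ : RV n, ψ ≠ 0 ∧ form H ψ ≤ a * nsq ψ

/-- Least eigenvalue at least `b`. -/
def No (n : ℕ) (H : Ham) (b : ℝ) : Prop := ∀ ψ : RV n, b * nsq ψ ≤ form H ψ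

/-- A `k`-local Hamiltonian on `n` wires all of whose sizes are bounded by `Q`. -/
structure WFH (k Q n : ℕ) (H : Ham) : Prop where
  two : 2 ≤ n
  nQ : n ≤ Q
  len : H.length ≤ Q
  coef : ∀ τ ∈ H, |τ.1| ≤ Q
  loc : ∀ τ ∈ H, τ.2.length ≤ k
  nodup : ∀ τ ∈ H, (τ.2.map Prod.fst).Nodup
  lt : ∀ τ ∈ H, ∀ p ∈ τ.2, p.1 < n

/-- Product of Hamiltonians. -/
def mulH (H H' : Ham) : Ham := H.flatMap fun τ => H'.map fun τ' => (τ.1 * τ'.1, τ.2 ++ τ'.2)

/-- Scalar multiple. -/
def smulH (q : ℚ) (H : Ham) : Ham := H.map fun τ => (q * τ.1, τ.2)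

/-- The projection `opP i b` as a Hamiltonian. -/
def prH (i : ℕ) (b : Bool) : Ham := [(1 / 2, []), (if b then -1 / 2 else 1 / 2, [(i, false)])]

/-! ### Real circuits -/

/-- A doubly controlled reflection: controls, target, angle code. -/
abbrev RG : Type := ℕ × ℕ × ℕ × ℕ

/-- Cosine and sine of the angles `0, π/2, -π/2, π/4, -π/4` (for `r = 1/√2`). -/
def cs {K : Type} [Ring K] (r : K) (θ : ℕ) : K × K :=
  if θ = 0 then (1, 0) else if θ = 1 then (0, 1) else if θ = 2 then (0, -1)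
  else if θ = 3 then (r, r) else (r, -r)

/-- `cos θ Z + sin θ X` on the target if both controls are `true`. -/
def rgate {n : ℕ} (r : ℝ) (g : RG) : Module.End ℝ (RV n) where
  toFun ψ x := if bit x g.1 = true ∧ bit x g.2.1 = true then
    (cs r g.2.2.2).1 * (sgnB (bit x g.2.2.1) * ψ x) + (cs r g.2.2.2).2 * ψ (flp x g.2.2.1) else ψ x
  map_add' φ ψ := by ext x; simp only [Pi.add_apply]; split_ifs <;> ring
  map_smul' c ψ := by
    ext x; simp only [Pi.smul_apply, smul_eq_mul, RingHom.id_apply]; split_ifs <;> ring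

/-- `1/√2`. -/
def r0 : ℝ := (Real.sqrt 2)⁻¹

/-- Run a list of gates, first to last. -/
def rrun {n : ℕ} (gs : List RG) (ψ : RV n) : RV n := gs.foldl (fun φ g => rgate r0 g φ) ψ

/-- The prescribed wires have the prescribed bits. -/
def ValidIn {n : ℕ} (init : List (ℕ × Bool)) (ψ : RV n) : Prop :=
  ∀ x, ψ x ≠ 0 → ∀ p ∈ init, bit x p.1 = p.2

/-- The weight of the rejecting strings. -/
def rej {n : ℕ} (out : ℕ) (ψ : RV n) : ℝ := ∑ x, if bit x out = true then 0 else ψ x ^ 2

/-- Some valid input is rejected with probability at most `1/3`. -/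
def RYes (n : ℕ) (gs : List RG) (init : List (ℕ × Bool)) (out : ℕ) : Prop :=
  ∃ ψ : RV n, ψ ≠ 0 ∧ ValidIn init ψ ∧ rej out (rrun gs ψ) ≤ 1 / 3 * nsq ψ

/-- Every valid input is rejected with probability at least `2/3`. -/
def RNo (n : ℕ) (gs : List RG) (init : List (ℕ × Bool)) (out : ℕ) : Prop :=
  ∀ ψ : RV n, ValidIn init ψ → 2 / 3 * nsq ψ ≤ rej out (rrun gs ψ)

/-- A well-formed gate. -/
def WFG (n : ℕ) (g : RG) : Prop :=
  g.1 < n ∧ g.2.1 < n ∧ g.2.2.1 < n ∧ g.1 ≠ g.2.1 ∧ g.1 ≠ g.2.2.1 ∧ g.2.1 ≠ g.2.2.1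

/-- A well-formed real circuit. -/
structure WFC (n : ℕ) (gs : List RG) (init : List (ℕ × Bool)) (out : ℕ) : Prop where
  gates : ∀ g ∈ gs, WFG n g
  init : ∀ p ∈ init, p.1 < n
  out : out < n

/-! ### Compilation -/

/-- A raw gate: code of the primitive, controls, target. -/
abbrev Raw : Type := ℕ × List ℕ × ℕ

/-- The number of a primitive. -/
def primNum : Prim → ℕ
  | .x => 0 | .h => 1 | .s => 2 | .sdg => 3 | .t => 4 | .tdg => 5

/-- The raw data of a gate. -/
def rawOf {N m : ℕ} : Gate N m → Raw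
  | .ctrl p cs t => (primNum p, cs.map Fin.val, t)
  | .oracle _ _ => (0, [], 0)

/-- The Toffoli ladder computing the conjunction of the wires `l` on wire `N + 2 + l.length`.
Wires: `N` is the rebit, `N + 1` and `N + 2` are constant `true`, `N + 3, …` are ancillas. -/
def ladder (N : ℕ) (l : List ℕ) : List RG :=
  l.zipIdx.map fun p => (N + 2 + p.2, p.1, N + 3 + p.2, 1)

/-- The wires whose conjunction is computed: the controls and, for a phase gate, the target. -/
def ctl (g : Raw) : List ℕ := if g.1 ≤ 1 then g.2.1 else g.2.2 :: g.2.1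

/-- The controlled reflections in the middle (`top` is the wire of the conjunction). -/
def coreG (N top : ℕ) (g : Raw) : List RG :=
  if g.1 = 0 then [(top, N + 1, g.2.2, 1)] else if g.1 = 1 then [(top, N + 1, g.2.2, 3)]
  else [(top, N + 1, N, 0), (top, N + 1, N, g.1 - 1)]

/-- The real circuit of one gate. -/
def compG (N : ℕ) (g : Raw) : List RG :=
  ladder N (ctl g) ++ coreG N (N + 2 + (ctl g).length) g ++ (ladder N (ctl g)).reverse

/-- The real circuit. -/
def compGates (N : ℕ) (l : List Raw) : List RG := l.flatMap (compG N)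

/-- The prescribed bits (`s` ancillas, `N ≤ s`). -/
def compInit (s N w : ℕ) : List (ℕ × Bool) :=
  (((List.range s).filter fun i => w ≤ i ∧ i < N).map fun i => (i, false)) ++
    [(N + 1, true), (N + 2, true)] ++ (List.range s).map fun l => (N + 3 + l, false)

/-- The size parameter `s` is large enough for the verifier `V`. -/
structure Fits (s : ℕ) (V : VCirc) : Prop where
  pos : 1 ≤ s
  wires : V.N ≤ s
  gates : V.gates.length ≤ s
  ctrl : ∀ g ∈ V.gates, (rawOf g).2.1.length + 1 ≤ s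

/-! ### The Kitaev Hamiltonian (clock wires `n, …, n + T + 1`) -/

/-- A gate as a Hamiltonian. -/
def gateH (r : ℚ) (g : RG) : Ham :=
  [(1, [])] ++ mulH (prH g.1 true) (mulH (prH g.2.1 true)
    [((cs r g.2.2.2).1, [(g.2.2.1, false)]), ((cs r g.2.2.2).2, [(g.2.2.1, true)]), (-1, [])])

/-- The propagation term of the gate number `j` (from `0`). -/
def propH (r : ℚ) (n : ℕ) (g : RG) (j : ℕ) : Ham :=
  mulH (prH (n + j) true) (mulH (prH (n + j + 2) false)
    ([(1 / 2, [])] ++ mulH [(-1 / 2, [(n + j + 1, true)])] (gateH r g)))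

/-- The clock penalty. -/
def clockH (n T : ℕ) : Ham :=
  prH n false ++ prH (n + T + 1) true ++
    (List.range (T + 1)).flatMap fun t => mulH (prH (n + t) false) (prH (n + t + 1) true)

/-- The Kitaev Hamiltonian. -/
def kitH (r : ℚ) (n : ℕ) (gs : List RG) (init : List (ℕ × Bool)) (out : ℕ) : Ham :=
  smulH (100 * (gs.length + 1)) (mulH (prH out false) (prH (n + gs.length) true) ++
    clockH n gs.length ++ smulH (10000 * (gs.length + 1))
      ((init.flatMap fun p => mulH (prH p.1 (!p.2)) (prH (n + 1) false)) ++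
        gs.zipIdx.flatMap fun p => propH r n p.1 p.2))

/-- The propagation operator of the gate number `j`. -/
def propOp {m : ℕ} (r : ℝ) (n : ℕ) (g : RG) (j : ℕ) : Module.End ℝ (RV m) :=
  opP (n + j) true * opP (n + j + 2) false *
    ((1 / 2 : ℝ) • (1 - opX (n + j + 1) * rgate r g))

/-- The clock penalty. -/
def clockOp {m : ℕ} (n T : ℕ) : Module.End ℝ (RV m) :=
  opP n false + opP (n + T + 1) true +
    ∑ t ∈ Finset.range (T + 1), opP (n + t) false * opP (n + t + 1) true

/-- The Kitaev operator with a real parameter `r`. -/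
def kitOp (r : ℝ) (n : ℕ) (gs : List RG) (init : List (ℕ × Bool)) (out : ℕ) :
    Module.End ℝ (RV (n + (gs.length + 2))) :=
  (100 * (gs.length + 1) : ℝ) • (opP out false * opP (n + gs.length) true + clockOp n gs.length +
    (10000 * (gs.length + 1) : ℝ) • ((init.map fun p => opP p.1 (!p.2) * opP (n + 1) false).sum +
      (gs.zipIdx.map fun p => propOp r n p.1 p.2).sum))

/-- A rational approximation of `1/√2`. -/
def rhat (T : ℕ) : ℚ :=
  (Nat.sqrt (2 * (1000000 * (T + 1) ^ 3) ^ 2) : ℚ) / (2 * (1000000 * (T + 1) ^ 3))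

/-! ### The gadget -/

/-- The nine terms replacing the term `τ = J · A B C` (mediator wire `w`). -/
def gadT (D : ℚ) (p w : ℕ) (τ : Term) : Ham :=
  let A := τ.2.take p
  let B := (τ.2.drop p).take p
  let C := τ.2.drop (2 * p)
  let γ := D ^ 2 / (D ^ 2 - 1)
  let a := τ.1 / (2 * γ)
  [(D ^ 3 / 2, []), (-D ^ 3 / 2, [(w, false)]), (-D ^ 2 / 2, C), (D ^ 2 / 2, (w, false) :: C),
    (D ^ 2, (w, true) :: B), (-D ^ 2 * a, (w, true) :: A),
    (D * γ * (1 + a ^ 2), []), (-2 * D * γ * a, A ++ B), (γ * (1 + a ^ 2), C)]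

/-- One round of gadgets; the new number of wires is `n + H.length`. -/
def roundH (Q p n : ℕ) (H : Ham) : Ham :=
  H.zipIdx.flatMap fun q => gadT (100 * Q ^ 6) p (n + q.2) q.1

/-- The new size bound. -/
def nextQ (Q : ℕ) : ℕ := (100 * Q ^ 6) ^ 3

/-! ### The trine problem -/

/-- Zero sum in every coordinate. -/
def ZeroSum {n : ℕ} (f : (Fin n → Fin 3) → ℝ) : Prop :=
  ∀ x j, ∑ r, f (Function.update x j r) = 0

/-- The occupation of the room `α` when the outer electron is in the room `a`. -/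
def occ (a α : Fin 3) : ℝ := 2 / 3 + if a = α then 1 else 0

/-- The cost of a configuration of outer electrons; room `(j, α)` has the number `3 j + α`. -/
def tcost (n : ℕ) (k : ℕ → ℕ → ℕ) (x : Fin n → Fin 3) : ℝ :=
  ∑ j : Fin n, ∑ j' : Fin n, if j < j' then
    ∑ α : Fin 3, ∑ β : Fin 3, (k (3 * j + α) (3 * j' + β) : ℝ) * (occ (x j) α * occ (x j') β)
  else 0

/-- Trine problem, YES. -/
def TYes (n : ℕ) (k : ℕ → ℕ → ℕ) (a : ℝ) : Prop :=
  ∃ f : (Fin n → Fin 3) → ℝ, f ≠ 0 ∧ ZeroSum f ∧ ∑ x, tcost n k x * f x ^ 2 ≤ a * nsq f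

/-- Trine problem, NO. -/
def TNo (n : ℕ) (k : ℕ → ℕ → ℕ) (b : ℝ) : Prop :=
  ∀ f : (Fin n → Fin 3) → ℝ, ZeroSum f → b * nsq f ≤ ∑ x, tcost n k x * f x ^ 2

/-- The weights of a letter on the three rooms (`s ≈ √3`). -/
def lv (s : ℚ) (o : Option Letter) (α : ℕ) : ℚ :=
  o.elim (1 / 3) fun p => if p.2 then (if α = 0 then 0 else if α = 1 then -s else s)
    else if α = 0 then 2 else -1

/-- The first wire of a term. -/
def w1 (τ : Term) : ℕ := (τ.2[0]?.map Prod.fst).getD 0

/-- The second wire of a term. -/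
def w2 (τ : Term) : ℕ := (τ.2[1]?.map Prod.fst).getD (if w1 τ = 0 then 1 else 0)

/-- The real coupling of the rooms `A`, `B`. -/
def vtab (s : ℚ) (H : Ham) (A B : ℕ) : ℚ :=
  (H.map fun τ => τ.1 *
    ((if w1 τ = A / 3 ∧ w2 τ = B / 3 then lv s τ.2[0]? (A % 3) * lv s τ.2[1]? (B % 3) else 0) +
     (if w1 τ = B / 3 ∧ w2 τ = A / 3 then lv s τ.2[0]? (B % 3) * lv s τ.2[1]? (A % 3) else 0))).sum

/-- A rational approximation of `√3`. -/
def shat (Q : ℕ) : ℚ := (Nat.sqrt (3 * (8 * Q ^ 4) ^ 2) : ℚ) / (8 * Q ^ 4)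

/-- The integer coupling of the rooms `A`, `B`. -/
def ktab (Q : ℕ) (H : Ham) (A B : ℕ) : ℕ :=
  (⌊(Q : ℚ) ^ 2 * vtab (shat Q) H A B⌋ + 10 * Q ^ 4).toNat

/-- Lower threshold of the trine problem. -/
def aT (Q n : ℕ) : ℕ := 38 * Q ^ 2 + 90 * Q ^ 4 * n.choose 2 + 1

/-- Upper threshold of the trine problem. -/
def bT (Q n : ℕ) : ℕ := 53 * Q ^ 2 + 90 * Q ^ 4 * n.choose 2

/-! ### The whole finite-dimensional reduction -/

/-- Size bound of the Kitaev Hamiltonian. -/
def Q0 (s : ℕ) : ℕ := 10 ^ 8 * s ^ 4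

/-- Size bound of the final 2-local Hamiltonian. -/
def Q3 (s : ℕ) : ℕ := nextQ (nextQ (nextQ (Q0 s)))

/-- One round on (wires, Hamiltonian). -/
def roundP (Q p : ℕ) (I : ℕ × Ham) : ℕ × Ham := (I.1 + I.2.length, roundH Q p I.1 I.2)

/-- The Kitaev Hamiltonian of raw circuit data. -/
def ham0 (s N w : ℕ) (l : List Raw) (out : ℕ) : ℕ × Ham :=
  (N + 3 + s + ((compGates N l).length + 2),
    kitH (rhat (compGates N l).length) (N + 3 + s) (compGates N l) (compInit s N w) out)

/-- The 2-local Hamiltonian of raw circuit data. -/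
def ham3 (s N w : ℕ) (l : List Raw) (out : ℕ) : ℕ × Ham :=
  roundP (nextQ (nextQ (Q0 s))) 1 (roundP (nextQ (Q0 s)) 1 (roundP (Q0 s) 2 (ham0 s N w l out)))

/-! ### Lattice fermions -/

/-- Rooms: qubit and position. -/
abbrev Room (n : ℕ) : Type := Fin n × Fin 3

/-- Modes: spin and room. -/
abbrev Mode (n : ℕ) : Type := Fin 2 × Room n

/-- The number of a room. -/
def rid {n : ℕ} (A : Room n) : ℕ := 3 * A.1 + A.2

/-- Antisymmetric coefficient vectors. -/
def Anti {M : Type} {N : ℕ} (c : (Fin N → M) → ℝ) : Prop :=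
  ∀ (σ : Equiv.Perm (Fin N)) (x : Fin N → M), c (x ∘ σ) = ((Equiv.Perm.sign σ : ℤ) : ℝ) * c x

/-- Average over the three rooms of the qubit of particle `i`. -/
def avgR {n N : ℕ} (i : Fin N) (c : (Fin N → Mode n) → ℝ) (x : Fin N → Mode n) : ℝ :=
  (∑ r : Fin 3, c (Function.update x i ((x i).1, (x i).2.1, r))) / 3

/-- The hopping energy: the number of particles in the doublets. -/
def latT {n N : ℕ} (c : (Fin N → Mode n) → ℝ) : ℝ := ∑ i, ∑ x, (c x - avgR i c x) ^ 2

/-- The interaction energy. -/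
def latV {n N : ℕ} (V : Room n → Room n → ℝ) (c : (Fin N → Mode n) → ℝ) : ℝ :=
  ∑ x, (∑ i, ∑ j, if i < j then V (x i).2 (x j).2 else 0) * c x ^ 2

/-- The interaction: `U` in a room, `kc` within a qubit, `k` between qubits. -/
def Vlat {n : ℕ} (U : ℝ) (kc : ℕ) (k : ℕ → ℕ → ℕ) (A B : Room n) : ℝ :=
  if A = B then U else if A.1 = B.1 then kc else k (rid A) (rid B)

end Crest.Agent.R338
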