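/-
R338/BDefs: analytic definitions of row 338 (forms, kernels, lattices, the one-body interface).
Author: helper15.  FROZEN (ask helper15 for changes).  See `R338/Blueprint.lean`.
-/
import Crest.Agent.R338.ADefs

set_option autoImplicit false
set_option linter.unusedSectionVars false

noncomputable section

namespace Crest.Agent.R338

open MeasureTheory Set Crest.MathPhysics.ElectronicCoulomb

/-! ### Derivatives and test functions -/

section deriv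
variable {ι : Type} [Fintype ι] [DecidableEq ι]

/-- Partial derivative. -/
def pd (c : ι) (f : EuclideanSpace ℝ ι → ℝ) (x : EuclideanSpace ℝ ι) : ℝ :=
  fderiv ℝ f x (EuclideanSpace.single c 1)

/-- Squared length of the gradient. -/
def gsq (f : EuclideanSpace ℝ ι → ℝ) (x : EuclideanSpace ℝ ι) : ℝ := ∑ c, pd c f x ^ 2

/-- Laplacian. -/
def lap (f : EuclideanSpace ℝ ι → ℝ) (x : EuclideanSpace ℝ ι) : ℝ := ∑ c, pd c (pd c f) x

/-- `C¹` with compact support. -/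
structure Test (f : EuclideanSpace ℝ ι → ℝ) : Prop where
  diff : ContDiff ℝ 1 f
  supp : HasCompactSupport f

end deriv

/-- Measurable, bounded, with bounded support. -/
structure Nice {Y : Type} [MeasurableSpace Y] [PseudoMetricSpace Y] (F : Y → ℝ) : Prop where
  meas : Measurable F
  bdd : ∃ C, ∀ y, |F y| ≤ C
  supp : Bornology.IsBounded (Function.support F)

/-- `C^r` with `‖D^j f‖ ≤ A * lam ^ j` for `j ≤ r`. -/
structure DB (r : ℕ) (A lam : ℝ) (f : Pos3 → ℝ) : Prop where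
  diff : ContDiff ℝ r f
  bd : ∀ j ≤ r, ∀ x, ‖iteratedFDeriv ℝ j f x‖ ≤ A * lam ^ j

/-- A positive weight that varies on the length scale `1 / Λ`. -/
structure Wt (ρ : Pos3 → ℝ) (Λ : ℝ) : Prop where
  diff : ContDiff ℝ 2 ρ
  pos : ∀ x, 0 < ρ x
  d1 : ∀ x, ‖fderiv ℝ ρ x‖ ≤ Λ * ρ x
  d2 : ∀ x, ‖iteratedFDeriv ℝ 2 ρ x‖ ≤ Λ ^ 2 * ρ x

/-! ### Coordinates -/

/-- A point from its planar part and its height. -/
def mk3 (p : ℝ × ℝ) (z : ℝ) : Pos3 := !₂[p.1, p.2, z]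

/-- The box `[a, a'] × [b, b'] × [-h, h]`. -/
def bx (a a' b b' h : ℝ) : Set Pos3 := {x | x 0 ∈ Icc a a' ∧ x 1 ∈ Icc b b' ∧ x 2 ∈ Icc (-h) h}

/-- A configuration from the positions. -/
def ofP {N : ℕ} (y : Fin N → Pos3) : Config N := WithLp.toLp 2 fun ic => y ic.1 ic.2

/-! ### The Coulomb kernel and lattices -/

/-- The Coulomb kernel. -/
def Kn (x : Pos3) : ℝ := 1 / ‖x‖

/-- Its gradient. -/
def gK (x : Pos3) : Pos3 := -(‖x‖ ^ 3)⁻¹ • x

/-- The closed cube of side `δ` around the origin. -/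
def Qc (δ : ℝ) : Set Pos3 := {y | ∀ c, |y c| ≤ δ / 2}

/-- A point of the cubic lattice. -/
def lat (δ : ℝ) (β : Fin 3 → ℤ) : Pos3 := WithLp.toLp 2 fun c => δ * β c

/-- The index set of the slab. -/
def Lam (I J : ℕ) : Finset (Fin 3 → ℤ) :=
  Fintype.piFinset ![Finset.Icc (-(I : ℤ)) I, Finset.Icc (-(I : ℤ)) I, Finset.Icc (-(J : ℤ)) J]

/-- Point charge minus the same charge spread over the cube. -/
def kk (δ : ℝ) (x : Pos3) : ℝ := Kn x - (δ ^ 3)⁻¹ * ∫ y in Qc δ, Kn (x - y)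

/-- The potential of the displaced nuclei. -/
def PhiN (δ : ℝ) (I J : ℕ) (u : (Fin 3 → ℤ) → Pos3) (x : Pos3) : ℝ :=
  ∑ β ∈ Lam I J, Kn (x - (lat δ β + u β))

/-- The potential of the displaced cubes. -/
def PhiC (δ : ℝ) (I J : ℕ) (u : (Fin 3 → ℤ) → Pos3) (x : Pos3) : ℝ :=
  ∑ β ∈ Lam I J, (δ ^ 3)⁻¹ * ∫ y in Qc δ, Kn (x - (lat δ β + u β) - y)

/-- The potential of the uniformly charged slab `[-a, a]² × [-H, H]` of density `δ⁻³`. -/
def PhiJ (δ a H : ℝ) (x : Pos3) : ℝ := (δ ^ 3)⁻¹ * ∫ y in bx (-a) a (-a) a H, Kn (x - y)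

/-- The mean inner potential. -/
def ebar (δ : ℝ) (m : ℕ) : ℝ := (δ ^ 3)⁻¹ * ∫ y in Qc δ, ∑ γ ∈ Lam m m, kk δ (y - lat δ γ)

/-- The complement of the bulk. -/
def NB (δ : ℝ) (I m : ℕ) : Set Pos3 :=
  {x | I * δ / 2 < |x 0| ∨ I * δ / 2 < |x 1| ∨ m * δ < |x 2|}

/-- The planar kernel. -/
def K2 (p : ℝ × ℝ) : ℝ := 1 / √(p.1 ^ 2 + p.2 ^ 2)

/-- The potential of the square `[-1, 1]²` at its centre. -/
def c1 : ℝ := ∫ p in Icc (-1 : ℝ) 1 ×ˢ Icc (-1 : ℝ) 1, K2 p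

/-- The self-energy of the unit square. -/
def c0 : ℝ := ∫ p in Icc (0 : ℝ) 1 ×ˢ Icc (0 : ℝ) 1, ∫ q in Icc (0 : ℝ) 1 ×ˢ Icc (0 : ℝ) 1, K2 (p - q)

/-! ### Energies -/

/-- The one-electron energy in the attractive potential `Φ`. -/
def E1 (Φ φ : Pos3 → ℝ) : ℝ := 1 / 2 * (∫ x, gsq φ x) - ∫ x, Φ x * φ x ^ 2

/-- The `N`-electron potential. -/
def Wpot {N : ℕ} (Φ : Pos3 → ℝ) (x : Config N) : ℝ :=
  -(∑ i, Φ (elPos i x)) + ∑ i, ∑ j, if i < j then Kn (elPos i x - elPos j x) else 0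

/-- An admissible attractive potential. -/
structure Pot (Φ : Pos3 → ℝ) : Prop where
  meas : Measurable Φ
  nonneg : ∀ x, 0 ≤ Φ x
  loc : LocallyIntegrable Φ

/-- Real antisymmetric wave functions. -/
def AntiW {N : ℕ} (Ψ : Spin N → Config N → ℝ) : Prop :=
  ∀ (σ : Equiv.Perm (Fin N)) (s : Spin N) (x : Config N),
    Ψ (fun i => s (σ i)) (permConfig σ x) = ((Equiv.Perm.sign σ : ℤ) : ℝ) * Ψ s x

/-- The weight of the doublets. -/
def dev {n : ℕ} (a : Room n → ℝ) : ℝ := ∑ A, (a A - (∑ r, a (A.1, r)) / 3) ^ 2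

/-- The orbital of a room. -/
def orb {n : ℕ} (φ : Room n → Pos3 → ℝ) (Ω : Room n → Set Pos3) (A : Room n) : Pos3 → ℝ :=
  (Ω A).indicator (φ A)

/-- The density of the trial orbitals outside the rooms. -/
def rem {n : ℕ} (φ : Room n → Pos3 → ℝ) (Ω : Room n → Set Pos3) : Pos3 → ℝ :=
  (⋃ A, Ω A)ᶜ.indicator fun x => ∑ A, φ A x ^ 2

/-- Trial orbitals `φ` that are concentrated on disjoint rooms `Ω`. -/
structure Orbs {n : ℕ} (φ : Room n → Pos3 → ℝ) (Ω : Room n → Set Pos3) : Prop where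
  meas : ∀ A, MeasurableSet (Ω A)
  disj : ∀ A B, A ≠ B → Disjoint (Ω A) (Ω B)
  test : ∀ A, Test (φ A)
  zero : ∀ A B, A ≠ B → ∀ x ∈ Ω B, φ A x = 0
  norm : ∀ A, ∫ x, orb φ Ω A x ^ 2 = 1

/-- The one-body lower bound. -/
def LB {n : ℕ} (φ : Room n → Pos3 → ℝ) (Ω : Room n → Set Pos3) (Φ : Pos3 → ℝ) (C t Γ : ℝ) : Prop :=
  ∀ ψ : Pos3 → ℝ, Test ψ →
    C * (∫ x, ψ x ^ 2) + t * dev (fun A => ∫ x, orb φ Ω A x * ψ x) +
      Γ * ((∫ x, ψ x ^ 2) - ∑ A, (∫ x, orb φ Ω A x * ψ x) ^ 2) ≤ E1 Φ ψ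

/-- The one-body upper bound. -/
def UB {n : ℕ} (φ : Room n → Pos3 → ℝ) (Φ : Pos3 → ℝ) (C t ε : ℝ) : Prop :=
  ∀ a : Room n → ℝ, E1 Φ (fun x => ∑ A, a A * φ A x) ≤
    C * (∫ x, (∑ A, a A * φ A x) ^ 2) + t * dev a + ε * ∑ A, a A ^ 2

/-- Lower bound for the truncated Coulomb integrals. -/
def VL {n : ℕ} (φ : Room n → Pos3 → ℝ) (Ω : Room n → Set Pos3) (Λ : ℝ) (V : Room n → Room n → ℝ)
    (ε : ℝ) : Prop :=
  ∀ A B, V A B - ε ≤ ∫ x, ∫ y, min (Kn (x - y)) Λ * (orb φ Ω A x ^ 2 * orb φ Ω B y ^ 2)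

/-- Upper bound for the Coulomb integrals. -/
def VU {n : ℕ} (φ : Room n → Pos3 → ℝ) (Ω : Room n → Set Pos3) (V : Room n → Room n → ℝ)
    (ε : ℝ) : Prop :=
  ∀ A B, ∫ x, ∫ y, Kn (x - y) * ((orb φ Ω A x ^ 2 + rem φ Ω x) * (orb φ Ω B y ^ 2 + rem φ Ω y)) ≤
    V A B + ε

/-! ### Orthonormal families and their tensor powers -/

/-- An orthonormal family of nice functions with disjoint supports. -/
structure ON {Y R : Type} [MeasureSpace Y] [PseudoMetricSpace Y] (e : R → Y → ℝ) : Prop where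
  nice : ∀ A, Nice (e A)
  norm : ∀ A, ∫ y, e A y ^ 2 = 1
  disj : ∀ A B, A ≠ B → ∀ y, e A y * e B y = 0

/-- The product functions. -/
def tens {R : Type} {N : ℕ} (e : R → Pos3 → ℝ) (α : Fin N → R) (y : Fin N → Pos3) : ℝ :=
  ∏ i, e (α i) (y i)

/-- The coefficients in the product family. -/
def coef {R : Type} {N : ℕ} (e : R → Pos3 → ℝ) (F : (Fin N → Pos3) → ℝ) (α : Fin N → R) : ℝ :=
  ∫ y, tens e α y * F y

/-- The partial coefficient in the variable `i`. -/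
def pcoef {R : Type} {m : ℕ} (e : R → Pos3 → ℝ) (i : Fin (m + 1)) (F : (Fin (m + 1) → Pos3) → ℝ)
    (A : R) (z : Fin m → Pos3) : ℝ := ∫ w, e A w * F (i.insertNth w z)

end Crest.Agent.R338
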