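/-
R338/Basic: test functions, nice functions, partial derivatives
Skeleton by helper15 (row 338); keep the statements unchanged, add any helper lemmas you like.
-/
import Crest.Agent.R338.BDefs

set_option autoImplicit false
set_option linter.unusedSectionVars false
set_option linter.unusedVariables false
set_option linter.unusedSimpArgs false

noncomputable section

namespace Crest.Agent.R338

open MeasureTheory Set Crest.MathPhysics.ElectronicCoulomb
open scoped RealInnerProductSpace

section test
variable {ι : Type} [Fintype ι] [DecidableEq ι] {f g : EuclideanSpace ℝ ι → ℝ}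
  {x : EuclideanSpace ℝ ι}

theorem gsq_nonneg (f : EuclideanSpace ℝ ι → ℝ) (x : EuclideanSpace ℝ ι) : 0 ≤ gsq f x := by
  exact Finset.sum_nonneg fun c _ => sq_nonneg _

theorem gsq_eq_norm (f : EuclideanSpace ℝ ι → ℝ) (x : EuclideanSpace ℝ ι) :
    gsq f x = ‖fderiv ℝ f x‖ ^ 2 := by
  rw [(EuclideanSpace.basisFun ι ℝ).norm_dual]
  simp [gsq, pd]

theorem pd_sq_le (c : ι) (f : EuclideanSpace ℝ ι → ℝ) (x : EuclideanSpace ℝ ι) :
    pd c f x ^ 2 ≤ gsq f x := by
  exact Finset.single_le_sum (f := fun c => pd c f x ^ 2) (fun c _ => sq_nonneg _)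
    (Finset.mem_univ c)

theorem fderiv_eq_sum (f : EuclideanSpace ℝ ι → ℝ) (x v : EuclideanSpace ℝ ι) :
    fderiv ℝ f x v = ∑ c, v c * pd c f x := by
  conv_lhs => rw [← (EuclideanSpace.basisFun ι ℝ).sum_repr v]
  simp [pd, map_sum]

theorem pd_mul (c : ι) (hf : DifferentiableAt ℝ f x) (hg : DifferentiableAt ℝ g x) :
    pd c (fun y => f y * g y) x = pd c f x * g x + f x * pd c g x := by
  unfold pd
  rw [fderiv_fun_mul hf hg]
  simp only [add_apply, smul_apply, smul_eq_mul]
  ring

theorem pd_add (c : ι) (hf : DifferentiableAt ℝ f x) (hg : DifferentiableAt ℝ g x) :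
    pd c (fun y => f y + g y) x = pd c f x + pd c g x := by
  unfold pd
  rw [fderiv_fun_add hf hg]
  rfl

theorem pd_const_mul (c : ι) (a : ℝ) (hf : DifferentiableAt ℝ f x) :
    pd c (fun y => a * f y) x = a * pd c f x := by
  unfold pd
  rw [fderiv_const_mul hf]
  rfl

theorem pd_sum {κ : Type} (c : ι) (s : Finset κ) {F : κ → EuclideanSpace ℝ ι → ℝ}
    (h : ∀ k ∈ s, DifferentiableAt ℝ (F k) x) :
    pd c (fun y => ∑ k ∈ s, F k y) x = ∑ k ∈ s, pd c (F k) x := by
  unfold pd
  rw [fderiv_fun_sum h]
  simp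

/-- A function of one coordinate. -/
theorem pd_coord (c c' : ι) {h : ℝ → ℝ} {h' : ℝ} (hh : HasDerivAt h h' (x c')) :
    pd c (fun y => h (y c')) x = if c = c' then h' else 0 := by
  have h1 : HasFDerivAt (fun y : EuclideanSpace ℝ ι => y c')
      (EuclideanSpace.proj c' : EuclideanSpace ℝ ι →L[ℝ] ℝ) x :=
    (EuclideanSpace.proj c' : EuclideanSpace ℝ ι →L[ℝ] ℝ).hasFDerivAt
  have h2 := (hh.comp_hasFDerivAt x h1).fderiv
  unfold pd
  rw [show (fun y : EuclideanSpace ℝ ι => h (y c')) = h ∘ fun y => y c' from rfl, h2]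
  by_cases hc : c = c'
  · subst hc; simp
  · simp [hc, Ne.symm hc]

theorem pd_comp (c : ι) {h : ℝ → ℝ} {h' : ℝ} (hh : HasDerivAt h h' (f x))
    (hf : DifferentiableAt ℝ f x) : pd c (fun y => h (f y)) x = h' * pd c f x := by
  have h2 := (hh.comp_hasFDerivAt x hf.hasFDerivAt).fderiv
  unfold pd
  rw [show (fun y => h (f y)) = h ∘ f from rfl, h2]
  rfl

/-- The partial derivative is the derivative along the coordinate line. -/
theorem hasDerivAt_pd (c : ι) {s : ℝ}
    (hf : DifferentiableAt ℝ f (x + EuclideanSpace.single c s)) :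
    HasDerivAt (fun t : ℝ => f (x + EuclideanSpace.single c t))
      (pd c f (x + EuclideanSpace.single c s)) s := by
  have e : ∀ t : ℝ, EuclideanSpace.single c t = t • EuclideanSpace.single c (1 : ℝ) := by
    intro t
    ext i
    by_cases hi : i = c
    · subst hi; simp
    · simp [hi]
  have h1 : HasDerivAt (fun t : ℝ => x + EuclideanSpace.single c t)
      (EuclideanSpace.single c (1 : ℝ)) s := by
    have := ((hasDerivAt_id s).smul_const (EuclideanSpace.single c (1 : ℝ))).const_add x
    rw [one_smul] at this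
    refine this.congr_of_eventuallyEq (Filter.Eventually.of_forall fun t => ?_)
    simp only [id]
    rw [e t]
  exact hf.hasFDerivAt.comp_hasDerivAt s h1

theorem continuous_pd (c : ι) (hf : ContDiff ℝ 1 f) : Continuous (pd c f) := by
  exact (hf.continuous_fderiv one_ne_zero).clm_apply continuous_const

theorem contDiff_pd (c : ι) {r : ℕ} (hf : ContDiff ℝ (r + 1 : ℕ) f) : ContDiff ℝ r (pd c f) := by
  have : ContDiff ℝ r (fderiv ℝ f) := hf.fderiv_right (by push_cast; exact le_rfl)
  exact this.clm_apply contDiff_const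

theorem continuous_gsq (hf : ContDiff ℝ 1 f) : Continuous (gsq f) := by
  exact continuous_finsetSum _ fun c _ => (continuous_pd c hf).pow 2

theorem continuous_lap (hf : ContDiff ℝ 2 f) : Continuous (lap f) := by
  refine continuous_finsetSum _ fun c _ => continuous_pd c ?_
  exact_mod_cast contDiff_pd c (r := 1) (by exact_mod_cast hf)

theorem gsq_comp_add (f : EuclideanSpace ℝ ι → ℝ) (p x : EuclideanSpace ℝ ι) :
    gsq (fun y => f (p + y)) x = gsq f (p + x) := by
  simp only [gsq, pd, fderiv_comp_add_left]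

theorem Test.continuous (h : Test f) : Continuous f := h.diff.continuous

theorem Test.mul_left (h : Test f) (hg : ContDiff ℝ 1 g) : Test fun x => g x * f x := by
  exact ⟨hg.mul h.diff, h.supp.mul_left⟩

theorem Test.add (h : Test f) (h' : Test g) : Test fun x => f x + g x := by
  exact ⟨h.diff.add h'.diff, h.supp.add h'.supp⟩

theorem Test.sum {κ : Type} (s : Finset κ) {F : κ → EuclideanSpace ℝ ι → ℝ}
    (h : ∀ k ∈ s, Test (F k)) (a : κ → ℝ) : Test fun x => ∑ k ∈ s, a k * F k x := by
  classical
  induction s using Finset.induction_on with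
  | empty =>
    simp only [Finset.sum_empty]
    exact ⟨contDiff_const, HasCompactSupport.zero⟩
  | insert k s hk ih =>
    simp only [Finset.sum_insert hk]
    exact ((h k (Finset.mem_insert_self _ _)).mul_left contDiff_const).add
      (ih fun k hk => h k (Finset.mem_insert_of_mem hk))

theorem Test.supp_pd (h : Test f) (c : ι) : HasCompactSupport (pd c f) := by
  exact h.supp.fderiv_apply ℝ _

theorem Test.supp_gsq (h : Test f) : HasCompactSupport (gsq f) := by
  refine (h.supp.fderiv ℝ).mono fun x hx => ?_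
  intro h0
  apply hx
  rw [gsq_eq_norm, h0]; simp

theorem Test.integrable_sq (h : Test f) (hg : Continuous g) : Integrable fun x => g x * f x ^ 2 := by
  refine (hg.mul (h.continuous.pow 2)).integrable_of_hasCompactSupport (h.supp.mono fun x hx => ?_)
  intro h0
  apply hx
  simp [h0]

theorem Test.integrable_gsq (h : Test f) (hg : Continuous g) :
    Integrable fun x => g x * gsq f x := by
  exact (hg.mul (continuous_gsq h.diff)).integrable_of_hasCompactSupport h.supp_gsq.mul_left

/-- Integration by parts. -/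
theorem Test.integral_pd_mul (h : Test f) (hg : ContDiff ℝ 1 g) (c : ι) :
    ∫ x, pd c f x * g x = -∫ x, f x * pd c g x := by
  have := integral_mul_fderiv_eq_neg_fderiv_mul_of_integrable (μ := volume) (f := f) (g := g)
    (v := EuclideanSpace.single c 1)
    (((continuous_pd c h.diff).mul hg.continuous).integrable_of_hasCompactSupport
      (h.supp_pd c).mul_right)
    ((h.continuous.mul (continuous_pd c hg)).integrable_of_hasCompactSupport h.supp.mul_right)
    ((h.continuous.mul hg.continuous).integrable_of_hasCompactSupport h.supp.mul_right)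
    (fun x _ => h.diff.differentiable one_ne_zero x) (fun x _ => hg.differentiable one_ne_zero x)
  unfold pd
  rw [this, neg_neg]

theorem basic_nice (hc : Continuous f) (hs : HasCompactSupport f) : Nice f := by
  obtain ⟨C, hC⟩ := hc.bounded_above_of_compact_support hs
  exact ⟨hc.measurable, ⟨C, hC⟩, hs.isCompact.isBounded.subset (subset_tsupport f)⟩

theorem Test.nice (h : Test f) : Nice f := by
  exact basic_nice h.continuous h.supp

theorem Test.nice_gsq (h : Test f) : Nice (gsq f) := by
  exact basic_nice (continuous_gsq h.diff) h.supp_gsq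

end test

section nice
variable {Y : Type} [MeasureSpace Y] [PseudoMetricSpace Y] {f g : Y → ℝ}

theorem Nice.mul (h : Nice f) (h' : Nice g) : Nice fun y => f y * g y := by
  obtain ⟨C, hC⟩ := h.bdd
  obtain ⟨C', hC'⟩ := h'.bdd
  refine ⟨h.meas.mul h'.meas, ⟨C * C', fun y => ?_⟩, h.supp.subset fun y hy h0 => hy ?_⟩
  · rw [abs_mul]
    exact mul_le_mul (hC y) (hC' y) (abs_nonneg _) ((abs_nonneg _).trans (hC y))
  · simp [h0]

theorem Nice.mul_bdd (h : Nice f) (hg : Measurable g) {C : ℝ} (hC : ∀ y, |g y| ≤ C) :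
    Nice fun y => g y * f y := by
  obtain ⟨C', hC'⟩ := h.bdd
  refine ⟨hg.mul h.meas, ⟨C * C', fun y => ?_⟩, h.supp.subset fun y hy h0 => hy ?_⟩
  · rw [abs_mul]
    exact mul_le_mul (hC y) (hC' y) (abs_nonneg _) ((abs_nonneg _).trans (hC y))
  · simp [h0]

theorem Nice.sq (h : Nice f) : Nice fun y => f y ^ 2 := by
  simpa only [pow_two] using h.mul h

theorem Nice.add (h : Nice f) (h' : Nice g) : Nice fun y => f y + g y := by
  obtain ⟨C, hC⟩ := h.bdd
  obtain ⟨C', hC'⟩ := h'.bdd
  refine ⟨h.meas.add h'.meas, ⟨C + C', fun y => ?_⟩,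
    (h.supp.union h'.supp).subset (Function.support_add f g)⟩
  exact (abs_add_le _ _).trans (add_le_add (hC y) (hC' y))

theorem Nice.sub (h : Nice f) (h' : Nice g) : Nice fun y => f y - g y := by
  obtain ⟨C, hC⟩ := h.bdd
  obtain ⟨C', hC'⟩ := h'.bdd
  refine ⟨h.meas.sub h'.meas, ⟨C + C', fun y => ?_⟩,
    (h.supp.union h'.supp).subset (Function.support_sub f g)⟩
  exact (abs_sub _ _).trans (add_le_add (hC y) (hC' y))

theorem Nice.const_mul (h : Nice f) (a : ℝ) : Nice fun y => a * f y := by
  exact h.mul_bdd (g := fun _ => a) measurable_const (C := |a|) fun _ => le_rfl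

theorem Nice.sum {κ : Type} (s : Finset κ) {F : κ → Y → ℝ} (h : ∀ k ∈ s, Nice (F k)) :
    Nice fun y => ∑ k ∈ s, F k y := by
  classical
  induction s using Finset.induction_on with
  | empty => exact ⟨by simp, ⟨0, by simp⟩, by simp⟩
  | insert k s hk ih =>
    simp only [Finset.sum_insert hk]
    exact (h k (Finset.mem_insert_self _ _)).add (ih fun k hk => h k (Finset.mem_insert_of_mem hk))

theorem Nice.indicator (h : Nice f) {s : Set Y} (hs : MeasurableSet s) : Nice (s.indicator f) := by
  obtain ⟨C, hC⟩ := h.bdd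
  refine ⟨h.meas.indicator hs, ⟨C, fun y => ?_⟩, h.supp.subset fun y hy h0 => hy ?_⟩
  · by_cases hy : y ∈ s
    · rw [indicator_of_mem hy]; exact hC y
    · rw [indicator_of_notMem hy, abs_zero]; exact (abs_nonneg _).trans (hC y)
  · by_cases hy : y ∈ s
    · rw [indicator_of_mem hy, h0]
    · rw [indicator_of_notMem hy]

theorem Nice.integrable [ProperSpace Y] [OpensMeasurableSpace Y]
    [IsFiniteMeasureOnCompacts (volume : Measure Y)] (h : Nice f) : Integrable f := by
  obtain ⟨C, hC⟩ := h.bdd
  rw [← integrableOn_iff_integrable_of_support_subset (s := Function.support f) subset_rfl]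
  exact Measure.integrableOn_of_bounded (M := C) h.supp.measure_lt_top.ne
    h.meas.aestronglyMeasurable (Filter.Eventually.of_forall fun y => hC y)

/-- Cauchy-Schwarz with a weight. -/
theorem sq_integral_le {μ : Measure Y} {w : Y → ℝ} (hw : ∀ y, 0 ≤ w y)
    (h1 : Integrable (fun y => w y * f y ^ 2) μ) (h2 : Integrable (fun y => w y * g y ^ 2) μ)
    (h3 : Integrable (fun y => w y * (f y * g y)) μ) :
    (∫ y, w y * (f y * g y) ∂μ) ^ 2 ≤ (∫ y, w y * f y ^ 2 ∂μ) * ∫ y, w y * g y ^ 2 ∂μ := by
  set A := ∫ y, w y * f y ^ 2 ∂μ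
  set B := ∫ y, w y * (f y * g y) ∂μ
  set C := ∫ y, w y * g y ^ 2 ∂μ
  have key : ∀ t : ℝ, 0 ≤ A * (t * t) + 2 * B * t + C := by
    intro t
    have e : A * (t * t) + 2 * B * t + C = ∫ y, w y * (t * f y + g y) ^ 2 ∂μ := by
      have e1 : (fun y => w y * (t * f y + g y) ^ 2) = fun y =>
          (t * t) * (w y * f y ^ 2) + (2 * t) * (w y * (f y * g y)) + w y * g y ^ 2 := by
        funext y; ring
      have h4 : Integrable (fun y => (t * t) * (w y * f y ^ 2) + (2 * t) * (w y * (f y * g y))) μ :=
        (h1.const_mul _).add (h3.const_mul _)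
      rw [e1, integral_add h4 h2,
        integral_add (h1.const_mul _) (h3.const_mul _), integral_const_mul, integral_const_mul]
      ring
    rw [e]
    exact integral_nonneg fun y => mul_nonneg (hw y) (sq_nonneg _)
  have := discrim_le_zero key
  rw [discrim] at this
  nlinarith

end nice

/-- The ground state transformation.  Recipe: `gsq (Ψ u) = Ψ² gsq u + ∑ c, pd c Ψ * pd c (Ψ u²)`;
integrate the last sum by parts (`Test.integral_pd_mul`). -/
theorem gst {Ψ u : Pos3 → ℝ} (hΨ : ContDiff ℝ 2 Ψ) (hu : Test u) :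
    ∫ x, gsq (fun y => Ψ y * u y) x =
      (∫ x, Ψ x ^ 2 * gsq u x) - ∫ x, Ψ x * lap Ψ x * u x ^ 2 := by
  have hΨ1 : ContDiff ℝ 1 Ψ := hΨ.of_le (by norm_num)
  have hd : ∀ x, DifferentiableAt ℝ Ψ x := hΨ1.differentiable one_ne_zero
  have hud : ∀ x, DifferentiableAt ℝ u x := hu.diff.differentiable one_ne_zero
  have hT : Test fun y => Ψ y * (u y * u y) := (hu.mul_left hu.diff).mul_left hΨ1
  have hp : ∀ c, ContDiff ℝ 1 (pd c Ψ) := fun c => by
    exact_mod_cast contDiff_pd c (r := 1) (by exact_mod_cast hΨ)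
  have e : ∀ x, gsq (fun y => Ψ y * u y) x = Ψ x ^ 2 * gsq u x +
      ∑ c, pd c (fun y => Ψ y * (u y * u y)) x * pd c Ψ x := by
    intro x
    simp only [gsq, Finset.mul_sum, ← Finset.sum_add_distrib]
    refine Finset.sum_congr rfl fun c _ => ?_
    rw [pd_mul c (hd x) (hud x), pd_mul c (hd x) ((hud x).fun_mul (hud x)),
      pd_mul c (hud x) (hud x)]
    ring
  have hi : ∀ c, Integrable fun x => pd c (fun y => Ψ y * (u y * u y)) x * pd c Ψ x := fun c =>
    ((continuous_pd c hT.diff).mul (hp c).continuous).integrable_of_hasCompactSupport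
      (hT.supp_pd c).mul_right
  have hi' : ∀ c, Integrable fun x => Ψ x * (u x * u x) * pd c (pd c Ψ) x := fun c =>
    (hT.continuous.mul (continuous_pd c (hp c))).integrable_of_hasCompactSupport hT.supp.mul_right
  simp only [e]
  rw [integral_add (hu.integrable_gsq (g := fun x => Ψ x ^ 2) (hΨ1.continuous.pow 2))
    (integrable_finsetSum _ fun c _ => hi c), integral_finsetSum _ fun c _ => hi c]
  simp only [fun c => hT.integral_pd_mul (hp c) c]
  rw [Finset.sum_neg_distrib, ← integral_finsetSum _ fun c _ => hi' c, sub_eq_add_neg]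
  congr 3
  funext x
  simp only [lap, Finset.mul_sum, Finset.sum_mul]
  exact Finset.sum_congr rfl fun c _ => by ring

theorem Test.div {Ψ ψ : Pos3 → ℝ} (h : Test ψ) (hΨ : ContDiff ℝ 1 Ψ) (hp : ∀ x, 0 < Ψ x) :
    Test fun x => ψ x / Ψ x := by
  simpa only [div_eq_inv_mul] using
    h.mul_left (g := fun x => (Ψ x)⁻¹) (hΨ.inv fun x => (hp x).ne')

end Crest.Agent.R338
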