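/-
R338/Fourier: the kinetic energy of test functions; upper bounds for the ground energy
Skeleton by helper15 (row 338); keep the statements unchanged, add any helper lemmas you like.
-/
import Crest.Agent.R338.Basic

set_option autoImplicit false
set_option linter.unusedSectionVars false
set_option linter.unusedVariables false
set_option linter.unusedSimpArgs false

noncomputable section

namespace Crest.Agent.R338

open MeasureTheory Set Crest.MathPhysics.ElectronicCoulomb
open scoped FourierTransform ENNReal SchwartzMap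

variable {N : ℕ}

/-- Squared gradient of a complex function. -/
def cgsq (f : Config N → ℂ) (x : Config N) : ℝ :=
  ∑ c, ‖fderiv ℝ f x (EuclideanSpace.single c 1)‖ ^ 2

theorem Fourier_continuous {f : Config N → ℂ} (h1 : Integrable f) : Continuous (𝓕 f) :=
  VectorFourier.fourierIntegral_continuous Real.continuous_fourierChar (innerSL ℝ).continuous₂ h1

/-- For `f ∈ L¹ ∩ L²` the Fourier transform on `L²` is the Fourier integral.  Recipe: test against
smooth compactly supported functions (`ae_eq_of_integral_contDiff_smul_eq`), using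
`Lp.fourier_toTemperedDistribution_eq` or `Lp.inner_fourier_eq` with `SchwartzMap.toLp_fourier_eq`,
and `Real.integral_fourier_smul_eq`-type self-adjointness for integrable functions. -/
theorem fourier_toLp_ae {f : Config N → ℂ} (h1 : Integrable f) (h2 : MemLp f 2 volume) :
    ((𝓕 (h2.toLp f) : Lp ℂ 2 (volume : Measure (Config N))) : Config N → ℂ) =ᵐ[volume] 𝓕 f := by
  refine ae_eq_of_integral_contDiff_smul_eq ((Lp.memLp _).locallyIntegrable (by norm_num))
    (Fourier_continuous h1).locallyIntegrable fun g hg hs => ?_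
  let G : 𝓢(Config N, ℂ) := (hs.comp_left (g := Complex.ofReal) Complex.ofReal_zero).toSchwartzMap
    (Complex.ofRealCLM.contDiff.comp hg)
  have h := congrArg (· G) (Lp.fourier_toTemperedDistribution_eq (h2.toLp f))
  simp only [TemperedDistribution.fourier_apply, Lp.toTemperedDistribution_apply] at h
  have h3 : ∫ ξ, 𝓕 G ξ • f ξ = ∫ x, G x • 𝓕 f x := by
    simpa using! VectorFourier.integral_fourierIntegral_smul_eq_flip (L := innerₗ (Config N))
      Real.continuous_fourierChar continuous_inner G.integrable h1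
  refine h.symm.trans (Eq.trans (integral_congr_ae ?_) h3)
  filter_upwards [h2.coeFn_toLp] with x hx
  rw [hx]

theorem Fourier_enorm_sq (z : ℂ) : ‖z‖ₑ ^ 2 = ENNReal.ofReal (‖z‖ ^ 2) := by
  rw [← ofReal_norm, ENNReal.ofReal_pow (norm_nonneg _)]

theorem Fourier_lintegral {f : Config N → ℂ} (h2 : MemLp f 2 volume) :
    ∫⁻ x, ‖f x‖ₑ ^ 2 = ENNReal.ofReal (∫ x, ‖f x‖ ^ 2) := by
  simp only [Fourier_enorm_sq]
  exact (ofReal_integral_eq_lintegral_ofReal (h2.integrable_norm_pow two_ne_zero)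
    (.of_forall fun _ => sq_nonneg _)).symm

theorem Fourier_plancherel {f : Config N → ℂ} (h1 : Integrable f) (h2 : MemLp f 2 volume) :
    ∫⁻ x, ‖𝓕 f x‖ₑ ^ 2 = ∫⁻ x, ‖f x‖ₑ ^ 2 := by
  have h : ∀ g : Config N → ℂ, ∫⁻ x, ‖g x‖ₑ ^ 2 = eLpNorm g 2 volume ^ 2 := fun g => by
    simpa using (eLpNorm_nnreal_pow_eq_lintegral (f := g) (μ := volume) (p := 2) two_ne_zero).symm
  rw [h, h, ← eLpNorm_congr_ae (fourier_toLp_ae h1 h2), ← eLpNorm_congr_ae h2.coeFn_toLp,
    ← Lp.enorm_def, ← Lp.enorm_def, ← ofReal_norm, ← ofReal_norm,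
    Lp.norm_fourier_eq]

/-- Recipe: `Real.fourier_fderiv` (the transform of `∂_c f` is `2 π i ξ_c 𝓕 f`), `fourier_toLp_ae`
for `f` and `∂_c f`, Plancherel `Lp.norm_fourier_eq`, `‖ξ‖² = ∑ ξ_c²`. -/
theorem kineticOne_eq {f : Config N → ℂ} (hd : ContDiff ℝ 1 f) (h1 : Integrable f)
    (h2 : MemLp f 2 volume) (h3 : Integrable (fderiv ℝ f)) (h4 : MemLp (fderiv ℝ f) 2 volume) :
    kineticOne f = ENNReal.ofReal (1 / 2 * ∫ x, cgsq f x) := by
  have h1' : ∀ c, Integrable fun x => fderiv ℝ f x (EuclideanSpace.single c 1) := fun c =>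
    h3.apply_continuousLinearMap _
  have h2' : ∀ c, MemLp (fun x => fderiv ℝ f x (EuclideanSpace.single c 1)) 2 volume := fun c =>
    (ContinuousLinearMap.apply ℝ ℂ (EuclideanSpace.single c (1 : ℝ))).comp_memLp' h4
  have hp : ∀ ξ : Config N, ENNReal.ofReal ((2 * Real.pi * ‖ξ‖) ^ 2) * ‖𝓕 f ξ‖ₑ ^ 2 =
      ∑ c, ‖𝓕 (fun x => fderiv ℝ f x (EuclideanSpace.single c 1)) ξ‖ₑ ^ 2 := fun ξ => by
    simp only [Fourier_enorm_sq]
    rw [← ENNReal.ofReal_mul (sq_nonneg _), ← ENNReal.ofReal_sum_of_nonneg fun _ _ => sq_nonneg _,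
      mul_pow, EuclideanSpace.real_norm_sq_eq, Finset.mul_sum, Finset.sum_mul]
    refine congrArg _ (Finset.sum_congr rfl fun c _ => ?_)
    rw [← Real.fourier_continuousLinearMap_apply h3,
      Real.fourier_fderiv h1 (hd.differentiable one_ne_zero) h3]
    have e : innerSL ℝ ξ (EuclideanSpace.single c 1) = ξ c :=
      (EuclideanSpace.inner_single_right c (1 : ℝ) ξ).trans (by simp)
    simp [mul_pow, mul_assoc]
    exact Or.inl (congrArg (· ^ 2) e.symm)
  rw [kineticOne, dif_pos h2, lintegral_congr_ae ((fourier_toLp_ae h1 h2).mono fun ξ hξ =>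
    (congrArg (fun z => _ * ‖z‖ₑ ^ 2) hξ).trans (hp ξ)), lintegral_finsetSum' _ fun c _ =>
      (Fourier_continuous (h1' c)).aemeasurable.enorm.pow_const 2]
  simp only [cgsq]
  rw [integral_finsetSum _ fun c _ => (h2' c).integrable_norm_pow two_ne_zero,
    ENNReal.ofReal_mul (by norm_num), ENNReal.ofReal_sum_of_nonneg fun c _ =>
      integral_nonneg fun _ => sq_nonneg _]
  congr 1
  · rw [one_div, one_div, ENNReal.ofReal_inv_of_pos two_pos, ENNReal.ofReal_ofNat]
  · exact Finset.sum_congr rfl fun c _ =>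
      (Fourier_plancherel (h1' c) (h2' c)).trans (Fourier_lintegral (h2' c))

theorem kineticOne_test {f : Config N → ℝ} (h : Test f) :
    kineticOne (fun x => (f x : ℂ)) = ENNReal.ofReal (1 / 2 * ∫ x, gsq f x) := by
  have hd : ContDiff ℝ 1 fun x => (f x : ℂ) := Complex.ofRealCLM.contDiff.comp h.diff
  have hs : HasCompactSupport fun x => (f x : ℂ) :=
    h.supp.comp_left (g := Complex.ofReal) Complex.ofReal_zero
  have hc := hd.continuous_fderiv one_ne_zero
  rw [kineticOne_eq hd (hd.continuous.integrable_of_hasCompactSupport hs)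
    (hd.continuous.memLp_of_hasCompactSupport hs) (hc.integrable_of_hasCompactSupport (hs.fderiv ℝ))
    (hc.memLp_of_hasCompactSupport (hs.fderiv ℝ))]
  congr 3
  funext x
  refine Finset.sum_congr rfl fun c _ => ?_
  rw [show fderiv ℝ (fun x => (f x : ℂ)) x = _ from (Complex.ofRealCLM.hasFDerivAt.comp x
    (h.diff.differentiable one_ne_zero x).hasFDerivAt).fderiv]
  simp [pd]

/-- Normalise the trial state. -/
theorem infLE_of_test {W : Config N → ℝ} {a : ℝ} {Ψ : Spin N → Config N → ℝ} (ht : ∀ s, Test (Ψ s))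
    (ha : AntiW Ψ) (hi : ∀ s, Integrable fun x => W x * Ψ s x ^ 2)
    (h0 : 0 < ∑ s, ∫ x, Ψ s x ^ 2)
    (h : ∑ s, (1 / 2 * (∫ x, gsq (Ψ s) x) + ∫ x, W x * Ψ s x ^ 2) ≤ a * ∑ s, ∫ x, Ψ s x ^ 2) :
    InfEnergyLE W a := by
  intro ε hε
  set m := ∑ s, ∫ x, Ψ s x ^ 2
  obtain ⟨c, hc⟩ : ∃ c : ℝ, c ^ 2 * m = 1 :=
    ⟨(√m)⁻¹, by rw [inv_pow, Real.sq_sqrt h0.le, inv_mul_cancel₀ h0.ne']⟩
  have ht' : ∀ s, Test fun x => c * Ψ s x := fun s => (ht s).mul_left contDiff_const
  have hm : ∀ s, MemLp (fun x => ((c * Ψ s x : ℝ) : ℂ)) 2 volume := fun s =>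
    (Complex.continuous_ofReal.comp (ht' s).continuous).memLp_of_hasCompactSupport
      ((ht' s).supp.comp_left (g := Complex.ofReal) Complex.ofReal_zero)
  have hn : ∀ s x, ‖((c * Ψ s x : ℝ) : ℂ)‖ ^ 2 = c ^ 2 * Ψ s x ^ 2 := fun s x => by
    rw [Complex.norm_real, Real.norm_eq_abs, sq_abs, mul_pow]
  have hW : ∀ s x, W x * ‖((c * Ψ s x : ℝ) : ℂ)‖ ^ 2 = c ^ 2 * (W x * Ψ s x ^ 2) := fun s x => by
    rw [hn, mul_left_comm]
  have hk : kinetic (fun s x => ((c * Ψ s x : ℝ) : ℂ)) =
      ENNReal.ofReal (∑ s, c ^ 2 * (1 / 2 * ∫ x, gsq (Ψ s) x)) := by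
    rw [kinetic, ENNReal.ofReal_sum_of_nonneg fun s _ => by
      have : 0 ≤ ∫ x, gsq (Ψ s) x := integral_nonneg (gsq_nonneg _)
      positivity]
    refine Finset.sum_congr rfl fun s _ => ?_
    rw [kineticOne_test (ht' s), mul_left_comm, ← integral_const_mul (c ^ 2)]
    congr 3
    funext x
    simp only [gsq, pd_const_mul _ c ((ht s).diff.differentiable one_ne_zero x), mul_pow,
      Finset.mul_sum]
  refine ⟨fun s x => ((c * Ψ s x : ℝ) : ℂ), ⟨⟨hm, fun σ s x => ?_⟩, hk ▸ ENNReal.ofReal_lt_top,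
    fun s => by simpa only [hW] using (hi s).const_mul _⟩, ?_, ?_⟩
  · simp only [ha σ s x]
    push_cast
    ring
  · simp only [normSq, Fourier_lintegral (hm _), hn, integral_const_mul]
    rw [← ENNReal.ofReal_sum_of_nonneg fun s _ =>
      mul_nonneg (sq_nonneg c) (integral_nonneg fun _ => sq_nonneg _), ← Finset.mul_sum, hc,
      ENNReal.ofReal_one]
  · rw [energy, hk, ENNReal.toReal_ofReal (Finset.sum_nonneg fun s _ => by
      have : 0 ≤ ∫ x, gsq (Ψ s) x := integral_nonneg (gsq_nonneg _)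
      positivity)]
    simp only [potentialEnergy, hW, integral_const_mul]
    rw [← Finset.sum_add_distrib]
    simp only [← mul_add, ← Finset.mul_sum]
    have h' := mul_le_mul_of_nonneg_left h (sq_nonneg c)
    rw [mul_left_comm, hc, mul_one] at h'
    exact h'.trans (le_add_of_nonneg_right hε.le)

end Crest.Agent.R338
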