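/-
R338/Dense: test functions are a form core
Skeleton by helper15 (row 338); keep the statements unchanged, add any helper lemmas you like.
-/
import Crest.Agent.R338.Fourier

set_option autoImplicit false
set_option linter.unusedSectionVars false
set_option linter.unusedVariables false
set_option linter.unusedSimpArgs false

noncomputable section

namespace Crest.Agent.R338

open MeasureTheory Set Crest.MathPhysics.ElectronicCoulomb
open scoped FourierTransform ENNReal SchwartzMap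

variable {N : ℕ}

theorem dense_cgsq_nonneg (f : Config N → ℂ) (x : Config N) : 0 ≤ cgsq f x :=
  Finset.sum_nonneg fun _ _ => by positivity

theorem dense_sq {x a b δ : ℝ} (hx : 0 ≤ x) (h : x ≤ a + b) (hδ : 0 < δ) :
    x ^ 2 ≤ (1 + δ) * a ^ 2 + (1 + 1 / δ) * b ^ 2 := by
  have h1 : x ^ 2 ≤ (a + b) ^ 2 := pow_le_pow_left₀ hx h 2
  have h2 : (1 + δ) * a ^ 2 + (1 + 1 / δ) * b ^ 2 - (a + b) ^ 2 = (δ * a - b) ^ 2 / δ := by
    field_simp
    ring
  have h3 : 0 ≤ (δ * a - b) ^ 2 / δ := by positivity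
  linarith

theorem dense_eLp {u : Config N → ℂ} (hu : MemLp u 2 volume) :
    ∫ x, ‖u x‖ ^ 2 = (eLpNorm u 2 volume).toReal ^ 2 := by
  have h0 : 0 ≤ ∫ x, ‖u x‖ ^ 2 := integral_nonneg fun _ => by positivity
  rw [hu.eLpNorm_eq_integral_rpow_norm two_ne_zero ENNReal.ofNat_ne_top]
  simp only [ENNReal.toReal_ofNat, Real.rpow_two]
  rw [ENNReal.toReal_ofReal (Real.rpow_nonneg h0 _)]
  exact_mod_cast (Real.rpow_inv_natCast_pow h0 two_ne_zero).symm

theorem dense_norm (u : Lp ℂ 2 (volume : Measure (Config N))) : ‖u‖ ^ 2 = ∫ x, ‖u x‖ ^ 2 := by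
  rw [dense_eLp (Lp.memLp u), Lp.norm_def]

theorem dense_kin {f : Config N → ℂ} (h2 : MemLp f 2 volume) (hk : kineticOne f < ⊤)
    {F : Config N → ℂ}
    (hF : (𝓕 (h2.toLp f) : Lp ℂ 2 (volume : Measure (Config N))) =ᵐ[volume] F) :
    (Integrable fun ξ => (2 * Real.pi * ‖ξ‖) ^ 2 * ‖F ξ‖ ^ 2) ∧
      (kineticOne f).toReal = 1 / 2 * ∫ ξ, (2 * Real.pi * ‖ξ‖) ^ 2 * ‖F ξ‖ ^ 2 := by
  have hm : AEStronglyMeasurable F volume := (Lp.aestronglyMeasurable _).congr hF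
  have hm' : AEStronglyMeasurable
      (fun ξ : Config N => (2 * Real.pi * ‖ξ‖) ^ 2 * ‖F ξ‖ ^ 2) volume :=
    (by fun_prop : Continuous fun ξ : Config N =>
      (2 * Real.pi * ‖ξ‖) ^ 2).aestronglyMeasurable.mul (hm.norm.pow 2)
  have h0 : 0 ≤ᵐ[volume] fun ξ : Config N => (2 * Real.pi * ‖ξ‖) ^ 2 * ‖F ξ‖ ^ 2 :=
    Filter.Eventually.of_forall fun _ => by positivity
  have e : kineticOne f =
      1 / 2 * ∫⁻ ξ, ENNReal.ofReal ((2 * Real.pi * ‖ξ‖) ^ 2 * ‖F ξ‖ ^ 2) := by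
    rw [kineticOne, dif_pos h2]
    congr 1
    refine lintegral_congr_ae ?_
    filter_upwards [hF] with ξ h
    rw [h, ENNReal.ofReal_mul (by positivity), ENNReal.ofReal_pow (norm_nonneg _), ofReal_norm]
  have hfin : ∫⁻ ξ, ENNReal.ofReal ((2 * Real.pi * ‖ξ‖) ^ 2 * ‖F ξ‖ ^ 2) ≠ ⊤ := by
    intro h
    rw [e, h, ENNReal.mul_top (by norm_num)] at hk
    exact lt_irrefl _ hk
  refine ⟨(lintegral_ofReal_ne_top_iff_integrable hm' h0).1 hfin, ?_⟩
  rw [e, ENNReal.toReal_mul, integral_eq_lintegral_of_nonneg_ae h0 hm']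
  simp


theorem dense_fourier_inv (G : 𝓢(Config N, ℂ)) :
    (𝓕 ((𝓕⁻ G : 𝓢(Config N, ℂ)).toLp 2 volume) : Lp ℂ 2 (volume : Measure (Config N))) = G.toLp 2 volume := by
  rw [SchwartzMap.toLp_fourier_eq, FourierTransform.fourier_fourierInv_eq]

theorem dense_planch {f : Config N → ℂ} (h2 : MemLp f 2 volume) (G : 𝓢(Config N, ℂ)) :
    ∫ x, ‖f x - (𝓕⁻ G : 𝓢(Config N, ℂ)) x‖ ^ 2 =
      ∫ ξ, ‖(𝓕 (h2.toLp f) : Lp ℂ 2 (volume : Measure (Config N))) ξ - G ξ‖ ^ 2 := by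
  have e0 := dense_fourier_inv G
  generalize (𝓕⁻ G : 𝓢(Config N, ℂ)) = g at e0 ⊢
  have e1 : (𝓕 (h2.toLp f - g.toLp 2 volume) : Lp ℂ 2 (volume : Measure (Config N))) =
      𝓕 (h2.toLp f) - G.toLp 2 volume := by
    rw [← e0]
    exact (Lp.fourierTransformₗᵢ (Config N) ℂ).map_sub (h2.toLp f) (g.toLp 2 volume)
  have e2 := Lp.norm_fourier_eq (h2.toLp f - g.toLp 2 volume)
  rw [e1] at e2
  generalize (𝓕 (h2.toLp f) : Lp ℂ 2 (volume : Measure (Config N))) = F at e2 ⊢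
  have e3 : ∫ x, ‖f x - g x‖ ^ 2 = ‖h2.toLp f - g.toLp 2 volume‖ ^ 2 := by
    rw [dense_norm]
    refine integral_congr_ae ?_
    filter_upwards [Lp.coeFn_sub (h2.toLp f) (g.toLp 2 volume), h2.coeFn_toLp, g.coeFn_toLp 2 volume]
      with x h1 h3 h4
    rw [h1, Pi.sub_apply, h3, h4]
  have e4 : ‖F - G.toLp 2 volume‖ ^ 2 = ∫ ξ, ‖F ξ - G ξ‖ ^ 2 := by
    rw [dense_norm]
    refine integral_congr_ae ?_
    filter_upwards [Lp.coeFn_sub F (G.toLp 2 volume), G.coeFn_toLp 2 volume] with x h1 h4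
    rw [h1, Pi.sub_apply, h4]
  rw [e3, ← e2, e4]

theorem dense_kin_eq (g : 𝓢(Config N, ℂ)) :
    kineticOne (g : Config N → ℂ) = ENNReal.ofReal (1 / 2 * ∫ x, cgsq g x) := by
  have e : fderiv ℝ (g : Config N → ℂ) = SchwartzMap.fderivCLM ℝ (Config N) ℂ g :=
    funext fun x => (SchwartzMap.fderivCLM_apply ℝ g x).symm
  refine kineticOne_eq (g.smooth 1) g.integrable (g.memLp 2) ?_ ?_
  · rw [e]; exact SchwartzMap.integrable _
  · rw [e]; exact SchwartzMap.memLp _ 2 volume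

theorem dense_kin_schwartz (G : 𝓢(Config N, ℂ)) :
    1 / 2 * ∫ x, cgsq (𝓕⁻ G : 𝓢(Config N, ℂ)) x =
      1 / 2 * ∫ ξ, (2 * Real.pi * ‖ξ‖) ^ 2 * ‖G ξ‖ ^ 2 := by
  have e1 := dense_fourier_inv G
  generalize (𝓕⁻ G : 𝓢(Config N, ℂ)) = g at e1 ⊢
  have e0 := dense_kin_eq g
  have e3 : (𝓕 ((g.memLp 2).toLp g) : Lp ℂ 2 (volume : Measure (Config N))) =ᵐ[volume] G := by
    have : (g.memLp 2).toLp g = g.toLp 2 volume := rfl
    rw [this, e1]
    exact G.coeFn_toLp 2 volume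
  obtain ⟨-, e2⟩ := dense_kin (g.memLp 2) (by rw [e0]; exact ENNReal.ofReal_lt_top) e3
  rwa [e0, ENNReal.toReal_ofReal (mul_nonneg (by norm_num)
    (integral_nonneg fun x => dense_cgsq_nonneg _ x))] at e2

theorem dense_weight (N : ℕ) : ∃ w : Config N → ℝ, (∀ ξ, 0 < w ξ) ∧
    (∀ ξ, w ξ ^ 2 = 1 + (2 * Real.pi * ‖ξ‖) ^ 2) ∧ ContDiff ℝ ((⊤ : ℕ∞) : WithTop ℕ∞) w :=
  ⟨fun ξ => √(1 + (2 * Real.pi) ^ 2 * ‖ξ‖ ^ 2), fun ξ => Real.sqrt_pos.2 (by positivity),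
    fun ξ => by rw [Real.sq_sqrt (by positivity)]; ring,
    (contDiff_const.add (contDiff_const.mul (contDiff_norm_sq ℝ))).sqrt fun ξ => by positivity⟩

theorem dense_approx {F : Config N → ℂ} (hFm : MemLp F 2 volume)
    (hFi : Integrable fun ξ => (2 * Real.pi * ‖ξ‖) ^ 2 * ‖F ξ‖ ^ 2) {η : ℝ} (hη : 0 < η) :
    ∃ G : 𝓢(Config N, ℂ), ∫ ξ, ‖F ξ - G ξ‖ ^ 2 ≤ η ∧
      ∫ ξ, (2 * Real.pi * ‖ξ‖) ^ 2 * ‖G ξ‖ ^ 2 ≤
        (∫ ξ, (2 * Real.pi * ‖ξ‖) ^ 2 * ‖F ξ‖ ^ 2) + 2 * η := by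
  obtain ⟨A, hA⟩ : ∃ A, A = ∫ ξ, (2 * Real.pi * ‖ξ‖) ^ 2 * ‖F ξ‖ ^ 2 := ⟨_, rfl⟩
  rw [← hA]
  have hA0 : 0 ≤ A := hA ▸ integral_nonneg fun _ => by positivity
  have hF2 : Integrable fun ξ => ‖F ξ‖ ^ 2 := hFm.integrable_norm_pow two_ne_zero
  -- the weight
  obtain ⟨w, hw0, hw2, hwd⟩ := dense_weight N
  have hn : ∀ (ξ : Config N) (z : ℂ), ‖w ξ • z‖ ^ 2 = ‖z‖ ^ 2 + (2 * Real.pi * ‖ξ‖) ^ 2 * ‖z‖ ^ 2 := by
    intro ξ z
    rw [norm_smul, mul_pow, Real.norm_eq_abs, sq_abs, hw2]; ring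
  have hu : MemLp (fun ξ => w ξ • F ξ) 2 volume := by
    refine (memLp_two_iff_integrable_sq_norm
      (hwd.continuous.aestronglyMeasurable.smul hFm.aestronglyMeasurable)).2 ?_
    change Integrable fun ξ => ‖w ξ • F ξ‖ ^ 2
    simp only [hn]
    exact hF2.add hFi
  obtain ⟨δ, hδ⟩ : ∃ δ : ℝ, δ = η / (A + 1) := ⟨_, rfl⟩
  have hδ0 : 0 < δ := by rw [hδ]; positivity
  obtain ⟨ε, hε⟩ : ∃ ε : ℝ, ε = η / (1 + 1 / δ) := ⟨_, rfl⟩
  have hε0 : 0 < ε := by rw [hε]; positivity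
  have hεη : ε ≤ η := hε ▸ div_le_self hη.le (by linarith [one_div_pos.2 hδ0])
  obtain ⟨G₀, hG₁, hG₂, hG₃⟩ := hu.exist_eLpNorm_sub_le ENNReal.ofNat_ne_top one_le_two
    (Real.sqrt_pos.2 hε0)
  have hG₄ : MemLp G₀ 2 volume := hG₂.continuous.memLp_of_hasCompactSupport hG₁
  have hG₅ : ∫ ξ, ‖w ξ • F ξ - G₀ ξ‖ ^ 2 ≤ ε := by
    refine (dense_eLp (hu.sub hG₄)).trans_le ?_
    rw [← Real.sq_sqrt hε0.le]
    exact pow_le_pow_left₀ ENNReal.toReal_nonneg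
      (ENNReal.toReal_le_of_le_ofReal (Real.sqrt_nonneg _) hG₃) 2
  have hG₆ : Integrable fun ξ => ‖w ξ • F ξ - G₀ ξ‖ ^ 2 :=
    (hu.sub hG₄).integrable_norm_pow two_ne_zero
  have hc₁ : HasCompactSupport fun ξ => (w ξ)⁻¹ • G₀ ξ :=
    hG₁.mono fun ξ hξ h0 => hξ (by simp [h0])
  have hc₂ : ContDiff ℝ ((⊤ : ℕ∞) : WithTop ℕ∞) fun ξ => (w ξ)⁻¹ :=
    hwd.fun_inv fun ξ => (hw0 ξ).ne'
  have hc₃ : ContDiff ℝ ((⊤ : ℕ∞) : WithTop ℕ∞) fun ξ => (w ξ)⁻¹ • G₀ ξ := hc₂.fun_smul hG₂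
  obtain ⟨G, hG'⟩ : ∃ G : 𝓢(Config N, ℂ), ∀ ξ, G ξ = (w ξ)⁻¹ • G₀ ξ :=
    ⟨hc₁.toSchwartzMap hc₃, fun _ => rfl⟩
  have hG : ∀ ξ, w ξ • F ξ - G₀ ξ = w ξ • (F ξ - G ξ) := fun ξ => by
    rw [hG', smul_sub, smul_inv_smul₀ (hw0 ξ).ne']
  simp only [hG, hn] at hG₅ hG₆
  refine ⟨G, ?_, ?_⟩
  · refine le_trans (integral_mono_of_nonneg (Filter.Eventually.of_forall fun _ => by positivity)
      hG₆ (Filter.Eventually.of_forall fun ξ => ?_)) (hG₅.trans hεη)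
    exact le_add_of_nonneg_right (by positivity)
  · have e3 : ∫ ξ, (2 * Real.pi * ‖ξ‖) ^ 2 * ‖G ξ‖ ^ 2 ≤
        ∫ ξ, ((1 + δ) * ((2 * Real.pi * ‖ξ‖) ^ 2 * ‖F ξ‖ ^ 2) + (1 + 1 / δ) *
          (‖F ξ - G ξ‖ ^ 2 + (2 * Real.pi * ‖ξ‖) ^ 2 * ‖F ξ - G ξ‖ ^ 2)) := by
      refine integral_mono_of_nonneg (Filter.Eventually.of_forall fun _ => by positivity)
        ((hFi.const_mul _).add (hG₆.const_mul _)) (Filter.Eventually.of_forall fun ξ => ?_)
      have h1 : ‖G ξ‖ ≤ ‖F ξ‖ + ‖F ξ - G ξ‖ := by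
        have := norm_sub_le (F ξ) (F ξ - G ξ)
        rwa [sub_sub_cancel] at this
      have h3 := mul_le_mul_of_nonneg_left (dense_sq (norm_nonneg _) h1 hδ0)
        (sq_nonneg (2 * Real.pi * ‖ξ‖))
      have h4 : 0 ≤ (1 + 1 / δ) * ‖F ξ - G ξ‖ ^ 2 := by positivity
      simp only
      nlinarith
    rw [integral_add (hFi.const_mul _) (hG₆.const_mul _), integral_const_mul,
      integral_const_mul] at e3
    have e4 : (1 + 1 / δ) * ε = η := by rw [hε]; field_simp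
    have e5 : δ * A ≤ η := by
      rw [hδ, div_mul_eq_mul_div, div_le_iff₀ (by positivity)]; nlinarith
    have e6 := mul_le_mul_of_nonneg_left hG₅ (show 0 ≤ 1 + 1 / δ by positivity)
    rw [← hA] at e3
    linarith

/-- Recipe: `F = 𝓕 (toLp f)` satisfies `(1 + ‖ξ‖) F ∈ L²`.  Approximate `F` in `L²` of the measure
`volume.withDensity (1 + (2π‖ξ‖)²)` by a smooth compactly supported `G`
(`MemLp.exist_eLpNorm_sub_le`), let `g = 𝓕⁻ G` (`HasCompactSupport.toSchwartzMap`), and use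
Plancherel and `kineticOne_eq`. -/
theorem exists_schwartz {f : Config N → ℂ} (h2 : MemLp f 2 volume) (hk : kineticOne f < ⊤) {η : ℝ}
    (hη : 0 < η) : ∃ g : 𝓢(Config N, ℂ), ∫ x, ‖f x - g x‖ ^ 2 ≤ η ∧
      1 / 2 * ∫ x, cgsq g x ≤ (kineticOne f).toReal + η := by
  obtain ⟨hFi, hFe⟩ := dense_kin h2 hk (Filter.EventuallyEq.refl _ _)
  obtain ⟨G, h3, h4⟩ := dense_approx (Lp.memLp _) hFi hη
  refine ⟨𝓕⁻ G, ?_, ?_⟩
  · rwa [dense_planch h2 G]
  · rw [dense_kin_schwartz G, hFe]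
    linarith

/-- Multiply by `χ (x / R)` for a bump function `χ`; dominated convergence. -/
theorem exists_cutoff (g : 𝓢(Config N, ℂ)) {η : ℝ} (hη : 0 < η) :
    ∃ h : Config N → ℂ, ContDiff ℝ 1 h ∧ HasCompactSupport h ∧ ∫ x, ‖g x - h x‖ ^ 2 ≤ η ∧
      ∫ x, cgsq h x ≤ (∫ x, cgsq g x) + η := by
  let χ : ContDiffBump (0 : Config N) := ⟨1, 2, one_pos, one_lt_two⟩
  have hχd : ContDiff ℝ 1 (χ : Config N → ℝ) := χ.contDiff
  obtain ⟨C, hC⟩ := (hχd.continuous_fderiv one_ne_zero).bounded_above_of_compact_support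
    (χ.hasCompactSupport.fderiv ℝ)
  have hC0 : 0 ≤ C := (norm_nonneg _).trans (hC 0)
  have hg2 : Integrable fun x => ‖g x‖ ^ 2 := (g.memLp 2).integrable_norm_pow two_ne_zero
  have hgs : Integrable (cgsq g) := by
    refine integrable_finsetSum _ fun c _ => ?_
    have := ((SchwartzMap.fderivCLM ℝ _ _ g).memLp 2 volume).continuousLinearMap_comp
      (ContinuousLinearMap.apply ℝ ℂ (EuclideanSpace.single c (1 : ℝ) : Config N))
    exact this.integrable_norm_pow two_ne_zero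
  set B := ∫ x, cgsq g x with hB
  set M := ∫ x, ‖g x‖ ^ 2 with hM
  have hB0 : 0 ≤ B := integral_nonneg fun x => dense_cgsq_nonneg _ x
  set δ : ℝ := η / 2 / (B + 1) with hδ
  have hδ0 : 0 < δ := by positivity
  let h : ℕ → Config N → ℂ := fun n x => χ (((n : ℝ) + 1)⁻¹ • x) • g x
  have hsc : ∀ n : ℕ, ContDiff ℝ 1 fun x : Config N => χ (((n : ℝ) + 1)⁻¹ • x) := fun n =>
    hχd.comp (contDiff_const_smul _)
  have hd : ∀ n, ContDiff ℝ 1 (h n) := fun n => (hsc n).smul (g.smooth 1)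
  have hs : ∀ n, HasCompactSupport (h n) := fun n =>
    (χ.hasCompactSupport.comp_smul (by positivity)).smul_right
  have h1 : Filter.Tendsto (fun n => ∫ x, ‖g x - h n x‖ ^ 2) Filter.atTop (nhds 0) := by
    have := tendsto_integral_of_dominated_convergence (μ := volume)
      (F := fun n x => ‖g x - h n x‖ ^ 2) (f := fun _ => (0 : ℝ)) (fun x => ‖g x‖ ^ 2)
      (fun n => ((g.continuous.sub (hd n).continuous).norm.pow 2).aestronglyMeasurable) hg2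
      (fun n => Filter.Eventually.of_forall fun x => ?_) (Filter.Eventually.of_forall fun x => ?_)
    · simpa using this
    · rw [Real.norm_of_nonneg (by positivity)]
      refine pow_le_pow_left₀ (norm_nonneg _) ?_ 2
      have e : g x - h n x = (1 - χ (((n : ℝ) + 1)⁻¹ • x)) • g x := by
        simp only [h, sub_smul, one_smul]
      rw [e, norm_smul, Real.norm_of_nonneg (sub_nonneg.2 χ.le_one)]
      exact mul_le_of_le_one_left (norm_nonneg _) (by linarith [χ.nonneg' (((n : ℝ) + 1)⁻¹ • x)])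
    · refine tendsto_const_nhds.congr' ?_
      filter_upwards [Filter.eventually_ge_atTop ⌈‖x‖⌉₊] with n hn
      have e : χ (((n : ℝ) + 1)⁻¹ • x) = 1 := by
        refine χ.one_of_mem_closedBall ?_
        rw [mem_closedBall_zero_iff, norm_smul, Real.norm_of_nonneg (by positivity),
          inv_mul_le_iff₀ (by positivity)]
        have := Nat.ceil_le.1 hn
        change _ ≤ _ * (1 : ℝ)
        linarith
      simp [h, e]
  set K : ℝ := (1 + 1 / δ) * (Fintype.card (Fin N × Fin 3) * C ^ 2) with hK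
  have h2 : ∀ n : ℕ, ∫ x, cgsq (h n) x ≤ (1 + δ) * B + (K * ((n : ℝ) + 1)⁻¹ ^ 2) * M := by
    intro n
    rw [hB, hM, ← integral_const_mul, ← integral_const_mul,
      ← integral_add (hgs.const_mul _) (hg2.const_mul _)]
    refine integral_mono_of_nonneg (Filter.Eventually.of_forall fun x => dense_cgsq_nonneg _ x)
      ((hgs.const_mul _).add (hg2.const_mul _)) (Filter.Eventually.of_forall fun x => ?_)
    have e1 : HasFDerivAt (fun x : Config N => χ (((n : ℝ) + 1)⁻¹ • x))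
        ((fderiv ℝ χ (((n : ℝ) + 1)⁻¹ • x)).comp
          (((n : ℝ) + 1)⁻¹ • ContinuousLinearMap.id ℝ (Config N))) x :=
      (hχd.differentiable one_ne_zero _).hasFDerivAt.comp x
        (((n : ℝ) + 1)⁻¹ • ContinuousLinearMap.id ℝ (Config N)).hasFDerivAt
    have e2 := (e1.smul (g.hasFDerivAt x)).fderiv
    have e3 : ∀ c, ‖fderiv ℝ (h n) x (EuclideanSpace.single c 1)‖ ≤
        ‖fderiv ℝ g x (EuclideanSpace.single c 1)‖ + C * ((n : ℝ) + 1)⁻¹ * ‖g x‖ := by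
      intro c
      have e4 : fderiv ℝ (h n) x (EuclideanSpace.single c 1) =
          χ (((n : ℝ) + 1)⁻¹ • x) • fderiv ℝ g x (EuclideanSpace.single c 1) +
            (fderiv ℝ χ (((n : ℝ) + 1)⁻¹ • x) (((n : ℝ) + 1)⁻¹ • EuclideanSpace.single c 1)) • g x :=
        congrArg (fun L : Config N →L[ℝ] ℂ => L (EuclideanSpace.single c 1)) e2
      rw [e4]
      refine (norm_add_le _ _).trans (add_le_add ?_ ?_)
      · rw [norm_smul, Real.norm_of_nonneg χ.nonneg]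
        exact mul_le_of_le_one_left (norm_nonneg _) χ.le_one
      · rw [norm_smul]
        refine mul_le_mul_of_nonneg_right (((fderiv ℝ χ _).le_opNorm _).trans ?_) (norm_nonneg _)
        rw [norm_smul, Real.norm_of_nonneg (by positivity)]
        simpa using mul_le_mul_of_nonneg_right (hC _) (by positivity)
    simp only [cgsq]
    calc _ ≤ ∑ c : Fin N × Fin 3, ((1 + δ) * ‖fderiv ℝ g x (EuclideanSpace.single c 1)‖ ^ 2 +
          (1 + 1 / δ) * (C * ((n : ℝ) + 1)⁻¹ * ‖g x‖) ^ 2) :=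
          Finset.sum_le_sum fun c _ => dense_sq (norm_nonneg _) (e3 c) hδ0
      _ = _ := by
          rw [Finset.sum_add_distrib, ← Finset.mul_sum, Finset.sum_const, Finset.card_univ,
            nsmul_eq_mul, hK]
          ring
  have h3 : Filter.Tendsto (fun n : ℕ => (K * ((n : ℝ) + 1)⁻¹ ^ 2) * M) Filter.atTop (nhds 0) := by
    have := ((tendsto_one_div_add_atTop_nhds_zero_nat (𝕜 := ℝ)).pow 2).const_mul K |>.mul_const M
    simpa using this
  obtain ⟨n, h4, h5⟩ := ((h1.eventually_le_const hη).and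
    (h3.eventually_le_const (half_pos hη))).exists
  refine ⟨h n, hd n, hs n, h4, ?_⟩
  have e5 : δ * B ≤ η / 2 := by
    rw [hδ, div_mul_eq_mul_div, div_le_iff₀ (by positivity)]; nlinarith
  linarith [h2 n]

theorem exists_test_one {f : Config N → ℂ} (h2 : MemLp f 2 volume) (hk : kineticOne f < ⊤) {η : ℝ}
    (hη : 0 < η) : ∃ h : Config N → ℂ, ContDiff ℝ 1 h ∧ HasCompactSupport h ∧
      ∫ x, ‖f x - h x‖ ^ 2 ≤ η ∧ 1 / 2 * ∫ x, cgsq h x ≤ (kineticOne f).toReal + η := by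
  obtain ⟨g, hg1, hg2⟩ := exists_schwartz h2 hk (η := η / 4) (by positivity)
  obtain ⟨h, hd, hs, h3, h4⟩ := exists_cutoff g (η := η / 4) (by positivity)
  refine ⟨h, hd, hs, ?_, by linarith⟩
  have i1 : Integrable fun x => ‖f x - g x‖ ^ 2 :=
    (h2.sub (g.memLp 2)).integrable_norm_pow two_ne_zero
  have i2 : Integrable fun x => ‖g x - h x‖ ^ 2 :=
    ((g.memLp 2).sub (hd.continuous.memLp_of_hasCompactSupport hs)).integrable_norm_pow two_ne_zero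
  have h5 : ∫ x, ‖f x - h x‖ ^ 2 ≤ ∫ x, (2 * ‖f x - g x‖ ^ 2 + 2 * ‖g x - h x‖ ^ 2) := by
    refine integral_mono_of_nonneg (Filter.Eventually.of_forall fun _ => by positivity)
      ((i1.const_mul _).add (i2.const_mul _)) (Filter.Eventually.of_forall fun x => ?_)
    have := dense_sq (norm_nonneg _) (norm_sub_le_norm_sub_add_norm_sub (f x) (g x) (h x)) one_pos
    simp only
    linarith
  rw [integral_add (i1.const_mul _) (i2.const_mul _), integral_const_mul, integral_const_mul] at h5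
  linarith

end Crest.Agent.R338
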