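/-
R338/DenseB: antisymmetric approximation; lower bounds for the ground energy
Skeleton by helper15 (row 338); keep the statements unchanged, add any helper lemmas you like.
-/
import Crest.Agent.R338.Dense

set_option autoImplicit false
set_option linter.unusedSectionVars false
set_option linter.unusedVariables false
set_option linter.unusedSimpArgs false

noncomputable section

namespace Crest.Agent.R338

open MeasureTheory Set Crest.MathPhysics.ElectronicCoulomb
open scoped FourierTransform ENNReal SchwartzMap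

variable {N : ℕ}

/-- `permConfig σ` is a linear isometry (`LinearIsometryEquiv.piLpCongrLeft`). -/
theorem exists_permIso (σ : Equiv.Perm (Fin N)) :
    ∃ e : Config N ≃ₗᵢ[ℝ] Config N, (∀ x, e x = permConfig σ x) ∧
      ∀ i c, e (EuclideanSpace.single (σ i, c) 1) = EuclideanSpace.single (i, c) 1 := by
  refine ⟨LinearIsometryEquiv.piLpCongrLeft 2 ℝ ℝ (Equiv.prodCongr σ (Equiv.refl (Fin 3))).symm,
    fun x => rfl, fun i c => ?_⟩
  rw [EuclideanSpace.single, LinearIsometryEquiv.piLpCongrLeft_single]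
  simp [EuclideanSpace.single]

theorem denseB_integral_perm (σ : Equiv.Perm (Fin N)) (F : Config N → ℝ) :
    ∫ x, F (permConfig σ x) = ∫ x, F x := by
  obtain ⟨e, he, -⟩ := exists_permIso σ
  simp only [← he]
  exact e.measurePreserving.integral_comp e.toHomeomorph.measurableEmbedding F

theorem denseB_integrable_perm (σ : Equiv.Perm (Fin N)) {F : Config N → ℝ} (hF : Integrable F) :
    Integrable fun x => F (permConfig σ x) := by
  obtain ⟨e, he, -⟩ := exists_permIso σ
  simp only [← he]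
  exact e.measurePreserving.integrable_comp_of_integrable hF

theorem denseB_test_perm (σ : Equiv.Perm (Fin N)) {f : Config N → ℂ}
    (h : ContDiff ℝ 1 f ∧ HasCompactSupport f) :
    ContDiff ℝ 1 (fun x => f (permConfig σ x)) ∧ HasCompactSupport fun x => f (permConfig σ x) := by
  obtain ⟨e, he, -⟩ := exists_permIso σ
  simp only [← he]
  exact ⟨h.1.comp e.contDiff, h.2.comp_homeomorph e.toHomeomorph⟩

theorem denseB_cgsq_perm (σ : Equiv.Perm (Fin N)) (f : Config N → ℂ) (x : Config N) :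
    cgsq (fun x => f (permConfig σ x)) x = cgsq f (permConfig σ x) := by
  obtain ⟨e, he, he'⟩ := exists_permIso σ
  simp only [← he]
  unfold cgsq
  have h := e.toContinuousLinearEquiv.comp_right_fderiv (f := f) (x := x)
  have h' : fderiv ℝ (fun x => f (e x)) x = _ := h
  rw [h', ← Equiv.sum_comp (Equiv.prodCongr σ (Equiv.refl (Fin 3)))]
  refine Finset.sum_congr rfl fun ic _ => ?_
  obtain ⟨i, c⟩ := ic
  change ‖fderiv ℝ f (e x) (e (EuclideanSpace.single (σ i, c) 1))‖ ^ 2 = _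
  rw [he']

theorem denseB_mean_sq {ι : Type} [Fintype ι] [Nonempty ι] (ε z : ι → ℂ) (hε : ∀ i, ‖ε i‖ = 1) :
    ‖((Fintype.card ι : ℂ))⁻¹ * ∑ i, ε i * z i‖ ^ 2 ≤
      ((Fintype.card ι : ℝ))⁻¹ * ∑ i, ‖z i‖ ^ 2 := by
  have hc : (0 : ℝ) < Fintype.card ι := by exact_mod_cast Fintype.card_pos
  have h1 : ‖∑ i, ε i * z i‖ ≤ ∑ i, ‖z i‖ :=
    (norm_sum_le _ _).trans (le_of_eq (Finset.sum_congr rfl fun i _ => by
      rw [norm_mul, hε, one_mul]))
  have h2 := sq_sum_le_card_mul_sum_sq (s := Finset.univ) (f := fun i => ‖z i‖)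
  rw [Finset.card_univ] at h2
  have h3 := (pow_le_pow_left₀ (norm_nonneg _) h1 2).trans h2
  rw [norm_mul, norm_inv, Complex.norm_natCast, mul_pow]
  calc ((Fintype.card ι : ℝ))⁻¹ ^ 2 * ‖∑ i, ε i * z i‖ ^ 2
      ≤ ((Fintype.card ι : ℝ))⁻¹ ^ 2 * (Fintype.card ι * ∑ i, ‖z i‖ ^ 2) := by gcongr
    _ = _ := by field_simp

theorem denseB_cgsq_mean {ι : Type} [Fintype ι] [Nonempty ι] (ε : ι → ℂ) (hε : ∀ i, ‖ε i‖ = 1)
    (g : ι → Config N → ℂ) (hg : ∀ i, ContDiff ℝ 1 (g i)) (x : Config N) :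
    cgsq (fun x => ((Fintype.card ι : ℂ))⁻¹ * ∑ i, ε i * g i x) x ≤
      ((Fintype.card ι : ℝ))⁻¹ * ∑ i, cgsq (g i) x := by
  have hd : HasFDerivAt (fun x => ((Fintype.card ι : ℂ))⁻¹ * ∑ i, ε i * g i x)
      (((Fintype.card ι : ℂ))⁻¹ • ∑ i, ε i • fderiv ℝ (g i) x) x :=
    (HasFDerivAt.fun_sum fun i _ =>
      (((hg i).differentiable one_ne_zero x).hasFDerivAt.const_mul (ε i))).const_mul _
  unfold cgsq
  rw [hd.fderiv, Finset.sum_comm, Finset.mul_sum]
  refine Finset.sum_le_sum fun c _ => ?_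
  simp only [smul_apply, sum_apply, smul_eq_mul]
  exact denseB_mean_sq ε _ hε

theorem denseB_integrable_cgsq {f : Config N → ℂ} (h : ContDiff ℝ 1 f ∧ HasCompactSupport f) :
    Integrable (cgsq f) := by
  unfold cgsq
  refine integrable_finsetSum _ fun c _ => ?_
  have h1 : Continuous fun x => fderiv ℝ f x (EuclideanSpace.single c 1) :=
    (h.1.continuous_fderiv one_ne_zero).clm_apply continuous_const
  exact (h1.memLp_of_hasCompactSupport (p := 2) (h.2.fderiv_apply ℝ _)).norm.integrable_sq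

theorem denseB_cgsq_nonneg (f : Config N → ℂ) (x : Config N) : 0 ≤ cgsq f x :=
  Finset.sum_nonneg fun _ _ => by positivity

theorem denseB_norm_sign (σ : Equiv.Perm (Fin N)) : ‖((Equiv.Perm.sign σ : ℤ) : ℂ)‖ = 1 := by
  rcases Int.units_eq_one_or (Equiv.Perm.sign σ) with h | h <;> simp [h]

theorem denseB_sign_sq (σ : Equiv.Perm (Fin N)) :
    ((Equiv.Perm.sign σ : ℤ) : ℂ) * ((Equiv.Perm.sign σ : ℤ) : ℂ) = 1 := by
  rcases Int.units_eq_one_or (Equiv.Perm.sign σ) with h | h <;> simp [h]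

/-- Recipe: approximate every spin component by `exists_test_one` and antisymmetrise,
`χ s x = (N!)⁻¹ ∑ σ, sign σ * h (s ∘ σ) (permConfig σ x)`.  Both `∑ s, ∫ ‖Ψ s - χ s‖²` and
`∑ s, ∫ cgsq (χ s)` do not increase (`‖mean‖² ≤ mean ‖·‖²`, invariance of the integral, reindexing
`s ↦ s ∘ σ`). -/
theorem exists_test_approx {Ψ : Wave N} (hf : IsFermionic Ψ) (hk : kinetic Ψ < ⊤) {η : ℝ}
    (hη : 0 < η) : ∃ χ : Wave N, (∀ s, ContDiff ℝ 1 (χ s) ∧ HasCompactSupport (χ s)) ∧
      IsFermionic χ ∧ ∑ s, ∫ x, ‖Ψ s x - χ s x‖ ^ 2 ≤ η ∧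
      ∑ s, 1 / 2 * ∫ x, cgsq (χ s) x ≤ (kinetic Ψ).toReal + η := by
  have hS : (0 : ℝ) < Fintype.card (Spin N) := by exact_mod_cast Fintype.card_pos
  have hP : (0 : ℝ) < Fintype.card (Equiv.Perm (Fin N)) := by exact_mod_cast Fintype.card_pos
  have hk1 : ∀ s, kineticOne (Ψ s) < ⊤ := fun s =>
    lt_of_le_of_lt (Finset.single_le_sum (f := fun s => kineticOne (Ψ s)) (fun _ _ => zero_le)
      (Finset.mem_univ s)) hk
  choose h h1 h2 h3 h4 using fun s =>
    exists_test_one (hf.1 s) (hk1 s) (div_pos hη hS)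
  have hη' : ∑ _s : Spin N, η / Fintype.card (Spin N) = η := by
    rw [Finset.sum_const, Finset.card_univ, nsmul_eq_mul]
    field_simp
  have hT : ∀ (s : Spin N) (σ : Equiv.Perm (Fin N)),
      ContDiff ℝ 1 (fun x => h (fun i => s (σ i)) (permConfig σ x)) ∧
        HasCompactSupport fun x => h (fun i => s (σ i)) (permConfig σ x) := fun s σ =>
    denseB_test_perm σ ⟨h1 _, h2 _⟩
  set χ : Wave N := fun s x => ((Fintype.card (Equiv.Perm (Fin N)) : ℂ))⁻¹ *
    ∑ σ : Equiv.Perm (Fin N), ((Equiv.Perm.sign σ : ℤ) : ℂ) *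
      h (fun i => s (σ i)) (permConfig σ x) with hχ
  have hχT : ∀ s, ContDiff ℝ 1 (χ s) ∧ HasCompactSupport (χ s) := by
    intro s
    refine ⟨contDiff_const.mul (ContDiff.sum fun σ _ => contDiff_const.mul (hT s σ).1), ?_⟩
    have h5 : HasCompactSupport (∑ σ : Equiv.Perm (Fin N), fun x =>
        ((Equiv.Perm.sign σ : ℤ) : ℂ) * h (fun i => s (σ i)) (permConfig σ x)) :=
      HasCompactSupport.finset_sum fun σ _ => (hT s σ).2.mul_left
    have h6 := h5.mul_left (f := fun _ => ((Fintype.card (Equiv.Perm (Fin N)) : ℂ))⁻¹)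
    have e : χ s = (fun _ => ((Fintype.card (Equiv.Perm (Fin N)) : ℂ))⁻¹) *
        ∑ σ : Equiv.Perm (Fin N), fun x =>
          ((Equiv.Perm.sign σ : ℤ) : ℂ) * h (fun i => s (σ i)) (permConfig σ x) := by
      funext x
      simp only [hχ, Pi.mul_apply, Finset.sum_apply]
    rw [e]
    exact h6
  have hmem : ∀ s, MemLp (h s) 2 volume := fun s =>
    (h1 s).continuous.memLp_of_hasCompactSupport (h2 s)
  refine ⟨χ, hχT, ⟨fun s => (hχT s).1.continuous.memLp_of_hasCompactSupport (hχT s).2,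
    fun τ s x => ?_⟩, ?_, ?_⟩
  · simp only [hχ]
    rw [mul_left_comm, Finset.mul_sum _ _ ((Equiv.Perm.sign τ : ℤ) : ℂ),
      ← Equiv.sum_comp (Equiv.mulLeft τ)
        (fun σ => ((Equiv.Perm.sign τ : ℤ) : ℂ) * (((Equiv.Perm.sign σ : ℤ) : ℂ) *
          h (fun i => s (σ i)) (permConfig σ x)))]
    congr 1
    refine Finset.sum_congr rfl fun σ _ => ?_
    rw [Equiv.coe_mulLeft, Equiv.Perm.sign_mul, Units.val_mul, Int.cast_mul, ← mul_assoc,
      ← mul_assoc, denseB_sign_sq, one_mul]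
    rfl
  · rw [← hη']
    refine Finset.sum_le_sum fun s _ => ?_
    have hi : ∀ s, Integrable fun x => ‖Ψ s x - h s x‖ ^ 2 := fun s =>
      ((hf.1 s).sub (hmem s)).norm.integrable_sq
    have hpt : ∀ x, ‖Ψ s x - χ s x‖ ^ 2 ≤ ((Fintype.card (Equiv.Perm (Fin N)) : ℝ))⁻¹ *
        ∑ σ : Equiv.Perm (Fin N), ‖Ψ (fun i => s (σ i)) (permConfig σ x) -
          h (fun i => s (σ i)) (permConfig σ x)‖ ^ 2 := by
      intro x
      refine le_trans (le_of_eq ?_) (denseB_mean_sq _ _ denseB_norm_sign)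
      congr 2
      simp only [hχ, mul_sub, Finset.sum_sub_distrib, hf.2, ← mul_assoc, denseB_sign_sq, one_mul,
        Finset.sum_const, Finset.card_univ, nsmul_eq_mul]
      have : (Fintype.card (Equiv.Perm (Fin N)) : ℂ) ≠ 0 := by exact_mod_cast hP.ne'
      rw [inv_mul_cancel₀ this, one_mul]
    have hi' : ∀ σ : Equiv.Perm (Fin N), Integrable fun x =>
        ‖Ψ (fun i => s (σ i)) (permConfig σ x) - h (fun i => s (σ i)) (permConfig σ x)‖ ^ 2 :=
      fun σ => denseB_integrable_perm σ (hi _)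
    refine (integral_mono_of_nonneg (Filter.Eventually.of_forall fun x => by positivity)
      ((integrable_finsetSum _ fun σ _ => hi' σ).const_mul _)
      (Filter.Eventually.of_forall hpt)).trans ?_
    rw [integral_const_mul, integral_finsetSum _ fun σ _ => hi' σ, inv_mul_le_iff₀ hP,
      ← nsmul_eq_mul, ← Finset.card_univ, ← Finset.sum_const]
    refine Finset.sum_le_sum fun σ _ => ?_
    rw [denseB_integral_perm σ fun x => ‖Ψ (fun i => s (σ i)) x - h (fun i => s (σ i)) x‖ ^ 2]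
    exact h3 _
  · have hle : ∀ s, ∫ x, cgsq (χ s) x ≤ ((Fintype.card (Equiv.Perm (Fin N)) : ℝ))⁻¹ *
        ∑ σ : Equiv.Perm (Fin N), ∫ x, cgsq (h fun i => s (σ i)) x := by
      intro s
      have hi' : ∀ σ : Equiv.Perm (Fin N), Integrable
          (cgsq fun x => h (fun i => s (σ i)) (permConfig σ x)) :=
        fun σ => denseB_integrable_cgsq (hT s σ)
      refine (integral_mono_of_nonneg (Filter.Eventually.of_forall (denseB_cgsq_nonneg _))
        ((integrable_finsetSum _ fun σ _ => hi' σ).const_mul _)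
        (Filter.Eventually.of_forall
          (denseB_cgsq_mean _ denseB_norm_sign _ fun σ => (hT s σ).1))).trans (le_of_eq ?_)
      rw [integral_const_mul, integral_finsetSum _ fun σ _ => hi' σ]
      congr 1
      refine Finset.sum_congr rfl fun σ _ => ?_
      simp only [denseB_cgsq_perm]
      exact denseB_integral_perm σ _
    have hre : ∀ σ : Equiv.Perm (Fin N), ∑ s : Spin N, ∫ x, cgsq (h fun i => s (σ i)) x =
        ∑ s : Spin N, ∫ x, cgsq (h s) x := fun σ =>
      Equiv.sum_comp (Equiv.arrowCongr σ.symm (Equiv.refl (Fin 2))) fun s => ∫ x, cgsq (h s) x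
    have h5 : ∑ s, ∫ x, cgsq (χ s) x ≤ ∑ s : Spin N, ∫ x, cgsq (h s) x := by
      refine (Finset.sum_le_sum fun s _ => hle s).trans (le_of_eq ?_)
      rw [← Finset.mul_sum, Finset.sum_comm]
      simp only [hre]
      rw [Finset.sum_const, Finset.card_univ, nsmul_eq_mul, ← mul_assoc, inv_mul_cancel₀ hP.ne',
        one_mul]
    have h6 := Finset.sum_le_sum fun s (_ : s ∈ Finset.univ) => h4 s
    rw [Finset.sum_add_distrib, hη', ← ENNReal.toReal_sum fun s _ => (hk1 s).ne,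
      ← Finset.mul_sum] at h6
    rw [← Finset.mul_sum]
    exact le_trans (by gcongr) h6

theorem denseB_test_clm (L : ℂ →L[ℝ] ℝ) {f : Config N → ℂ}
    (h : ContDiff ℝ 1 f ∧ HasCompactSupport f) : Test fun x => L (f x) :=
  ⟨L.contDiff.comp h.1, h.2.comp_left (g := L) L.map_zero⟩

theorem denseB_pd_clm (L : ℂ →L[ℝ] ℝ) {f : Config N → ℂ} (h : ContDiff ℝ 1 f) (c : Fin N × Fin 3)
    (x : Config N) :
    pd c (fun x => L (f x)) x = L (fderiv ℝ f x (EuclideanSpace.single c 1)) := by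
  have hd : HasFDerivAt (fun x => L (f x)) (L.comp (fderiv ℝ f x)) x :=
    L.hasFDerivAt.comp x (h.differentiable one_ne_zero x).hasFDerivAt
  rw [pd, hd.fderiv]
  rfl

theorem denseB_normSq (z : ℂ) : ‖z‖ ^ 2 = z.re ^ 2 + z.im ^ 2 := by
  rw [Complex.sq_norm, Complex.normSq_apply]
  ring

theorem denseB_cgsq_eq {f : Config N → ℂ} (h : ContDiff ℝ 1 f) (x : Config N) :
    cgsq f x = gsq (fun x => Complex.reCLM (f x)) x + gsq (fun x => Complex.imCLM (f x)) x := by
  unfold cgsq gsq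
  rw [← Finset.sum_add_distrib]
  refine Finset.sum_congr rfl fun c _ => ?_
  rw [denseB_pd_clm _ h, denseB_pd_clm _ h, denseB_normSq]
  rfl

theorem denseB_bdd_mul {V g : Config N → ℝ} (hV : Measurable V) {D : ℝ} (hD : ∀ x, |V x| ≤ D)
    (hg : Integrable g) : Integrable fun x => V x * g x :=
  hg.bdd_mul hV.aestronglyMeasurable (Filter.Eventually.of_forall hD)

/-- bounded potentials are continuous in `L²` -/
theorem denseB_pot_le {V : Config N → ℝ} (hV : Measurable V) {D : ℝ} (hD : ∀ x, |V x| ≤ D)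
    {f g : Config N → ℂ} (hf : MemLp f 2 volume) (hg : MemLp g 2 volume) {ε : ℝ} (hε : 0 < ε) :
    ∫ x, V x * ‖g x‖ ^ 2 ≤ (∫ x, V x * ‖f x‖ ^ 2) +
      D * ((1 + 1 / ε) * (∫ x, ‖f x - g x‖ ^ 2) + ε * ∫ x, ‖f x‖ ^ 2) := by
  have i1 := hf.norm.integrable_sq
  have i2 := hg.norm.integrable_sq
  have i3 : Integrable fun x => ‖f x - g x‖ ^ 2 := (hf.sub hg).norm.integrable_sq
  have i4 : Integrable fun x => (1 + 1 / ε) * ‖f x - g x‖ ^ 2 + ε * ‖f x‖ ^ 2 :=
    (i3.const_mul _).add (i1.const_mul _)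
  rw [← integral_const_mul, ← integral_const_mul,
    ← integral_add (i3.const_mul _) (i1.const_mul _), ← integral_const_mul,
    ← integral_add (denseB_bdd_mul hV hD i1) (i4.const_mul _)]
  refine integral_mono (denseB_bdd_mul hV hD i2)
    ((denseB_bdd_mul hV hD i1).add (i4.const_mul _)) fun x => ?_
  dsimp only
  have h1 : |‖f x‖ - ‖g x‖| ≤ ‖f x - g x‖ := abs_norm_sub_norm_le _ _
  set a := ‖f x‖
  set b := ‖g x‖
  set d := ‖f x - g x‖
  have ha : 0 ≤ a := norm_nonneg _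
  have hb : 0 ≤ b := norm_nonneg _
  have hd : 0 ≤ d := norm_nonneg _
  have h2 : 2 * a * d ≤ 1 / ε * d ^ 2 + ε * a ^ 2 := by
    have : 1 / ε * d ^ 2 + ε * a ^ 2 - 2 * a * d = 1 / ε * (d - ε * a) ^ 2 := by
      field_simp
      ring
    have : 0 ≤ 1 / ε * (d - ε * a) ^ 2 := by positivity
    linarith
  obtain ⟨h3, h4⟩ := abs_le.1 h1
  have h5 : |b ^ 2 - a ^ 2| ≤ (1 + 1 / ε) * d ^ 2 + ε * a ^ 2 := by
    rw [abs_le]
    constructor <;> nlinarith
  have h6 : V x * (b ^ 2 - a ^ 2) ≤ D * ((1 + 1 / ε) * d ^ 2 + ε * a ^ 2) := by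
    refine (le_abs_self _).trans ?_
    rw [abs_mul]
    exact mul_le_mul (hD x) h5 (abs_nonneg _) ((abs_nonneg _).trans (hD x))
  linarith

theorem denseB_sum_sq {Ψ : Wave N} (hf : IsFermionic Ψ) (hn : normSq Ψ = 1) :
    ∑ s, ∫ x, ‖Ψ s x‖ ^ 2 = 1 := by
  have h1 : ∀ s, ENNReal.ofReal (∫ x, ‖Ψ s x‖ ^ 2) = ∫⁻ x, ‖Ψ s x‖ₑ ^ 2 := fun s => by
    rw [ofReal_integral_eq_lintegral_ofReal (hf.1 s).norm.integrable_sq
      (Filter.Eventually.of_forall fun x => by positivity)]
    refine lintegral_congr fun x => ?_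
    rw [ENNReal.ofReal_pow (norm_nonneg _), ofReal_norm]
  unfold normSq at hn
  simp only [← h1] at hn
  rw [← ENNReal.ofReal_sum_of_nonneg fun s _ => integral_nonneg fun x => by positivity] at hn
  exact ENNReal.ofReal_eq_one.1 hn

/-- a bound for real test functions and a bounded potential passes to all states -/
theorem denseB_bdd {V : Config N → ℝ} (hV : Measurable V) {D : ℝ} (hD : ∀ x, |V x| ≤ D)
    (h : ∀ Ψ : Spin N → Config N → ℝ, (∀ s, Test (Ψ s)) → AntiW Ψ →
      0 ≤ ∑ s, (1 / 2 * (∫ x, gsq (Ψ s) x) + ∫ x, V x * Ψ s x ^ 2))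
    {Ψ : Wave N} (hf : IsFermionic Ψ) (hk : kinetic Ψ < ⊤) (hn : normSq Ψ = 1) :
    0 ≤ (kinetic Ψ).toReal + ∑ s, ∫ x, V x * ‖Ψ s x‖ ^ 2 := by
  have hD0 : 0 ≤ D := (abs_nonneg _).trans (hD 0)
  have hc : ∀ χ : Wave N, (∀ s, ContDiff ℝ 1 (χ s) ∧ HasCompactSupport (χ s)) → IsFermionic χ →
      0 ≤ ∑ s, (1 / 2 * (∫ x, cgsq (χ s) x) + ∫ x, V x * ‖χ s x‖ ^ 2) := by
    intro χ hT hχ
    have ha : ∀ L : ℂ →L[ℝ] ℝ, AntiW fun s x => L (χ s x) := fun L σ s x => by
      dsimp only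
      rw [hχ.2, ← smul_eq_mul, ← smul_eq_mul, ← map_smul, Int.cast_smul_eq_zsmul,
        Int.cast_smul_eq_zsmul]
    have h1 := h _ (fun s => denseB_test_clm Complex.reCLM (hT s)) (ha _)
    have h2 := h _ (fun s => denseB_test_clm Complex.imCLM (hT s)) (ha _)
    refine le_trans (add_nonneg h1 h2) (le_of_eq ?_)
    rw [← Finset.sum_add_distrib]
    refine Finset.sum_congr rfl fun s _ => ?_
    have t1 := denseB_test_clm Complex.reCLM (hT s)
    have t2 := denseB_test_clm Complex.imCLM (hT s)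
    have g1 : Integrable (gsq fun x => Complex.reCLM (χ s x)) := by
      simpa only [one_mul] using t1.integrable_gsq (g := fun _ => 1) continuous_const
    have g2 : Integrable (gsq fun x => Complex.imCLM (χ s x)) := by
      simpa only [one_mul] using t2.integrable_gsq (g := fun _ => 1) continuous_const
    have q1 : Integrable fun x => V x * Complex.reCLM (χ s x) ^ 2 := denseB_bdd_mul hV hD (by
      simpa only [one_mul] using t1.integrable_sq (g := fun _ => 1) continuous_const)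
    have q2 : Integrable fun x => V x * Complex.imCLM (χ s x) ^ 2 := denseB_bdd_mul hV hD (by
      simpa only [one_mul] using t2.integrable_sq (g := fun _ => 1) continuous_const)
    have e1 : ∫ x, cgsq (χ s) x = (∫ x, gsq (fun x => Complex.reCLM (χ s x)) x) +
        ∫ x, gsq (fun x => Complex.imCLM (χ s x)) x := by
      rw [← integral_add g1 g2]
      exact integral_congr_ae (Filter.Eventually.of_forall (denseB_cgsq_eq (hT s).1))
    have e2 : ∫ x, V x * ‖χ s x‖ ^ 2 = (∫ x, V x * Complex.reCLM (χ s x) ^ 2) +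
        ∫ x, V x * Complex.imCLM (χ s x) ^ 2 := by
      rw [← integral_add q1 q2]
      refine integral_congr_ae (Filter.Eventually.of_forall fun x => ?_)
      dsimp only
      rw [denseB_normSq, mul_add]
      rfl
    rw [e1, e2]
    ring
  refine le_of_forall_pos_le_add fun δ hδ => ?_
  obtain ⟨ε, hε, hεD⟩ : ∃ ε : ℝ, 0 < ε ∧ D * ε ≤ δ / 2 := by
    refine ⟨δ / 2 / (D + 1), by positivity, ?_⟩
    rw [mul_div_assoc', div_le_iff₀ (by positivity)]
    nlinarith
  obtain ⟨η, hη, hηD⟩ : ∃ η : ℝ, 0 < η ∧ (D * (1 + 1 / ε) + 1) * η = δ / 2 :=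
    ⟨δ / 2 / (D * (1 + 1 / ε) + 1), by positivity, by field_simp⟩
  obtain ⟨χ, hT, hχ, h1, h2⟩ := exists_test_approx hf hk hη
  have h3 := hc χ hT hχ
  have h4 := Finset.sum_le_sum fun s (_ : s ∈ Finset.univ) =>
    denseB_pot_le hV hD (hf.1 s) (hχ.1 s) hε
  rw [Finset.sum_add_distrib, ← Finset.mul_sum, Finset.sum_add_distrib, ← Finset.mul_sum,
    ← Finset.mul_sum, denseB_sum_sq hf hn] at h4
  rw [Finset.sum_add_distrib] at h3
  have h5 : D * (1 + 1 / ε) * ∑ s, ∫ x, ‖Ψ s x - χ s x‖ ^ 2 ≤ D * (1 + 1 / ε) * η :=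
    mul_le_mul_of_nonneg_left h1 (by positivity)
  nlinarith

/-- Recipe: apply the hypothesis to the real and imaginary parts of the approximants, replace `A` by
`min A M`, pass to the limit `η → 0` (bounded potentials are continuous in `L²`), then let `M → ∞`:
the positive part of `(B - min A M - W) ‖Ψ‖²` is dominated by `|B - W| ‖Ψ‖²` and tends to zero. -/
theorem infGE_of_test {W A B : Config N → ℝ} {b : ℝ} (hA : Measurable A) (hA0 : ∀ x, 0 ≤ A x)
    (hAi : ∀ f : Config N → ℝ, Test f → Integrable fun x => A x * f x ^ 2) (hB : Measurable B)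
    {C : ℝ} (hC : ∀ x, |B x| ≤ C) (hW : ∀ x, B x - A x ≤ W x)
    (h : ∀ Ψ : Spin N → Config N → ℝ, (∀ s, Test (Ψ s)) → AntiW Ψ →
      b * ∑ s, ∫ x, Ψ s x ^ 2 ≤
        ∑ s, (1 / 2 * (∫ x, gsq (Ψ s) x) - (∫ x, A x * Ψ s x ^ 2) + ∫ x, B x * Ψ s x ^ 2)) :
    InfEnergyGE W b := by
  rintro Ψ ⟨hf, hk, hWi⟩ hn
  have hsq : ∀ s, Integrable fun x => ‖Ψ s x‖ ^ 2 := fun s => (hf.1 s).norm.integrable_sq
  have hmm : ∀ M : ℕ, Measurable fun x => min (A x) M := fun M => hA.min measurable_const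
  have hmb : ∀ (M : ℕ) x, |min (A x) M| ≤ M := fun M x => by
    rw [abs_of_nonneg (le_min (hA0 x) (Nat.cast_nonneg M))]
    exact min_le_right _ _
  have hVm : ∀ M : ℕ, Measurable fun x => B x - min (A x) M := fun M => hB.sub (hmm M)
  have hVb : ∀ (M : ℕ) x, |B x - min (A x) M| ≤ C + M := fun M x =>
    (abs_sub _ _).trans (add_le_add (hC x) (hmb M x))
  have hUm : ∀ M : ℕ, Measurable fun x => B x - min (A x) M - b := fun M =>
    (hVm M).sub measurable_const
  have hUb : ∀ (M : ℕ) x, |B x - min (A x) M - b| ≤ C + M + |b| := fun M x =>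
    (abs_sub _ _).trans (add_le_add (hVb M x) le_rfl)
  have hM : ∀ M : ℕ, 0 ≤ (kinetic Ψ).toReal + ∑ s, ∫ x, (B x - min (A x) M - b) * ‖Ψ s x‖ ^ 2 := by
    intro M
    refine denseB_bdd (hUm M) (hUb M) (fun Φ hT hΦ => ?_) hf hk hn
    have h1 := h Φ hT hΦ
    rw [Finset.mul_sum, ← sub_nonneg, ← Finset.sum_sub_distrib] at h1
    refine h1.trans (Finset.sum_le_sum fun s _ => ?_)
    have q0 : Integrable fun x => Φ s x ^ 2 := by
      simpa only [one_mul] using (hT s).integrable_sq (g := fun _ => 1) continuous_const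
    have q1 := denseB_bdd_mul hB hC q0
    have q2 := denseB_bdd_mul (hmm M) (hmb M) q0
    have e1 : ∫ x, (B x - min (A x) M - b) * Φ s x ^ 2 = (∫ x, B x * Φ s x ^ 2) -
        (∫ x, min (A x) M * Φ s x ^ 2) - b * ∫ x, Φ s x ^ 2 := by
      have q3 : Integrable fun x => B x * Φ s x ^ 2 - min (A x) M * Φ s x ^ 2 := q1.sub q2
      rw [← integral_const_mul, ← integral_sub q1 q2, ← integral_sub q3 (q0.const_mul b)]
      exact integral_congr_ae (Filter.Eventually.of_forall fun x => by dsimp only; ring)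
    have e2 : ∫ x, min (A x) M * Φ s x ^ 2 ≤ ∫ x, A x * Φ s x ^ 2 :=
      integral_mono q2 (hAi _ (hT s)) fun x =>
        mul_le_mul_of_nonneg_right (min_le_left _ _) (sq_nonneg _)
    linarith
  set r : ℕ → Spin N → Config N → ℝ := fun M s x =>
    max ((B x - min (A x) M) * ‖Ψ s x‖ ^ 2 - W x * ‖Ψ s x‖ ^ 2) 0 with hr
  have hri : ∀ M s, Integrable (r M s) := fun M s =>
    ((denseB_bdd_mul (hVm M) (hVb M) (hsq s)).sub (hWi s)).pos_part
  have hlim : ∀ s, Filter.Tendsto (fun M => ∫ x, r M s x) Filter.atTop (nhds 0) := by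
    intro s
    have := tendsto_integral_of_dominated_convergence (μ := volume) (F := fun M => r M s)
      (f := fun _ => 0) (fun x => |B x * ‖Ψ s x‖ ^ 2 - W x * ‖Ψ s x‖ ^ 2|)
      (fun M => (hri M s).aestronglyMeasurable) ((denseB_bdd_mul hB hC (hsq s)).sub (hWi s)).abs
      (fun M => Filter.Eventually.of_forall fun x => by
        rw [Real.norm_eq_abs, abs_of_nonneg (le_max_right _ _)]
        refine max_le (le_trans ?_ (le_abs_self _)) (abs_nonneg _)
        have : 0 ≤ min (A x) M * ‖Ψ s x‖ ^ 2 :=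
          mul_nonneg (le_min (hA0 x) (Nat.cast_nonneg M)) (sq_nonneg _)
        linarith)
      (Filter.Eventually.of_forall fun x => by
        refine tendsto_const_nhds.congr' ?_
        filter_upwards [tendsto_natCast_atTop_atTop.eventually_ge_atTop (A x)] with M hM
        have := mul_le_mul_of_nonneg_right (hW x) (sq_nonneg ‖Ψ s x‖)
        simp only [hr]
        rw [min_eq_left hM, max_eq_right (by linarith)])
    simpa using this
  have hle : ∀ M : ℕ, b - energy W Ψ ≤ ∑ s, ∫ x, r M s x := by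
    intro M
    have h1 : ∀ s, ∫ x, (B x - min (A x) M - b) * ‖Ψ s x‖ ^ 2 ≤
        (∫ x, W x * ‖Ψ s x‖ ^ 2) + (∫ x, r M s x) - b * ∫ x, ‖Ψ s x‖ ^ 2 := by
      intro s
      have q3 : Integrable fun x => W x * ‖Ψ s x‖ ^ 2 + r M s x := (hWi s).add (hri M s)
      rw [← integral_const_mul, ← integral_add (hWi s) (hri M s),
        ← integral_sub q3 ((hsq s).const_mul b)]
      refine integral_mono (denseB_bdd_mul (hUm M) (hUb M) (hsq s))
        (q3.sub ((hsq s).const_mul b)) fun x => ?_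
      have := le_max_left ((B x - min (A x) M) * ‖Ψ s x‖ ^ 2 - W x * ‖Ψ s x‖ ^ 2) 0
      simp only [hr]
      linarith
    have h2 := Finset.sum_le_sum fun s (_ : s ∈ Finset.univ) => h1 s
    rw [Finset.sum_sub_distrib, Finset.sum_add_distrib, ← Finset.mul_sum, denseB_sum_sq hf hn] at h2
    have h3 := hM M
    unfold energy potentialEnergy
    linarith
  have ht := tendsto_finsetSum Finset.univ fun s _ => hlim s
  rw [Finset.sum_const_zero] at ht
  exact sub_nonpos.1 (ge_of_tendsto' ht hle)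

end Crest.Agent.R338
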