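/-
R338/Coord: coordinates, boxes, cubes, Fubini
Skeleton by helper15 (row 338); keep the statements unchanged, add any helper lemmas you like.
-/
import Crest.Agent.R338.Basic

set_option autoImplicit false
set_option linter.unusedSectionVars false
set_option linter.unusedVariables false
set_option linter.unusedSimpArgs false

noncomputable section

namespace Crest.Agent.R338

open MeasureTheory Set Crest.MathPhysics.ElectronicCoulomb
open scoped RealInnerProductSpace

@[simp] theorem mk3_0 (p : ℝ × ℝ) (z : ℝ) : mk3 p z 0 = p.1 := rfl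
@[simp] theorem mk3_1 (p : ℝ × ℝ) (z : ℝ) : mk3 p z 1 = p.2 := rfl
@[simp] theorem mk3_2 (p : ℝ × ℝ) (z : ℝ) : mk3 p z 2 = z := rfl
@[simp] theorem lat_apply (δ : ℝ) (β : Fin 3 → ℤ) (c : Fin 3) : lat δ β c = δ * β c := rfl

theorem mk3_eta (x : Pos3) : mk3 (x 0, x 1) (x 2) = x := by
  ext c; fin_cases c <;> rfl

theorem norm_sq_eq (x : Pos3) : ‖x‖ ^ 2 = x 0 ^ 2 + x 1 ^ 2 + x 2 ^ 2 := by
  rw [EuclideanSpace.norm_sq_eq, Fin.sum_univ_three]
  simp only [Real.norm_eq_abs, sq_abs]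

theorem norm_eq_sqrt (x : Pos3) : ‖x‖ = √(x 0 ^ 2 + x 1 ^ 2 + x 2 ^ 2) := by
  rw [← norm_sq_eq, Real.sqrt_sq (norm_nonneg _)]

theorem abs_le_norm (x : Pos3) (c : Fin 3) : |x c| ≤ ‖x‖ := by
  simpa using PiLp.norm_apply_le x c

theorem norm_le_sum (x : Pos3) : ‖x‖ ≤ |x 0| + |x 1| + |x 2| := by
  have h0 := abs_nonneg (x 0); have h1 := abs_nonneg (x 1); have h2 := abs_nonneg (x 2)
  refine (pow_le_pow_iff_left₀ (norm_nonneg _) (by positivity) two_ne_zero).1 ?_
  rw [norm_sq_eq, ← sq_abs (x 0), ← sq_abs (x 1), ← sq_abs (x 2)]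
  nlinarith [mul_nonneg h0 h1, mul_nonneg h0 h2, mul_nonneg h1 h2]

theorem inner_eq (x y : Pos3) : ⟪x, y⟫ = x 0 * y 0 + x 1 * y 1 + x 2 * y 2 := by
  rw [PiLp.inner_apply, Fin.sum_univ_three]
  simp only [RCLike.inner_apply, conj_trivial]
  ring

theorem continuous_mk3 : Continuous fun q : (ℝ × ℝ) × ℝ => mk3 q.1 q.2 := by
  unfold mk3
  fun_prop

theorem measurePreserving_mk3 :
    MeasurePreserving (fun q : (ℝ × ℝ) × ℝ => mk3 q.1 q.2) volume volume := by
  have h1 : MeasurePreserving (Prod.swap : (ℝ × ℝ) × ℝ → ℝ × (ℝ × ℝ)) volume volume :=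
    Measure.measurePreserving_swap
  have h2 : MeasurePreserving (Prod.map id (MeasurableEquiv.finTwoArrow (α := ℝ)).symm :
      ℝ × (ℝ × ℝ) → ℝ × (Fin 2 → ℝ)) volume volume :=
    (MeasurePreserving.id volume).prod (volume_preserving_finTwoArrow ℝ).symm
  have h3 := (volume_preserving_piFinSuccAbove (fun _ : Fin 3 => ℝ) 2).symm
  have h4 := PiLp.volume_preserving_toLp (Fin 3)
  have e : (fun q : (ℝ × ℝ) × ℝ => mk3 q.1 q.2) = (WithLp.toLp 2) ∘
      (MeasurableEquiv.piFinSuccAbove (fun _ : Fin 3 => ℝ) 2).symm ∘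
        Prod.map id (MeasurableEquiv.finTwoArrow (α := ℝ)).symm ∘ Prod.swap := by
    funext q
    ext c
    fin_cases c <;> rfl
  rw [e]
  exact h4.comp (h3.comp (h2.comp h1))

/-- Coordinates as a homeomorphism. -/
def Coord_homeo : (ℝ × ℝ) × ℝ ≃ₜ Pos3 where
  toFun q := mk3 q.1 q.2
  invFun x := ((x 0, x 1), x 2)
  left_inv q := rfl
  right_inv x := mk3_eta x
  continuous_toFun := continuous_mk3
  continuous_invFun := by fun_prop

theorem measurableEmbedding_mk3 : MeasurableEmbedding fun q : (ℝ × ℝ) × ℝ => mk3 q.1 q.2 := by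
  exact Coord_homeo.measurableEmbedding

theorem integral_mk3 {f : Pos3 → ℝ} (hf : Integrable f) : ∫ x, f x = ∫ p, ∫ z, f (mk3 p z) := by
  rw [← measurePreserving_mk3.integral_comp measurableEmbedding_mk3]
  exact integral_prod _ ((measurePreserving_mk3.integrable_comp_emb measurableEmbedding_mk3).2 hf)

theorem integral_mk3' {f : Pos3 → ℝ} (hf : Integrable f) : ∫ x, f x = ∫ z, ∫ p, f (mk3 p z) := by
  rw [← measurePreserving_mk3.integral_comp measurableEmbedding_mk3]
  exact integral_prod_symm _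
    ((measurePreserving_mk3.integrable_comp_emb measurableEmbedding_mk3).2 hf)

theorem hasDerivAt_mk3_0 {f : Pos3 → ℝ} (hf : Differentiable ℝ f) (s t z : ℝ) :
    HasDerivAt (fun s => f (mk3 (s, t) z)) (pd 0 f (mk3 (s, t) z)) s := by
  have h : HasDerivAt (fun s => mk3 (s, t) z) (EuclideanSpace.single 0 1 : Pos3) s := by
    have e : (fun s => mk3 (s, t) z) = fun r : ℝ => mk3 (0, t) z + r • (EuclideanSpace.single 0 1 : Pos3) := by
      ext r c; fin_cases c <;> simp [mk3]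
    rw [e]
    simpa using ((hasDerivAt_id s).smul_const (EuclideanSpace.single 0 1 : Pos3)).const_add
      (mk3 (0, t) z)
  exact (hf _).hasFDerivAt.comp_hasDerivAt _ h

theorem hasDerivAt_mk3_1 {f : Pos3 → ℝ} (hf : Differentiable ℝ f) (s t z : ℝ) :
    HasDerivAt (fun t => f (mk3 (s, t) z)) (pd 1 f (mk3 (s, t) z)) t := by
  have h : HasDerivAt (fun t => mk3 (s, t) z) (EuclideanSpace.single 1 1 : Pos3) t := by
    have e : (fun t => mk3 (s, t) z) = fun r : ℝ => mk3 (s, 0) z + r • (EuclideanSpace.single 1 1 : Pos3) := by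
      ext r c; fin_cases c <;> simp [mk3]
    rw [e]
    simpa using ((hasDerivAt_id t).smul_const (EuclideanSpace.single 1 1 : Pos3)).const_add
      (mk3 (s, 0) z)
  exact (hf _).hasFDerivAt.comp_hasDerivAt _ h

theorem hasDerivAt_mk3_2 {f : Pos3 → ℝ} (hf : Differentiable ℝ f) (s t z : ℝ) :
    HasDerivAt (fun z => f (mk3 (s, t) z)) (pd 2 f (mk3 (s, t) z)) z := by
  have h : HasDerivAt (fun z => mk3 (s, t) z) (EuclideanSpace.single 2 1 : Pos3) z := by
    have e : (fun z => mk3 (s, t) z) = fun r : ℝ => mk3 (s, t) 0 + r • (EuclideanSpace.single 2 1 : Pos3) := by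
      ext r c; fin_cases c <;> simp [mk3]
    rw [e]
    simpa using ((hasDerivAt_id z).smul_const (EuclideanSpace.single 2 1 : Pos3)).const_add
      (mk3 (s, t) 0)
  exact (hf _).hasFDerivAt.comp_hasDerivAt _ h

theorem Coord_preimage_bx (a a' b b' h : ℝ) :
    (fun q : (ℝ × ℝ) × ℝ => mk3 q.1 q.2) ⁻¹' bx a a' b b' h =
      (Icc a a' ×ˢ Icc b b') ×ˢ Icc (-h) h := by
  ext q
  simp only [bx, mem_preimage, mem_ofPred_eq, mk3_0, mk3_1, mk3_2, mem_prod, and_assoc]

theorem Coord_image_bx (a a' b b' h : ℝ) :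
    (fun q : (ℝ × ℝ) × ℝ => mk3 q.1 q.2) '' ((Icc a a' ×ˢ Icc b b') ×ˢ Icc (-h) h) =
      bx a a' b b' h := by
  rw [← Coord_preimage_bx]
  exact image_preimage_eq _ Coord_homeo.surjective

theorem Coord_intOn {a a' b b' h : ℝ} {f : Pos3 → ℝ} (hf : IntegrableOn f (bx a a' b b' h)) :
    IntegrableOn (fun q : (ℝ × ℝ) × ℝ => f (mk3 q.1 q.2)) ((Icc a a' ×ˢ Icc b b') ×ˢ Icc (-h) h)
      (volume.prod volume) := by
  rw [← Coord_preimage_bx]
  exact (measurePreserving_mk3.integrableOn_comp_preimage measurableEmbedding_mk3).2 hf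

theorem Coord_int {a a' b b' h : ℝ} {f : Pos3 → ℝ} (hf : IntegrableOn f (bx a a' b b' h)) :
    Integrable (fun q : (ℝ × ℝ) × ℝ => f (mk3 q.1 q.2))
      ((volume.restrict (Icc a a' ×ˢ Icc b b')).prod (volume.restrict (Icc (-h) h))) := by
  rw [Measure.prod_restrict]
  exact Coord_intOn hf

theorem isCompact_bx (a a' b b' h : ℝ) : IsCompact (bx a a' b b' h) := by
  rw [← Coord_image_bx]
  exact ((isCompact_Icc.prod isCompact_Icc).prod isCompact_Icc).image continuous_mk3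

theorem measurableSet_bx (a a' b b' h : ℝ) : MeasurableSet (bx a a' b b' h) := by
  exact (isCompact_bx a a' b b' h).measurableSet

theorem volume_bx {a a' b b' h : ℝ} (ha : a ≤ a') (hb : b ≤ b') (hh : 0 ≤ h) :
    volume.real (bx a a' b b' h) = (a' - a) * (b' - b) * (2 * h) := by
  rw [measureReal_def, ← measurePreserving_mk3.measure_preimage
    (measurableSet_bx a a' b b' h).nullMeasurableSet, Coord_preimage_bx, Measure.volume_eq_prod,
    Measure.prod_prod, Measure.volume_eq_prod, Measure.prod_prod]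
  simp only [Real.volume_Icc, ENNReal.toReal_mul]
  rw [ENNReal.toReal_ofReal (by linarith), ENNReal.toReal_ofReal (by linarith),
    ENNReal.toReal_ofReal (by linarith)]
  ring

theorem integral_bx_prod {a a' b b' h : ℝ} {f : Pos3 → ℝ} (hf : IntegrableOn f (bx a a' b b' h)) :
    ∫ x in bx a a' b b' h, f x = ∫ p in Icc a a' ×ˢ Icc b b', ∫ z in Icc (-h) h, f (mk3 p z) := by
  rw [← measurePreserving_mk3.setIntegral_preimage_emb measurableEmbedding_mk3, Coord_preimage_bx]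
  exact setIntegral_prod _ (Coord_intOn hf)

theorem integral_bx_prod' {a a' b b' h : ℝ} {f : Pos3 → ℝ} (hf : IntegrableOn f (bx a a' b b' h)) :
    ∫ x in bx a a' b b' h, f x = ∫ z in Icc (-h) h, ∫ p in Icc a a' ×ˢ Icc b b', f (mk3 p z) := by
  rw [← measurePreserving_mk3.setIntegral_preimage_emb measurableEmbedding_mk3, Coord_preimage_bx]
  have h1 := Coord_int hf
  rw [Measure.volume_eq_prod, ← Measure.prod_restrict]
  exact integral_prod_symm _ h1

theorem integral_bx_012 {a a' b b' h : ℝ} (ha : a ≤ a') (hb : b ≤ b') (hh : 0 ≤ h) {f : Pos3 → ℝ}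
    (hf : IntegrableOn f (bx a a' b b' h)) :
    ∫ x in bx a a' b b' h, f x = ∫ s in a..a', ∫ t in b..b', ∫ z in (-h)..h, f (mk3 (s, t) z) := by
  rw [integral_bx_prod hf]
  simp only [intervalIntegral.integral_of_le ha, intervalIntegral.integral_of_le hb,
    intervalIntegral.integral_of_le (show -h ≤ h by linarith), ← integral_Icc_eq_integral_Ioc]
  have h1 := (Coord_int hf).integral_prod_left
  exact setIntegral_prod (fun p : ℝ × ℝ => ∫ z in Icc (-h) h, f (mk3 p z)) h1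

theorem integral_bx_021 {a a' b b' h : ℝ} (ha : a ≤ a') (hb : b ≤ b') (hh : 0 ≤ h) {f : Pos3 → ℝ}
    (hf : IntegrableOn f (bx a a' b b' h)) :
    ∫ x in bx a a' b b' h, f x = ∫ s in a..a', ∫ z in (-h)..h, ∫ t in b..b', f (mk3 (s, t) z) := by
  rw [integral_bx_012 ha hb hh hf]
  simp only [intervalIntegral.integral_of_le ha, intervalIntegral.integral_of_le hb,
    intervalIntegral.integral_of_le (show -h ≤ h by linarith), ← integral_Icc_eq_integral_Ioc]
  have h1 := Coord_int hf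
  rw [Measure.volume_eq_prod, ← Measure.prod_restrict] at h1
  have h2 := ((measurePreserving_prodAssoc (volume.restrict (Icc a a')) (volume.restrict (Icc b b'))
    (volume.restrict (Icc (-h) h))).symm.integrable_comp_emb
      MeasurableEquiv.prodAssoc.symm.measurableEmbedding).2 h1
  refine integral_congr_ae ?_
  filter_upwards [h2.prod_right_ae] with s hs
  exact integral_integral_swap (f := fun t z => f (mk3 (s, t) z)) hs

theorem integral_bx_120 {a a' b b' h : ℝ} (ha : a ≤ a') (hb : b ≤ b') (hh : 0 ≤ h) {f : Pos3 → ℝ}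
    (hf : IntegrableOn f (bx a a' b b' h)) :
    ∫ x in bx a a' b b' h, f x = ∫ t in b..b', ∫ z in (-h)..h, ∫ s in a..a', f (mk3 (s, t) z) := by
  rw [integral_bx_prod hf]
  simp only [intervalIntegral.integral_of_le ha, intervalIntegral.integral_of_le hb,
    intervalIntegral.integral_of_le (show -h ≤ h by linarith), ← integral_Icc_eq_integral_Ioc]
  have h1 := Coord_int hf
  rw [Measure.volume_eq_prod, ← Measure.prod_restrict] at h1 ⊢
  rw [← integral_prod _ h1]
  have h0 := (measurePreserving_prodAssoc (volume.restrict (Icc a a')) (volume.restrict (Icc b b'))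
    (volume.restrict (Icc (-h) h))).symm
  have h2 := (h0.integrable_comp_emb MeasurableEquiv.prodAssoc.symm.measurableEmbedding).2 h1
  rw [← h0.integral_comp MeasurableEquiv.prodAssoc.symm.measurableEmbedding]
  have h3 := integral_prod_symm _ h2
  have h4 := integral_prod _ h2.integral_prod_right
  exact h3.trans h4

theorem Qc_eq_bx (δ : ℝ) : Qc δ = bx (-(δ / 2)) (δ / 2) (-(δ / 2)) (δ / 2) (δ / 2) := by
  ext x
  simp only [Qc, bx, mem_ofPred_eq, Fin.forall_fin_succ, mem_Icc, abs_le, IsEmpty.forall_iff,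
    and_true]
  rfl

theorem isCompact_Qc (δ : ℝ) : IsCompact (Qc δ) := by
  rw [Qc_eq_bx]; exact isCompact_bx _ _ _ _ _

theorem measurableSet_Qc (δ : ℝ) : MeasurableSet (Qc δ) := by
  exact (isCompact_Qc δ).measurableSet

theorem convex_Qc (δ : ℝ) : Convex ℝ (Qc δ) := by
  intro x hx y hy s t hs ht hst c
  have h1 := abs_le.1 (hx c); have h2 := abs_le.1 (hy c)
  simp only [PiLp.add_apply, PiLp.smul_apply, smul_eq_mul]
  have e : δ / 2 = s * (δ / 2) + t * (δ / 2) := by rw [← add_mul, hst, one_mul]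
  rw [abs_le]
  constructor <;> nlinarith [mul_le_mul_of_nonneg_left h1.1 hs, mul_le_mul_of_nonneg_left h1.2 hs,
    mul_le_mul_of_nonneg_left h2.1 ht, mul_le_mul_of_nonneg_left h2.2 ht]

theorem volume_Qc {δ : ℝ} (h : 0 ≤ δ) : volume.real (Qc δ) = δ ^ 3 := by
  rw [Qc_eq_bx, volume_bx (by linarith) (by linarith) (by linarith)]
  ring

theorem norm_le_of_mem_Qc {δ : ℝ} {y : Pos3} (h : y ∈ Qc δ) : ‖y‖ ≤ 7 / 8 * δ := by
  have h0 := h 0; have h1 := h 1; have h2 := h 2
  have hδ : 0 ≤ δ := by linarith [abs_nonneg (y 0)]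
  refine (pow_le_pow_iff_left₀ (norm_nonneg _) (by positivity) two_ne_zero).1 ?_
  rw [norm_sq_eq, ← sq_abs (y 0), ← sq_abs (y 1), ← sq_abs (y 2)]
  nlinarith [pow_le_pow_left₀ (abs_nonneg _) h0 2, pow_le_pow_left₀ (abs_nonneg _) h1 2,
    pow_le_pow_left₀ (abs_nonneg _) h2 2, sq_nonneg δ]

theorem integral_Qc_neg (δ : ℝ) (f : Pos3 → ℝ) : ∫ y in Qc δ, f (-y) = ∫ y in Qc δ, f y := by
  have e : (fun y : Pos3 => -y) ⁻¹' Qc δ = Qc δ := by
    ext y; simp [Qc]
  have := (Measure.measurePreserving_neg (volume : Measure Pos3)).setIntegral_preimage_emb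
    measurableEmbedding_neg f (Qc δ)
  rw [← this]
  congr 2
  exact e.symm

theorem mem_Lam {I J : ℕ} {β : Fin 3 → ℤ} : β ∈ Lam I J ↔ |β 0| ≤ I ∧ |β 1| ≤ I ∧ |β 2| ≤ J := by
  simp only [Lam, Fintype.mem_piFinset, Fin.forall_fin_succ, IsEmpty.forall_iff, and_true, abs_le]
  simp

theorem Coord_round {δ : ℝ} (h : 0 < δ) (t : ℝ) : |t - δ * (round (t / δ) : ℤ)| ≤ δ / 2 := by
  have h1 := abs_sub_round (t / δ)
  have e : t - δ * (round (t / δ) : ℤ) = δ * (t / δ - (round (t / δ) : ℤ)) := by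
    field_simp
  rw [e, abs_mul, abs_of_pos h]
  nlinarith

theorem Coord_clip {δ : ℝ} (h : 0 < δ) (I : ℕ) {t : ℝ} (ht : |t| ≤ (I + 1 / 2) * δ) :
    ∃ b : ℤ, |b| ≤ I ∧ |t - δ * b| ≤ δ / 2 := by
  have h1 := abs_le.1 (Coord_round h t)
  have h2 := abs_le.1 ht
  set r := round (t / δ)
  have hI : (0 : ℝ) ≤ I := Nat.cast_nonneg I
  by_cases h3 : (I : ℤ) < r
  · refine ⟨I, by simp, ?_⟩
    have : (I : ℝ) + 1 ≤ r := by exact_mod_cast h3
    rw [abs_le]; push_cast
    constructor <;> nlinarith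
  by_cases h4 : r < -(I : ℤ)
  · refine ⟨-I, by simp, ?_⟩
    have : (r : ℝ) + 1 ≤ -I := by exact_mod_cast h4
    rw [abs_le]; push_cast
    constructor <;> nlinarith
  exact ⟨r, abs_le.2 ⟨by omega, by omega⟩, abs_le.2 h1⟩

theorem Coord_abs {δ : ℝ} (h : 0 < δ) {I : ℕ} {b : ℤ} {t : ℝ} (hb : |b| ≤ I)
    (ht : |t - δ * b| ≤ δ / 2) : |t| ≤ (I + 1 / 2) * δ := by
  have h1 := abs_le.1 ht
  have h2 := abs_le.1 hb
  have h3 : -(I : ℝ) ≤ b := by exact_mod_cast h2.1
  have h4 : (b : ℝ) ≤ I := by exact_mod_cast h2.2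
  rw [abs_le]
  constructor <;> nlinarith

/-- A translated cube. -/
def Coord_cell (δ : ℝ) (β : Fin 3 → ℤ) : Set Pos3 := {x | x - lat δ β ∈ Qc δ}

theorem Coord_meas (δ : ℝ) (β : Fin 3 → ℤ) : MeasurableSet (Coord_cell δ β) :=
  (measurable_sub_const (lat δ β)) (measurableSet_Qc δ)

theorem Coord_hyper (c : Fin 3) (r : ℝ) : volume {x : Pos3 | x c = r} = 0 := by
  have hm : MeasurableSet {x : Pos3 | x c = r} :=
    (isClosed_eq (by fun_prop) continuous_const).measurableSet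
  rw [← (PiLp.volume_preserving_toLp (Fin 3)).measure_preimage hm.nullMeasurableSet]
  exact Measure.pi_hyperplane (fun _ : Fin 3 => (volume : Measure ℝ)) c r

theorem Coord_disj {δ : ℝ} (h : 0 < δ) {β β' : Fin 3 → ℤ} (hb : β ≠ β') :
    AEDisjoint volume (Coord_cell δ β) (Coord_cell δ β') := by
  obtain ⟨c, hc⟩ := Function.ne_iff.1 hb
  refine measure_mono_null (fun x hx => ?_) (Coord_hyper c (δ * (β c + β' c) / 2))
  have h1 := abs_le.1 (hx.1 c)
  have h2 := abs_le.1 (hx.2 c)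
  simp only [PiLp.sub_apply, lat_apply] at h1 h2
  show x c = _
  rcases lt_or_gt_of_ne hc with h3 | h3
  · have : (β c : ℝ) + 1 ≤ β' c := by exact_mod_cast h3
    nlinarith
  · have : (β' c : ℝ) + 1 ≤ β c := by exact_mod_cast h3
    nlinarith

theorem Coord_int_cell (δ : ℝ) (β : Fin 3 → ℤ) (f : Pos3 → ℝ) :
    ∫ x in Coord_cell δ β, f x = ∫ y in Qc δ, f (lat δ β + y) := by
  rw [← (measurePreserving_add_left (volume : Measure Pos3) (lat δ β)).setIntegral_preimage_emb
    (measurableEmbedding_addLeft _) f]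
  congr 2
  ext y
  simp [Coord_cell]

theorem exists_cell {δ : ℝ} (h : 0 < δ) (x : Pos3) : ∃ β, x - lat δ β ∈ Qc δ := by
  refine ⟨fun c => round (x c / δ), fun c => ?_⟩
  simp only [PiLp.sub_apply, lat_apply]
  exact Coord_round h (x c)

/-- The translated cubes cover the space and overlap in null sets (`hasSum_integral_iUnion_ae`). -/
theorem hasSum_cells {δ : ℝ} (h : 0 < δ) {f : Pos3 → ℝ} (hf : Integrable f) :
    HasSum (fun β : Fin 3 → ℤ => ∫ y in Qc δ, f (lat δ β + y)) (∫ x, f x) := by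
  have hU : (⋃ β : Fin 3 → ℤ, Coord_cell δ β) = univ := by
    refine eq_univ_of_forall fun x => mem_iUnion.2 (exists_cell h x)
  have := hasSum_integral_iUnion_ae (μ := volume) (f := f) (s := fun β : Fin 3 → ℤ => Coord_cell δ β)
    (fun β => (Coord_meas δ β).nullMeasurableSet) (fun β β' hb => Coord_disj h hb) hf.integrableOn
  rw [hU, Measure.restrict_univ] at this
  simpa only [Coord_int_cell] using this

theorem integral_slab {δ : ℝ} (h : 0 < δ) (I J : ℕ) {f : Pos3 → ℝ}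
    (hf : IntegrableOn f (bx (-((I + 1 / 2) * δ)) ((I + 1 / 2) * δ) (-((I + 1 / 2) * δ))
      ((I + 1 / 2) * δ) ((J + 1 / 2) * δ))) :
    ∫ x in bx (-((I + 1 / 2) * δ)) ((I + 1 / 2) * δ) (-((I + 1 / 2) * δ)) ((I + 1 / 2) * δ)
      ((J + 1 / 2) * δ), f x = ∑ β ∈ Lam I J, ∫ y in Qc δ, f (lat δ β + y) := by
  have hU : (⋃ β : Lam I J, Coord_cell δ β) = bx (-((I + 1 / 2) * δ)) ((I + 1 / 2) * δ)
      (-((I + 1 / 2) * δ)) ((I + 1 / 2) * δ) ((J + 1 / 2) * δ) := by
    ext x
    simp only [mem_iUnion, bx, mem_ofPred_eq, mem_Icc, ← abs_le]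
    constructor
    · rintro ⟨⟨β, hβ⟩, hx⟩
      rw [mem_Lam] at hβ
      exact ⟨Coord_abs h hβ.1 (hx 0), Coord_abs h hβ.2.1 (hx 1), Coord_abs h hβ.2.2 (hx 2)⟩
    · rintro ⟨h0, h1, h2⟩
      obtain ⟨b0, hb0, hc0⟩ := Coord_clip h I h0
      obtain ⟨b1, hb1, hc1⟩ := Coord_clip h I h1
      obtain ⟨b2, hb2, hc2⟩ := Coord_clip h J h2
      refine ⟨⟨![b0, b1, b2], mem_Lam.2 ⟨hb0, hb1, hb2⟩⟩, fun c => ?_⟩
      fin_cases c
      exacts [hc0, hc1, hc2]
  have := hasSum_integral_iUnion_ae (μ := volume) (f := f)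
    (s := fun β : Lam I J => Coord_cell δ β)
    (fun β => (Coord_meas δ β).nullMeasurableSet)
    (fun β β' hb => Coord_disj h fun e => hb (Subtype.ext e)) (by rw [hU]; exact hf)
  rw [hU] at this
  rw [← Finset.sum_coe_sort, ← this.tsum_eq, tsum_fintype]
  simp only [Coord_int_cell]

end Crest.Agent.R338
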