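/-
R338/Kern: the Coulomb kernel: integrals and Taylor bounds
Skeleton by helper15 (row 338); keep the statements unchanged, add any helper lemmas you like.
-/
import Crest.Agent.R338.Coord

set_option autoImplicit false
set_option linter.unusedSectionVars false
set_option linter.unusedVariables false
set_option linter.unusedSimpArgs false

noncomputable section

namespace Crest.Agent.R338

open MeasureTheory Set Crest.MathPhysics.ElectronicCoulomb
open scoped RealInnerProductSpace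

theorem Kn_nonneg (x : Pos3) : 0 ≤ Kn x := by
  unfold Kn; positivity

@[simp] theorem Kn_neg (x : Pos3) : Kn (-x) = Kn x := by
  simp [Kn]

theorem Kern_sub_comm (x y : Pos3) : Kn (x - y) = Kn (y - x) := by
  rw [← Kn_neg, neg_sub]

theorem measurable_Kn : Measurable Kn :=
  measurable_const.div measurable_norm

theorem measurable_gK : Measurable gK :=
  ((measurable_norm.pow_const 3).inv.neg).smul measurable_id

theorem norm_gK (v : Pos3) : ‖gK v‖ = Kn v ^ 2 := by
  unfold gK Kn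
  rw [norm_smul, norm_neg, norm_inv, norm_pow, norm_norm]
  by_cases h : ‖v‖ = 0
  · simp [h]
  · field_simp

theorem Kn_le_of_le {x : Pos3} {r : ℝ} (hr : 0 < r) (h : r ≤ ‖x‖) : Kn x ≤ 1 / r :=
  one_div_le_one_div_of_le hr h

theorem Kern_finrank : Module.finrank ℝ Pos3 = 3 := by simp

/-- `integrableOn_ball_of_norm_le_rpow` or `integrable_fun_norm_addHaar`. -/
theorem locallyIntegrable_Kn : LocallyIntegrable Kn := by
  refine locallyIntegrable_of_norm_le_rpow (C := 1) (α := 1) (by simp) (by simp)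
    (ae_of_all _ fun x => ?_) measurable_Kn.aestronglyMeasurable
  rw [Real.norm_of_nonneg (Kn_nonneg x), Real.rpow_neg_one, Kn, one_mul, one_div]

theorem locallyIntegrable_Kn_sq : LocallyIntegrable fun x => Kn x ^ 2 := by
  refine locallyIntegrable_of_norm_le_rpow (C := 1) (α := 2) (by simp) (by simp; norm_num)
    (ae_of_all _ fun x => ?_) (measurable_Kn.pow_const 2).aestronglyMeasurable
  rw [Real.norm_of_nonneg (sq_nonneg _), Real.rpow_neg (norm_nonneg _), Kn, one_mul, one_div,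
    Real.rpow_two, inv_pow]

theorem Kern_integrableOn {Φ : Pos3 → ℝ} (h : LocallyIntegrable Φ) (x : Pos3) {s : Set Pos3}
    (hs : Bornology.IsBounded s) : IntegrableOn (fun y => Φ (x - y)) s := by
  obtain ⟨R, hR⟩ := hs.exists_norm_le
  have h1 : Integrable ((Metric.closedBall (0 : Pos3) (‖x‖ + R)).indicator Φ) :=
    (integrable_indicator_iff measurableSet_closedBall).2
      (h.integrableOn_isCompact (isCompact_closedBall _ _))
  have h2 : IntegrableOn (fun y => Φ (x - y)) (Metric.closedBall 0 R) := by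
    refine (h1.comp_sub_left x).integrableOn.congr_fun (fun y hy => ?_) measurableSet_closedBall
    refine indicator_of_mem ?_ _
    rw [mem_closedBall_zero_iff] at hy ⊢
    exact (norm_sub_le _ _).trans (by linarith)
  exact h2.mono_set fun y hy => mem_closedBall_zero_iff.2 (hR y hy)

theorem integrableOn_Kn (x : Pos3) {s : Set Pos3} (hs : Bornology.IsBounded s) :
    IntegrableOn (fun y => Kn (x - y)) s :=
  Kern_integrableOn locallyIntegrable_Kn x hs

theorem integrableOn_Kn_sq (x : Pos3) {s : Set Pos3} (hs : Bornology.IsBounded s) :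
    IntegrableOn (fun y => Kn (x - y) ^ 2) s :=
  Kern_integrableOn locallyIntegrable_Kn_sq x hs

/-- split the kernel at distance `R` -/
theorem Kern_split (k : ℕ) (x : Pos3) {r R : ℝ} (hrR : r ≤ R) (hR : 0 < R) {s : Set Pos3}
    (hs : MeasurableSet s) (hsR : s ⊆ Metric.ball 0 R) (hsr : ∀ y ∈ s, r ≤ ‖x - y‖) (φ : ℝ → ℝ)
    (hφ : ContinuousOn φ (Icc r R)) (hφ0 : ∀ t ∈ Icc r R, 0 ≤ φ t)
    (hφk : ∀ t, 0 < t → t ^ 2 * (1 / t) ^ k = φ t) :
    ∫ y in s, Kn (x - y) ^ k ≤ (volume : Measure Pos3).real (Metric.ball 0 1) *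
      (3 * (∫ t in r..R, φ t) + R ^ 3 * (1 / R) ^ k) := by
  set h : ℝ → ℝ := (Icc r R).indicator fun t => (1 / t) ^ k with hh
  have hφi : Integrable ((Icc r R).indicator φ) :=
    (integrable_indicator_iff measurableSet_Icc).2 hφ.integrableOn_Icc
  have heq : EqOn ((Icc r R).indicator φ) (fun t => t ^ (Module.finrank ℝ Pos3 - 1) • h t)
      (Ioi 0) := by
    intro t ht
    simp only [Kern_finrank, hh, smul_eq_mul]
    by_cases h1 : t ∈ Icc r R
    · rw [indicator_of_mem h1, indicator_of_mem h1, hφk t ht]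
    · rw [indicator_of_notMem h1, indicator_of_notMem h1, mul_zero]
  have hgi : Integrable fun z : Pos3 => h ‖z‖ :=
    (integrable_fun_norm_addHaar volume).2 (hφi.integrableOn.congr_fun heq measurableSet_Ioi)
  have hg0 : ∀ z : Pos3, 0 ≤ h ‖z‖ := fun z => by
    rw [hh, indicator_apply]
    split_ifs
    · positivity
    · exact le_rfl
  have hV : 0 ≤ (volume : Measure Pos3).real (Metric.ball 0 1) := measureReal_nonneg
  have hg : ∫ z : Pos3, h ‖z‖ ≤ (volume : Measure Pos3).real (Metric.ball 0 1) *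
      (3 * ∫ t in r..R, φ t) := by
    rw [integral_fun_norm_addHaar volume h, ← setIntegral_congr_fun measurableSet_Ioi heq,
      Kern_finrank]
    have h2 : ∫ t in Ioi 0, (Icc r R).indicator φ t ≤ ∫ t in r..R, φ t := by
      refine (setIntegral_le_integral hφi (ae_of_all _ fun t =>
        indicator_nonneg (fun t ht => hφ0 t ht) t)).trans (le_of_eq ?_)
      rw [integral_indicator measurableSet_Icc, intervalIntegral.integral_of_le hrR,
        integral_Icc_eq_integral_Ioc]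
    simp only [nsmul_eq_mul, smul_eq_mul, Nat.cast_ofNat]
    nlinarith [mul_le_mul_of_nonneg_left h2 hV]
  have hfin : volume s < ⊤ := (measure_mono hsR).trans_lt measure_ball_lt_top
  have hvol : (volume : Measure Pos3).real s ≤
      R ^ 3 * (volume : Measure Pos3).real (Metric.ball 0 1) := by
    refine (measureReal_mono (hsR.trans Metric.ball_subset_closedBall)
      measure_closedBall_lt_top.ne).trans (le_of_eq ?_)
    rw [Measure.addHaar_real_closedBall _ _ hR.le, Kern_finrank]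
  have hc : IntegrableOn (fun _ : Pos3 => (1 / R) ^ k) s := integrableOn_const hfin.ne
  calc ∫ y in s, Kn (x - y) ^ k ≤ ∫ y in s, (h ‖x - y‖ + (1 / R) ^ k) := by
        refine integral_mono_of_nonneg (ae_of_all _ fun y => pow_nonneg (Kn_nonneg _) k)
          ((hgi.comp_sub_left x).integrableOn.add hc) ?_
        refine (ae_restrict_iff' hs).2 (ae_of_all _ fun y hy => ?_)
        by_cases h1 : ‖x - y‖ ≤ R
        · have h2 : h ‖x - y‖ = Kn (x - y) ^ k :=
            indicator_of_mem (mem_Icc.2 ⟨hsr y hy, h1⟩) _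
          simp only [h2]
          exact le_add_of_nonneg_right (by positivity)
        · exact (pow_le_pow_left₀ (Kn_nonneg _) (Kn_le_of_le hR (not_le.1 h1).le) k).trans
            (le_add_of_nonneg_left (hg0 _))
    _ = (∫ y in s, h ‖x - y‖) + (volume : Measure Pos3).real s * (1 / R) ^ k := by
        rw [integral_add (hgi.comp_sub_left x).integrableOn hc, setIntegral_const, smul_eq_mul]
    _ ≤ (volume : Measure Pos3).real (Metric.ball 0 1) * (3 * ∫ t in r..R, φ t) +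
          R ^ 3 * (volume : Measure Pos3).real (Metric.ball 0 1) * (1 / R) ^ k := by
        refine add_le_add ?_ (mul_le_mul_of_nonneg_right hvol (by positivity))
        refine (setIntegral_le_integral (hgi.comp_sub_left x) (ae_of_all _ fun y => hg0 _)).trans ?_
        rw [integral_sub_left_eq_self (fun z : Pos3 => h ‖z‖) volume x]
        exact hg
    _ = _ := by ring

/-- If `‖x‖ ≤ 2 R` the ball lies in `ball x (3 R)` (scaling or `integral_fun_norm_addHaar`),
otherwise the integrand is at most `1 / R`. -/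
theorem int_ball_one : ∃ C, ∀ (x : Pos3) (R : ℝ), 0 < R →
    ∫ y in Metric.ball 0 R, Kn (x - y) ≤ C * R ^ 2 := by
  refine ⟨(volume : Measure Pos3).real (Metric.ball 0 1) * (5 / 2), fun x R hR => ?_⟩
  have h := Kern_split 1 x hR.le hR measurableSet_ball subset_rfl (fun y _ => norm_nonneg _)
    (fun t => t) continuousOn_id (fun t ht => ht.1) (fun t ht => by field_simp)
  simp only [pow_one] at h
  refine h.trans (le_of_eq ?_)
  rw [integral_id]
  field_simp
  ring

theorem int_ball_two : ∃ C, ∀ (x : Pos3) (R : ℝ), 0 < R →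
    ∫ y in Metric.ball 0 R, Kn (x - y) ^ 2 ≤ C * R := by
  refine ⟨(volume : Measure Pos3).real (Metric.ball 0 1) * 4, fun x R hR => ?_⟩
  have h := Kern_split 2 x hR.le hR measurableSet_ball subset_rfl (fun y _ => norm_nonneg _)
    (fun _ => 1) continuousOn_const (fun t _ => zero_le_one) (fun t ht => by field_simp)
  refine h.trans (le_of_eq ?_)
  rw [integral_one]
  field_simp
  ring

theorem int_shell_three : ∃ C, ∀ (x : Pos3) (r R : ℝ), 0 < r → r ≤ R →
    ∫ y in Metric.ball 0 R ∩ {y | r ≤ ‖x - y‖}, Kn (x - y) ^ 3 ≤ C * (1 + Real.log (R / r)) := by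
  refine ⟨(volume : Measure Pos3).real (Metric.ball 0 1) * 3, fun x r R hr hrR => ?_⟩
  have hR : 0 < R := hr.trans_le hrR
  have hm : MeasurableSet {y : Pos3 | r ≤ ‖x - y‖} :=
    measurableSet_le measurable_const (measurable_const.sub measurable_id).norm
  have h := Kern_split 3 x hrR hR (measurableSet_ball.inter hm) inter_subset_left
    (fun y hy => hy.2) (fun t => 1 / t)
    (continuousOn_const.div continuousOn_id fun t ht => (hr.trans_le ht.1).ne')
    (fun t ht => (one_div_pos.2 (hr.trans_le ht.1)).le) (fun t ht => by field_simp)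
  refine h.trans ?_
  rw [integral_one_div_of_pos hr hR, mul_assoc]
  refine mul_le_mul_of_nonneg_left ?_ measureReal_nonneg
  have : R ^ 3 * (1 / R) ^ 3 = 1 := by field_simp
  linarith

theorem Kern_real2 {a b c n : ℝ} (ha : 0 < a) (hb : 0 ≤ b) (hba : 2 * b ≤ a) (hc : |c| ≤ a * b)
    (hn : |n - a| ≤ b) (hn2 : n ^ 2 = a ^ 2 + 2 * c + b ^ 2) :
    |1 / n - 1 / a - -(a ^ 3)⁻¹ * c - (3 * c ^ 2 * (1 / a) ^ 5 - b ^ 2 * (1 / a) ^ 3) / 2| ≤
      6 * b ^ 3 * (1 / a) ^ 4 := by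
  obtain ⟨h1, h2⟩ := abs_le.1 hn
  have hn0 : 0 < n := by linarith
  have e : 1 / n - 1 / a - -(a ^ 3)⁻¹ * c - (3 * c ^ 2 * (1 / a) ^ 5 - b ^ 2 * (1 / a) ^ 3) / 2 =
      ((a - n) ^ 3 * ((8 * a ^ 2 + 9 * a * n + 3 * n ^ 2) / (8 * n * a)) +
        b ^ 2 * (3 * (4 * c + b ^ 2) / (8 * a))) * (1 / a) ^ 4 := by
    obtain rfl : c = (n ^ 2 - a ^ 2 - b ^ 2) / 2 := by linarith
    field_simp
    ring
  rw [e, abs_mul, abs_of_nonneg (a := (1 / a) ^ 4) (by positivity)]
  refine mul_le_mul_of_nonneg_right ((abs_add_le _ _).trans ?_) (by positivity)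
  have q1 : (8 * a ^ 2 + 9 * a * n + 3 * n ^ 2) / (8 * n * a) ≤ 4 := by
    rw [div_le_iff₀ (by positivity)]
    nlinarith [mul_nonneg (show 0 ≤ 2 * n - a by linarith) ha.le,
      mul_nonneg (show 0 ≤ 3 * a - 2 * n by linarith) hn0.le]
  have q2 : |3 * (4 * c + b ^ 2) / (8 * a)| ≤ 2 * b := by
    obtain ⟨h3, h4⟩ := abs_le.1 hc
    rw [abs_div, abs_of_pos (a := 8 * a) (by positivity), div_le_iff₀ (by positivity), abs_le]
    constructor <;> nlinarith [mul_nonneg hb ha.le, mul_nonneg hb (sub_nonneg.2 hba)]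
  have q3 : |a - n| ^ 3 ≤ b ^ 3 := pow_le_pow_left₀ (abs_nonneg _) (by rwa [abs_sub_comm]) 3
  rw [abs_mul, abs_mul, abs_pow, abs_of_nonneg (a := b ^ 2) (by positivity),
    abs_of_nonneg (a := (8 * a ^ 2 + 9 * a * n + 3 * n ^ 2) / (8 * n * a)) (by positivity)]
  have q4 := mul_le_mul q3 q1 (by positivity) (by positivity)
  have q5 := mul_le_mul_of_nonneg_left q2 (sq_nonneg b)
  nlinarith

theorem Kern_real1 {a b c n : ℝ} (ha : 0 < a) (hb : 0 ≤ b) (hba : 2 * b ≤ a)
    (hn : |n - a| ≤ b) (hn2 : n ^ 2 = a ^ 2 + 2 * c + b ^ 2) :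
    |1 / n - 1 / a - -(a ^ 3)⁻¹ * c| ≤ 3 * b ^ 2 * (1 / a) ^ 3 := by
  obtain ⟨h1, h2⟩ := abs_le.1 hn
  have hn0 : 0 < n := by linarith
  have e : 1 / n - 1 / a - -(a ^ 3)⁻¹ * c =
      ((n - a) ^ 2 * ((n + 2 * a) / (2 * n)) - b ^ 2 / 2) * (1 / a) ^ 3 := by
    obtain rfl : c = (n ^ 2 - a ^ 2 - b ^ 2) / 2 := by linarith
    field_simp
    ring
  rw [e, abs_mul, abs_of_nonneg (a := (1 / a) ^ 3) (by positivity)]
  refine mul_le_mul_of_nonneg_right ?_ (by positivity)
  have q1 : (n + 2 * a) / (2 * n) ≤ 5 / 2 := by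
    rw [div_le_iff₀ (by positivity)]
    linarith
  have q3 : (n - a) ^ 2 ≤ b ^ 2 := sq_le_sq' h1 h2
  have q4 := mul_le_mul q3 q1 (by positivity) (by positivity)
  have q5 : 0 ≤ (n - a) ^ 2 * ((n + 2 * a) / (2 * n)) := by positivity
  rw [abs_le]
  constructor <;> nlinarith [sq_nonneg b]

theorem Kern_abs_norm (v w : Pos3) : |‖v + w‖ - ‖v‖| ≤ ‖w‖ := by
  simpa using abs_norm_sub_norm_le (v + w) v

theorem Kern_inner_gK (v w : Pos3) : ⟪gK v, w⟫ = -(‖v‖ ^ 3)⁻¹ * ⟪v, w⟫ :=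
  real_inner_smul_left _ _ _

/-- Recipe for the three Taylor bounds: `Kn (v + w) = ‖v‖⁻¹ / √(1 + s)` with
`s = (2 ⟪v, w⟫ + ‖w‖²) / ‖v‖² ∈ [-3/4, 5/4]`, `|s| ≤ 3 ‖w‖ / ‖v‖`, and
`|1/√(1+s) - 1 + s/2 - 3 s²/8| ≤ C |s|³` (put `q = √(1+s) ∈ [1/2, 3/2]`; the expression is
`(q-1)³ · polynomial / q` and `|q - 1| ≤ |s|`). -/
theorem taylor2 : ∃ C, ∀ v w : Pos3, v ≠ 0 → 2 * ‖w‖ ≤ ‖v‖ →
    |Kn (v + w) - Kn v - ⟪gK v, w⟫ - (3 * ⟪v, w⟫ ^ 2 * Kn v ^ 5 - ‖w‖ ^ 2 * Kn v ^ 3) / 2| ≤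
      C * ‖w‖ ^ 3 * Kn v ^ 4 := by
  refine ⟨6, fun v w hv h => ?_⟩
  rw [Kern_inner_gK]
  exact Kern_real2 (norm_pos_iff.2 hv) (norm_nonneg w) h (abs_real_inner_le_norm v w)
    (Kern_abs_norm v w) (norm_add_sq_real v w)

theorem taylor1 : ∃ C, ∀ v w : Pos3, v ≠ 0 → 2 * ‖w‖ ≤ ‖v‖ →
    |Kn (v + w) - Kn v - ⟪gK v, w⟫| ≤ C * ‖w‖ ^ 2 * Kn v ^ 3 := by
  refine ⟨3, fun v w hv h => ?_⟩
  rw [Kern_inner_gK]
  exact Kern_real1 (norm_pos_iff.2 hv) (norm_nonneg w) h (Kern_abs_norm v w) (norm_add_sq_real v w)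

theorem gK_lip : ∃ C, ∀ v w : Pos3, v ≠ 0 → 2 * ‖w‖ ≤ ‖v‖ →
    ‖gK (v + w) - gK v‖ ≤ C * ‖w‖ * Kn v ^ 3 := by
  refine ⟨48, fun v w hv h => ?_⟩
  have e : gK (v + w) - gK v =
      ((‖v‖ ^ 3)⁻¹ - (‖v + w‖ ^ 3)⁻¹) • v - (‖v + w‖ ^ 3)⁻¹ • w := by
    unfold gK
    module
  have hn := Kern_abs_norm v w
  have ha : 0 < ‖v‖ := norm_pos_iff.2 hv
  have hb : 0 ≤ ‖w‖ := norm_nonneg w
  rw [e]
  refine (norm_sub_le _ _).trans ?_
  rw [norm_smul, norm_smul, Real.norm_eq_abs, Real.norm_eq_abs, Kn]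
  generalize ‖v + w‖ = n at *
  generalize ‖v‖ = a at *
  generalize ‖w‖ = b at *
  obtain ⟨h1, h2⟩ := abs_le.1 hn
  have hn0 : 0 < n := by linarith
  have q1 : (n ^ 3)⁻¹ ≤ 8 * (1 / a) ^ 3 := by
    have : (n ^ 3)⁻¹ ≤ ((a / 2) ^ 3)⁻¹ :=
      inv_anti₀ (by positivity) (pow_le_pow_left₀ (by positivity) (by linarith) 3)
    refine this.trans (le_of_eq ?_)
    field_simp
    norm_num
  have e2 : (a ^ 3)⁻¹ - (n ^ 3)⁻¹ = (n - a) * ((n ^ 2 + n * a + a ^ 2) / a ^ 3 * (n ^ 3)⁻¹) := by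
    field_simp
    ring
  have q2 : (n ^ 2 + n * a + a ^ 2) / a ^ 3 * a ≤ 5 := by
    rw [div_mul_eq_mul_div, div_le_iff₀ (by positivity)]
    have h3 : n ≤ 3 / 2 * a := by linarith
    have h4 : n ^ 2 ≤ (3 / 2 * a) ^ 2 := pow_le_pow_left₀ hn0.le h3 2
    have h5 : n ^ 2 + n * a + a ^ 2 ≤ 5 * a ^ 2 := by nlinarith
    nlinarith [mul_le_mul_of_nonneg_right h5 ha.le]
  rw [e2, abs_mul, abs_of_nonneg (a := (n ^ 3)⁻¹) (by positivity),
    abs_of_nonneg (a := (n ^ 2 + n * a + a ^ 2) / a ^ 3 * (n ^ 3)⁻¹) (by positivity)]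
  calc _ = |n - a| * ((n ^ 2 + n * a + a ^ 2) / a ^ 3 * a) * (n ^ 3)⁻¹ + (n ^ 3)⁻¹ * b := by ring
    _ ≤ b * 5 * (8 * (1 / a) ^ 3) + 8 * (1 / a) ^ 3 * b := by gcongr
    _ = _ := by ring

theorem pot_sum {κ : Type} (s : Finset κ) (p : κ → Pos3) :
    Pot fun x => ∑ β ∈ s, Kn (x - p β) := by
  refine ⟨Finset.measurable_sum _ fun β _ => measurable_Kn.comp (measurable_id.sub_const _),
    fun x => Finset.sum_nonneg fun β _ => Kn_nonneg _, locallyIntegrable_finsetSum _ fun β _ => ?_⟩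
  rw [locallyIntegrable_iff]
  intro K hK
  simpa only [Kern_sub_comm (p β)] using integrableOn_Kn (p β) hK.isBounded

theorem Nice.integrable_loc_mul {Φ f : Pos3 → ℝ} (hf : Nice f) (h : LocallyIntegrable Φ) :
    Integrable fun x => Φ x * f x := by
  obtain ⟨C, hC⟩ := hf.bdd
  have h1 : Function.support (fun x => Φ x * f x) ⊆ closure (Function.support f) :=
    (Function.support_mul_subset_right _ _).trans subset_closure
  rw [← integrableOn_iff_integrable_of_support_subset h1]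
  exact (h.integrableOn_isCompact hf.supp.isCompact_closure).mul_bdd
    hf.meas.aestronglyMeasurable (ae_of_all _ hC)

theorem integrable_Kn_prod {f g : Pos3 → ℝ} (hf : Nice f) (hg : Nice g) :
    Integrable fun p : Pos3 × Pos3 => Kn (p.1 - p.2) * (f p.1 * g p.2) := by
  obtain ⟨C, hC⟩ := hf.bdd
  obtain ⟨R, hR⟩ := hf.supp.exists_norm_le
  obtain ⟨R', hR'⟩ := hg.supp.exists_norm_le
  have h1 : Integrable ((Metric.closedBall (0 : Pos3) (R + R')).indicator Kn) :=
    (integrable_indicator_iff measurableSet_closedBall).2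
      (locallyIntegrable_Kn.integrableOn_isCompact (isCompact_closedBall _ _))
  have h2 := (hg.integrable.convolution_integrand (ContinuousLinearMap.mul ℝ ℝ) h1).mul_bdd
    (g := fun p : Pos3 × Pos3 => f p.1) (hf.meas.comp measurable_fst).aestronglyMeasurable
    (ae_of_all _ fun p => hC p.1)
  refine h2.congr (ae_of_all _ fun p => ?_)
  simp only [ContinuousLinearMap.mul_apply']
  by_cases h3 : f p.1 = 0
  · simp [h3]
  by_cases h4 : g p.2 = 0
  · simp [h4]
  rw [indicator_of_mem (mem_closedBall_zero_iff.2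
    ((norm_sub_le _ _).trans (add_le_add (hR _ h3) (hR' _ h4))))]
  ring

end Crest.Agent.R338
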