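/-
R338/Hardy: Hardy and Poincare inequalities
Skeleton by helper15 (row 338); keep the statements unchanged, add any helper lemmas you like.
-/
import Crest.Agent.R338.Kern

set_option autoImplicit false
set_option linter.unusedSectionVars false
set_option linter.unusedVariables false
set_option linter.unusedSimpArgs false

noncomputable section

namespace Crest.Agent.R338

open MeasureTheory Set Crest.MathPhysics.ElectronicCoulomb
open scoped RealInnerProductSpace

theorem hardy_integrable {f : Pos3 → ℝ} (hf : Test f) (p : Pos3) :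
    Integrable fun x => Kn (x - p) ^ 2 * f x ^ 2 := by
  have hK : IsCompact (tsupport f) := hf.supp
  have h1 : IntegrableOn (fun y => Kn (y - p) ^ 2) (tsupport f) := by
    have := integrableOn_Kn_sq p hK.isBounded
    refine this.congr_fun (fun y _ => ?_) hK.measurableSet
    show Kn (p - y) ^ 2 = Kn (y - p) ^ 2
    rw [← Kn_neg, neg_sub]
  have h2 : IntegrableOn (fun y => Kn (y - p) ^ 2 * f y ^ 2) (tsupport f) :=
    h1.mul_continuousOn (hf.continuous.pow 2).continuousOn hK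
  refine (integrableOn_iff_integrable_of_support_subset ?_).1 h2
  intro y hy
  by_contra hn
  apply hy
  simp [image_eq_zero_of_notMem_tsupport hn]

theorem hardy_contDiff_den (p : Pos3) (η : ℝ) :
    ContDiff ℝ 1 fun x : Pos3 => (x 0 - p 0) ^ 2 + (x 1 - p 1) ^ 2 + (x 2 - p 2) ^ 2 + η := by
  fun_prop

theorem hardy_pd_coord (c c' : Fin 3) (p x : Pos3) :
    pd c (fun y : Pos3 => y c' - p c') x = if c = c' then 1 else 0 := by
  have h : HasDerivAt (fun t : ℝ => t - p c') 1 (x c') := (hasDerivAt_id _).sub_const _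
  exact pd_coord c c' h

theorem hardy_pd_den (c : Fin 3) (p x : Pos3) (η : ℝ) :
    pd c (fun x : Pos3 => (x 0 - p 0) ^ 2 + (x 1 - p 1) ^ 2 + (x 2 - p 2) ^ 2 + η) x =
      2 * (x c - p c) := by
  have h : ∀ c' : Fin 3, pd c (fun y : Pos3 => (y c' - p c') ^ 2) x =
      if c = c' then 2 * (x c' - p c') else 0 := fun c' => by
    have h : HasDerivAt (fun t : ℝ => (t - p c') ^ 2) (2 * (x c' - p c')) (x c') := by
      have := ((hasDerivAt_id (x c')).sub_const (p c')).fun_pow 2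
      simpa using this
    exact pd_coord c c' h
  have h0 : pd c (fun _ : Pos3 => η) x = 0 := by simp [pd]
  rw [pd_add c (by fun_prop) (by fun_prop), pd_add c (by fun_prop) (by fun_prop),
    pd_add c (by fun_prop) (by fun_prop), h 0, h 1, h 2, h0]
  fin_cases c <;> simp

theorem hardy_eta {f : Pos3 → ℝ} (hf : Test f) (p : Pos3) {η : ℝ} (hη : 0 < η) :
    ∫ x, (‖x - p‖ ^ 2 + η)⁻¹ * f x ^ 2 ≤ 4 * ∫ x, gsq f x := by
  set s : Pos3 → ℝ := fun x => (x 0 - p 0) ^ 2 + (x 1 - p 1) ^ 2 + (x 2 - p 2) ^ 2 + η with hs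
  have hspos : ∀ x, 0 < s x := fun x => by simp only [hs]; positivity
  have hsn : ∀ x, ‖x - p‖ ^ 2 + η = s x := fun x => by
    rw [norm_sq_eq]; simp [hs]
  have hsd : ContDiff ℝ 1 s := hardy_contDiff_den p η
  have hsi : ContDiff ℝ 1 fun x => (s x)⁻¹ := hsd.inv fun x => (hspos x).ne'
  set X : Fin 3 → Pos3 → ℝ := fun c x => (x c - p c) * (s x)⁻¹ with hX
  have hXd : ∀ c, ContDiff ℝ 1 (X c) := fun c => by
    refine ContDiff.mul ?_ hsi
    fun_prop
  have hpX : ∀ c x, pd c (X c) x = (s x)⁻¹ - 2 * (x c - p c) ^ 2 * (s x)⁻¹ ^ 2 := fun c x => by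
    have h1 : pd c (fun y => (s y)⁻¹) x = -((s x) ^ 2)⁻¹ * pd c s x :=
      pd_comp c (h := fun t => t⁻¹) (hasDerivAt_inv (hspos x).ne')
        (hsd.differentiable one_ne_zero x)
    simp only [hX]
    rw [pd_mul c (by fun_prop) (hsi.differentiable one_ne_zero x), hardy_pd_coord, h1,
      hardy_pd_den]
    simp only [if_true]
    ring_nf
  have hfd : ∀ x, DifferentiableAt ℝ f x := fun x => hf.diff.differentiable one_ne_zero x
  have hf2 : Test fun x => f x * f x := hf.mul_left hf.diff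
  have hparts : ∀ c, ∫ x, pd c (fun y => f y * f y) x * X c x =
      -∫ x, f x * f x * pd c (X c) x := fun c => hf2.integral_pd_mul (hXd c) c
  have hiA : ∀ c, Integrable fun x => pd c (fun y => f y * f y) x * X c x := fun c =>
    ((continuous_pd c hf2.diff).mul (hXd c).continuous).integrable_of_hasCompactSupport
      (hf2.supp_pd c).mul_right
  have hiB : ∀ c, Integrable fun x => f x * f x * pd c (X c) x := fun c =>
    (hf2.continuous.mul (continuous_pd c (hXd c))).integrable_of_hasCompactSupport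
      hf2.supp.mul_right
  have hiG : Integrable fun x => gsq f x := by
    simpa using hf.integrable_gsq (g := fun _ => 1) continuous_const
  have hiL : Integrable fun x => (s x)⁻¹ * f x ^ 2 := hf.integrable_sq hsi.continuous
  have hzero : ∫ x, ∑ c, (pd c (fun y => f y * f y) x * X c x + f x * f x * pd c (X c) x) = 0 := by
    rw [integral_finsetSum (f := fun c x => pd c (fun y => f y * f y) x * X c x +
      f x * f x * pd c (X c) x) _ fun c _ => (hiA c).add (hiB c)]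
    refine Finset.sum_eq_zero fun c _ => ?_
    rw [integral_add (hiA c) (hiB c), hparts c]
    ring
  have hiS : Integrable fun x =>
      ∑ c, (pd c (fun y => f y * f y) x * X c x + f x * f x * pd c (X c) x) :=
    integrable_finsetSum _ fun c _ => (hiA c).add (hiB c)
  have hpt : ∀ x, (s x)⁻¹ * f x ^ 2 ≤
      2 * (∑ c, (pd c (fun y => f y * f y) x * X c x + f x * f x * pd c (X c) x)) +
        4 * gsq f x := fun x => by
    simp only [Fin.sum_univ_three, gsq, pd_mul _ (hfd x) (hfd x), hpX]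
    simp only [hX]
    have ht : 0 < (s x)⁻¹ := inv_pos.2 (hspos x)
    have h1 : ((x 0 - p 0) ^ 2 + (x 1 - p 1) ^ 2 + (x 2 - p 2) ^ 2) * (s x)⁻¹ ≤ 1 := by
      rw [← div_eq_mul_inv, div_le_one (hspos x)]
      simp only [hs]
      linarith
    generalize (s x)⁻¹ = t at ht h1
    generalize x 0 - p 0 = a at h1
    generalize x 1 - p 1 = b at h1
    generalize x 2 - p 2 = d at h1
    generalize pd 0 f x = u
    generalize pd 1 f x = v
    generalize pd 2 f x = w
    generalize f x = F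
    have h2 : (a ^ 2 + b ^ 2 + d ^ 2) * t * (t * F ^ 2) ≤ 1 * (t * F ^ 2) :=
      mul_le_mul_of_nonneg_right h1 (by positivity)
    nlinarith [sq_nonneg (2 * u + F * a * t), sq_nonneg (2 * v + F * b * t),
      sq_nonneg (2 * w + F * d * t)]
  calc ∫ x, (‖x - p‖ ^ 2 + η)⁻¹ * f x ^ 2 = ∫ x, (s x)⁻¹ * f x ^ 2 := by simp only [hsn]
    _ ≤ ∫ x, (2 * (∑ c, (pd c (fun y => f y * f y) x * X c x + f x * f x * pd c (X c) x)) +
        4 * gsq f x) := integral_mono hiL ((hiS.const_mul 2).add (hiG.const_mul 4)) hpt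
    _ = 4 * ∫ x, gsq f x := by
      rw [integral_add (hiS.const_mul 2) (hiG.const_mul 4), integral_const_mul, integral_const_mul,
        hzero]
      ring

/-- Recipe: for `η > 0` the field `X = (x - p) / (‖x - p‖² + η)` has divergence
`≥ 1 / (‖x - p‖² + η)`; integrate by parts (`Test.integral_pd_mul` with `f²`), Cauchy-Schwarz, then
`η → 0` (monotone convergence or Fatou). -/
theorem hardy {f : Pos3 → ℝ} (hf : Test f) (p : Pos3) :
    ∫ x, Kn (x - p) ^ 2 * f x ^ 2 ≤ 4 * ∫ x, gsq f x := by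
  have hne : ∀ᵐ x : Pos3, x ≠ p := by
    rw [ae_iff]
    simp
  have hlim : Filter.Tendsto (fun η : ℝ => ∫ x, (‖x - p‖ ^ 2 + η)⁻¹ * f x ^ 2)
      (nhdsWithin 0 (Ioi 0)) (nhds (∫ x, Kn (x - p) ^ 2 * f x ^ 2)) := by
    refine tendsto_integral_filter_of_dominated_convergence
      (fun x => Kn (x - p) ^ 2 * f x ^ 2) ?_ ?_ (hardy_integrable hf p) ?_
    · refine Filter.Eventually.of_forall fun η => ?_
      have := hf.continuous.measurable
      exact (by fun_prop : Measurable fun x : Pos3 =>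
        (‖x - p‖ ^ 2 + η)⁻¹ * f x ^ 2).aestronglyMeasurable
    · filter_upwards [self_mem_nhdsWithin] with η hη
      filter_upwards [hne] with x hx
      have hη' : 0 < η := hη
      have hr : 0 < ‖x - p‖ := norm_pos_iff.2 (sub_ne_zero.2 hx)
      rw [Real.norm_eq_abs, abs_of_nonneg (by positivity)]
      refine mul_le_mul_of_nonneg_right ?_ (sq_nonneg _)
      rw [Kn, one_div, inv_pow]
      exact inv_anti₀ (by positivity) (by linarith)
    · filter_upwards [hne] with x hx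
      have hr : 0 < ‖x - p‖ := norm_pos_iff.2 (sub_ne_zero.2 hx)
      have hc : ContinuousAt (fun η : ℝ => (‖x - p‖ ^ 2 + η)⁻¹ * f x ^ 2) 0 := by
        refine ContinuousAt.mul (ContinuousAt.inv₀ (by fun_prop) ?_) continuousAt_const
        positivity
      have := hc.tendsto.mono_left (nhdsWithin_le_nhds (s := Ioi 0))
      simpa [Kn] using this
  refine le_of_tendsto hlim ?_
  filter_upwards [self_mem_nhdsWithin] with η hη
  exact hardy_eta hf p hη

/-- Recipe: apply `hardy` to `ζ u`, where `ζ y = ζ₁ ((y - p) / δ)` for a fixed smooth bump `ζ₁`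
equal to one on `ball 0 (1/8)` and supported in `ball 0 (1/4)` (`ContDiffBump`); the support of `ζ`
lies in the cube; off `ball p (δ/8)` the kernel is bounded by `8 / δ`. -/
theorem hardy_cube : ∃ C, ∀ δ : ℝ, 0 < δ → ∀ p : Pos3, ‖p‖ ≤ δ / 4 → ∀ u : Pos3 → ℝ,
    ContDiff ℝ 1 u → ∫ y in Qc δ, Kn (y - p) ^ 2 * u y ^ 2 ≤
      C * ((∫ y in Qc δ, gsq u y) + (δ ^ 2)⁻¹ * ∫ y in Qc δ, u y ^ 2) := by
  let ζ₁ : ContDiffBump (0 : Pos3) := ⟨1 / 8, 1 / 4, by norm_num, by norm_num⟩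
  have hζd : ContDiff ℝ 1 ζ₁ := ζ₁.contDiff
  obtain ⟨L, hL⟩ := (ζ₁.hasCompactSupport.fderiv ℝ).exists_bound_of_continuous
    (hζd.continuous_fderiv one_ne_zero)
  have hL0 : 0 ≤ L := (norm_nonneg _).trans (hL 0)
  refine ⟨8 * L ^ 2 + 64, fun δ hδ p hp u hu => ?_⟩
  set ζ : Pos3 → ℝ := fun y => ζ₁ (δ⁻¹ • (y - p)) with hζ
  have hA : ∀ y : Pos3, HasFDerivAt (fun y : Pos3 => δ⁻¹ • (y - p))
      (δ⁻¹ • ContinuousLinearMap.id ℝ Pos3) y := fun y =>
    ((hasFDerivAt_id y).sub_const p).const_smul δ⁻¹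
  have hζc : ContDiff ℝ 1 ζ := hζd.comp (by fun_prop)
  have hnorm : ∀ y : Pos3, ‖δ⁻¹ • (y - p)‖ = ‖y - p‖ / δ := fun y => by
    rw [norm_smul, Real.norm_eq_abs, abs_of_pos (inv_pos.2 hδ)]
    ring
  have hζ1 : ∀ y, ‖y - p‖ ≤ δ / 8 → ζ y = 1 := fun y hy => by
    refine ζ₁.one_of_mem_closedBall ?_
    rw [mem_closedBall_zero_iff, hnorm, div_le_iff₀ hδ]
    show _ ≤ 1 / 8 * δ
    linarith
  have hζ0 : ∀ y, δ / 4 ≤ ‖y - p‖ → ζ y = 0 := fun y hy => by
    refine ζ₁.zero_of_le_dist ?_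
    rw [dist_zero_right, hnorm, le_div_iff₀ hδ]
    show 1 / 4 * δ ≤ _
    linarith
  have hζle : ∀ y, ζ y ^ 2 ≤ 1 := fun y => by
    have h1 : ζ y ≤ 1 := ζ₁.le_one
    have h0 : 0 ≤ ζ y := ζ₁.nonneg
    nlinarith
  have hζg : ∀ y, gsq ζ y ≤ L ^ 2 * (δ ^ 2)⁻¹ := fun y => by
    rw [gsq_eq_norm]
    have h1 : fderiv ℝ ζ y = (fderiv ℝ ζ₁ (δ⁻¹ • (y - p))).comp
        (δ⁻¹ • ContinuousLinearMap.id ℝ Pos3) :=
      (((hζd.differentiable one_ne_zero _).hasFDerivAt).comp y (hA y)).fderiv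
    have h2 : ‖fderiv ℝ ζ y‖ ≤ L * δ⁻¹ := by
      rw [h1]
      refine (ContinuousLinearMap.opNorm_comp_le _ _).trans ?_
      refine mul_le_mul (hL _) ?_ (norm_nonneg _) hL0
      rw [norm_smul, Real.norm_eq_abs, abs_of_pos (inv_pos.2 hδ)]
      exact mul_le_of_le_one_right (inv_pos.2 hδ).le ContinuousLinearMap.norm_id_le
    calc ‖fderiv ℝ ζ y‖ ^ 2 ≤ (L * δ⁻¹) ^ 2 := pow_le_pow_left₀ (norm_nonneg _) h2 2
      _ = L ^ 2 * (δ ^ 2)⁻¹ := by ring
  have hball : Metric.closedBall p (δ / 4) ⊆ Qc δ := fun y hy c => by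
    have h1 : ‖y - p‖ ≤ δ / 4 := by rwa [Metric.mem_closedBall, dist_eq_norm] at hy
    have h2 : ‖y‖ ≤ ‖y - p‖ + ‖p‖ := by simpa using norm_add_le (y - p) p
    have h3 := abs_le_norm y c
    linarith
  have hts : tsupport (fun y => ζ y * u y) ⊆ Metric.closedBall p (δ / 4) := by
    refine closure_minimal (fun y hy => ?_) Metric.isClosed_closedBall
    by_contra hn
    apply hy
    have : δ / 4 ≤ ‖y - p‖ := by
      rw [Metric.mem_closedBall, dist_eq_norm, not_le] at hn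
      exact hn.le
    simp [hζ0 y this]
  have hT : Test fun y => ζ y * u y :=
    ⟨hζc.mul hu, (isCompact_closedBall p (δ / 4)).of_isClosed_subset (isClosed_tsupport _) hts⟩
  have hQ := isCompact_Qc δ
  have hiu : IntegrableOn (fun y => u y ^ 2) (Qc δ) :=
    (hu.continuous.pow 2).continuousOn.integrableOn_compact hQ
  have hig : IntegrableOn (fun y => gsq u y) (Qc δ) :=
    (continuous_gsq hu).continuousOn.integrableOn_compact hQ
  have hiK : IntegrableOn (fun y => Kn (y - p) ^ 2 * u y ^ 2) (Qc δ) := by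
    have h1 : IntegrableOn (fun y => Kn (y - p) ^ 2) (Qc δ) := by
      have := integrableOn_Kn_sq p hQ.isBounded
      refine this.congr_fun (fun y _ => ?_) hQ.measurableSet
      show Kn (p - y) ^ 2 = Kn (y - p) ^ 2
      rw [← Kn_neg, neg_sub]
    exact h1.mul_continuousOn (hu.continuous.pow 2).continuousOn hQ
  have hiT := hardy_integrable hT p
  have s1 : ∫ y in Qc δ, Kn (y - p) ^ 2 * u y ^ 2 ≤
      ∫ y in Qc δ, (Kn (y - p) ^ 2 * (ζ y * u y) ^ 2 + 64 * (δ ^ 2)⁻¹ * u y ^ 2) := by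
    refine integral_mono hiK (hiT.integrableOn.add (hiu.const_mul _)) fun y => ?_
    show Kn (y - p) ^ 2 * u y ^ 2 ≤ Kn (y - p) ^ 2 * (ζ y * u y) ^ 2 + 64 * (δ ^ 2)⁻¹ * u y ^ 2
    rcases le_total ‖y - p‖ (δ / 8) with h | h
    · rw [hζ1 y h, one_mul]
      have : 0 ≤ 64 * (δ ^ 2)⁻¹ * u y ^ 2 := by positivity
      linarith
    · have h1 : Kn (y - p) ≤ 1 / (δ / 8) := Kn_le_of_le (by positivity) h
      have h2 : Kn (y - p) ^ 2 ≤ 64 * (δ ^ 2)⁻¹ :=
        calc Kn (y - p) ^ 2 ≤ (1 / (δ / 8)) ^ 2 := pow_le_pow_left₀ (Kn_nonneg _) h1 2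
          _ = 64 * (δ ^ 2)⁻¹ := by field_simp; norm_num
      have h3 : Kn (y - p) ^ 2 * u y ^ 2 ≤ 64 * (δ ^ 2)⁻¹ * u y ^ 2 :=
        mul_le_mul_of_nonneg_right h2 (sq_nonneg _)
      have : 0 ≤ Kn (y - p) ^ 2 * (ζ y * u y) ^ 2 := by positivity
      linarith
  have s2 : ∫ y in Qc δ, Kn (y - p) ^ 2 * (ζ y * u y) ^ 2 ≤
      ∫ y, Kn (y - p) ^ 2 * (ζ y * u y) ^ 2 :=
    setIntegral_le_integral hiT (Filter.Eventually.of_forall fun y => by positivity)
  have s3 := hardy hT p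
  have s4 : ∫ y, gsq (fun y => ζ y * u y) y = ∫ y in Qc δ, gsq (fun y => ζ y * u y) y := by
    refine (setIntegral_eq_integral_of_forall_compl_eq_zero fun y hy => ?_).symm
    have hn : y ∉ tsupport (fun y => ζ y * u y) := fun h => hy (hball (hts h))
    rw [gsq_eq_norm, fderiv_of_notMem_tsupport ℝ hn]
    simp
  have s5 : ∫ y in Qc δ, gsq (fun y => ζ y * u y) y ≤
      ∫ y in Qc δ, (2 * gsq u y + 2 * L ^ 2 * (δ ^ 2)⁻¹ * u y ^ 2) := by
    refine integral_mono ((continuous_gsq hT.diff).continuousOn.integrableOn_compact hQ)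
      ((hig.const_mul _).add (hiu.const_mul _)) fun y => ?_
    show gsq (fun y => ζ y * u y) y ≤ 2 * gsq u y + 2 * L ^ 2 * (δ ^ 2)⁻¹ * u y ^ 2
    have h1 : gsq (fun y => ζ y * u y) y ≤ 2 * (ζ y ^ 2 * gsq u y) + 2 * (gsq ζ y * u y ^ 2) := by
      simp only [gsq, Fin.sum_univ_three, pd_mul _ (hζc.differentiable one_ne_zero y)
        (hu.differentiable one_ne_zero y)]
      nlinarith [sq_nonneg (pd 0 ζ y * u y - ζ y * pd 0 u y),
        sq_nonneg (pd 1 ζ y * u y - ζ y * pd 1 u y), sq_nonneg (pd 2 ζ y * u y - ζ y * pd 2 u y)]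
    have h2 : ζ y ^ 2 * gsq u y ≤ 1 * gsq u y :=
      mul_le_mul_of_nonneg_right (hζle y) (gsq_nonneg _ _)
    have h3 : gsq ζ y * u y ^ 2 ≤ L ^ 2 * (δ ^ 2)⁻¹ * u y ^ 2 :=
      mul_le_mul_of_nonneg_right (hζg y) (sq_nonneg _)
    linarith
  rw [integral_add hiT.integrableOn (hiu.const_mul _), integral_const_mul] at s1
  rw [integral_add (hig.const_mul _) (hiu.const_mul _), integral_const_mul,
    integral_const_mul] at s5
  have n1 : 0 ≤ ∫ y in Qc δ, gsq u y := integral_nonneg fun y => gsq_nonneg _ _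
  have n2 : 0 ≤ (δ ^ 2)⁻¹ * ∫ y in Qc δ, u y ^ 2 :=
    mul_nonneg (by positivity) (integral_nonneg fun y => sq_nonneg _)
  have n3 : 0 ≤ L ^ 2 * ∫ y in Qc δ, gsq u y := mul_nonneg (sq_nonneg _) n1
  nlinarith

end Crest.Agent.R338
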