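/-
R338/Box: fundamental theorem of calculus on boxes
Skeleton by helper15 (row 338); keep the statements unchanged, add any helper lemmas you like.
-/
import Crest.Agent.R338.Coord

set_option autoImplicit false
set_option linter.unusedSectionVars false
set_option linter.unusedVariables false
set_option linter.unusedSimpArgs false

noncomputable section

namespace Crest.Agent.R338

open MeasureTheory Set Crest.MathPhysics.ElectronicCoulomb
open scoped RealInnerProductSpace

/-- A weight in the vertical direction. -/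
structure ZW (w : ℝ → ℝ) (h mz : ℝ) : Prop where
  cont : Continuous w
  pos : ∀ z, 0 < w z
  even : ∀ z, w (-z) = w z
  anti : AntitoneOn w (Ici 0)
  hpos : 0 < h
  mass : mz = ∫ z in (-h)..h, w z

/-- The average over the cross section `[a, a + ℓ] × {y} × [-h, h]`. -/
def Ul (w : ℝ → ℝ) (h mz ℓ : ℝ) (u : Pos3 → ℝ) (a y : ℝ) : ℝ :=
  (ℓ * mz)⁻¹ * ∫ s in a..a + ℓ, ∫ z in (-h)..h, w z * u (mk3 (s, y) z)

/-- The average over the box `[a, a + ℓ] × [b, b + ℓ] × [-h, h]`. -/
def Ub (w : ℝ → ℝ) (h mz ℓ : ℝ) (u : Pos3 → ℝ) (a b : ℝ) : ℝ :=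
  (ℓ ^ 2 * mz)⁻¹ * ∫ x in bx a (a + ℓ) b (b + ℓ) h, w (x 2) * u x

variable {w : ℝ → ℝ} {h mz ℓ : ℝ} {u : Pos3 → ℝ}

@[fun_prop] theorem box_continuous_mk3 {X : Type*} [TopologicalSpace X] {p : X → ℝ × ℝ} {z : X → ℝ}
    (hp : Continuous p) (hz : Continuous z) : Continuous fun x => mk3 (p x) (z x) :=
  continuous_mk3.comp (hp.prodMk hz)

theorem box_integrableOn {f : Pos3 → ℝ} (hf : Continuous f) (a a' b b' h : ℝ) :
    IntegrableOn f (bx a a' b b' h) :=
  hf.continuousOn.integrableOn_compact (isCompact_bx _ _ _ _ _)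

theorem box_swap {F : ℝ → ℝ → ℝ} (hF : Continuous F.uncurry) (a b c d : ℝ) :
    ∫ x in a..b, ∫ y in c..d, F x y = ∫ y in c..d, ∫ x in a..b, F x y :=
  intervalIntegral_intervalIntegral_swap
    ((hF.continuousOn.integrableOn_compact (isCompact_uIcc.prod isCompact_uIcc)).mono_set
      (prod_mono uIoc_subset_uIcc uIoc_subset_uIcc))

theorem box_sub2 {F G : ℝ → ℝ → ℝ} (hF : Continuous F.uncurry) (hG : Continuous G.uncurry)
    (a b c d : ℝ) : (∫ x in a..b, ∫ y in c..d, F x y) - ∫ x in a..b, ∫ y in c..d, G x y =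
      ∫ x in a..b, ∫ y in c..d, (F x y - G x y) := by
  rw [← intervalIntegral.integral_sub (Continuous.intervalIntegrable (by fun_prop) _ _)
    (Continuous.intervalIntegrable (by fun_prop) _ _)]
  refine intervalIntegral.integral_congr fun x _ => ?_
  exact (intervalIntegral.integral_sub ((hF.uncurry_left x).intervalIntegrable _ _)
    ((hG.uncurry_left x).intervalIntegrable _ _)).symm

theorem box_mono2 {F G : ℝ → ℝ → ℝ} (hF : Continuous F.uncurry) (hG : Continuous G.uncurry)
    {a b c d : ℝ} (hab : a ≤ b) (hcd : c ≤ d) (hle : ∀ x y, F x y ≤ G x y) :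
    ∫ x in a..b, ∫ y in c..d, F x y ≤ ∫ x in a..b, ∫ y in c..d, G x y :=
  intervalIntegral.integral_mono_on hab (Continuous.intervalIntegrable (by fun_prop) _ _)
    (Continuous.intervalIntegrable (by fun_prop) _ _) fun x _ =>
      intervalIntegral.integral_mono_on hcd ((hF.uncurry_left x).intervalIntegrable _ _)
        ((hG.uncurry_left x).intervalIntegrable _ _) fun y _ => hle x y

/-- Cauchy-Schwarz with a weight on an interval. -/
theorem box_cs1 {f : ℝ → ℝ} (hw : Continuous w) (hw0 : ∀ z, 0 ≤ w z) (hf : Continuous f) {a b : ℝ}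
    (hab : a ≤ b) :
    (∫ z in a..b, w z * f z) ^ 2 ≤ (∫ z in a..b, w z) * ∫ z in a..b, w z * f z ^ 2 := by
  have h1 := sq_integral_le (μ := volume.restrict (Ioc a b)) (f := fun _ => (1 : ℝ)) (g := f) hw0
    (Continuous.integrableOn_Ioc (by fun_prop)) (Continuous.integrableOn_Ioc (by fun_prop))
    (Continuous.integrableOn_Ioc (by fun_prop))
  simp only [one_mul, one_pow, mul_one] at h1
  simpa only [intervalIntegral.integral_of_le hab] using h1

theorem box_cs0 {f : ℝ → ℝ} (hf : Continuous f) {a b : ℝ} (hab : a ≤ b) :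
    (∫ z in a..b, f z) ^ 2 ≤ (b - a) * ∫ z in a..b, f z ^ 2 := by
  simpa using box_cs1 (w := fun _ => 1) continuous_const (fun _ => zero_le_one) hf hab

theorem box_cs2 (hw : ZW w h mz) {F : ℝ → ℝ → ℝ} (hF : Continuous F.uncurry) {a b : ℝ}
    (hab : a ≤ b) : (∫ s in a..b, ∫ z in (-h)..h, w z * F s z) ^ 2 ≤
      (b - a) * mz * ∫ s in a..b, ∫ z in (-h)..h, w z * F s z ^ 2 := by
  have hc := hw.cont
  have hh := hw.hpos
  refine (box_cs0 (by fun_prop) hab).trans ?_
  rw [mul_assoc, ← intervalIntegral.integral_const_mul mz]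
  refine mul_le_mul_of_nonneg_left ?_ (by linarith)
  refine intervalIntegral.integral_mono_on hab (Continuous.intervalIntegrable (by fun_prop) _ _)
    (Continuous.intervalIntegrable (by fun_prop) _ _) fun s _ => ?_
  rw [hw.mass]
  exact box_cs1 hc (fun z => (hw.pos z).le) (hF.uncurry_left s) (by linarith)

theorem ZW.mz_pos (hw : ZW w h mz) : 0 < mz := by
  rw [hw.mass]
  exact intervalIntegral.intervalIntegral_pos_of_pos (hw.cont.intervalIntegrable _ _) hw.pos
    (by linarith [hw.hpos])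

/-- One-dimensional step. -/
theorem sq_sub_le {f f' : ℝ → ℝ} (hf : ∀ s, HasDerivAt f (f' s) s) (hc : Continuous f') {a b : ℝ}
    (hab : a ≤ b) : (f b - f a) ^ 2 ≤ (b - a) * ∫ s in a..b, f' s ^ 2 := by
  rw [← intervalIntegral.integral_eq_sub_of_hasDerivAt (fun s _ => hf s) (hc.intervalIntegrable _ _)]
  exact box_cs0 hc hab

theorem integral_bx_weight (hw : ZW w h mz) {a a' b b' : ℝ} (ha : a ≤ a') (hb : b ≤ b') :
    ∫ x in bx a a' b b' h, w (x 2) = (a' - a) * (b' - b) * mz := by
  have hc := hw.cont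
  rw [integral_bx_012 ha hb hw.hpos.le (box_integrableOn (by fun_prop) _ _ _ _ _)]
  simp only [mk3_2, ← hw.mass, intervalIntegral.integral_const, smul_eq_mul]
  ring

theorem Ub_eq (hw : ZW w h mz) (hℓ : 0 < ℓ) (hu : Continuous u) (a b : ℝ) :
    Ub w h mz ℓ u a b = ℓ⁻¹ * ∫ y in b..b + ℓ, Ul w h mz ℓ u a y := by
  have hc := hw.cont
  unfold Ub Ul
  rw [integral_bx_012 (by linarith) (by linarith) hw.hpos.le
    (box_integrableOn (by fun_prop) _ _ _ _ _), box_swap (by fun_prop),
    intervalIntegral.integral_const_mul]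
  simp only [mk3_2]
  rw [← mul_assoc, ← mul_inv, ← mul_assoc, sq]

theorem continuous_Ul (hw : ZW w h mz) (hu : Continuous u) (a : ℝ) :
    Continuous (Ul w h mz ℓ u a) := by
  have hc := hw.cont
  unfold Ul
  fun_prop

/-- Vertical step: Cauchy-Schwarz for the average, `sq_sub_le`, `integral_bx_021`. -/
theorem Ul_sub_sq (hw : ZW w h mz) (hℓ : 0 < ℓ) (hu : ContDiff ℝ 1 u) (a : ℝ) {y y' : ℝ}
    (hy : y ≤ y') : (Ul w h mz ℓ u a y' - Ul w h mz ℓ u a y) ^ 2 ≤
      (y' - y) / (ℓ * mz) * ∫ x in bx a (a + ℓ) y y' h, w (x 2) * gsq u x := by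
  have hc := hw.cont
  have hm := hw.mz_pos
  have hh := hw.hpos
  have hcu := hu.continuous
  have hg := continuous_gsq hu
  have h1 : Ul w h mz ℓ u a y' - Ul w h mz ℓ u a y = (ℓ * mz)⁻¹ *
      ∫ s in a..a + ℓ, ∫ z in (-h)..h, w z * (u (mk3 (s, y') z) - u (mk3 (s, y) z)) := by
    unfold Ul
    rw [← mul_sub, box_sub2 (by fun_prop) (by fun_prop)]
    simp only [mul_sub]
  have h2 := box_cs2 hw (F := fun s z => u (mk3 (s, y') z) - u (mk3 (s, y) z)) (by fun_prop)
    (a := a) (b := a + ℓ) (by linarith)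
  have h3 : ∫ s in a..a + ℓ, ∫ z in (-h)..h, w z * (u (mk3 (s, y') z) - u (mk3 (s, y) z)) ^ 2 ≤
      ∫ s in a..a + ℓ, ∫ z in (-h)..h,
        (y' - y) * ∫ t in y..y', w (mk3 (s, t) z 2) * gsq u (mk3 (s, t) z) := by
    refine box_mono2 (by fun_prop) (by fun_prop) (by linarith) (by linarith) fun s z => ?_
    simp only [mk3_2]
    rw [intervalIntegral.integral_const_mul, mul_left_comm]
    refine mul_le_mul_of_nonneg_left ?_ (hw.pos z).le
    have hp := continuous_pd 1 hu
    refine (sq_sub_le (fun t => hasDerivAt_mk3_1 (hu.differentiable one_ne_zero) s t z)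
      (by fun_prop) hy).trans (mul_le_mul_of_nonneg_left ?_ (by linarith))
    exact intervalIntegral.integral_mono_on hy (Continuous.intervalIntegrable (by fun_prop) _ _)
      (Continuous.intervalIntegrable (by fun_prop) _ _) fun t _ => pd_sq_le _ _ _
  simp only [intervalIntegral.integral_const_mul] at h3
  rw [h1, integral_bx_021 (by linarith) hy hh.le (box_integrableOn (by fun_prop) _ _ _ _ _),
    mul_pow]
  rw [add_sub_cancel_left] at h2
  refine (mul_le_mul_of_nonneg_left (h2.trans (mul_le_mul_of_nonneg_left h3 (by positivity)))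
    (by positivity)).trans (le_of_eq ?_)
  field_simp

/-- A box average against a cross section of the same wire. -/
theorem Ub_sub_Ul_sq (hw : ZW w h mz) (hℓ : 0 < ℓ) (hu : ContDiff ℝ 1 u) (a : ℝ) {b y y₀ y₁ : ℝ}
    (h0 : y₀ ≤ b) (h1 : b + ℓ ≤ y₁) (h2 : y₀ ≤ y) (h3 : y ≤ y₁) :
    (Ub w h mz ℓ u a b - Ul w h mz ℓ u a y) ^ 2 ≤
      (y₁ - y₀) / (ℓ * mz) * ∫ x in bx a (a + ℓ) y₀ y₁ h, w (x 2) * gsq u x := by
  have hc := hw.cont
  have hm := hw.mz_pos
  have hg := continuous_gsq hu
  have hU := continuous_Ul (ℓ := ℓ) hw hu.continuous a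
  set C := (y₁ - y₀) / (ℓ * mz) * ∫ x in bx a (a + ℓ) y₀ y₁ h, w (x 2) * gsq u x with hC
  have key : ∀ t t', y₀ ≤ t → t ≤ t' → t' ≤ y₁ →
      (Ul w h mz ℓ u a t' - Ul w h mz ℓ u a t) ^ 2 ≤ C := by
    intro t t' e0 e1 e2
    have hnn : ∀ x : Pos3, 0 ≤ w (x 2) * gsq u x := fun x =>
      mul_nonneg (hw.pos _).le (gsq_nonneg _ _)
    refine (Ul_sub_sq hw hℓ hu a e1).trans (mul_le_mul ?_ ?_ (integral_nonneg hnn) ?_)
    · exact div_le_div_of_nonneg_right (by linarith) (by positivity)
    · refine setIntegral_mono_set (box_integrableOn (by fun_prop) _ _ _ _ _)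
        (Filter.Eventually.of_forall hnn) (LE.le.eventuallyLE fun x hx => ?_)
      exact ⟨hx.1, ⟨e0.trans hx.2.1.1, hx.2.1.2.trans e2⟩, hx.2.2⟩
    · exact div_nonneg (by linarith) (by positivity)
  have e1 : Ub w h mz ℓ u a b - Ul w h mz ℓ u a y =
      ℓ⁻¹ * ∫ t in b..b + ℓ, (Ul w h mz ℓ u a t - Ul w h mz ℓ u a y) := by
    rw [Ub_eq hw hℓ hu.continuous, intervalIntegral.integral_sub (hU.intervalIntegrable _ _)
      (continuous_const.intervalIntegrable _ _), intervalIntegral.integral_const,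
      add_sub_cancel_left, smul_eq_mul]
    field_simp
  have e2 := box_cs0 (f := fun t => Ul w h mz ℓ u a t - Ul w h mz ℓ u a y) (by fun_prop)
    (a := b) (b := b + ℓ) (by linarith)
  have e3 : ∫ t in b..b + ℓ, (Ul w h mz ℓ u a t - Ul w h mz ℓ u a y) ^ 2 ≤
      ∫ t in b..b + ℓ, C := by
    refine intervalIntegral.integral_mono_on (by linarith)
      (Continuous.intervalIntegrable (by fun_prop) _ _) (continuous_const.intervalIntegrable _ _)
      fun t ht => ?_
    rcases le_total y t with hyt | hyt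
    · exact key y t h2 hyt (ht.2.trans h1)
    · rw [← neg_sub, neg_sq]
      exact key t y (h0.trans ht.1) hyt h3
  rw [intervalIntegral.integral_const, add_sub_cancel_left, smul_eq_mul] at e3
  rw [add_sub_cancel_left] at e2
  rw [e1, mul_pow]
  refine (mul_le_mul_of_nonneg_left (e2.trans (mul_le_mul_of_nonneg_left e3 hℓ.le))
    (by positivity)).trans (le_of_eq ?_)
  field_simp

/-- Horizontal step (`integral_bx_120`). -/
theorem Ub_sub_Ub_sq (hw : ZW w h mz) (hℓ : 0 < ℓ) (hu : ContDiff ℝ 1 u) {a a' : ℝ} (ha : a ≤ a')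
    (b : ℝ) : (Ub w h mz ℓ u a' b - Ub w h mz ℓ u a b) ^ 2 ≤
      (a' - a) / (ℓ * mz) * ∫ x in bx a (a' + ℓ) b (b + ℓ) h, w (x 2) * gsq u x := by
  have hc := hw.cont
  have hm := hw.mz_pos
  have hh := hw.hpos
  have hcu := hu.continuous
  have hg := continuous_gsq hu
  have hp := continuous_pd 0 hu
  obtain ⟨d, hd, rfl⟩ : ∃ d, 0 ≤ d ∧ a' = a + d := ⟨a' - a, by linarith, by ring⟩
  have h1 : Ub w h mz ℓ u (a + d) b - Ub w h mz ℓ u a b = (ℓ ^ 2 * mz)⁻¹ *
      ∫ t in b..b + ℓ, ∫ z in (-h)..h,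
        w z * ∫ s in a..a + ℓ, (u (mk3 (s + d, t) z) - u (mk3 (s, t) z)) := by
    unfold Ub
    rw [← mul_sub, integral_bx_120 (by linarith) (by linarith) hh.le
      (box_integrableOn (by fun_prop) _ _ _ _ _), integral_bx_120 (by linarith) (by linarith) hh.le
      (box_integrableOn (by fun_prop) _ _ _ _ _), box_sub2 (by fun_prop) (by fun_prop)]
    congr 1
    refine intervalIntegral.integral_congr fun t _ => intervalIntegral.integral_congr fun z _ => ?_
    simp only [mk3_2, intervalIntegral.integral_const_mul]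
    rw [intervalIntegral.integral_sub (Continuous.intervalIntegrable (by fun_prop) _ _)
      (Continuous.intervalIntegrable (by fun_prop) _ _),
      intervalIntegral.integral_comp_add_right (fun s => u (mk3 (s, t) z)), mul_sub,
      add_right_comm a ℓ d]
  have h2 := box_cs2 hw
    (F := fun t z => ∫ s in a..a + ℓ, (u (mk3 (s + d, t) z) - u (mk3 (s, t) z))) (by fun_prop)
    (a := b) (b := b + ℓ) (by linarith)
  have h3 : ∫ t in b..b + ℓ, ∫ z in (-h)..h,
      w z * (∫ s in a..a + ℓ, (u (mk3 (s + d, t) z) - u (mk3 (s, t) z))) ^ 2 ≤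
      ∫ t in b..b + ℓ, ∫ z in (-h)..h, (ℓ ^ 2 * d) *
        ∫ s in a..a + d + ℓ, w (mk3 (s, t) z 2) * gsq u (mk3 (s, t) z) := by
    refine box_mono2 (by fun_prop) (by fun_prop) (by linarith) (by linarith) fun t z => ?_
    simp only [mk3_2]
    rw [intervalIntegral.integral_const_mul, mul_left_comm]
    refine mul_le_mul_of_nonneg_left ?_ (hw.pos z).le
    have e2 := box_cs0 (f := fun s => u (mk3 (s + d, t) z) - u (mk3 (s, t) z)) (by fun_prop)
      (a := a) (b := a + ℓ) (by linarith)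
    have e3 : ∫ s in a..a + ℓ, (u (mk3 (s + d, t) z) - u (mk3 (s, t) z)) ^ 2 ≤
        ∫ s in a..a + ℓ, d * ∫ r in a..a + d + ℓ, gsq u (mk3 (r, t) z) := by
      refine intervalIntegral.integral_mono_on (by linarith)
        (Continuous.intervalIntegrable (by fun_prop) _ _) (continuous_const.intervalIntegrable _ _)
        fun s hs => ?_
      have e4 := sq_sub_le (fun r => hasDerivAt_mk3_0 (hu.differentiable one_ne_zero) r t z)
        (by fun_prop) (a := s) (b := s + d) (by linarith)
      rw [add_sub_cancel_left] at e4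
      refine e4.trans (mul_le_mul_of_nonneg_left ?_ hd)
      refine (intervalIntegral.integral_mono_on (g := fun r => gsq u (mk3 (r, t) z)) (by linarith)
        (Continuous.intervalIntegrable (by fun_prop) _ _)
        (Continuous.intervalIntegrable (by fun_prop) _ _) fun r _ => pd_sq_le _ _ _).trans ?_
      exact intervalIntegral.integral_mono_interval hs.1 (by linarith) (by linarith [hs.2])
        (Filter.Eventually.of_forall fun r => gsq_nonneg _ _)
        (Continuous.intervalIntegrable (by fun_prop) _ _)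
    rw [intervalIntegral.integral_const, add_sub_cancel_left, smul_eq_mul] at e3
    rw [add_sub_cancel_left] at e2
    refine (e2.trans (mul_le_mul_of_nonneg_left e3 hℓ.le)).trans (le_of_eq ?_)
    ring
  simp only [intervalIntegral.integral_const_mul (ℓ ^ 2 * d)] at h3
  rw [h1, integral_bx_120 (by linarith) (by linarith) hh.le
    (box_integrableOn (by fun_prop) _ _ _ _ _), mul_pow]
  rw [add_sub_cancel_left] at h2 ⊢
  refine (mul_le_mul_of_nonneg_left (h2.trans (mul_le_mul_of_nonneg_left h3 (by positivity)))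
    (by positivity)).trans (le_of_eq ?_)
  field_simp

end Crest.Agent.R338
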