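/-
R338/BoxP: Poincare inequalities on boxes
Skeleton by helper15 (row 338); keep the statements unchanged, add any helper lemmas you like.
-/
import Crest.Agent.R338.Box

set_option autoImplicit false
set_option linter.unusedSectionVars false
set_option linter.unusedVariables false
set_option linter.unusedSimpArgs false

noncomputable section

namespace Crest.Agent.R338

open MeasureTheory Set Crest.MathPhysics.ElectronicCoulomb
open scoped RealInnerProductSpace

variable {w : ℝ → ℝ} {h mz ℓ : ℝ} {u : Pos3 → ℝ}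

theorem BoxP_half (hw : ZW w h mz) {f f' : ℝ → ℝ} (hf : ∀ s, HasDerivAt f (f' s) s)
    (hc : Continuous f') :
    ∫ z in (0 : ℝ)..h, w z * (f z - f 0) ^ 2 ≤ h ^ 2 * ∫ z in (0 : ℝ)..h, w z * f' z ^ 2 := by
  have hfc : Continuous f := continuous_iff_continuousAt.2 fun s => (hf s).continuousAt
  have hwc := hw.cont
  have hh := hw.hpos
  have hb : ∀ z ∈ Icc (0 : ℝ) h,
      w z * (f z - f 0) ^ 2 ≤ h * ∫ z in (0 : ℝ)..h, w z * f' z ^ 2 := by
    intro z hz
    have h1 := sq_sub_le hf hc hz.1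
    have h2 : w z * ∫ s in (0 : ℝ)..z, f' s ^ 2 ≤ ∫ s in (0 : ℝ)..z, w s * f' s ^ 2 := by
      rw [← intervalIntegral.integral_const_mul]
      refine intervalIntegral.integral_mono_on hz.1
        (Continuous.intervalIntegrable (by fun_prop) _ _)
        (Continuous.intervalIntegrable (by fun_prop) _ _) fun s hs => ?_
      exact mul_le_mul_of_nonneg_right (hw.anti hs.1 hz.1 hs.2) (sq_nonneg _)
    have h3 : ∫ s in (0 : ℝ)..z, w s * f' s ^ 2 ≤ ∫ s in (0 : ℝ)..h, w s * f' s ^ 2 :=
      intervalIntegral.integral_mono_interval le_rfl hz.1 hz.2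
        (ae_of_all _ fun s => mul_nonneg (hw.pos s).le (sq_nonneg _))
        (Continuous.intervalIntegrable (by fun_prop) _ _)
    have h4 : 0 ≤ ∫ s in (0 : ℝ)..h, w s * f' s ^ 2 :=
      intervalIntegral.integral_nonneg hh.le fun s _ => mul_nonneg (hw.pos s).le (sq_nonneg _)
    calc w z * (f z - f 0) ^ 2 ≤ w z * ((z - 0) * ∫ s in (0 : ℝ)..z, f' s ^ 2) :=
          mul_le_mul_of_nonneg_left h1 (hw.pos z).le
      _ = z * (w z * ∫ s in (0 : ℝ)..z, f' s ^ 2) := by ring
      _ ≤ z * ∫ s in (0 : ℝ)..h, w s * f' s ^ 2 := mul_le_mul_of_nonneg_left (h2.trans h3) hz.1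
      _ ≤ _ := mul_le_mul_of_nonneg_right hz.2 h4
  calc ∫ z in (0 : ℝ)..h, w z * (f z - f 0) ^ 2
      ≤ ∫ _z in (0 : ℝ)..h, h * ∫ z in (0 : ℝ)..h, w z * f' z ^ 2 :=
        intervalIntegral.integral_mono_on hh.le (Continuous.intervalIntegrable (by fun_prop) _ _)
          (Continuous.intervalIntegrable (by fun_prop) _ _) hb
    _ = _ := by rw [intervalIntegral.integral_const, smul_eq_mul]; ring

/-- The vertical weighted inequality: `w z ≤ w z'` for `z'` between `0` and `z`. -/
theorem ZW.poincare (hw : ZW w h mz) {f f' : ℝ → ℝ} (hf : ∀ s, HasDerivAt f (f' s) s)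
    (hc : Continuous f') :
    ∫ z in (-h)..h, w z * (f z - f 0) ^ 2 ≤ h ^ 2 * ∫ z in (-h)..h, w z * f' z ^ 2 := by
  have hfc : Continuous f := continuous_iff_continuousAt.2 fun s => (hf s).continuousAt
  have hwc := hw.cont
  have h1 := BoxP_half hw hf hc
  have h2 := BoxP_half hw (f := fun s => f (-s)) (f' := fun s => -f' (-s))
    (fun s => ((hf (-s)).comp s (hasDerivAt_neg s)).congr_deriv (by ring)) (by fun_prop)
  have e1 : ∫ z in (0 : ℝ)..h, w z * (f (-z) - f (-0)) ^ 2 =
      ∫ z in (-h)..0, w z * (f z - f 0) ^ 2 := by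
    have := intervalIntegral.integral_comp_neg (a := 0) (b := h)
      (fun z => w z * (f z - f 0) ^ 2)
    simp only [neg_zero, hw.even] at this ⊢
    exact this
  have e2 : ∫ z in (0 : ℝ)..h, w z * (-f' (-z)) ^ 2 = ∫ z in (-h)..0, w z * f' z ^ 2 := by
    have := intervalIntegral.integral_comp_neg (a := 0) (b := h) (fun z => w z * f' z ^ 2)
    simp only [neg_zero, hw.even, neg_sq] at this ⊢
    exact this
  rw [e1, e2] at h2
  rw [← intervalIntegral.integral_add_adjacent_intervals (b := 0)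
      (Continuous.intervalIntegrable (by fun_prop) _ _)
      (Continuous.intervalIntegrable (by fun_prop) _ _),
    ← intervalIntegral.integral_add_adjacent_intervals (b := 0) (f := fun z => w z * f' z ^ 2)
      (Continuous.intervalIntegrable (by fun_prop) _ _)
      (Continuous.intervalIntegrable (by fun_prop) _ _)]
  linarith

theorem BoxP_expand (hw : ZW w h mz) {f : ℝ → ℝ} (hf : Continuous f) (c : ℝ) :
    ∫ z in (-h)..h, w z * (f z - c) ^ 2 =
      (∫ z in (-h)..h, w z * f z ^ 2) - 2 * c * (∫ z in (-h)..h, w z * f z) + c ^ 2 * mz := by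
  have hwc := hw.cont
  rw [hw.mass, ← intervalIntegral.integral_const_mul, ← intervalIntegral.integral_const_mul,
    ← intervalIntegral.integral_sub (Continuous.intervalIntegrable (by fun_prop) _ _)
      (Continuous.intervalIntegrable (by fun_prop) _ _),
    ← intervalIntegral.integral_add (Continuous.intervalIntegrable (by fun_prop) _ _)
      (Continuous.intervalIntegrable (by fun_prop) _ _)]
  exact intervalIntegral.integral_congr fun z _ => by ring

/-- The mean minimises. -/
theorem BoxP_var (hw : ZW w h mz) {f : ℝ → ℝ} (hf : Continuous f) (c c' : ℝ) :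
    ∫ z in (-h)..h, w z * (f z - c) ^ 2 ≤ (∫ z in (-h)..h, w z * (f z - c') ^ 2) +
      mz * (mz⁻¹ * (∫ z in (-h)..h, w z * f z) - c) ^ 2 := by
  have hm := hw.mz_pos
  rw [BoxP_expand hw hf, BoxP_expand hw hf]
  obtain ⟨m, hm'⟩ : ∃ m, (∫ z in (-h)..h, w z * f z) = mz * m :=
    ⟨mz⁻¹ * ∫ z in (-h)..h, w z * f z, by field_simp⟩
  rw [hm', ← mul_assoc mz⁻¹, inv_mul_cancel₀ hm.ne', one_mul]
  nlinarith [mul_nonneg hm.le (sq_nonneg (m - c'))]

/-- Cauchy-Schwarz. -/
theorem BoxP_cs (hw : ZW w h mz) {f : ℝ → ℝ} (hf : Continuous f) :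
    (∫ z in (-h)..h, w z * f z) ^ 2 ≤ mz * ∫ z in (-h)..h, w z * f z ^ 2 := by
  have hm := hw.mz_pos
  obtain ⟨m, hm'⟩ : ∃ m, (∫ z in (-h)..h, w z * f z) = mz * m :=
    ⟨mz⁻¹ * ∫ z in (-h)..h, w z * f z, by field_simp⟩
  have h1 := BoxP_expand hw hf m
  have h2 : 0 ≤ ∫ z in (-h)..h, w z * (f z - m) ^ 2 :=
    intervalIntegral.integral_nonneg (by linarith [hw.hpos]) fun s _ =>
      mul_nonneg (hw.pos s).le (sq_nonneg _)
  rw [hm'] at h1 ⊢
  nlinarith [mul_nonneg hm.le h2]

theorem BoxP_cont {α : Type} [TopologicalSpace α] {g : Pos3 → ℝ} (hg : Continuous g)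
    {s t z : α → ℝ} (hs : Continuous s) (ht : Continuous t) (hz : Continuous z) :
    Continuous fun q => g (mk3 (s q, t q) (z q)) :=
  hg.comp (continuous_mk3.comp (f := fun q => ((s q, t q), z q)) (by fun_prop))

theorem BoxP_line (hℓ : 0 < ℓ) (hu : ContDiff ℝ 1 u) {a s s' : ℝ} (hs : s ∈ Icc a (a + ℓ))
    (hs' : s' ∈ Icc a (a + ℓ)) (t z : ℝ) :
    (u (mk3 (s, t) z) - u (mk3 (s', t) z)) ^ 2 ≤ ℓ * ∫ σ in a..a + ℓ, gsq u (mk3 (σ, t) z) := by
  wlog hle : s' ≤ s generalizing s s'
  · rw [← neg_sq, neg_sub]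
    exact this hs' hs (le_of_not_ge hle)
  have hd : Differentiable ℝ u := hu.differentiable one_ne_zero
  have hc0 : Continuous fun σ => pd 0 u (mk3 (σ, t) z) :=
    BoxP_cont (continuous_pd 0 hu) continuous_id continuous_const continuous_const
  have hcg : Continuous fun σ => gsq u (mk3 (σ, t) z) :=
    BoxP_cont (continuous_gsq hu) continuous_id continuous_const continuous_const
  have h1 := sq_sub_le (fun σ => hasDerivAt_mk3_0 hd σ t z) hc0 hle
  have h2 : ∫ σ in s'..s, pd 0 u (mk3 (σ, t) z) ^ 2 ≤ ∫ σ in s'..s, gsq u (mk3 (σ, t) z) :=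
    intervalIntegral.integral_mono_on hle ((hc0.pow 2).intervalIntegrable _ _)
      (hcg.intervalIntegrable _ _) fun σ _ => pd_sq_le 0 u _
  have h3 : ∫ σ in s'..s, gsq u (mk3 (σ, t) z) ≤ ∫ σ in a..a + ℓ, gsq u (mk3 (σ, t) z) :=
    intervalIntegral.integral_mono_interval hs'.1 hle hs.2
      (ae_of_all _ fun σ => gsq_nonneg u _) (hcg.intervalIntegrable _ _)
  have h4 : 0 ≤ ∫ σ in a..a + ℓ, gsq u (mk3 (σ, t) z) :=
    intervalIntegral.integral_nonneg (by linarith) fun σ _ => gsq_nonneg u _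
  calc _ ≤ _ := h1
    _ ≤ (s - s') * ∫ σ in a..a + ℓ, gsq u (mk3 (σ, t) z) :=
        mul_le_mul_of_nonneg_left (h2.trans h3) (by linarith)
    _ ≤ _ := mul_le_mul_of_nonneg_right (by linarith [hs.2, hs'.1]) h4

/-- The second averaging step. -/
theorem BoxP_step (hw : ZW w h mz) (hℓ : 0 < ℓ) (hu : ContDiff ℝ 1 u) {a s : ℝ}
    (hs : s ∈ Icc a (a + ℓ)) (t : ℝ) :
    mz * (mz⁻¹ * (∫ z in (-h)..h, w z * u (mk3 (s, t) z)) - Ul w h mz ℓ u a t) ^ 2 ≤
      ℓ * ∫ z in (-h)..h, ∫ σ in a..a + ℓ, w z * gsq u (mk3 (σ, t) z) := by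
  have hm := hw.mz_pos
  have hh := hw.hpos
  have hwc := hw.cont
  have huc := hu.continuous
  set B := ∫ z in (-h)..h, ∫ σ in a..a + ℓ, w z * gsq u (mk3 (σ, t) z) with hB
  set g : ℝ → ℝ := fun s => ∫ z in (-h)..h, w z * u (mk3 (s, t) z) with hg
  have hcz : ∀ s, Continuous fun z => u (mk3 (s, t) z) := fun s =>
    BoxP_cont huc continuous_const continuous_const continuous_id
  have hgc : Continuous g :=
    intervalIntegral.continuous_parametric_intervalIntegral_of_continuous'
      (f := fun s z => w z * u (mk3 (s, t) z))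
      ((hwc.comp continuous_snd).mul
        (BoxP_cont huc continuous_fst continuous_const continuous_snd)) _ _
  have hGc : Continuous fun z => ∫ σ in a..a + ℓ, gsq u (mk3 (σ, t) z) :=
    intervalIntegral.continuous_parametric_intervalIntegral_of_continuous'
      (f := fun z σ => gsq u (mk3 (σ, t) z))
      (BoxP_cont (continuous_gsq hu) continuous_snd continuous_const continuous_fst) _ _
  have hpair : ∀ s' ∈ Icc a (a + ℓ), (g s - g s') ^ 2 ≤ mz * (ℓ * B) := by
    intro s' hs'
    have e : g s - g s' = ∫ z in (-h)..h, w z * (u (mk3 (s, t) z) - u (mk3 (s', t) z)) := by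
      rw [hg]
      simp only
      rw [← intervalIntegral.integral_sub ((hwc.fun_mul (hcz s)).intervalIntegrable _ _)
        ((hwc.fun_mul (hcz s')).intervalIntegrable _ _)]
      exact intervalIntegral.integral_congr fun z _ => by ring
    rw [e]
    refine (BoxP_cs hw ((hcz s).sub (hcz s'))).trans (mul_le_mul_of_nonneg_left ?_ hm.le)
    rw [hB, ← intervalIntegral.integral_const_mul]
    refine intervalIntegral.integral_mono_on (by linarith)
      ((hwc.mul (((hcz s).sub (hcz s')).pow 2)).intervalIntegrable _ _) ?_ fun z _ => ?_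
    · simp only [intervalIntegral.integral_const_mul]
      exact (continuous_const.mul (hwc.mul hGc)).intervalIntegrable _ _
    · rw [intervalIntegral.integral_const_mul, mul_left_comm]
      exact mul_le_mul_of_nonneg_left (BoxP_line hℓ hu hs hs' t z) (hw.pos z).le
  have hK : 0 ≤ mz * (ℓ * B) := (sq_nonneg _).trans (hpair s hs)
  have hint : |ℓ * g s - ∫ s' in a..a + ℓ, g s'| ≤ √(mz * (ℓ * B)) * ℓ := by
    have e : ℓ * g s - ∫ s' in a..a + ℓ, g s' = ∫ s' in a..a + ℓ, (g s - g s') := by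
      rw [intervalIntegral.integral_sub (continuous_const.intervalIntegrable _ _)
        (hgc.intervalIntegrable _ _), intervalIntegral.integral_const, smul_eq_mul]
      ring
    have := intervalIntegral.norm_integral_le_of_norm_le_const (a := a) (b := a + ℓ)
      (C := √(mz * (ℓ * B))) (f := fun s' => g s - g s') (fun s' hs' => by
        rw [uIoc_of_le (by linarith)] at hs'
        exact Real.abs_le_sqrt (hpair s' ⟨hs'.1.le, hs'.2⟩))
    rw [e]
    rwa [add_sub_cancel_left, abs_of_pos hℓ] at this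
  have hsq : (ℓ * g s - ∫ s' in a..a + ℓ, g s') ^ 2 ≤ mz * (ℓ * B) * ℓ ^ 2 := by
    rw [← sq_abs]
    calc _ ≤ (√(mz * (ℓ * B)) * ℓ) ^ 2 := pow_le_pow_left₀ (abs_nonneg _) hint 2
      _ = _ := by rw [mul_pow, Real.sq_sqrt hK]
  have e : mz * (mz⁻¹ * g s - Ul w h mz ℓ u a t) ^ 2 =
      (ℓ * g s - ∫ s' in a..a + ℓ, g s') ^ 2 / (mz * ℓ ^ 2) := by
    rw [Ul]
    change mz * (mz⁻¹ * g s - (ℓ * mz)⁻¹ * ∫ s' in a..a + ℓ, g s') ^ 2 = _
    field_simp
  change mz * (mz⁻¹ * g s - Ul w h mz ℓ u a t) ^ 2 ≤ _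
  rw [e, div_le_iff₀ (by positivity)]
  calc _ ≤ _ := hsq
    _ = _ := by ring

/-- Recipe: three averaging steps.  Let `u₁ (s,t) = mz⁻¹ ∫ w z * u (s,t,z) dz`,
`u₂ t = ℓ⁻¹ ∫ u₁ (s,t) ds = Ul`, `u₃ = Ub`; bound `(u - u₁)²` with `ZW.poincare` (the mean
minimises), `(u₁ - u₂)²` with `sq_sub_le` in `s`, `(u₂ - u₃)²` with `Ub_sub_Ul_sq`. -/
theorem box_poincare (hw : ZW w h mz) (hℓ : 0 < ℓ) (hu : ContDiff ℝ 1 u) (a b : ℝ) :
    ∫ x in bx a (a + ℓ) b (b + ℓ) h, w (x 2) * (u x - Ub w h mz ℓ u a b) ^ 2 ≤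
      12 * (ℓ ^ 2 + h ^ 2) * ∫ x in bx a (a + ℓ) b (b + ℓ) h, w (x 2) * gsq u x := by
  have hm := hw.mz_pos
  have hh := hw.hpos
  have hwc := hw.cont
  have huc := hu.continuous
  have hgc := continuous_gsq hu
  have hd : Differentiable ℝ u := hu.differentiable one_ne_zero
  have hx2 : Continuous fun x : Pos3 => w (x 2) := hwc.comp (by fun_prop)
  have hI : ∀ {F : Pos3 → ℝ}, Continuous F → IntegrableOn F (bx a (a + ℓ) b (b + ℓ) h) :=
    fun hF => hF.continuousOn.integrableOn_compact (isCompact_bx _ _ _ _ _)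
  set E := ∫ x in bx a (a + ℓ) b (b + ℓ) h, w (x 2) * gsq u x with hE
  set c := Ub w h mz ℓ u a b with hc
  have hE0 : 0 ≤ E := setIntegral_nonneg (measurableSet_bx _ _ _ _ _) fun x _ =>
    mul_nonneg (hw.pos _).le (gsq_nonneg u x)
  set G : ℝ → ℝ → ℝ := fun s t => ∫ z in (-h)..h, w z * gsq u (mk3 (s, t) z) with hG
  set B : ℝ → ℝ := fun t => ∫ z in (-h)..h, ∫ σ in a..a + ℓ, w z * gsq u (mk3 (σ, t) z) with hB
  set L : ℝ → ℝ → ℝ := fun s t => ∫ z in (-h)..h, w z * (u (mk3 (s, t) z) - c) ^ 2 with hL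
  have hGc : Continuous (Function.uncurry G) :=
    intervalIntegral.continuous_parametric_intervalIntegral_of_continuous'
      (f := fun (q : ℝ × ℝ) z => w z * gsq u (mk3 (q.1, q.2) z))
      ((hwc.comp continuous_snd).mul
        (BoxP_cont hgc continuous_fst.fst continuous_fst.snd continuous_snd)) _ _
  have hLc : Continuous (Function.uncurry L) :=
    intervalIntegral.continuous_parametric_intervalIntegral_of_continuous'
      (f := fun (q : ℝ × ℝ) z => w z * (u (mk3 (q.1, q.2) z) - c) ^ 2)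
      ((hwc.comp continuous_snd).fun_mul (((BoxP_cont huc continuous_fst.fst continuous_fst.snd
        continuous_snd).fun_sub (continuous_const (y := c))).fun_pow 2)) _ _
  have hBc : Continuous B :=
    intervalIntegral.continuous_parametric_intervalIntegral_of_continuous'
      (f := fun t z => ∫ σ in a..a + ℓ, w z * gsq u (mk3 (σ, t) z))
      (intervalIntegral.continuous_parametric_intervalIntegral_of_continuous'
        (f := fun (q : ℝ × ℝ) σ => w q.2 * gsq u (mk3 (σ, q.1) q.2))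
        ((hwc.comp continuous_fst.snd).mul
          (BoxP_cont hgc continuous_snd continuous_fst.fst continuous_fst.snd)) _ _) _ _
  have hEG : E = ∫ s in a..a + ℓ, ∫ t in b..b + ℓ, G s t :=
    integral_bx_012 (by linarith) (by linarith) hh.le (hI (hx2.mul hgc))
  have hEB : E = ∫ t in b..b + ℓ, B t :=
    integral_bx_120 (by linarith) (by linarith) hh.le (hI (hx2.mul hgc))
  have hEL : ∫ x in bx a (a + ℓ) b (b + ℓ) h, w (x 2) * (u x - c) ^ 2 =
      ∫ s in a..a + ℓ, ∫ t in b..b + ℓ, L s t :=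
    integral_bx_012 (by linarith) (by linarith) hh.le
      (hI (hx2.mul ((huc.sub continuous_const).pow 2)))
  have hpt : ∀ s ∈ Icc a (a + ℓ), ∀ t ∈ Icc b (b + ℓ),
      L s t ≤ h ^ 2 * G s t + (2 * ℓ * B t + 2 * E) := by
    intro s hs t ht
    have hcz : Continuous fun z => u (mk3 (s, t) z) :=
      BoxP_cont huc continuous_const continuous_const continuous_id
    have hc2 : Continuous fun z => pd 2 u (mk3 (s, t) z) :=
      BoxP_cont (continuous_pd 2 hu) continuous_const continuous_const continuous_id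
    have hcg : Continuous fun z => gsq u (mk3 (s, t) z) :=
      BoxP_cont hgc continuous_const continuous_const continuous_id
    have h1 := BoxP_var hw hcz c (u (mk3 (s, t) 0))
    have h2 := hw.poincare (fun z => hasDerivAt_mk3_2 hd s t z) hc2
    have h3 : ∫ z in (-h)..h, w z * pd 2 u (mk3 (s, t) z) ^ 2 ≤ G s t :=
      intervalIntegral.integral_mono_on (by linarith)
        ((hwc.mul (hc2.pow 2)).intervalIntegrable _ _) ((hwc.mul hcg).intervalIntegrable _ _)
        fun z _ => mul_le_mul_of_nonneg_left (pd_sq_le 2 u _) (hw.pos z).le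
    have h4 := BoxP_step hw hℓ hu hs t
    have h5 := Ub_sub_Ul_sq hw hℓ hu a (b := b) (y := t) le_rfl le_rfl ht.1 ht.2
    have h5' : mz * (c - Ul w h mz ℓ u a t) ^ 2 ≤ E := by
      calc _ ≤ mz * ((b + ℓ - b) / (ℓ * mz) * E) := mul_le_mul_of_nonneg_left h5 hm.le
        _ = E := by field_simp; ring
    have h6 := mul_le_mul_of_nonneg_left h3 (sq_nonneg h)
    have h7 : ∀ x y z : ℝ, mz * (x - z) ^ 2 ≤ 2 * (mz * (x - y) ^ 2) + 2 * (mz * (z - y) ^ 2) :=
      fun x y z => by nlinarith [mul_nonneg hm.le (sq_nonneg (x + z - 2 * y))]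
    have h8 := h7 (mz⁻¹ * ∫ z in (-h)..h, w z * u (mk3 (s, t) z)) (Ul w h mz ℓ u a t) c
    change L s t ≤ _ at h1
    change _ ≤ ℓ * B t at h4
    linarith
  have hGs : Continuous fun s => ∫ t in b..b + ℓ, G s t :=
    intervalIntegral.continuous_parametric_intervalIntegral_of_continuous' hGc _ _
  have hLs : Continuous fun s => ∫ t in b..b + ℓ, L s t :=
    intervalIntegral.continuous_parametric_intervalIntegral_of_continuous' hLc _ _
  have hs1 : ∀ s ∈ Icc a (a + ℓ), ∫ t in b..b + ℓ, L s t ≤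
      h ^ 2 * (∫ t in b..b + ℓ, G s t) + 4 * ℓ * E := by
    intro s hs
    have hG1 : Continuous (G s) := hGc.uncurry_left s
    have hL1 : Continuous (L s) := hLc.uncurry_left s
    calc _ ≤ ∫ t in b..b + ℓ, (h ^ 2 * G s t + (2 * ℓ * B t + 2 * E)) :=
          intervalIntegral.integral_mono_on (by linarith) (hL1.intervalIntegrable _ _)
            (Continuous.intervalIntegrable (by fun_prop) _ _) (hpt s hs)
      _ = _ := by
          rw [intervalIntegral.integral_add (Continuous.intervalIntegrable (by fun_prop) _ _)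
            (Continuous.intervalIntegrable (by fun_prop) _ _),
            intervalIntegral.integral_add (Continuous.intervalIntegrable (by fun_prop) _ _)
            (Continuous.intervalIntegrable (by fun_prop) _ _),
            intervalIntegral.integral_const_mul, intervalIntegral.integral_const_mul, ← hEB,
            intervalIntegral.integral_const, smul_eq_mul]
          ring
  rw [hEL]
  calc _ ≤ ∫ s in a..a + ℓ, (h ^ 2 * (∫ t in b..b + ℓ, G s t) + 4 * ℓ * E) :=
        intervalIntegral.integral_mono_on (by linarith) (hLs.intervalIntegrable _ _)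
          (Continuous.intervalIntegrable (by fun_prop) _ _) hs1
    _ = h ^ 2 * E + 4 * ℓ ^ 2 * E := by
        rw [intervalIntegral.integral_add (Continuous.intervalIntegrable (by fun_prop) _ _)
          (Continuous.intervalIntegrable (by fun_prop) _ _),
          intervalIntegral.integral_const_mul, ← hEG, intervalIntegral.integral_const, smul_eq_mul]
        ring
    _ ≤ _ := by nlinarith [mul_nonneg (sq_nonneg h) hE0, mul_nonneg (sq_nonneg ℓ) hE0]

/-- The case `w = 1`. -/
theorem poincare_cube {δ : ℝ} (hδ : 0 < δ) (hu : ContDiff ℝ 1 u) :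
    ∫ y in Qc δ, (u y - (δ ^ 3)⁻¹ * ∫ y' in Qc δ, u y') ^ 2 ≤ 15 * δ ^ 2 * ∫ y in Qc δ, gsq u y := by
  have hw : ZW (fun _ => 1) (δ / 2) δ :=
    ⟨continuous_const, fun _ => one_pos, fun _ => rfl, fun _ _ _ _ _ => le_rfl, by linarith,
      by simp⟩
  have h1 := box_poincare hw hδ hu (-(δ / 2)) (-(δ / 2))
  rw [Ub, show -(δ / 2) + δ = δ / 2 by ring, ← Qc_eq_bx, show δ ^ 2 * δ = δ ^ 3 by ring,
    show 12 * (δ ^ 2 + (δ / 2) ^ 2) = 15 * δ ^ 2 by ring] at h1
  simpa only [one_mul] using h1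

end Crest.Agent.R338
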