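/-
R338/Green: the fundamental solution of the Laplacian
Skeleton by helper15 (row 338); keep the statements unchanged, add any helper lemmas you like.
-/
import Crest.Agent.R338.Kern

set_option autoImplicit false
set_option linter.unusedSectionVars false
set_option linter.unusedVariables false
set_option linter.unusedSimpArgs false

noncomputable section

namespace Crest.Agent.R338

open MeasureTheory Set Crest.MathPhysics.ElectronicCoulomb
open scoped RealInnerProductSpace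

theorem green_prim (r : ℝ) :
    HasDerivAt (fun r : ℝ => r ^ 3 / √(r ^ 2 + 1) ^ 3) (r ^ 2 * (3 / √(r ^ 2 + 1) ^ 5)) r := by
  have hp : 0 < r ^ 2 + 1 := by positivity
  have hs : 0 < √(r ^ 2 + 1) := Real.sqrt_pos.2 hp
  have h1 : HasDerivAt (fun r : ℝ => r ^ 2 + 1) (2 * r) r := by
    simpa using (hasDerivAt_pow 2 r).add_const 1
  have h2 := (h1.sqrt hp.ne').pow 3
  have h3 := (hasDerivAt_pow 3 r).div h2 (by simp only [Pi.pow_apply]; positivity)
  have hq : √(r ^ 2 + 1) ^ 2 = r ^ 2 + 1 := Real.sq_sqrt hp.le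
  refine h3.congr_deriv ?_
  simp only [Pi.pow_apply]
  set q := √(r ^ 2 + 1)
  norm_num
  field_simp
  linear_combination r ^ 2 * hq

theorem green_prim_lim :
    Filter.Tendsto (fun r : ℝ => r ^ 3 / √(r ^ 2 + 1) ^ 3) Filter.atTop (nhds 1) := by
  have h1 : Filter.Tendsto (fun r : ℝ => (√(1 + (r⁻¹) ^ 2) ^ 3)⁻¹) Filter.atTop
      (nhds ((√(1 + (0 : ℝ) ^ 2) ^ 3)⁻¹)) := by
    refine Filter.Tendsto.inv₀ ?_ (by norm_num)
    refine Filter.Tendsto.pow ?_ 3
    refine Filter.Tendsto.sqrt ?_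
    exact tendsto_const_nhds.add (tendsto_inv_atTop_zero.pow 2)
  have h2 : (√(1 + (0 : ℝ) ^ 2) ^ 3)⁻¹ = 1 := by norm_num
  rw [h2] at h1
  refine h1.congr' ?_
  filter_upwards [Filter.eventually_gt_atTop (0 : ℝ)] with r hr
  have h3 : √(r ^ 2 + 1) = r * √(1 + (r⁻¹) ^ 2) := by
    have : r ^ 2 + 1 = r ^ 2 * (1 + (r⁻¹) ^ 2) := by field_simp
    rw [this, Real.sqrt_mul (by positivity), Real.sqrt_sq hr.le]
  have h4 : 0 < √(1 + (r⁻¹) ^ 2) := Real.sqrt_pos.2 (by positivity)
  rw [h3]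
  field_simp

/-- `integral_fun_norm_addHaar`; the primitive of `3 r² / (r² + 1)^(5/2)` is `r³ / (r² + 1)^(3/2)`;
`EuclideanSpace.volume_ball_fin_three`. -/
theorem green_mass : Integrable (fun y : Pos3 => 3 / √(‖y‖ ^ 2 + 1) ^ 5) ∧
    ∫ y : Pos3, 3 / √(‖y‖ ^ 2 + 1) ^ 5 = 4 * Real.pi := by
  have hd : Module.finrank ℝ Pos3 = 3 := by simp
  have hpos : ∀ r ∈ Ioi (0 : ℝ), 0 ≤ r ^ 2 * (3 / √(r ^ 2 + 1) ^ 5) := fun r _ => by positivity
  constructor
  · rw [integrable_fun_norm_addHaar volume (f := fun r : ℝ => 3 / √(r ^ 2 + 1) ^ 5), hd]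
    exact integrableOn_Ioi_deriv_of_nonneg' (fun r _ => green_prim r) hpos green_prim_lim
  · rw [integral_fun_norm_addHaar volume (fun r : ℝ => 3 / √(r ^ 2 + 1) ^ 5), hd]
    have h := integral_Ioi_of_hasDerivAt_of_nonneg' (a := 0) (fun r _ => green_prim r) hpos
      green_prim_lim
    have hb : (volume : Measure Pos3).real (Metric.ball 0 1) = Real.pi * 4 / 3 := by
      rw [Measure.real, EuclideanSpace.volume_ball_fin_three]
      simp only [ENNReal.ofReal_one, one_pow, one_mul]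
      rw [ENNReal.toReal_ofReal (by positivity)]
    simp only [smul_eq_mul, show 3 - 1 = 2 from rfl]
    rw [h, hb]
    simp only [nsmul_eq_mul]
    norm_num
    ring

/-- The regularised profile. -/
def green_h (η t : ℝ) : ℝ := (√(t + η ^ 2) ^ 3)⁻¹

theorem green_h_deriv {η t : ℝ} (hη : 0 < η) (ht : 0 ≤ t) :
    HasDerivAt (green_h η) (-(3 / 2) / √(t + η ^ 2) ^ 5) t := by
  have hp : 0 < t + η ^ 2 := by positivity
  have hs : 0 < √(t + η ^ 2) := Real.sqrt_pos.2 hp
  have h1 : HasDerivAt (fun t : ℝ => t + η ^ 2) 1 t := (hasDerivAt_id t).add_const _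
  have h2 := ((h1.sqrt hp.ne').pow 3).inv (by simp only [Pi.pow_apply]; positivity)
  refine h2.congr_deriv ?_
  simp only [Pi.pow_apply]
  set q := √(t + η ^ 2)
  field_simp
  norm_num
  ring

theorem green_contDiff_N (x : Pos3) : ContDiff ℝ 1 fun y : Pos3 => ‖y - x‖ ^ 2 :=
  (contDiff_id.sub contDiff_const).norm_sq ℝ

theorem green_contDiff_h {η : ℝ} (hη : 0 < η) (x : Pos3) :
    ContDiff ℝ 1 fun y : Pos3 => green_h η (‖y - x‖ ^ 2) := by
  unfold green_h
  refine ContDiff.inv (ContDiff.pow (ContDiff.sqrt ((green_contDiff_N x).add contDiff_const) ?_) 3) ?_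
  · intro y
    positivity
  · intro y
    have : 0 < √(‖y - x‖ ^ 2 + η ^ 2) := Real.sqrt_pos.2 (by positivity)
    positivity

theorem green_contDiff_coord (x : Pos3) (c : Fin 3) : ContDiff ℝ 1 fun y : Pos3 => y c - x c :=
  (EuclideanSpace.proj (𝕜 := ℝ) c).contDiff.sub contDiff_const

theorem green_pd_N (x y : Pos3) (c : Fin 3) :
    pd c (fun y : Pos3 => ‖y - x‖ ^ 2) y = 2 * (y c - x c) := by
  have h : HasFDerivAt (fun y : Pos3 => y - x) (ContinuousLinearMap.id ℝ Pos3) y :=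
    (hasFDerivAt_id y).sub_const x
  have h2 := h.norm_sq
  unfold pd
  rw [h2.fderiv]
  simp [EuclideanSpace.inner_single_right]

theorem green_pd_coord (x y : Pos3) (c : Fin 3) : pd c (fun y : Pos3 => y c - x c) y = 1 := by
  have := pd_coord (x := y) c c (h := fun t => t - x c) (h' := 1) ((hasDerivAt_id _).sub_const _)
  simpa using this

theorem green_div {η : ℝ} (hη : 0 < η) (x y : Pos3) :
    ∑ c, pd c (fun y : Pos3 => green_h η (‖y - x‖ ^ 2) * (y c - x c)) y =
      3 * η ^ 2 / √(‖y - x‖ ^ 2 + η ^ 2) ^ 5 := by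
  have h1 : ∀ c : Fin 3, pd c (fun y : Pos3 => green_h η (‖y - x‖ ^ 2) * (y c - x c)) y =
      -3 / √(‖y - x‖ ^ 2 + η ^ 2) ^ 5 * (y c - x c) ^ 2 + green_h η (‖y - x‖ ^ 2) := by
    intro c
    rw [pd_mul c ((green_contDiff_h hη x).differentiable one_ne_zero y)
      ((green_contDiff_coord x c).differentiable one_ne_zero y), green_pd_coord,
      pd_comp c (f := fun y : Pos3 => ‖y - x‖ ^ 2) (green_h_deriv hη (by positivity))
        ((green_contDiff_N x).differentiable one_ne_zero y), green_pd_N]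
    ring
  simp only [h1, Fin.sum_univ_three]
  have hn := norm_sq_eq (y - x)
  simp only [PiLp.sub_apply] at hn
  have hp : 0 < ‖y - x‖ ^ 2 + η ^ 2 := by positivity
  have hs : 0 < √(‖y - x‖ ^ 2 + η ^ 2) := Real.sqrt_pos.2 hp
  have hq : √(‖y - x‖ ^ 2 + η ^ 2) ^ 2 = ‖y - x‖ ^ 2 + η ^ 2 := Real.sq_sqrt hp.le
  unfold green_h
  set q := √(‖y - x‖ ^ 2 + η ^ 2)
  field_simp
  linear_combination 3 * hq + 3 * hn

theorem green_reg {g : Pos3 → ℝ} (hg : Test g) (x : Pos3) {η : ℝ} (hη : 0 < η) :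
    ∫ y, fderiv ℝ g y (green_h η (‖y - x‖ ^ 2) • (y - x)) =
      -∫ w : Pos3, g (x + η • w) * (3 / √(‖w‖ ^ 2 + 1) ^ 5) := by
  have hX : ∀ c : Fin 3, ContDiff ℝ 1 fun y : Pos3 => green_h η (‖y - x‖ ^ 2) * (y c - x c) :=
    fun c => (green_contDiff_h hη x).mul (green_contDiff_coord x c)
  have h1 : ∀ y, fderiv ℝ g y (green_h η (‖y - x‖ ^ 2) • (y - x)) =
      ∑ c, pd c g y * (green_h η (‖y - x‖ ^ 2) * (y c - x c)) := by
    intro y
    rw [fderiv_eq_sum]
    refine Finset.sum_congr rfl fun c _ => ?_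
    simp only [PiLp.smul_apply, PiLp.sub_apply, smul_eq_mul]
    ring
  have hi1 : ∀ c : Fin 3, Integrable fun y =>
      pd c g y * (green_h η (‖y - x‖ ^ 2) * (y c - x c)) := fun c =>
    ((continuous_pd c hg.diff).mul (hX c).continuous).integrable_of_hasCompactSupport
      (hg.supp_pd c).mul_right
  have hi2 : ∀ c : Fin 3, Integrable fun y =>
      g y * pd c (fun y : Pos3 => green_h η (‖y - x‖ ^ 2) * (y c - x c)) y := fun c =>
    (hg.continuous.mul (continuous_pd c (hX c))).integrable_of_hasCompactSupport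
      hg.supp.mul_right
  simp only [h1]
  rw [integral_finsetSum _ fun c _ => hi1 c]
  simp only [fun c => hg.integral_pd_mul (hX c) c]
  rw [Finset.sum_neg_distrib, ← integral_finsetSum _ fun c _ => hi2 c]
  congr 1
  simp only [← Finset.mul_sum, green_div hη]
  rw [← integral_add_left_eq_self _ x]
  simp only [add_sub_cancel_left]
  have h2 := Measure.integral_comp_smul (volume : Measure Pos3)
    (fun z : Pos3 => g (x + z) * (3 * η ^ 2 / √(‖z‖ ^ 2 + η ^ 2) ^ 5)) η
  have hd : Module.finrank ℝ Pos3 = 3 := by simp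
  rw [hd, abs_of_pos (by positivity), smul_eq_mul] at h2
  have h3 : ∀ w : Pos3, g (x + η • w) * (3 * η ^ 2 / √(‖η • w‖ ^ 2 + η ^ 2) ^ 5) =
      (η ^ 3)⁻¹ * (g (x + η • w) * (3 / √(‖w‖ ^ 2 + 1) ^ 5)) := by
    intro w
    have e : √(‖η • w‖ ^ 2 + η ^ 2) = η * √(‖w‖ ^ 2 + 1) := by
      have : ‖η • w‖ ^ 2 + η ^ 2 = η ^ 2 * (‖w‖ ^ 2 + 1) := by
        rw [norm_smul, Real.norm_eq_abs, mul_pow, sq_abs]; ring
      rw [this, Real.sqrt_mul (by positivity), Real.sqrt_sq hη.le]
    have hs : 0 < √(‖w‖ ^ 2 + 1) := Real.sqrt_pos.2 (by positivity)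
    rw [e]
    field_simp
  simp only [h3] at h2
  rw [integral_const_mul] at h2
  exact (mul_left_cancel₀ (by positivity) h2).symm

theorem green_norm_le (x y : Pos3) {η : ℝ} (hη : 0 < η) :
    ‖green_h η (‖y - x‖ ^ 2) • (y - x)‖ ≤ Kn (x - y) ^ 2 := by
  rcases eq_or_ne (y - x) 0 with h | h
  · rw [h, smul_zero, norm_zero]
    positivity
  · have hn : 0 < ‖y - x‖ := norm_pos_iff.2 h
    have h1 : ‖y - x‖ ≤ √(‖y - x‖ ^ 2 + η ^ 2) := Real.le_sqrt_of_sq_le (by nlinarith)
    have h2 : green_h η (‖y - x‖ ^ 2) ≤ (‖y - x‖ ^ 3)⁻¹ :=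
      inv_anti₀ (by positivity) (pow_le_pow_left₀ hn.le h1 3)
    have h3 : 0 ≤ green_h η (‖y - x‖ ^ 2) := by unfold green_h; positivity
    rw [norm_smul, Real.norm_eq_abs, abs_of_nonneg h3, Kn, norm_sub_rev x y]
    calc green_h η (‖y - x‖ ^ 2) * ‖y - x‖ ≤ (‖y - x‖ ^ 3)⁻¹ * ‖y - x‖ := by gcongr
      _ = (1 / ‖y - x‖) ^ 2 := by field_simp

theorem green_lim (x y : Pos3) :
    Filter.Tendsto (fun η : ℝ => green_h η (‖y - x‖ ^ 2) • (y - x)) (nhdsWithin 0 (Ioi 0))
      (nhds (gK (x - y))) := by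
  have e : gK (x - y) = (‖y - x‖ ^ 3)⁻¹ • (y - x) := by
    rw [gK, norm_sub_rev x y, neg_smul, ← smul_neg, neg_sub]
  rw [e]
  rcases eq_or_ne (y - x) 0 with h | h
  · simp only [h, smul_zero]
    exact tendsto_const_nhds
  · have hn : 0 < ‖y - x‖ := norm_pos_iff.2 h
    refine Filter.Tendsto.smul_const (Filter.Tendsto.mono_left ?_ nhdsWithin_le_nhds) _
    have h1 : Filter.Tendsto (fun η : ℝ => green_h η (‖y - x‖ ^ 2)) (nhds 0)
        (nhds ((√(‖y - x‖ ^ 2 + (0 : ℝ) ^ 2) ^ 3)⁻¹)) := by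
      unfold green_h
      refine Filter.Tendsto.inv₀ ?_ ?_
      · exact (Filter.Tendsto.sqrt (tendsto_const_nhds.add (Filter.tendsto_id.pow 2))).pow 3
      · have : 0 < √(‖y - x‖ ^ 2 + (0 : ℝ) ^ 2) := Real.sqrt_pos.2 (by positivity)
        positivity
    have h2 : √(‖y - x‖ ^ 2 + (0 : ℝ) ^ 2) = ‖y - x‖ := by
      rw [zero_pow two_ne_zero, add_zero, Real.sqrt_sq hn.le]
    rwa [h2] at h1

/-- Recipe: the field `X_η y = (y - x) / √(‖y - x‖² + η²)³` has divergence
`3 η² / √(‖y - x‖² + η²)⁵`; integrate by parts (`Test.integral_pd_mul`, `fderiv_eq_sum`), substitute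
`y = x + η y'` on the right, and let `η → 0` by dominated convergence on both sides
(`‖X_η y‖ ≤ Kn (x - y)²`). -/
theorem green {g : Pos3 → ℝ} (hg : Test g) (x : Pos3) :
    ∫ y, fderiv ℝ g y (gK (x - y)) = -(4 * Real.pi) * g x := by
  have hloc : LocallyIntegrable fun y => Kn (x - y) ^ 2 :=
    locallyIntegrable_iff.2 fun k hk => integrableOn_Kn_sq x hk.isBounded
  have hcf : Continuous (fderiv ℝ g) := hg.diff.continuous_fderiv one_ne_zero
  have hL : Filter.Tendsto (fun η : ℝ => ∫ y, fderiv ℝ g y (green_h η (‖y - x‖ ^ 2) • (y - x)))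
      (nhdsWithin 0 (Ioi 0)) (nhds (∫ y, fderiv ℝ g y (gK (x - y)))) := by
    refine tendsto_integral_filter_of_dominated_convergence
      (fun y => ‖fderiv ℝ g y‖ • Kn (x - y) ^ 2) ?_ ?_ ?_ ?_
    · filter_upwards [self_mem_nhdsWithin] with η hη
      exact (hcf.clm_apply ((green_contDiff_h hη x).continuous.smul
        (continuous_id.sub continuous_const))).aestronglyMeasurable
    · filter_upwards [self_mem_nhdsWithin] with η hη
      refine Filter.Eventually.of_forall fun y => ?_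
      refine ((fderiv ℝ g y).le_opNorm _).trans ?_
      exact mul_le_mul_of_nonneg_left (green_norm_le x y hη) (norm_nonneg _)
    · exact hloc.integrable_smul_left_of_hasCompactSupport hcf.norm (hg.supp.fderiv ℝ).norm
    · exact Filter.Eventually.of_forall fun y =>
        ((fderiv ℝ g y).continuous.tendsto _).comp (green_lim x y)
  obtain ⟨C, hC⟩ := hg.continuous.bounded_above_of_compact_support hg.supp
  have hR : Filter.Tendsto (fun η : ℝ => ∫ w : Pos3, g (x + η • w) * (3 / √(‖w‖ ^ 2 + 1) ^ 5))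
      (nhdsWithin 0 (Ioi 0)) (nhds (∫ w : Pos3, g x * (3 / √(‖w‖ ^ 2 + 1) ^ 5))) := by
    refine tendsto_integral_filter_of_dominated_convergence
      (fun w : Pos3 => C * (3 / √(‖w‖ ^ 2 + 1) ^ 5)) ?_ ?_ ?_ ?_
    · refine Filter.Eventually.of_forall fun η => ?_
      have hc : Continuous fun w : Pos3 => g (x + η • w) := hg.continuous.comp (by fun_prop)
      exact hc.aestronglyMeasurable.mul green_mass.1.aestronglyMeasurable
    · refine Filter.Eventually.of_forall fun η => Filter.Eventually.of_forall fun w => ?_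
      rw [norm_mul, Real.norm_of_nonneg (r := 3 / √(‖w‖ ^ 2 + 1) ^ 5) (by positivity)]
      exact mul_le_mul_of_nonneg_right (hC _) (by positivity)
    · exact green_mass.1.const_mul C
    · refine Filter.Eventually.of_forall fun w => ?_
      refine Filter.Tendsto.mul_const _ (Filter.Tendsto.mono_left ?_ nhdsWithin_le_nhds)
      have hc : Continuous fun η : ℝ => g (x + η • w) :=
        hg.continuous.comp (continuous_const.add (continuous_id.smul continuous_const))
      simpa using hc.tendsto 0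
  rw [integral_const_mul, green_mass.2] at hR
  have hL' : Filter.Tendsto (fun η : ℝ => ∫ y, fderiv ℝ g y (green_h η (‖y - x‖ ^ 2) • (y - x)))
      (nhdsWithin 0 (Ioi 0)) (nhds (-(g x * (4 * Real.pi)))) := by
    refine hR.neg.congr' ?_
    filter_upwards [self_mem_nhdsWithin] with η hη
    exact (green_reg hg x hη).symm
  rw [tendsto_nhds_unique hL hL']
  ring

end Crest.Agent.R338
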