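/-
R338/Cell: estimates in one cell
Skeleton by helper15 (row 338); keep the statements unchanged, add any helper lemmas you like.
-/
import Crest.Agent.R338.Hardy
import Crest.Agent.R338.BoxP

set_option autoImplicit false
set_option linter.unusedSectionVars false
set_option linter.unusedVariables false
set_option linter.unusedSimpArgs false

noncomputable section

namespace Crest.Agent.R338

open MeasureTheory Set Crest.MathPhysics.ElectronicCoulomb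
open scoped RealInnerProductSpace

variable {ρ : Pos3 → ℝ} {Λ : ℝ}

theorem Wt.nonneg (h : Wt ρ Λ) : 0 ≤ Λ :=
  nonneg_of_mul_nonneg_left ((norm_nonneg _).trans (h.d1 0)) (h.pos 0)

theorem Wt.differentiable (h : Wt ρ Λ) : Differentiable ℝ ρ := h.diff.differentiable (by norm_num)

theorem Wt.continuous (h : Wt ρ Λ) : Continuous ρ := h.diff.continuous

/-- `log ρ` is `Λ`-Lipschitz. -/
theorem Wt.comp (h : Wt ρ Λ) {x y : Pos3} (hxy : Λ * ‖x - y‖ ≤ 2) : ρ x ≤ 8 * ρ y := by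
  have hd : ∀ z, HasFDerivAt (fun z => Real.log (ρ z)) ((ρ z)⁻¹ • fderiv ℝ ρ z) z := fun z =>
    (h.differentiable z).hasFDerivAt.log (h.pos z).ne'
  have hb : ∀ z, ‖(ρ z)⁻¹ • fderiv ℝ ρ z‖ ≤ Λ := fun z => by
    rw [norm_smul, norm_inv, Real.norm_of_nonneg (h.pos z).le, inv_mul_le_iff₀ (h.pos z), mul_comm]
    exact h.d1 z
  have h1 := (convex_univ (𝕜 := ℝ) (E := Pos3)).norm_image_sub_le_of_norm_hasFDerivWithin_le
    (fun z _ => (hd z).hasFDerivWithinAt) (fun z _ => hb z) (mem_univ y) (mem_univ x)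
  have h2 : Real.log (ρ x) ≤ Real.log (ρ y) + 2 := by
    have := (le_abs_self _).trans (h1.trans hxy)
    linarith
  have h3 : ρ x ≤ ρ y * Real.exp 2 := by
    have := Real.exp_le_exp.2 h2
    rwa [Real.exp_add, Real.exp_log (h.pos x), Real.exp_log (h.pos y)] at this
  have h4 : Real.exp 2 ≤ 8 := by
    have e1 := Real.exp_one_lt_d9
    have e0 := Real.exp_pos 1
    have : Real.exp 2 = Real.exp 1 * Real.exp 1 := by rw [← Real.exp_add]; norm_num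
    nlinarith
  nlinarith [h.pos y]

theorem Wt.second_diff (h : Wt ρ Λ) (p : Pos3) {y : Pos3} (hy : Λ * ‖y‖ ≤ 1) :
    |ρ (p + y) + ρ (p - y) - 2 * ρ p| ≤ 16 * Λ ^ 2 * ‖y‖ ^ 2 * ρ p := by
  have hΛ := h.nonneg
  have hp := h.pos p
  have hd2 : Differentiable ℝ (fderiv ℝ ρ) :=
    (h.diff.fderiv_right (m := 1) (by norm_num)).differentiable (by norm_num)
  have hb : ∀ z ∈ Metric.closedBall p ‖y‖, ‖fderiv ℝ (fderiv ℝ ρ) z‖ ≤ 8 * Λ ^ 2 * ρ p := by
    intro z hz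
    rw [mem_closedBall_iff_norm] at hz
    have h1 := h.d2 z
    rw [← norm_iteratedFDeriv_fderiv, norm_iteratedFDeriv_one] at h1
    have h2 : ρ z ≤ 8 * ρ p := h.comp (by nlinarith)
    nlinarith [sq_nonneg Λ]
  have hlip : ∀ z ∈ Metric.closedBall (0 : Pos3) ‖y‖,
      ‖fderiv ℝ ρ (p + z) - fderiv ℝ ρ (p - z)‖ ≤ 16 * Λ ^ 2 * ρ p * ‖y‖ := by
    intro z hz
    rw [mem_closedBall_zero_iff] at hz
    have h1 := (convex_closedBall p ‖y‖).norm_image_sub_le_of_norm_fderiv_le (𝕜 := ℝ)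
      (fun x _ => hd2 x) hb (x := p - z) (y := p + z)
      (by rw [mem_closedBall_iff_norm]; simpa using hz)
      (by rw [mem_closedBall_iff_norm]; simpa using hz)
    have h2 : ‖p + z - (p - z)‖ ≤ 2 * ‖y‖ := by
      have : p + z - (p - z) = z + z := by abel
      rw [this]
      linarith [norm_add_le z z]
    calc _ ≤ _ := h1
      _ ≤ 8 * Λ ^ 2 * ρ p * (2 * ‖y‖) := by gcongr
      _ = _ := by ring
  have hd : ∀ z : Pos3, HasFDerivAt (fun z => ρ (p + z) + ρ (p - z))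
      (fderiv ℝ ρ (p + z) - fderiv ℝ ρ (p - z)) z := by
    intro z
    have a1 := (h.differentiable (p + z)).hasFDerivAt.comp z ((hasFDerivAt_id z).const_add p)
    have a2 := (h.differentiable (p - z)).hasFDerivAt.comp z ((hasFDerivAt_id z).const_sub p)
    refine (a1.add a2).congr_fderiv ?_
    ext v
    simp [sub_eq_add_neg]
  have h1 := (convex_closedBall (0 : Pos3) ‖y‖).norm_image_sub_le_of_norm_hasFDerivWithin_le
    (fun z _ => (hd z).hasFDerivWithinAt) hlip (x := 0) (y := y) (by simp) (by simp)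
  simp only [add_zero, sub_zero, Real.norm_eq_abs] at h1
  calc _ = |ρ (p + y) + ρ (p - y) - (ρ p + ρ p)| := by rw [two_mul]
    _ ≤ _ := h1
    _ = _ := by ring

theorem Wt.cont_add (h : Wt ρ Λ) (p : Pos3) : Continuous fun y => ρ (p + y) :=
  h.continuous.comp (continuous_const_add p)

theorem Cell_mul {δ : ℝ} {g k : Pos3 → ℝ} (hg : IntegrableOn g (Qc δ)) (hk : Continuous k) :
    IntegrableOn (fun y => g y * k y) (Qc δ) :=
  hg.mul_continuousOn hk.continuousOn (isCompact_Qc δ)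

theorem Cell_int {δ : ℝ} {k : Pos3 → ℝ} (hk : Continuous k) : IntegrableOn k (Qc δ) :=
  hk.continuousOn.integrableOn_compact (isCompact_Qc δ)

theorem Cell_Kn_sub (x y : Pos3) : Kn (x - y) = Kn (y - x) := by
  simp only [Kn, norm_sub_rev]

theorem Cell_int_K (δ : ℝ) (w : Pos3) : IntegrableOn (fun y => Kn (y - w)) (Qc δ) := by
  simpa only [Cell_Kn_sub w] using integrableOn_Kn w (isCompact_Qc δ).isBounded

theorem Cell_int_K2 (δ : ℝ) (w : Pos3) : IntegrableOn (fun y => Kn (y - w) ^ 2) (Qc δ) := by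
  simpa only [Cell_Kn_sub w] using integrableOn_Kn_sq w (isCompact_Qc δ).isBounded

theorem Cell_norm {δ : ℝ} (h : Wt ρ Λ) (hΛ : Λ * δ ≤ 1) {y : Pos3} (hy : y ∈ Qc δ) :
    Λ * ‖y‖ ≤ 1 := by
  have h1 := norm_le_of_mem_Qc hy
  have h2 := h.nonneg
  have h3 := norm_nonneg y
  nlinarith

theorem Cell_up {δ : ℝ} (h : Wt ρ Λ) (hΛ : Λ * δ ≤ 1) (p : Pos3) {g : Pos3 → ℝ}
    (hg : IntegrableOn g (Qc δ)) (h0 : ∀ y, 0 ≤ g y) :
    ∫ y in Qc δ, ρ (p + y) * g y ≤ 8 * ρ p * ∫ y in Qc δ, g y := by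
  rw [← integral_const_mul]
  refine setIntegral_mono_on ?_ (hg.const_mul _) (measurableSet_Qc δ) fun y hy => ?_
  · exact hg.continuousOn_mul (h.cont_add p).continuousOn (isCompact_Qc δ)
  · refine mul_le_mul_of_nonneg_right (h.comp ?_) (h0 y)
    have := Cell_norm h hΛ hy
    rw [add_sub_cancel_left]
    linarith

theorem Cell_down {δ : ℝ} (h : Wt ρ Λ) (hΛ : Λ * δ ≤ 1) (p : Pos3) {g : Pos3 → ℝ}
    (hg : IntegrableOn g (Qc δ)) (h0 : ∀ y, 0 ≤ g y) :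
    ρ p * ∫ y in Qc δ, g y ≤ 8 * ∫ y in Qc δ, ρ (p + y) * g y := by
  rw [← integral_const_mul, ← integral_const_mul]
  refine setIntegral_mono_on (hg.const_mul _) (Integrable.const_mul ?_ _) (measurableSet_Qc δ)
    fun y hy => ?_
  · exact hg.continuousOn_mul (h.cont_add p).continuousOn (isCompact_Qc δ)
  · rw [← mul_assoc]
    refine mul_le_mul_of_nonneg_right (h.comp ?_) (h0 y)
    have := Cell_norm h hΛ hy
    rw [sub_add_cancel_left, norm_neg]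
    linarith

/-- `hardy_cube` and `Wt.comp`. -/
theorem cell_K2 : ∃ C, ∀ (δ Λ : ℝ) (ρ u : Pos3 → ℝ) (p w : Pos3), 0 < δ → Wt ρ Λ → Λ * δ ≤ 1 →
    ContDiff ℝ 1 u → ‖w‖ ≤ δ / 4 →
    ∫ y in Qc δ, Kn (y - w) ^ 2 * (ρ (p + y) * u (p + y) ^ 2) ≤
      C * ((∫ y in Qc δ, ρ (p + y) * gsq u (p + y)) +
        (δ ^ 2)⁻¹ * ∫ y in Qc δ, ρ (p + y) * u (p + y) ^ 2) := by
  obtain ⟨C, hC⟩ := hardy_cube
  refine ⟨64 * |C|, fun δ Λ ρ u p w hδ h hΛ hu hw => ?_⟩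
  have hv : ContDiff ℝ 1 fun y => u (p + y) := hu.comp (contDiff_const.add contDiff_id)
  have hp := h.pos p
  have h1 := hC δ hδ w hw _ hv
  simp only [gsq_comp_add] at h1
  have hg : Continuous fun y => gsq u (p + y) := (continuous_gsq hu).comp (continuous_const_add p)
  have hv2 : Continuous fun y => u (p + y) ^ 2 := hv.continuous.pow 2
  have h2 := Cell_up h hΛ p (Cell_mul (Cell_int_K2 δ w) hv2) (fun y => by positivity)
  have h3 := Cell_down h hΛ p (Cell_int hg) (fun y => gsq_nonneg _ _)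
  have h4 := Cell_down h hΛ p (Cell_int hv2) (fun y => by positivity)
  have hG : 0 ≤ ∫ y in Qc δ, gsq u (p + y) := integral_nonneg fun y => gsq_nonneg _ _
  have hM : 0 ≤ ∫ y in Qc δ, u (p + y) ^ 2 := integral_nonneg fun y => by positivity
  calc _ = ∫ y in Qc δ, ρ (p + y) * (Kn (y - w) ^ 2 * u (p + y) ^ 2) := by
        congr 1; ext y; ring
    _ ≤ _ := h2
    _ ≤ 8 * ρ p * (|C| * ((∫ y in Qc δ, gsq u (p + y)) +
          (δ ^ 2)⁻¹ * ∫ y in Qc δ, u (p + y) ^ 2)) := by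
        refine mul_le_mul_of_nonneg_left (h1.trans ?_) (by positivity)
        exact mul_le_mul_of_nonneg_right (le_abs_self C) (by positivity)
    _ = 8 * |C| * ((ρ p * ∫ y in Qc δ, gsq u (p + y)) +
          (δ ^ 2)⁻¹ * (ρ p * ∫ y in Qc δ, u (p + y) ^ 2)) := by ring
    _ ≤ 8 * |C| * ((8 * ∫ y in Qc δ, ρ (p + y) * gsq u (p + y)) +
          (δ ^ 2)⁻¹ * (8 * ∫ y in Qc δ, ρ (p + y) * u (p + y) ^ 2)) :=
        mul_le_mul_of_nonneg_left
          (add_le_add h3 (mul_le_mul_of_nonneg_left h4 (by positivity))) (by positivity)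
    _ = _ := by ring

/-- `2 K ≤ δ K² + δ⁻¹`. -/
theorem cell_K1 : ∃ C, ∀ (δ Λ : ℝ) (ρ u : Pos3 → ℝ) (p w : Pos3), 0 < δ → Wt ρ Λ → Λ * δ ≤ 1 →
    ContDiff ℝ 1 u → ‖w‖ ≤ δ / 4 →
    ∫ y in Qc δ, Kn (y - w) * (ρ (p + y) * u (p + y) ^ 2) ≤
      C * (δ * (∫ y in Qc δ, ρ (p + y) * gsq u (p + y)) +
        δ⁻¹ * ∫ y in Qc δ, ρ (p + y) * u (p + y) ^ 2) := by
  obtain ⟨C, hC⟩ := cell_K2
  refine ⟨|C| + 1, fun δ Λ ρ u p w hδ h hΛ hu hw => ?_⟩
  have h1 := hC δ Λ ρ u p w hδ h hΛ hu hw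
  have hr : Continuous fun y => ρ (p + y) * u (p + y) ^ 2 :=
    (h.continuous.comp (continuous_const_add p)).mul
      ((hu.continuous.comp (continuous_const_add p)).pow 2)
  have hG : 0 ≤ ∫ y in Qc δ, ρ (p + y) * gsq u (p + y) :=
    integral_nonneg fun y => mul_nonneg (h.pos _).le (gsq_nonneg _ _)
  have hM : 0 ≤ ∫ y in Qc δ, ρ (p + y) * u (p + y) ^ 2 :=
    integral_nonneg fun y => mul_nonneg (h.pos _).le (sq_nonneg _)
  have i2 := Cell_mul (Cell_int_K2 δ w) hr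
  have h2 : ∫ y in Qc δ, Kn (y - w) * (ρ (p + y) * u (p + y) ^ 2) ≤
      δ * (∫ y in Qc δ, Kn (y - w) ^ 2 * (ρ (p + y) * u (p + y) ^ 2)) +
        δ⁻¹ * ∫ y in Qc δ, ρ (p + y) * u (p + y) ^ 2 := by
    rw [← integral_const_mul, ← integral_const_mul,
      ← integral_add (i2.const_mul _) ((Cell_int hr).const_mul _)]
    refine setIntegral_mono_on (Cell_mul (Cell_int_K δ w) hr)
      ((i2.const_mul _).add ((Cell_int hr).const_mul _)) (measurableSet_Qc δ) fun y _ => ?_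
    have h0 : 0 ≤ ρ (p + y) * u (p + y) ^ 2 := mul_nonneg (h.pos _).le (sq_nonneg _)
    have hk := Kn_nonneg (y - w)
    have : Kn (y - w) ≤ δ * Kn (y - w) ^ 2 + δ⁻¹ := by
      rw [← sub_nonneg]
      have : δ * Kn (y - w) ^ 2 + δ⁻¹ - Kn (y - w) =
          δ⁻¹ * ((δ * Kn (y - w) - 1) ^ 2 + δ * Kn (y - w)) := by field_simp; ring
      rw [this]; positivity
    nlinarith
  set G := ∫ y in Qc δ, ρ (p + y) * gsq u (p + y)
  set M := ∫ y in Qc δ, ρ (p + y) * u (p + y) ^ 2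
  calc _ ≤ _ := h2
    _ ≤ δ * (|C| * (G + (δ ^ 2)⁻¹ * M)) + δ⁻¹ * M := by
        gcongr
        exact h1.trans (mul_le_mul_of_nonneg_right (le_abs_self C) (by positivity))
    _ = |C| * (δ * G + δ⁻¹ * M) + δ⁻¹ * M := by field_simp
    _ ≤ _ := by nlinarith [mul_nonneg hδ.le hG]

theorem Cell_ae (δ : ℝ) : ∀ᵐ y ∂(volume.restrict (Qc δ)), y ∈ Qc δ ∧ y ≠ 0 := by
  filter_upwards [ae_restrict_mem (measurableSet_Qc δ),
    ae_restrict_of_ae (s := Qc δ) (Measure.ae_ne volume (0 : Pos3))] with y h1 h2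
  exact ⟨h1, h2⟩

theorem Cell_int_f {δ A : ℝ} {f : Pos3 → ℝ} (hf : Measurable f)
    (hb : ∀ y ∈ Qc δ, y ≠ 0 → |f y| ≤ A * Kn y) : IntegrableOn f (Qc δ) := by
  refine Integrable.mono' ((Cell_int_K δ 0).const_mul A) hf.aestronglyMeasurable ?_
  filter_upwards [Cell_ae δ] with y hy
  simpa using hb y hy.1 hy.2

/-- the even mean-zero function against the weight -/
theorem Cell_even_wt {δ A : ℝ} {f : Pos3 → ℝ} (hδ : 0 < δ) (h : Wt ρ Λ) (hΛ : Λ * δ ≤ 1) (p : Pos3)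
    (hf : Measurable f) (he : ∀ y, f (-y) = f y) (h0 : ∫ y in Qc δ, f y = 0) (hA : 0 ≤ A)
    (hb : ∀ y ∈ Qc δ, y ≠ 0 → |f y| ≤ A * Kn y) :
    |∫ y in Qc δ, f y * ρ (p + y)| ≤ 8 * A * Λ ^ 2 * δ * ρ p * δ ^ 3 := by
  have hi := Cell_int_f hf hb
  have hp := h.pos p
  have i1 := Cell_mul hi (h.cont_add p)
  have i2 : IntegrableOn (fun y => f y * ρ (p - y)) (Qc δ) :=
    Cell_mul hi (h.continuous.comp (continuous_const.sub continuous_id))
  have e1 : ∫ y in Qc δ, f y * ρ (p - y) = ∫ y in Qc δ, f y * ρ (p + y) := by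
    rw [← integral_Qc_neg δ fun y => f y * ρ (p + y)]
    simp only [he, sub_eq_add_neg]
  have e2 : ∫ y in Qc δ, f y * (ρ (p + y) + ρ (p - y) - 2 * ρ p) =
      2 * ∫ y in Qc δ, f y * ρ (p + y) := by
    simp only [mul_sub, mul_add]
    have i3 : IntegrableOn (fun y => f y * ρ (p + y) + f y * ρ (p - y)) (Qc δ) := i1.add i2
    rw [integral_sub i3 (hi.mul_const _), integral_add i1 i2, integral_mul_const, h0, e1]
    ring
  have hfin : volume (Qc δ) < ⊤ := (isCompact_Qc δ).measure_lt_top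
  have e3 : ‖∫ y in Qc δ, f y * (ρ (p + y) + ρ (p - y) - 2 * ρ p)‖ ≤
      16 * A * Λ ^ 2 * δ * ρ p * volume.real (Qc δ) := by
    refine norm_setIntegral_le_of_norm_le_const_ae hfin ?_
    filter_upwards [Cell_ae δ] with y hy
    have hy0 : 0 < ‖y‖ := norm_pos_iff.2 hy.2
    have hyδ : ‖y‖ ≤ δ := by linarith [norm_le_of_mem_Qc hy.1]
    rw [Real.norm_eq_abs, abs_mul]
    calc _ ≤ (A * Kn y) * (16 * Λ ^ 2 * ‖y‖ ^ 2 * ρ p) :=
          mul_le_mul (hb y hy.1 hy.2) (h.second_diff p (Cell_norm h hΛ hy.1)) (abs_nonneg _)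
            (mul_nonneg hA (Kn_nonneg _))
      _ = 16 * A * Λ ^ 2 * ‖y‖ * ρ p := by unfold Kn; field_simp
      _ ≤ _ := by gcongr
  rw [e2, volume_Qc hδ.le, Real.norm_eq_abs, abs_mul, abs_two] at e3
  linarith

theorem Cell_mean_sq {δ : ℝ} (hδ : 0 < δ) {v : Pos3 → ℝ} (hv : Continuous v) :
    ((δ ^ 3)⁻¹ * ∫ y in Qc δ, v y) ^ 2 * δ ^ 3 ≤ ∫ y in Qc δ, v y ^ 2 := by
  have hv2 : Continuous fun y => v y ^ 2 := hv.pow 2
  have h := sq_integral_le (μ := volume.restrict (Qc δ)) (w := fun _ => (1 : ℝ)) (f := v)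
    (g := fun _ => (1 : ℝ)) (fun _ => zero_le_one) (Cell_int (continuous_const.mul hv2))
    (Cell_int continuous_const) (Cell_int (continuous_const.mul (hv.mul continuous_const)))
  simp only [mul_one, one_mul, one_pow, integral_const, smul_eq_mul,
    MeasurableSet.univ, measureReal_restrict_apply, univ_inter, volume_Qc hδ.le] at h
  calc _ = (δ ^ 3)⁻¹ * (∫ y in Qc δ, v y) ^ 2 := by field_simp
    _ ≤ (δ ^ 3)⁻¹ * ((∫ y in Qc δ, v y ^ 2) * δ ^ 3) := by gcongr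
    _ = _ := by field_simp

theorem Cell_K2_le : ∃ C, 0 ≤ C ∧ ∀ δ : ℝ, 0 < δ → ∫ y in Qc δ, Kn y ^ 2 ≤ C * δ := by
  obtain ⟨C, hC⟩ := int_ball_two
  refine ⟨|C|, abs_nonneg _, fun δ hδ => ?_⟩
  have h1 := hC 0 δ hδ
  have h2 : ∫ y in Qc δ, Kn (0 - y) ^ 2 ≤ ∫ y in Metric.ball 0 δ, Kn (0 - y) ^ 2 := by
    refine setIntegral_mono_set (integrableOn_Kn_sq 0 Metric.isBounded_ball)
      (Filter.Eventually.of_forall fun y => sq_nonneg _) (Filter.Eventually.of_forall fun y hy => ?_)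
    have := norm_le_of_mem_Qc hy
    exact mem_ball_zero_iff.2 (by linarith)
  simp only [Cell_Kn_sub 0, sub_zero] at h1 h2
  exact (h2.trans h1).trans (mul_le_mul_of_nonneg_right (le_abs_self C) hδ.le)

theorem Cell_pt {F K A r w m t : ℝ} (hF : |F| ≤ A * K) (hA : 0 ≤ A) (hK : 0 ≤ K) (hr : 0 ≤ r)
    (ht : 0 < t) :
    |F * (r * (w ^ 2 + 2 * m * w))| ≤ A * (K * (r * w ^ 2) + t * (r * w ^ 2) +
      t⁻¹ * m ^ 2 * (r * K ^ 2)) := by
  have h1 : 2 * (|m| * K) * |w| ≤ t * w ^ 2 + t⁻¹ * m ^ 2 * K ^ 2 := by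
    rw [← sub_nonneg, ← sq_abs w, ← sq_abs m]
    have : t * |w| ^ 2 + t⁻¹ * |m| ^ 2 * K ^ 2 - 2 * (|m| * K) * |w| =
      t⁻¹ * (t * |w| - |m| * K) ^ 2 := by field_simp; ring
    rw [this]; positivity
  have h2 : |w ^ 2 + 2 * m * w| ≤ w ^ 2 + 2 * |m| * |w| := by
    refine (abs_add_le _ _).trans (le_of_eq ?_)
    rw [abs_mul, abs_mul, abs_two, abs_pow, sq_abs]
  rw [abs_mul, abs_mul, abs_of_nonneg hr]
  calc _ ≤ A * K * (r * (w ^ 2 + 2 * |m| * |w|)) := by gcongr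
    _ = A * (K * (r * w ^ 2) + r * (2 * (|m| * K) * |w|)) := by ring
    _ ≤ A * (K * (r * w ^ 2) + r * (t * w ^ 2 + t⁻¹ * m ^ 2 * K ^ 2)) := by gcongr
    _ = _ := by ring

/-- Recipe: with the cell average `ū`, `u² = ū² + (u - ū)(u + ū)`.  First term: `f` is even with mean
zero, so `2 ∫ f ρ(p + ·) = ∫ f · (second difference)`; `∫ Kn ≤ C δ²`, `ū² δ³ ≤ ∫ u²`.  Second term:
Cauchy-Schwarz, `poincare_cube`, `hardy_cube`, `∫ Kn² ≤ C δ`, and `x y ≤ ε x² + y² / ε`. -/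
theorem cell_even : ∃ C, ∀ (δ Λ ε A : ℝ) (ρ u f : Pos3 → ℝ) (p : Pos3), 0 < δ → 0 < ε → Wt ρ Λ →
    Λ * δ ≤ 1 → ContDiff ℝ 1 u → Measurable f → (∀ y, f (-y) = f y) → ∫ y in Qc δ, f y = 0 →
    0 ≤ A → (∀ y ∈ Qc δ, y ≠ 0 → |f y| ≤ A * Kn y) →
    |∫ y in Qc δ, f y * (ρ (p + y) * u (p + y) ^ 2)| ≤
      C * A * ((δ + ε) * (∫ y in Qc δ, ρ (p + y) * gsq u (p + y)) +
        (ε⁻¹ + δ * Λ ^ 2) * ∫ y in Qc δ, ρ (p + y) * u (p + y) ^ 2) := by
  obtain ⟨C1, hC1⟩ := cell_K1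
  obtain ⟨C2, hC2, hK2⟩ := Cell_K2_le
  refine ⟨961 * |C1| + 960 + 64 * C2, fun δ Λ ε A ρ u f p hδ hε h hΛ hu hf he h0 hA hb => ?_⟩
  have hv : ContDiff ℝ 1 fun y => u (p + y) := hu.comp (contDiff_const.add contDiff_id)
  have hp := h.pos p
  have hi := Cell_int_f hf hb
  obtain ⟨m, hm⟩ : ∃ m, m = (δ ^ 3)⁻¹ * ∫ y in Qc δ, u (p + y) := ⟨_, rfl⟩
  have hg : Continuous fun y => gsq u (p + y) := (continuous_gsq hu).comp (continuous_const_add p)
  have hv2 : Continuous fun y => u (p + y) ^ 2 := hv.continuous.pow 2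
  have hw2 : Continuous fun y => (u (p + y) - m) ^ 2 := (hv.continuous.sub continuous_const).pow 2
  have hrw : Continuous fun y => ρ (p + y) * (u (p + y) - m) ^ 2 := (h.cont_add p).mul hw2
  have hG0 := Cell_down h hΛ p (Cell_int hg) (fun y => gsq_nonneg _ _)
  have hM0 := Cell_down h hΛ p (Cell_int hv2) (fun y => by positivity)
  have hmean := Cell_mean_sq hδ hv.continuous
  have hpoin := poincare_cube hδ hv
  simp only [gsq_comp_add] at hpoin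
  rw [← hm] at hmean hpoin
  have hW := Cell_up h hΛ p (Cell_int hw2) (fun y => sq_nonneg _)
  have hK1 := hC1 δ Λ ρ (fun y => u y - m) p 0 hδ h hΛ (hu.sub contDiff_const)
    (by rw [norm_zero]; positivity)
  have hgs : ∀ x, gsq (fun y => u y - m) x = gsq u x := fun x => by
    rw [gsq_eq_norm, gsq_eq_norm, fderiv_sub_const]
  simp only [hgs, sub_zero] at hK1
  have iK : IntegrableOn Kn (Qc δ) := by simpa using Cell_int_K δ 0
  have iK2 : IntegrableOn (fun y => Kn y ^ 2) (Qc δ) := by simpa using Cell_int_K2 δ 0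
  have hKr := Cell_up h hΛ p iK2 (fun y => sq_nonneg _)
  have hK := hK2 δ hδ
  have hE := Cell_even_wt hδ h hΛ p hf he h0 hA hb
  have j1 := Cell_mul hi (h.cont_add p)
  have j2 : IntegrableOn (fun y => f y * (ρ (p + y) * ((u (p + y) - m) ^ 2 +
      2 * m * (u (p + y) - m)))) (Qc δ) :=
    Cell_mul hi ((h.cont_add p).mul
      (hw2.add (continuous_const.mul (hv.continuous.sub continuous_const))))
  have e1 : ∫ y in Qc δ, f y * (ρ (p + y) * u (p + y) ^ 2) =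
      m ^ 2 * (∫ y in Qc δ, f y * ρ (p + y)) + ∫ y in Qc δ, f y * (ρ (p + y) *
        ((u (p + y) - m) ^ 2 + 2 * m * (u (p + y) - m))) := by
    rw [← integral_const_mul, ← integral_add (j1.const_mul _) j2]
    congr 1; ext y; ring
  have ht : 0 < ε / δ ^ 2 := by positivity
  have k1 := Cell_mul iK hrw
  have k2 := (Cell_int (δ := δ) hrw).const_mul (ε / δ ^ 2)
  have k3 := (iK2.continuousOn_mul (h.cont_add p).continuousOn (isCompact_Qc δ)).const_mul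
    ((ε / δ ^ 2)⁻¹ * m ^ 2)
  have e2 : |∫ y in Qc δ, f y * (ρ (p + y) * ((u (p + y) - m) ^ 2 + 2 * m * (u (p + y) - m)))| ≤
      A * ((∫ y in Qc δ, Kn y * (ρ (p + y) * (u (p + y) - m) ^ 2)) +
        ε / δ ^ 2 * (∫ y in Qc δ, ρ (p + y) * (u (p + y) - m) ^ 2) +
        (ε / δ ^ 2)⁻¹ * m ^ 2 * ∫ y in Qc δ, ρ (p + y) * Kn y ^ 2) := by
    have k4 : IntegrableOn (fun y => Kn y * (ρ (p + y) * (u (p + y) - m) ^ 2) +
      ε / δ ^ 2 * (ρ (p + y) * (u (p + y) - m) ^ 2)) (Qc δ) := k1.add k2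
    rw [← integral_const_mul, ← integral_const_mul, ← integral_add k1 k2,
      ← integral_add k4 k3, ← integral_const_mul, ← Real.norm_eq_abs]
    refine norm_integral_le_of_norm_le ((k4.add k3).const_mul A) ?_
    filter_upwards [Cell_ae δ] with y hy
    exact Cell_pt (hb y hy.1 hy.2) hA (Kn_nonneg y) (h.pos _).le ht
  have hG : 0 ≤ ∫ y in Qc δ, ρ (p + y) * gsq u (p + y) :=
    integral_nonneg fun y => mul_nonneg (h.pos _).le (gsq_nonneg _ _)
  have hM : 0 ≤ ∫ y in Qc δ, ρ (p + y) * u (p + y) ^ 2 :=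
    integral_nonneg fun y => mul_nonneg (h.pos _).le (sq_nonneg _)
  have hW0 : 0 ≤ ∫ y in Qc δ, ρ (p + y) * (u (p + y) - m) ^ 2 :=
    integral_nonneg fun y => mul_nonneg (h.pos _).le (sq_nonneg _)
  rw [e1]
  generalize (∫ y in Qc δ, ρ (p + y) * gsq u (p + y)) = G at *
  generalize (∫ y in Qc δ, ρ (p + y) * u (p + y) ^ 2) = M at *
  generalize (∫ y in Qc δ, ρ (p + y) * (u (p + y) - m) ^ 2) = W at *
  generalize (∫ y in Qc δ, gsq u (p + y)) = G0 at *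
  generalize (∫ y in Qc δ, u (p + y) ^ 2) = M0 at *
  generalize (∫ y in Qc δ, (u (p + y) - m) ^ 2) = W0 at *
  generalize (∫ y in Qc δ, f y * ρ (p + y)) = T1 at *
  generalize (∫ y in Qc δ, f y * (ρ (p + y) *
    ((u (p + y) - m) ^ 2 + 2 * m * (u (p + y) - m)))) = T2 at *
  generalize (∫ y in Qc δ, Kn y * (ρ (p + y) * (u (p + y) - m) ^ 2)) = X at *
  generalize (∫ y in Qc δ, ρ (p + y) * Kn y ^ 2) = Y at *
  generalize (∫ y in Qc δ, Kn y ^ 2) = Y0 at *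
  have a1 : W ≤ 960 * δ ^ 2 * G :=
    calc W ≤ 8 * ρ p * W0 := hW
      _ ≤ 8 * ρ p * (15 * δ ^ 2 * G0) := by gcongr
      _ = 120 * δ ^ 2 * (ρ p * G0) := by ring
      _ ≤ 120 * δ ^ 2 * (8 * G) := by gcongr
      _ = _ := by ring
  have a0 : ρ p * (m ^ 2 * δ ^ 3) ≤ 8 * M := (mul_le_mul_of_nonneg_left hmean hp.le).trans hM0
  have a2 : |m ^ 2 * T1| ≤ A * (64 * (δ * Λ ^ 2 * M)) := by
    rw [abs_mul, abs_of_nonneg (sq_nonneg m)]
    calc _ ≤ m ^ 2 * (8 * A * Λ ^ 2 * δ * ρ p * δ ^ 3) := by gcongr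
      _ = 8 * A * Λ ^ 2 * δ * (ρ p * (m ^ 2 * δ ^ 3)) := by ring
      _ ≤ 8 * A * Λ ^ 2 * δ * (8 * M) := by gcongr
      _ = _ := by ring
  have a3 : X ≤ 961 * |C1| * (δ * G) :=
    calc X ≤ |C1| * (δ * G + δ⁻¹ * W) :=
          hK1.trans (mul_le_mul_of_nonneg_right (le_abs_self _) (by positivity))
      _ ≤ |C1| * (δ * G + δ⁻¹ * (960 * δ ^ 2 * G)) := by gcongr
      _ = _ := by field_simp; ring
  have a4 : ε / δ ^ 2 * W ≤ 960 * (ε * G) :=
    calc _ ≤ ε / δ ^ 2 * (960 * δ ^ 2 * G) := by gcongr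
      _ = _ := by field_simp
  have a5 : (ε / δ ^ 2)⁻¹ * m ^ 2 * Y ≤ 64 * C2 * (ε⁻¹ * M) :=
    calc _ ≤ (ε / δ ^ 2)⁻¹ * m ^ 2 * (8 * ρ p * (C2 * δ)) := by
          refine mul_le_mul_of_nonneg_left (hKr.trans ?_) (by positivity)
          gcongr
      _ = 8 * C2 * ε⁻¹ * (ρ p * (m ^ 2 * δ ^ 3)) := by field_simp
      _ ≤ 8 * C2 * ε⁻¹ * (8 * M) := by gcongr
      _ = _ := by ring
  have b1 : 0 ≤ δ * G := by positivity
  have b2 : 0 ≤ ε * G := by positivity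
  have b3 : 0 ≤ ε⁻¹ * M := by positivity
  have b4 : 0 ≤ δ * Λ ^ 2 * M := by positivity
  have b5 := abs_nonneg C1
  calc _ ≤ |m ^ 2 * T1| + |T2| := abs_add_le _ _
    _ ≤ A * (64 * (δ * Λ ^ 2 * M)) +
        A * (961 * |C1| * (δ * G) + 960 * (ε * G) + 64 * C2 * (ε⁻¹ * M)) :=
        add_le_add a2 (e2.trans (by gcongr))
    _ = A * (64 * (δ * Λ ^ 2 * M) + 961 * |C1| * (δ * G) + 960 * (ε * G) +
        64 * C2 * (ε⁻¹ * M)) := by ring
    _ ≤ A * ((961 * |C1| + 960 + 64 * C2) * (δ * G + ε * G + ε⁻¹ * M + δ * Λ ^ 2 * M)) := by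
        refine mul_le_mul_of_nonneg_left ?_ hA
        nlinarith [mul_nonneg b5 b1, mul_nonneg b5 b2, mul_nonneg b5 b3, mul_nonneg b5 b4,
          mul_nonneg hC2 b1, mul_nonneg hC2 b2, mul_nonneg hC2 b3, mul_nonneg hC2 b4]
    _ = _ := by ring

end Crest.Agent.R338
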