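/-
R338/Cube: point charge versus cube; lattice sums
Skeleton by helper15 (row 338); keep the statements unchanged, add any helper lemmas you like.
-/
import Crest.Agent.R338.Kern

set_option autoImplicit false
set_option linter.unusedSectionVars false
set_option linter.unusedVariables false
set_option linter.unusedSimpArgs false

noncomputable section

namespace Crest.Agent.R338

open MeasureTheory Set Crest.MathPhysics.ElectronicCoulomb
open scoped RealInnerProductSpace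

theorem cube_measurable_pot (s : Set Pos3) : Measurable fun x : Pos3 => ∫ y in s, Kn (x - y) := by
  have h : StronglyMeasurable (Function.uncurry fun x y : Pos3 => Kn (x - y)) :=
    (measurable_Kn.comp (measurable_fst.sub measurable_snd)).stronglyMeasurable
  exact (h.integral_prod_right (ν := volume.restrict s)).measurable

theorem cube_pot_nonneg (s : Set Pos3) (x : Pos3) : 0 ≤ ∫ y in s, Kn (x - y) :=
  integral_nonneg fun _ => Kn_nonneg _

theorem cube_pot_mono {s t : Set Pos3} (hst : s ⊆ t) (ht : Bornology.IsBounded t) (x : Pos3) :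
    ∫ y in s, Kn (x - y) ≤ ∫ y in t, Kn (x - y) :=
  setIntegral_mono_set (integrableOn_Kn x ht) (Filter.Eventually.of_forall fun _ => Kn_nonneg _)
    hst.eventuallyLE

theorem cube_pot_bdd {s : Set Pos3} (hs : Bornology.IsBounded s) :
    ∃ C, ∀ x, |∫ y in s, Kn (x - y)| ≤ C := by
  obtain ⟨R, hR, hsub⟩ := hs.subset_ball_lt 0 (0 : Pos3)
  obtain ⟨C, hC⟩ := int_ball_one
  refine ⟨C * R ^ 2, fun x => ?_⟩
  rw [abs_of_nonneg (cube_pot_nonneg _ _)]
  exact (cube_pot_mono hsub Metric.isBounded_ball x).trans (hC x R hR)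

theorem cube_quad (h A B C : ℝ) :
    ∫ z in (-h)..h, (A + B * z + C * z ^ 2) = 2 * h * A + 2 * h ^ 3 / 3 * C := by
  rw [intervalIntegral.integral_add (by apply Continuous.intervalIntegrable; fun_prop)
      (by apply Continuous.intervalIntegrable; fun_prop),
    intervalIntegral.integral_add (by apply Continuous.intervalIntegrable; fun_prop)
      (by apply Continuous.intervalIntegrable; fun_prop),
    intervalIntegral.integral_const_mul, intervalIntegral.integral_const_mul, integral_id,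
    integral_pow, intervalIntegral.integral_const]
  simp only [smul_eq_mul]
  push_cast
  ring

theorem measurable_kk (δ : ℝ) : Measurable (kk δ) := by
  unfold kk
  exact measurable_Kn.sub ((cube_measurable_pot _).const_mul _)

theorem kk_neg (δ : ℝ) (x : Pos3) : kk δ (-x) = kk δ x := by
  unfold kk
  rw [Kn_neg, ← integral_Qc_neg δ fun y => Kn (-x - y)]
  congr 3
  funext y
  rw [← Kn_neg]; congr 1; abel

theorem cube_pot_le : ∃ C, ∀ δ : ℝ, 0 < δ → ∀ x, (δ ^ 3)⁻¹ * ∫ y in Qc δ, Kn (x - y) ≤ C / δ := by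
  obtain ⟨C, hC⟩ := int_ball_one
  refine ⟨C, fun δ hδ x => ?_⟩
  have hsub : Qc δ ⊆ Metric.ball 0 δ := fun y hy => by
    have := norm_le_of_mem_Qc hy
    rw [mem_ball_zero_iff]; linarith
  have := (cube_pot_mono hsub Metric.isBounded_ball x).trans (hC x δ hδ)
  calc _ ≤ (δ ^ 3)⁻¹ * (C * δ ^ 2) := mul_le_mul_of_nonneg_left this (by positivity)
    _ = C / δ := by field_simp

theorem locallyIntegrable_kk {δ : ℝ} (h : 0 < δ) : LocallyIntegrable (kk δ) := by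
  obtain ⟨C, hC⟩ := cube_pot_bdd (isCompact_Qc δ).isBounded
  have h1 : LocallyIntegrable fun x : Pos3 => (δ ^ 3)⁻¹ * ∫ y in Qc δ, Kn (x - y) := by
    rw [locallyIntegrable_iff]
    intro k hk
    refine Measure.integrableOn_of_bounded (M := (δ ^ 3)⁻¹ * C) hk.measure_lt_top.ne
      ((cube_measurable_pot _).const_mul _).aestronglyMeasurable
      (Filter.Eventually.of_forall fun x => ?_)
    rw [Real.norm_eq_abs, abs_mul, abs_of_nonneg (by positivity)]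
    exact mul_le_mul_of_nonneg_left (hC x) (by positivity)
  exact locallyIntegrable_Kn.sub h1

/-- Moments of the cube (`integral_bx_012`, or symmetry `integral_Qc_neg` and coordinate swaps). -/
theorem cube_moments {δ : ℝ} (h : 0 < δ) (v : Pos3) :
    ∫ y in Qc δ, ⟪v, y⟫ = 0 ∧ ∫ y in Qc δ, (3 * ⟪v, y⟫ ^ 2 - ‖y‖ ^ 2 * ‖v‖ ^ 2) = 0 := by
  constructor
  · have h1 := integral_Qc_neg δ fun y => ⟪v, y⟫
    simp only [inner_neg_right, integral_neg] at h1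
    linarith
  · have hi : IntegrableOn (fun y : Pos3 => 3 * ⟪v, y⟫ ^ 2 - ‖y‖ ^ 2 * ‖v‖ ^ 2) (Qc δ) :=
      (Continuous.continuousOn (by fun_prop)).integrableOn_compact (isCompact_Qc δ)
    rw [Qc_eq_bx] at hi ⊢
    rw [integral_bx_012 (by linarith) (by linarith) (by linarith) hi]
    set r := δ / 2
    set V := ‖v‖ ^ 2 with hV
    have e1 : ∀ s t : ℝ, ∫ z in (-r)..r, (3 * ⟪v, mk3 (s, t) z⟫ ^ 2 - ‖mk3 (s, t) z‖ ^ 2 * V) =
        (2 * r * (3 * v 0 ^ 2 * s ^ 2 - s ^ 2 * V) + 2 * r ^ 3 / 3 * (3 * v 2 ^ 2 - V)) +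
          (2 * r * (6 * v 0 * v 1 * s)) * t + (2 * r * (3 * v 1 ^ 2 - V)) * t ^ 2 := by
      intro s t
      have : ∀ z : ℝ, 3 * ⟪v, mk3 (s, t) z⟫ ^ 2 - ‖mk3 (s, t) z‖ ^ 2 * V =
          (3 * (v 0 * s + v 1 * t) ^ 2 - (s ^ 2 + t ^ 2) * V) +
            (6 * (v 0 * s + v 1 * t) * v 2) * z + (3 * v 2 ^ 2 - V) * z ^ 2 := by
        intro z
        rw [inner_eq, norm_sq_eq]
        simp only [mk3_0, mk3_1, mk3_2]
        ring
      simp only [this, cube_quad]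
      ring
    have e2 : ∀ s : ℝ, ∫ t in (-r)..r, ∫ z in (-r)..r,
        (3 * ⟪v, mk3 (s, t) z⟫ ^ 2 - ‖mk3 (s, t) z‖ ^ 2 * V) =
        (2 * r * (2 * r ^ 3 / 3 * (3 * v 2 ^ 2 - V)) + 2 * r ^ 3 / 3 * (2 * r * (3 * v 1 ^ 2 - V)))
          + 0 * s + (2 * r * (2 * r * (3 * v 0 ^ 2 - V))) * s ^ 2 := by
      intro s
      simp only [e1, cube_quad]
      ring
    simp only [e2, cube_quad]
    rw [hV, norm_sq_eq]
    ring

/-- `taylor2` and `cube_moments`. -/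
theorem kk_far : ∃ C, ∀ δ : ℝ, 0 < δ → ∀ x, 2 * δ ≤ ‖x‖ → |kk δ x| ≤ C * δ ^ 3 * Kn x ^ 4 := by
  obtain ⟨C, hC⟩ := taylor2
  refine ⟨|C|, fun δ hδ x hx => ?_⟩
  have hx0 : 0 < ‖x‖ := by linarith
  have hK : ‖x‖ * Kn x = 1 := by unfold Kn; field_simp
  have hK0 := Kn_nonneg x
  set P : Pos3 → ℝ := fun y =>
    Kn x - ⟪gK x, y⟫ + Kn x ^ 5 / 2 * (3 * ⟪x, y⟫ ^ 2 - ‖y‖ ^ 2 * ‖x‖ ^ 2) with hP
  have ci : ∀ f : Pos3 → ℝ, Continuous f → IntegrableOn f (Qc δ) := fun f hf =>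
    hf.continuousOn.integrableOn_compact (isCompact_Qc δ)
  have hint : ∫ y in Qc δ, P y = δ ^ 3 * Kn x := by
    simp only [hP]
    rw [integral_add (ci _ (by fun_prop)) (ci _ (by fun_prop)),
      integral_sub (ci _ (by fun_prop)) (ci _ (by fun_prop)), integral_const_mul,
      (cube_moments hδ x).2, (cube_moments hδ (gK x)).1, setIntegral_const, volume_Qc hδ.le]
    simp
  have hkk : kk δ x = (δ ^ 3)⁻¹ * ∫ y in Qc δ, (P y - Kn (x - y)) := by
    rw [integral_sub (ci _ (by simp only [hP]; fun_prop))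
      (integrableOn_Kn x (isCompact_Qc δ).isBounded), hint]
    unfold kk
    field_simp
  have hb : ∀ y ∈ Qc δ, ‖P y - Kn (x - y)‖ ≤ |C| * δ ^ 3 * Kn x ^ 4 := by
    intro y hy
    have hy' := norm_le_of_mem_Qc hy
    have h1 := hC x (-y) (norm_pos_iff.1 hx0) (by rw [norm_neg]; linarith)
    rw [← sub_eq_add_neg, inner_neg_right, inner_neg_right, norm_neg] at h1
    have e : P y - Kn (x - y) = -(Kn (x - y) - Kn x - -⟪gK x, y⟫ -
        (3 * (-⟪x, y⟫) ^ 2 * Kn x ^ 5 - ‖y‖ ^ 2 * Kn x ^ 3) / 2) := by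
      simp only [hP]
      have : Kn x ^ 3 = Kn x ^ 5 * ‖x‖ ^ 2 := by
        calc Kn x ^ 3 = Kn x ^ 3 * (‖x‖ * Kn x) ^ 2 := by rw [hK]; ring
          _ = _ := by ring
      rw [this]; ring
    rw [e, norm_neg, Real.norm_eq_abs]
    refine h1.trans ?_
    have h2 : ‖y‖ ^ 3 ≤ δ ^ 3 := pow_le_pow_left₀ (norm_nonneg _) (by linarith) 3
    refine mul_le_mul_of_nonneg_right ?_ (by positivity)
    exact (mul_le_mul_of_nonneg_right (le_abs_self C) (by positivity)).trans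
      (mul_le_mul_of_nonneg_left h2 (abs_nonneg _))
  have h3 := norm_setIntegral_le_of_norm_le_const (μ := volume) (isCompact_Qc δ).measure_lt_top hb
  rw [volume_Qc hδ.le, Real.norm_eq_abs] at h3
  rw [hkk, abs_mul, abs_of_nonneg (by positivity)]
  calc _ ≤ (δ ^ 3)⁻¹ * (|C| * δ ^ 3 * Kn x ^ 4 * δ ^ 3) :=
        mul_le_mul_of_nonneg_left h3 (by positivity)
    _ = _ := by field_simp

/-- The box `max |γ c| ≤ M`. -/
def cubeB (M : ℕ) : Finset (Fin 3 → ℤ) := Fintype.piFinset fun _ => Finset.Icc (-(M : ℤ)) M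

theorem mem_cubeB {M : ℕ} {γ : Fin 3 → ℤ} : γ ∈ cubeB M ↔ ∀ c, |γ c| ≤ M := by
  simp [cubeB, abs_le]

theorem cubeB_mono {M N : ℕ} (h : M ≤ N) : cubeB M ⊆ cubeB N := fun γ hγ => by
  rw [mem_cubeB] at *
  exact fun c => (hγ c).trans (by exact_mod_cast h)

theorem card_cubeB (M : ℕ) : (cubeB M).card = (2 * M + 1) ^ 3 := by
  have : ((M : ℤ) + 1 - -(M : ℤ)).toNat = 2 * M + 1 := by omega
  simp only [cubeB, Fintype.card_piFinset, Int.card_Icc, this]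
  simp

theorem cube_norm_lat {δ : ℝ} (hδ : 0 < δ) {γ : Fin 3 → ℤ} {m : ℕ} (h : ∃ c, (m : ℤ) < |γ c|) :
    δ * (m + 1) ≤ ‖lat δ γ‖ := by
  obtain ⟨c, hc⟩ := h
  have h1 := abs_le_norm (lat δ γ) c
  rw [lat_apply, abs_mul, abs_of_pos hδ] at h1
  have h2 : ((m : ℝ) + 1) ≤ |(γ c : ℝ)| := by exact_mod_cast hc
  nlinarith

theorem cube_shell (M : ℕ) :
    ∑ γ ∈ cubeB (M + 1) \ cubeB M, Kn (lat 1 γ) ^ 4 ≤ 26 / ((M : ℝ) + 1) ^ 2 := by
  have hb : ∀ γ ∈ cubeB (M + 1) \ cubeB M, Kn (lat 1 γ) ^ 4 ≤ (1 / ((M : ℝ) + 1)) ^ 4 := by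
    intro γ hγ
    have h1 := (Finset.mem_sdiff.1 hγ).2
    rw [mem_cubeB] at h1
    push Not at h1
    have h2 := cube_norm_lat one_pos h1
    rw [one_mul] at h2
    exact pow_le_pow_left₀ (Kn_nonneg _) (Kn_le_of_le (by positivity) h2) 4
  have h1 := Finset.sum_le_card_nsmul _ _ _ hb
  have h2 : ((cubeB (M + 1) \ cubeB M).card : ℝ) ≤ 26 * ((M : ℝ) + 1) ^ 2 := by
    have h3 := Finset.card_sdiff_add_card_eq_card (cubeB_mono (show M ≤ M + 1 by omega))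
    rw [card_cubeB, card_cubeB] at h3
    have h4 : ((cubeB (M + 1) \ cubeB M).card : ℝ) + (2 * M + 1) ^ 3 = (2 * (M + 1) + 1) ^ 3 := by
      exact_mod_cast h3
    have : (0 : ℝ) ≤ M := by positivity
    nlinarith
  rw [nsmul_eq_mul] at h1
  refine h1.trans ((mul_le_mul_of_nonneg_right h2 (by positivity)).trans (le_of_eq ?_))
  field_simp

/-- The shell `max |γ c| = j` has at most `26 j²` points. -/
theorem lattice_tail : ∃ C : ℝ, ∀ m : ℕ, 1 ≤ m → ∀ S : Finset (Fin 3 → ℤ),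
    (∀ γ ∈ S, ∃ c, (m : ℤ) < |γ c|) → ∑ γ ∈ S, Kn (lat 1 γ) ^ 4 ≤ C / m := by
  refine ⟨26, fun m hm S hS => ?_⟩
  have hm0 : (0 : ℝ) < m := by exact_mod_cast hm
  have key : ∀ k : ℕ, ∑ γ ∈ cubeB (m + k) \ cubeB m, Kn (lat 1 γ) ^ 4 ≤
      26 * (1 / (m : ℝ) - 1 / ((m + k : ℕ) : ℝ)) := by
    intro k
    induction k with
    | zero => simp
    | succ k ih =>
      have h1 := Finset.sum_sdiff (f := fun γ => Kn (lat 1 γ) ^ 4)
        (cubeB_mono (show m ≤ m + k by omega))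
      have h2 := Finset.sum_sdiff (f := fun γ => Kn (lat 1 γ) ^ 4)
        (cubeB_mono (show m ≤ m + (k + 1) by omega))
      have h3 := Finset.sum_sdiff (f := fun γ => Kn (lat 1 γ) ^ 4)
        (cubeB_mono (show m + k ≤ m + k + 1 by omega))
      have h4 := cube_shell (m + k)
      have hM : (0 : ℝ) < ((m + k : ℕ) : ℝ) := by push_cast; positivity
      have h5 : 26 / (((m + k : ℕ) : ℝ) + 1) ^ 2 ≤
          26 * (1 / ((m + k : ℕ) : ℝ) - 1 / ((m + (k + 1) : ℕ) : ℝ)) := by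
        have e : ((m + (k + 1) : ℕ) : ℝ) = ((m + k : ℕ) : ℝ) + 1 := by push_cast; ring
        rw [e]
        generalize ((m + k : ℕ) : ℝ) = t at hM
        have : 26 * (1 / t - 1 / (t + 1)) = 26 / (t * (t + 1)) := by field_simp; ring
        rw [this]
        exact div_le_div_of_nonneg_left (by norm_num) (by positivity) (by nlinarith)
      rw [← add_assoc] at h2 ⊢
      rw [← add_assoc] at h5
      linarith
  obtain ⟨k, hk⟩ : ∃ k : ℕ, S ⊆ cubeB (m + k) := by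
    refine ⟨S.sup fun γ => Finset.univ.sup fun c => (γ c).natAbs, fun γ hγ => ?_⟩
    rw [mem_cubeB]
    intro c
    have h1 : (γ c).natAbs ≤ Finset.univ.sup fun c => (γ c).natAbs :=
      Finset.le_sup (f := fun c => (γ c).natAbs) (Finset.mem_univ c)
    have h2 := Finset.le_sup (f := fun γ : Fin 3 → ℤ => Finset.univ.sup fun c => (γ c).natAbs) hγ
    have h3 := h1.trans h2
    rw [Int.abs_eq_natAbs]
    exact_mod_cast h3.trans (Nat.le_add_left _ _)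
  have hsub : S ⊆ cubeB (m + k) \ cubeB m := fun γ hγ => by
    refine Finset.mem_sdiff.2 ⟨hk hγ, fun h => ?_⟩
    obtain ⟨c, hc⟩ := hS γ hγ
    exact absurd (mem_cubeB.1 h c) (not_le.2 hc)
  refine (Finset.sum_le_sum_of_subset_of_nonneg hsub fun γ _ _ =>
    pow_nonneg (Kn_nonneg _) _).trans ((key k).trans ?_)
  have : (0 : ℝ) ≤ 1 / ((m + k : ℕ) : ℝ) := by positivity
  rw [mul_sub, mul_one_div]
  linarith

theorem cube_abs_kk_le {δ C : ℝ} {x : Pos3} (h : (δ ^ 3)⁻¹ * ∫ y in Qc δ, Kn (x - y) ≤ C)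
    (hδ : 0 < δ) : |kk δ x| ≤ C + Kn x := by
  have h1 : 0 ≤ (δ ^ 3)⁻¹ * ∫ y in Qc δ, Kn (x - y) :=
    mul_nonneg (by positivity) (cube_pot_nonneg _ _)
  have h2 := Kn_nonneg x
  unfold kk
  rw [abs_le]
  constructor <;> linarith

theorem cube_lat_sub (δ : ℝ) (β β' : Fin 3 → ℤ) : lat δ β - lat δ β' = δ • lat 1 (β - β') := by
  ext c; simp; ring

theorem cube_sum_far : ∃ C, ∀ δ : ℝ, 0 < δ → ∀ m : ℕ, 4 ≤ m → ∀ (S : Finset (Fin 3 → ℤ))
    (β₀ : Fin 3 → ℤ), (∀ β ∈ S, ∃ c, (m : ℤ) < |β c - β₀ c|) → ∀ z : (Fin 3 → ℤ) → Pos3,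
      (∀ β c, |z β c| ≤ 3 / 4 * δ) →
      ∑ β ∈ S, |kk δ (lat δ β₀ - lat δ β + z β)| ≤ C / (δ * m) := by
  obtain ⟨C₁, hC₁⟩ := kk_far
  obtain ⟨C₂, hC₂⟩ := lattice_tail
  refine ⟨16 * |C₁| * C₂, fun δ hδ m hm S β₀ hS z hz => ?_⟩
  have hm4 : (4 : ℝ) ≤ m := by exact_mod_cast hm
  have hS' : ∀ β ∈ S, ∃ c, (m : ℤ) < |(β₀ - β) c| := fun β hβ => by
    obtain ⟨c, hc⟩ := hS β hβ
    exact ⟨c, by rwa [Pi.sub_apply, abs_sub_comm]⟩
  have h1 := hC₂ m (by omega) (S.map (Equiv.subLeft β₀).toEmbedding) (by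
    intro γ hγ
    obtain ⟨β, hβ, rfl⟩ := Finset.mem_map.1 hγ
    exact hS' β hβ)
  rw [Finset.sum_map] at h1
  simp only [Equiv.coe_toEmbedding, Equiv.subLeft_apply] at h1
  have hb : ∀ β ∈ S, |kk δ (lat δ β₀ - lat δ β + z β)| ≤
      16 * |C₁| / δ * Kn (lat 1 (β₀ - β)) ^ 4 := by
    intro β hβ
    have h2 := cube_norm_lat one_pos (hS' β hβ)
    rw [cube_lat_sub]
    set g := lat 1 (β₀ - β)
    have h3 : ‖z β‖ ≤ 9 / 4 * δ := by
      have := norm_le_sum (z β)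
      linarith [hz β 0, hz β 1, hz β 2]
    have h4 : δ * ‖g‖ - ‖z β‖ ≤ ‖δ • g + z β‖ := by
      have := norm_sub_le (δ • g + z β) (z β)
      rw [add_sub_cancel_right, norm_smul, Real.norm_eq_abs, abs_of_pos hδ] at this
      linarith
    have hg : 5 ≤ ‖g‖ := by linarith
    have h5 : δ * ‖g‖ / 2 ≤ ‖δ • g + z β‖ := by nlinarith
    have h6 := hC₁ δ hδ (δ • g + z β) (by nlinarith)
    have h7 := Kn_le_of_le (by positivity) h5
    have h8 : Kn (δ • g + z β) ^ 4 ≤ (1 / (δ * ‖g‖ / 2)) ^ 4 := pow_le_pow_left₀ (Kn_nonneg _) h7 4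
    have h9 := Kn_nonneg (δ • g + z β)
    calc _ ≤ C₁ * δ ^ 3 * Kn (δ • g + z β) ^ 4 := h6
      _ ≤ |C₁| * δ ^ 3 * Kn (δ • g + z β) ^ 4 := by gcongr; exact le_abs_self _
      _ ≤ |C₁| * δ ^ 3 * (1 / (δ * ‖g‖ / 2)) ^ 4 := by gcongr
      _ = _ := by
        unfold Kn
        have : ‖g‖ ≠ 0 := by linarith
        field_simp; ring
  refine (Finset.sum_le_sum hb).trans ?_
  rw [← Finset.mul_sum]
  refine (mul_le_mul_of_nonneg_left h1 (by positivity)).trans (le_of_eq ?_)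
  field_simp

theorem cube_sum_ne : ∃ C, ∀ δ : ℝ, 0 < δ → ∀ (S : Finset (Fin 3 → ℤ))
    (β₀ : Fin 3 → ℤ), β₀ ∉ S → ∀ z : (Fin 3 → ℤ) → Pos3, (∀ β c, |z β c| ≤ 3 / 4 * δ) →
      ∑ β ∈ S, |kk δ (lat δ β₀ - lat δ β + z β)| ≤ C / δ := by
  classical
  obtain ⟨C₁, hC₁⟩ := cube_pot_le
  obtain ⟨C₂, hC₂⟩ := cube_sum_far
  refine ⟨729 * (|C₁| + 4) + C₂ / 4, fun δ hδ S β₀ h0 z hz => ?_⟩
  rw [← Finset.sum_filter_add_sum_filter_not S fun β => β₀ - β ∈ cubeB 4]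
  have h1 := hC₂ δ hδ 4 le_rfl (S.filter fun β => ¬ β₀ - β ∈ cubeB 4) β₀ (by
    intro β hβ
    have := (Finset.mem_filter.1 hβ).2
    rw [mem_cubeB] at this
    push Not at this
    obtain ⟨c, hc⟩ := this
    exact ⟨c, by rwa [Pi.sub_apply, abs_sub_comm] at hc⟩) z hz
  have hb : ∀ β ∈ S.filter fun β => β₀ - β ∈ cubeB 4,
      |kk δ (lat δ β₀ - lat δ β + z β)| ≤ (|C₁| + 4) / δ := by
    intro β hβ
    have hne : β₀ ≠ β := fun e => h0 (e ▸ (Finset.mem_filter.1 hβ).1)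
    obtain ⟨c, hc⟩ := Function.ne_iff.1 hne
    have h2 := abs_le_norm (lat δ β₀ - lat δ β + z β) c
    have h3 : (1 : ℝ) ≤ |(β₀ c : ℝ) - β c| := by
      have : (1 : ℤ) ≤ |β₀ c - β c| := Int.one_le_abs (sub_ne_zero.2 hc)
      exact_mod_cast this
    have h4 : δ / 4 ≤ ‖lat δ β₀ - lat δ β + z β‖ := by
      refine le_trans ?_ h2
      simp only [PiLp.add_apply, PiLp.sub_apply, lat_apply]
      have h5 := abs_sub (δ * β₀ c - δ * β c + z β c) (z β c)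
      rw [add_sub_cancel_right, ← mul_sub, abs_mul, abs_of_pos hδ] at h5
      have := hz β c
      rw [← mul_sub]
      nlinarith
    have h6 := Kn_le_of_le (by positivity) h4
    have h7 := cube_abs_kk_le (hC₁ δ hδ (lat δ β₀ - lat δ β + z β)) hδ
    have h8 : C₁ / δ ≤ |C₁| / δ := div_le_div_of_nonneg_right (le_abs_self _) hδ.le
    have h9 : 1 / (δ / 4) = 4 / δ := by field_simp
    rw [add_div]
    linarith
  have h2 := Finset.sum_le_card_nsmul _ _ _ hb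
  have h3 : (S.filter fun β => β₀ - β ∈ cubeB 4).card ≤ (cubeB 4).card :=
    Finset.card_le_card_of_injOn (fun β => β₀ - β) (fun β hβ => (Finset.mem_filter.1 hβ).2)
      (fun β _ β' _ e => sub_right_injective e)
  rw [card_cubeB] at h3
  have h4 : ((S.filter fun β => β₀ - β ∈ cubeB 4).card : ℝ) ≤ 729 := by exact_mod_cast h3
  rw [nsmul_eq_mul] at h2
  have h5 := mul_le_mul_of_nonneg_right h4 (show 0 ≤ (|C₁| + 4) / δ by positivity)
  have h6 : (729 * (|C₁| + 4) + C₂ / 4) / δ = 729 * ((|C₁| + 4) / δ) + C₂ / (δ * (4 : ℕ)) := by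
    push_cast; field_simp
  rw [h6]
  linarith

/-- All nuclei but the one of the own cell are at distance `≥ δ / 4`; at most `9³` cells are near. -/
theorem sum_kk_le : ∃ C, ∀ δ : ℝ, 0 < δ → ∀ (S : Finset (Fin 3 → ℤ)) (w : (Fin 3 → ℤ) → Pos3),
    (∀ β, ‖w β‖ ≤ δ / 4) → ∀ (β₀ : Fin 3 → ℤ) (y : Pos3), y ∈ Qc δ →
      ∑ β ∈ S, |kk δ (lat δ β₀ + y - (lat δ β + w β))| ≤ C / δ + Kn (y - w β₀) := by
  classical
  obtain ⟨C₁, hC₁⟩ := cube_pot_le
  obtain ⟨C₂, hC₂⟩ := cube_sum_ne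
  refine ⟨C₁ + C₂, fun δ hδ S w hw β₀ y hy => ?_⟩
  have hz : ∀ (β : Fin 3 → ℤ) (c : Fin 3), |(y - w β) c| ≤ 3 / 4 * δ := by
    intro β c
    have h1 := hy c
    have h2 := (abs_le_norm (w β) c).trans (hw β)
    have h3 := abs_sub (y c) (w β c)
    rw [PiLp.sub_apply]
    linarith
  have h1 := hC₂ δ hδ (S.erase β₀) β₀ (by simp) (fun β => y - w β) hz
  have h2 : |kk δ (y - w β₀)| ≤ C₁ / δ + Kn (y - w β₀) := cube_abs_kk_le (hC₁ δ hδ _) hδ
  have e : ∀ β, lat δ β₀ + y - (lat δ β + w β) = lat δ β₀ - lat δ β + (y - w β) := fun β => by abel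
  simp only [e]
  have h3 : ∑ β ∈ S, |kk δ (lat δ β₀ - lat δ β + (y - w β))| ≤
      ∑ β ∈ insert β₀ (S.erase β₀), |kk δ (lat δ β₀ - lat δ β + (y - w β))| :=
    Finset.sum_le_sum_of_subset_of_nonneg (Finset.subset_insert_iff.2 (Finset.Subset.refl _))
      fun _ _ _ => abs_nonneg _
  rw [Finset.sum_insert (by simp), sub_self, zero_add] at h3
  rw [add_div]
  linarith

theorem sum_kk_tail : ∃ C, ∀ δ : ℝ, 0 < δ → ∀ m : ℕ, 1 ≤ m → ∀ (S : Finset (Fin 3 → ℤ))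
    (β₀ : Fin 3 → ℤ), (∀ β ∈ S, ∃ c, (m : ℤ) < |β c - β₀ c|) → ∀ y ∈ Qc δ,
      ∑ β ∈ S, |kk δ (lat δ β₀ + y - lat δ β)| ≤ C / (δ * m) := by
  obtain ⟨C₁, hC₁⟩ := cube_sum_far
  obtain ⟨C₂, hC₂⟩ := cube_sum_ne
  refine ⟨|C₁| + 4 * |C₂|, fun δ hδ m hm S β₀ hS y hy => ?_⟩
  have hm0 : (0 : ℝ) < m := by exact_mod_cast hm
  have hz : ∀ (β : Fin 3 → ℤ) (c : Fin 3), |y c| ≤ 3 / 4 * δ := fun β c => by
    have := hy c; linarith
  have e : ∀ β, lat δ β₀ + y - lat δ β = lat δ β₀ - lat δ β + y := fun β => by abel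
  simp only [e]
  by_cases h4 : 4 ≤ m
  · refine (hC₁ δ hδ m h4 S β₀ hS (fun _ => y) hz).trans ?_
    refine div_le_div_of_nonneg_right ?_ (by positivity)
    have := le_abs_self C₁
    have := abs_nonneg C₂
    linarith
  · have h0 : β₀ ∉ S := fun h => by
      obtain ⟨c, hc⟩ := hS _ h
      simp at hc; omega
    refine (hC₂ δ hδ S β₀ h0 (fun _ => y) hz).trans ?_
    have hm4 : (m : ℝ) ≤ 4 := by exact_mod_cast (not_le.1 h4).le
    rw [div_le_div_iff₀ hδ (by positivity)]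
    have h1 := le_abs_self C₂
    have h2 := abs_nonneg C₂
    have h3 := abs_nonneg C₁
    have h5 : C₂ * m ≤ |C₁| + 4 * |C₂| := by nlinarith
    nlinarith

theorem abs_ebar_le : ∃ C, ∀ δ : ℝ, 0 < δ → ∀ m, |ebar δ m| ≤ C / δ := by
  obtain ⟨C₁, hC₁⟩ := cube_pot_le
  obtain ⟨C₂, hC₂⟩ := sum_kk_le
  refine ⟨C₁ + C₂, fun δ hδ m => ?_⟩
  have hi : IntegrableOn (fun y : Pos3 => Kn (0 - y)) (Qc δ) :=
    integrableOn_Kn 0 (isCompact_Qc δ).isBounded
  have hc : IntegrableOn (fun _ : Pos3 => C₂ / δ) (Qc δ) :=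
    continuous_const.continuousOn.integrableOn_compact (isCompact_Qc δ)
  have h1 : ‖∫ y in Qc δ, ∑ γ ∈ Lam m m, kk δ (y - lat δ γ)‖ ≤
      ∫ y in Qc δ, (C₂ / δ + Kn (0 - y)) := by
    refine norm_integral_le_of_norm_le (hc.add hi) ?_
    rw [ae_restrict_iff' (measurableSet_Qc δ)]
    refine Filter.Eventually.of_forall fun y hy => ?_
    have h2 := hC₂ δ hδ (Lam m m) (fun _ => 0) (fun _ => by simp; positivity) 0 y hy
    have e0 : lat δ 0 = 0 := by ext c; simp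
    simp only [e0, zero_add, add_zero, sub_zero] at h2
    rw [zero_sub, Kn_neg, Real.norm_eq_abs]
    exact (Finset.abs_sum_le_sum_abs _ _).trans h2
  rw [integral_add hc hi, setIntegral_const, volume_Qc hδ.le, smul_eq_mul, Real.norm_eq_abs] at h1
  have h3 := hC₁ δ hδ 0
  unfold ebar
  rw [abs_mul, abs_of_nonneg (by positivity)]
  calc _ ≤ (δ ^ 3)⁻¹ * (δ ^ 3 * (C₂ / δ) + ∫ y in Qc δ, Kn (0 - y)) :=
        mul_le_mul_of_nonneg_left h1 (by positivity)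
    _ = C₂ / δ + (δ ^ 3)⁻¹ * ∫ y in Qc δ, Kn (0 - y) := by field_simp
    _ ≤ _ := by rw [add_div]; linarith

theorem PhiC_zero {δ : ℝ} (h : 0 < δ) (I J : ℕ) (x : Pos3) :
    PhiC δ I J 0 x = PhiJ δ ((I + 1 / 2) * δ) ((J + 1 / 2) * δ) x := by
  unfold PhiC PhiJ
  rw [integral_slab h I J (integrableOn_Kn x (isCompact_bx _ _ _ _ _).isBounded), Finset.mul_sum]
  refine Finset.sum_congr rfl fun β _ => ?_
  congr 2
  funext y
  congr 1
  simp only [Pi.zero_apply]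
  abel

theorem PhiN_sub_PhiC (δ : ℝ) (I J : ℕ) (u : (Fin 3 → ℤ) → Pos3) (x : Pos3) :
    PhiN δ I J u x - PhiC δ I J u x = ∑ β ∈ Lam I J, kk δ (x - (lat δ β + u β)) := by
  unfold PhiN PhiC kk
  rw [Finset.sum_sub_distrib]

/-- Measurable and bounded. -/
theorem PhiJ_meas_bdd (δ a H : ℝ) : Measurable (PhiJ δ a H) ∧ ∃ C, ∀ x, |PhiJ δ a H x| ≤ C := by
  refine ⟨(cube_measurable_pot _).const_mul _, ?_⟩
  obtain ⟨C, hC⟩ := cube_pot_bdd (isCompact_bx (-a) a (-a) a H).isBounded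
  refine ⟨|(δ ^ 3)⁻¹| * C, fun x => ?_⟩
  unfold PhiJ
  rw [abs_mul]
  exact mul_le_mul_of_nonneg_left (hC x) (abs_nonneg _)

theorem PhiC_meas_bdd (δ : ℝ) (I J : ℕ) (u : (Fin 3 → ℤ) → Pos3) :
    Measurable (PhiC δ I J u) ∧ ∃ C, ∀ x, |PhiC δ I J u x| ≤ C := by
  constructor
  · unfold PhiC
    refine Finset.measurable_sum _ fun β _ => Measurable.const_mul ?_ _
    exact (cube_measurable_pot (Qc δ)).comp (measurable_id.sub_const _)
  · obtain ⟨C, hC⟩ := cube_pot_bdd (isCompact_Qc δ).isBounded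
    refine ⟨∑ _β ∈ Lam I J, |(δ ^ 3)⁻¹| * C, fun x => ?_⟩
    unfold PhiC
    refine (Finset.abs_sum_le_sum_abs _ _).trans (Finset.sum_le_sum fun β _ => ?_)
    rw [abs_mul]
    exact mul_le_mul_of_nonneg_left (hC _) (abs_nonneg _)

end Crest.Agent.R338
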