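/-
R338/HomA: the undisplaced lattice
Skeleton by helper15 (row 338); keep the statements unchanged, add any helper lemmas you like.
-/
import Crest.Agent.R338.Cell
import Crest.Agent.R338.Cube

set_option autoImplicit false
set_option linter.unusedSectionVars false
set_option linter.unusedVariables false
set_option linter.unusedSimpArgs false

noncomputable section

namespace Crest.Agent.R338

open MeasureTheory Set Crest.MathPhysics.ElectronicCoulomb
open scoped RealInnerProductSpace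

theorem homA_loc {δ : ℝ} (h : 0 < δ) (q : Pos3) : LocallyIntegrable fun y => kk δ (y - q) := by
  rw [locallyIntegrable_iff]
  intro k hk
  have hc : IsCompact ((fun y : Pos3 => y - q) '' k) := hk.image (by fun_prop)
  have h1 := (locallyIntegrable_kk h).integrableOn_isCompact hc
  have h2 := ((measurePreserving_sub_right (volume : Measure Pos3) q).integrableOn_comp_preimage
    (MeasurableEquiv.subRight q).measurableEmbedding).2 h1
  exact h2.mono_set (subset_preimage_image _ _)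

theorem homA_locsum {δ : ℝ} (h : 0 < δ) (S : Finset (Fin 3 → ℤ)) (q : (Fin 3 → ℤ) → Pos3) (e : ℝ) :
    LocallyIntegrable fun y => ∑ γ ∈ S, kk δ (y - q γ) - e := by
  have h1 : LocallyIntegrable fun y => ∑ γ ∈ S, kk δ (y - q γ) :=
    locallyIntegrable_finsetSum S fun γ _ => homA_loc h (q γ)
  exact h1.sub (locallyIntegrable_const e)

/-- The even part in a bulk cell. -/
def homAf (δ : ℝ) (m : ℕ) (y : Pos3) : ℝ := ∑ γ ∈ Lam m m, kk δ (y - lat δ γ) - ebar δ m

theorem homA_meas (δ : ℝ) (m : ℕ) : Measurable (homAf δ m) := by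
  unfold homAf
  refine Measurable.sub (Finset.measurable_sum _ fun γ _ => ?_) measurable_const
  exact (measurable_kk δ).comp (measurable_id.sub measurable_const)

theorem homA_even (δ : ℝ) (m : ℕ) (y : Pos3) : homAf δ m (-y) = homAf δ m y := by
  unfold homAf
  congr 1
  refine Finset.sum_bij' (fun γ _ => -γ) (fun γ _ => -γ) ?_ ?_ ?_ ?_ ?_
  · intro γ hγ
    rw [mem_Lam] at hγ ⊢
    simpa using hγ
  · intro γ hγ
    rw [mem_Lam] at hγ ⊢
    simpa using hγ
  · intro γ _; simp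
  · intro γ _; simp
  · intro γ _
    rw [← kk_neg]
    congr 1
    ext c
    simp
    ring

theorem homA_mean {δ : ℝ} (h : 0 < δ) (m : ℕ) : ∫ y in Qc δ, homAf δ m y = 0 := by
  unfold homAf
  have h1 : IntegrableOn (fun y => ∑ γ ∈ Lam m m, kk δ (y - lat δ γ)) (Qc δ) :=
    (locallyIntegrable_finsetSum _ fun γ _ => homA_loc h (lat δ γ)).integrableOn_isCompact
      (isCompact_Qc δ)
  have h2 : IntegrableOn (fun _ : Pos3 => ebar δ m) (Qc δ) :=
    (locallyIntegrable_const _).integrableOn_isCompact (isCompact_Qc δ)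
  rw [integral_sub h1 h2, setIntegral_const, volume_Qc h.le, smul_eq_mul]
  unfold ebar
  have : δ ^ 3 ≠ 0 := by positivity
  field_simp
  ring

theorem homA_inv_le {δ : ℝ} (h : 0 < δ) {y : Pos3} (hy : y ∈ Qc δ) (h0 : y ≠ 0) : 1 / δ ≤ Kn y := by
  unfold Kn
  have h1 := norm_le_of_mem_Qc hy
  have h2 : 0 < ‖y‖ := norm_pos_iff.2 h0
  exact one_div_le_one_div_of_le h2 (by linarith)

/-- Pointwise bound for the full potential difference. -/
theorem homA_ptw : ∃ C, 0 ≤ C ∧ ∀ δ : ℝ, 0 < δ → ∀ (m : ℕ) (S : Finset (Fin 3 → ℤ))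
    (β₀ : Fin 3 → ℤ) (y : Pos3), y ∈ Qc δ →
      |∑ β ∈ S, kk δ (lat δ β₀ + y - lat δ β) - ebar δ m| ≤ C / δ + Kn y := by
  obtain ⟨C1, h1⟩ := sum_kk_le
  obtain ⟨C2, h2⟩ := abs_ebar_le
  refine ⟨|C1| + |C2|, by positivity, fun δ hδ m S β₀ y hy => ?_⟩
  have a1 := h1 δ hδ S 0 (fun β => by simp; positivity) β₀ y hy
  simp only [Pi.zero_apply, add_zero, sub_zero] at a1
  have a2 := h2 δ hδ m
  have a3 : C1 / δ ≤ |C1| / δ := div_le_div_of_nonneg_right (le_abs_self _) hδ.le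
  have a4 : C2 / δ ≤ |C2| / δ := div_le_div_of_nonneg_right (le_abs_self _) hδ.le
  have a5 := Finset.abs_sum_le_sum_abs (fun β => kk δ (lat δ β₀ + y - lat δ β)) S
  have a6 := abs_sub (∑ β ∈ S, kk δ (lat δ β₀ + y - lat δ β)) (ebar δ m)
  rw [add_div]
  linarith

theorem homA_fbd : ∃ A, 0 ≤ A ∧ ∀ δ : ℝ, 0 < δ → ∀ m : ℕ, ∀ y ∈ Qc δ, y ≠ 0 →
    |homAf δ m y| ≤ A * Kn y := by
  obtain ⟨C, hC, h⟩ := homA_ptw
  refine ⟨C + 1, by positivity, fun δ hδ m y hy h0 => ?_⟩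
  have a1 := h δ hδ m (Lam m m) 0 y hy
  have e : lat δ 0 = 0 := by ext c; simp
  rw [e] at a1
  simp only [zero_add] at a1
  have a2 := homA_inv_le hδ hy h0
  have a3 : C / δ ≤ C * Kn y := by
    rw [div_eq_mul_one_div]; exact mul_le_mul_of_nonneg_left a2 hC
  unfold homAf
  linarith

/-- Splitting of the lattice sum in a bulk cell. -/
theorem homA_split (δ : ℝ) {I m : ℕ} {β₀ : Fin 3 → ℤ} (h0 : |β₀ 0| + m ≤ I) (h1 : |β₀ 1| + m ≤ I)
    (h2 : |β₀ 2| ≤ m) : ∃ S : Finset (Fin 3 → ℤ), (∀ β ∈ S, ∃ c, (m : ℤ) < |β c - β₀ c|) ∧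
      ∀ y, ∑ β ∈ Lam I (2 * m), kk δ (lat δ β₀ + y - lat δ β) - ebar δ m =
        homAf δ m y + ∑ β ∈ S, kk δ (lat δ β₀ + y - lat δ β) := by
  classical
  refine ⟨(Lam I (2 * m)).filter fun β => ¬ (β - β₀ ∈ Lam m m), ?_, fun y => ?_⟩
  · intro β hβ
    have := (Finset.mem_filter.1 hβ).2
    rw [mem_Lam] at this
    simp only [Pi.sub_apply] at this
    by_contra hc
    push Not at hc
    exact this ⟨hc 0, hc 1, hc 2⟩
  · rw [← Finset.sum_filter_add_sum_filter_not (Lam I (2 * m)) (fun β => β - β₀ ∈ Lam m m)]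
    have : ∑ β ∈ (Lam I (2 * m)).filter (fun β => β - β₀ ∈ Lam m m),
        kk δ (lat δ β₀ + y - lat δ β) = ∑ γ ∈ Lam m m, kk δ (y - lat δ γ) := by
      refine Finset.sum_bij' (fun β _ => β - β₀) (fun γ _ => γ + β₀) ?_ ?_ ?_ ?_ ?_
      · intro β hβ
        exact (Finset.mem_filter.1 hβ).2
      · intro γ hγ
        refine Finset.mem_filter.2 ⟨?_, by simpa using hγ⟩
        rw [mem_Lam] at hγ ⊢
        obtain ⟨g0, g1, g2⟩ := hγ
        simp only [Pi.add_apply]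
        have t0 := abs_add_le (γ 0) (β₀ 0)
        have t1 := abs_add_le (γ 1) (β₀ 1)
        have t2 := abs_add_le (γ 2) (β₀ 2)
        push_cast
        refine ⟨by linarith, by linarith, by linarith⟩
      · intro β _; simp
      · intro γ _; simp
      · intro β _
        congr 1
        ext c
        simp
        ring
    rw [this]
    unfold homAf
    ring

theorem homA_coord {δ : ℝ} (hδ : 0 < δ) {b : ℤ} {t : ℝ} (ht : |t| ≤ δ / 2) {k : ℤ}
    (hk : k < |b|) : (k + 1 / 2) * δ ≤ |δ * b + t| := by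
  have h1 : (k : ℝ) + 1 ≤ |(b : ℝ)| := by
    have : k + 1 ≤ |b| := hk
    exact_mod_cast this
  have h2 : |δ * b| ≤ |δ * b + t| + |t| := by
    have := abs_sub (δ * b + t) t
    simpa using this
  rw [abs_mul, abs_of_pos hδ] at h2
  nlinarith

/-- The cells outside the bulk lie in `NB`. -/
theorem homA_NB {δ : ℝ} (hδ : 0 < δ) {I m : ℕ} (hI : 2 * m ≤ I) {β₀ : Fin 3 → ℤ}
    (h : ¬ (|β₀ 0| + m ≤ I ∧ |β₀ 1| + m ≤ I ∧ |β₀ 2| ≤ m)) {y : Pos3} (hy : y ∈ Qc δ) :
    lat δ β₀ + y ∈ NB δ I m := by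
  have hI' : (2 : ℝ) * m ≤ I := by exact_mod_cast hI
  unfold NB
  simp only [mem_ofPred_eq, PiLp.add_apply, lat_apply]
  by_cases c0 : |β₀ 0| + m ≤ I
  · by_cases c1 : |β₀ 1| + m ≤ I
    · have c2 : (m : ℤ) < |β₀ 2| := by
        by_contra hc
        exact h ⟨c0, c1, not_lt.1 hc⟩
      have := homA_coord hδ (hy 2) c2
      push_cast at this
      right; right
      nlinarith
    · have c2 : (I : ℤ) - m < |β₀ 1| := by omega
      have := homA_coord hδ (hy 1) c2
      push_cast at this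
      right; left
      nlinarith
  · have c2 : (I : ℤ) - m < |β₀ 0| := by omega
    have := homA_coord hδ (hy 0) c2
    push_cast at this
    left
    nlinarith

theorem homA_measNB (δ : ℝ) (I m : ℕ) : MeasurableSet (NB δ I m) := by
  have : IsOpen (NB δ I m) := by
    unfold NB
    simp only [ofPred_or]
    refine IsOpen.union ?_ (IsOpen.union ?_ ?_) <;>
      exact isOpen_lt continuous_const (by fun_prop)
  exact this.measurableSet

/-- The estimate in one cell. -/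
theorem homA_cell : ∃ C, 0 ≤ C ∧ ∀ (δ Λ ε : ℝ) (I m : ℕ) (ρ u : Pos3 → ℝ), 0 < δ → 0 < ε → 1 ≤ m →
    2 * m ≤ I → Wt ρ Λ → Λ * δ ≤ 1 → Test u → ∀ β₀ : Fin 3 → ℤ,
    |∫ y in Qc δ, (∑ β ∈ Lam I (2 * m), kk δ (lat δ β₀ + y - lat δ β) - ebar δ m) *
        (ρ (lat δ β₀ + y) * u (lat δ β₀ + y) ^ 2)| ≤
      C * ((δ + ε) * (∫ y in Qc δ, ρ (lat δ β₀ + y) * gsq u (lat δ β₀ + y)) +
        (ε⁻¹ + δ * Λ ^ 2 + (δ * m)⁻¹) * (∫ y in Qc δ, ρ (lat δ β₀ + y) * u (lat δ β₀ + y) ^ 2) +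
        δ⁻¹ * ∫ y in Qc δ, (NB δ I m).indicator (fun x => ρ x * u x ^ 2) (lat δ β₀ + y)) := by
  obtain ⟨C1, hC1, h1⟩ := homA_ptw
  obtain ⟨A, hA, hf⟩ := homA_fbd
  obtain ⟨Ce, he⟩ := cell_even
  obtain ⟨Ct, ht⟩ := sum_kk_tail
  obtain ⟨CK, hK⟩ := cell_K1
  refine ⟨|Ce| * A + |Ct| + C1 + |CK|, by positivity, ?_⟩
  intro δ Λ ε I m ρ u hδ hε hm hI hρ hΛ hu β₀
  set p := lat δ β₀ with hp
  have hWc : Continuous fun y => ρ (p + y) * u (p + y) ^ 2 := by
    have := hρ.diff.continuous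
    have := hu.continuous
    fun_prop
  have hW0 : ∀ y, 0 ≤ ρ (p + y) * u (p + y) ^ 2 := fun y =>
    mul_nonneg (hρ.pos _).le (sq_nonneg _)
  have hWi : IntegrableOn (fun y => ρ (p + y) * u (p + y) ^ 2) (Qc δ) :=
    hWc.continuousOn.integrableOn_compact (isCompact_Qc δ)
  set G := ∫ y in Qc δ, ρ (p + y) * gsq u (p + y) with hG
  set W := ∫ y in Qc δ, ρ (p + y) * u (p + y) ^ 2 with hW
  set N := ∫ y in Qc δ, (NB δ I m).indicator (fun x => ρ x * u x ^ 2) (p + y) with hN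
  have G0 : 0 ≤ G := integral_nonneg fun y => mul_nonneg (hρ.pos _).le (gsq_nonneg _ _)
  have W0 : 0 ≤ W := integral_nonneg hW0
  have N0 : 0 ≤ N := integral_nonneg fun y =>
    indicator_nonneg (fun x _ => mul_nonneg (hρ.pos _).le (sq_nonneg _)) _
  have hm' : (0 : ℝ) < m := by exact_mod_cast hm
  have e0 : 0 ≤ ε⁻¹ := by positivity
  have e1 : 0 ≤ δ * Λ ^ 2 := by positivity
  have e2 : 0 ≤ (δ * m)⁻¹ := by positivity
  have e3 : 0 ≤ δ⁻¹ := by positivity
  set X := (δ + ε) * G with hX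
  set Y := (ε⁻¹ + δ * Λ ^ 2) * W with hY
  set Z := (δ * m)⁻¹ * W with hZ
  set V := δ⁻¹ * N with hV
  have X0 : 0 ≤ X := by positivity
  have Y0 : 0 ≤ Y := by positivity
  have Z0 : 0 ≤ Z := by positivity
  have V0 : 0 ≤ V := by positivity
  have eq : (ε⁻¹ + δ * Λ ^ 2 + (δ * m)⁻¹) * W = Y + Z := by rw [hY, hZ]; ring
  rw [eq]
  have a0 : 0 ≤ |Ce| * A := by positivity
  have a1 := abs_nonneg Ct
  have a2 := abs_nonneg CK
  by_cases hb : |β₀ 0| + m ≤ I ∧ |β₀ 1| + m ≤ I ∧ |β₀ 2| ≤ m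
  · obtain ⟨S, hS, hsp⟩ := homA_split δ hb.1 hb.2.1 hb.2.2
    simp only [← hp] at hsp
    have i1 : IntegrableOn (fun y => homAf δ m y * (ρ (p + y) * u (p + y) ^ 2)) (Qc δ) :=
      ((homA_locsum hδ (Lam m m) (lat δ) (ebar δ m)).integrableOn_isCompact
        (isCompact_Qc δ)).mul_continuousOn hWc.continuousOn (isCompact_Qc δ)
    have i2 : IntegrableOn (fun y => (∑ β ∈ S, kk δ (p + y - lat δ β)) *
        (ρ (p + y) * u (p + y) ^ 2)) (Qc δ) := by
      have := ((homA_locsum hδ S (fun β => lat δ β - p) 0).integrableOn_isCompact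
        (isCompact_Qc δ)).mul_continuousOn hWc.continuousOn (isCompact_Qc δ)
      refine this.congr_fun (fun y _ => ?_) (measurableSet_Qc δ)
      simp only [sub_zero]
      congr 1
      refine Finset.sum_congr rfl fun β _ => ?_
      congr 1
      abel
    simp only [hsp, add_mul]
    rw [integral_add i1 i2]
    have b1 := he δ Λ ε A ρ u (homAf δ m) p hδ hε hρ hΛ hu.diff (homA_meas δ m) (homA_even δ m)
      (homA_mean hδ m) hA (hf δ hδ m)
    rw [← hG, ← hW, ← hX, ← hY] at b1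
    have b2 : |∫ y in Qc δ, (∑ β ∈ S, kk δ (p + y - lat δ β)) * (ρ (p + y) * u (p + y) ^ 2)| ≤
        |Ct| * Z := by
      have : |Ct| * Z = ∫ y in Qc δ, |Ct| * (δ * m)⁻¹ * (ρ (p + y) * u (p + y) ^ 2) := by
        rw [integral_const_mul, hZ, hW]; ring
      rw [this, ← Real.norm_eq_abs]
      refine norm_integral_le_of_norm_le (hWi.const_mul _) ?_
      refine ae_restrict_of_forall_mem (measurableSet_Qc δ) fun y hy => ?_
      rw [Real.norm_eq_abs, abs_mul, abs_of_nonneg (hW0 y)]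
      refine mul_le_mul_of_nonneg_right ?_ (hW0 y)
      have t1 := ht δ hδ m hm S β₀ hS y hy
      have t2 := Finset.abs_sum_le_sum_abs (fun β => kk δ (p + y - lat δ β)) S
      have t3 : Ct / (δ * m) ≤ |Ct| * (δ * m)⁻¹ := by
        rw [div_eq_mul_inv]; exact mul_le_mul_of_nonneg_right (le_abs_self _) e2
      rw [← hp] at t1
      linarith
    have b3 : Ce * A * (X + Y) ≤ |Ce| * A * (X + Y) :=
      mul_le_mul_of_nonneg_right (mul_le_mul_of_nonneg_right (le_abs_self _) hA) (by positivity)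
    refine (abs_add_le _ _).trans ?_
    have b4 : |Ce| * A * (X + Y) + |Ct| * Z ≤
        (|Ce| * A + |Ct| + C1 + |CK|) * (X + (Y + Z) + V) := by
      have : (|Ce| * A + |Ct| + C1 + |CK|) * (X + (Y + Z) + V) - (|Ce| * A * (X + Y) + |Ct| * Z) =
        |Ce| * A * (Z + V) + |Ct| * (X + Y + V) + (C1 + |CK|) * (X + (Y + Z) + V) := by ring
      have : 0 ≤ |Ce| * A * (Z + V) + |Ct| * (X + Y + V) + (C1 + |CK|) * (X + (Y + Z) + V) := by
        positivity
      linarith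
    simp only [add_mul] at b4 ⊢
    linarith
  · have hNW : N = W := by
      rw [hN, hW]
      refine setIntegral_congr_fun (measurableSet_Qc δ) fun y hy => ?_
      exact indicator_of_mem (homA_NB hδ hI hb hy) _
    have i1 : IntegrableOn (fun y => Kn y * (ρ (p + y) * u (p + y) ^ 2)) (Qc δ) :=
      (locallyIntegrable_Kn.integrableOn_isCompact
        (isCompact_Qc δ)).mul_continuousOn hWc.continuousOn (isCompact_Qc δ)
    have b1 := hK δ Λ ρ u p 0 hδ hρ hΛ hu.diff (by simp; positivity)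
    simp only [sub_zero] at b1
    rw [← hG, ← hW] at b1
    have b2 : |∫ y in Qc δ, (∑ β ∈ Lam I (2 * m), kk δ (p + y - lat δ β) - ebar δ m) *
        (ρ (p + y) * u (p + y) ^ 2)| ≤ C1 * V +
          ∫ y in Qc δ, Kn y * (ρ (p + y) * u (p + y) ^ 2) := by
      have : C1 * V = ∫ y in Qc δ, C1 / δ * (ρ (p + y) * u (p + y) ^ 2) := by
        rw [integral_const_mul, hV, hNW, hW]; ring
      rw [this, ← integral_add (hWi.const_mul _) i1, ← Real.norm_eq_abs]
      refine norm_integral_le_of_norm_le ((hWi.const_mul _).add i1) ?_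
      refine ae_restrict_of_forall_mem (measurableSet_Qc δ) fun y hy => ?_
      rw [Real.norm_eq_abs, abs_mul, abs_of_nonneg (hW0 y), ← add_mul]
      exact mul_le_mul_of_nonneg_right (h1 δ hδ m _ β₀ y hy) (hW0 y)
    have b3 : δ * G + δ⁻¹ * W ≤ X + V := by
      rw [hX, hV, hNW]
      nlinarith [mul_nonneg hε.le G0]
    have b4 : CK * (δ * G + δ⁻¹ * W) ≤ |CK| * (X + V) :=
      (mul_le_mul_of_nonneg_right (le_abs_self _) (by positivity)).trans
        (mul_le_mul_of_nonneg_left b3 a2)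
    have b5 : C1 * V + |CK| * (X + V) ≤ (|Ce| * A + |Ct| + C1 + |CK|) * (X + (Y + Z) + V) := by
      have : (|Ce| * A + |Ct| + C1 + |CK|) * (X + (Y + Z) + V) - (C1 * V + |CK| * (X + V)) =
        (|Ce| * A + |Ct|) * (X + (Y + Z) + V) + C1 * (X + (Y + Z)) + |CK| * (Y + Z) := by ring
      have : 0 ≤ (|Ce| * A + |Ct|) * (X + (Y + Z) + V) + C1 * (X + (Y + Z)) + |CK| * (Y + Z) := by
        positivity
      linarith
    linarith

/-- Recipe: `PhiN - PhiJ = ∑ kk` (`PhiN_sub_PhiC`, `PhiC_zero`); `hasSum_cells` for the integrand and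
for the three majorants.  Bulk cell `β₀` (`|β₀ 0|, |β₀ 1| ≤ I - m`, `|β₀ 2| ≤ m`): split the lattice
sum into `β₀ + Lam m m` and the rest (`sum_kk_tail`); `f y = ∑ γ ∈ Lam m m, kk (y - lat γ) - ebar`
is even with mean zero and `|f| ≤ C Kn` (`sum_kk_le`, `abs_ebar_le`): `cell_even`.  The other cells
lie in `NB`: `sum_kk_le`, `cell_K1`. -/
theorem homA : ∃ C, ∀ (δ Λ ε : ℝ) (I m : ℕ) (ρ u : Pos3 → ℝ), 0 < δ → 0 < ε → 1 ≤ m → 2 * m ≤ I →
    Wt ρ Λ → Λ * δ ≤ 1 → Test u →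
    |∫ x, (PhiN δ I (2 * m) 0 x - PhiC δ I (2 * m) 0 x - ebar δ m) * (ρ x * u x ^ 2)| ≤
      C * ((δ + ε) * (∫ x, ρ x * gsq u x) + (ε⁻¹ + δ * Λ ^ 2 + (δ * m)⁻¹) * (∫ x, ρ x * u x ^ 2) +
        δ⁻¹ * ∫ x in NB δ I m, ρ x * u x ^ 2) := by
  obtain ⟨C, hC, h⟩ := homA_cell
  refine ⟨C, fun δ Λ ε I m ρ u hδ hε hm hI hρ hΛ hu => ?_⟩
  have hρ1 : ContDiff ℝ 1 ρ := hρ.diff.of_le (by norm_num)
  have hW : Nice fun x => ρ x * u x ^ 2 := by
    have := (hu.mul_left (hρ1.mul hu.diff)).nice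
    have e : (fun x => ρ x * u x ^ 2) = fun x => ρ x * u x * u x := by ext x; ring
    rw [e]; exact this
  have i0 : Integrable fun x => (∑ β ∈ Lam I (2 * m), kk δ (x - lat δ β) - ebar δ m) *
      (ρ x * u x ^ 2) := hW.integrable_loc_mul (homA_locsum hδ _ (lat δ) _)
  have i1 : Integrable fun x => ρ x * gsq u x := hu.integrable_gsq hρ.diff.continuous
  have i2 : Integrable fun x => ρ x * u x ^ 2 := hu.integrable_sq hρ.diff.continuous
  have i3 : Integrable ((NB δ I m).indicator fun x => ρ x * u x ^ 2) :=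
    i2.indicator (homA_measNB δ I m)
  have s0 := hasSum_cells hδ i0
  have s1 := hasSum_cells hδ i1
  have s2 := hasSum_cells hδ i2
  have s3 := hasSum_cells hδ i3
  rw [integral_indicator (homA_measNB δ I m)] at s3
  have s4 := (((s1.mul_left (δ + ε)).add (s2.mul_left (ε⁻¹ + δ * Λ ^ 2 + (δ * m)⁻¹))).add
    (s3.mul_left δ⁻¹)).mul_left C
  have e : ∀ x, PhiN δ I (2 * m) 0 x - PhiC δ I (2 * m) 0 x =
      ∑ β ∈ Lam I (2 * m), kk δ (x - lat δ β) := by
    intro x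
    rw [PhiN_sub_PhiC]
    simp
  simp only [e]
  have hb := h δ Λ ε I m ρ u hδ hε hm hI hρ hΛ hu
  rw [abs_le]
  constructor
  · have := hasSum_le (fun β => (abs_le.1 (hb β)).1) s4.neg s0
    exact this
  · exact hasSum_le (fun β => (abs_le.1 (hb β)).2) s0 s4

end Crest.Agent.R338
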