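/-
R338/HomB: displacing the short-range part
Skeleton by helper15 (row 338); keep the statements unchanged, add any helper lemmas you like.
-/
import Crest.Agent.R338.Cell
import Crest.Agent.R338.Cube

set_option autoImplicit false
set_option linter.unusedSectionVars false
set_option linter.unusedVariables false
set_option linter.unusedSimpArgs false

noncomputable section

namespace Crest.Agent.R338

open MeasureTheory Set Crest.MathPhysics.ElectronicCoulomb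
open scoped RealInnerProductSpace

theorem HomB_int0 {k τ : Pos3 → ℝ} (hk : LocallyIntegrable k) (hτ : Continuous τ)
    (hs : HasCompactSupport τ) (q : Pos3) : Integrable fun y => k y * τ (y + q) := by
  have h1 : Continuous fun y => τ (y + q) := hτ.comp (continuous_id.add continuous_const)
  have h2 : HasCompactSupport fun y => τ (y + q) :=
    hs.comp_homeomorph (Homeomorph.addRight q)
  exact hk.integrable_smul_right_of_hasCompactSupport h1 h2

theorem HomB_int {k τ : Pos3 → ℝ} (hk : LocallyIntegrable k) (hτ : Continuous τ)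
    (hs : HasCompactSupport τ) (q : Pos3) : Integrable fun x => k (x - q) * τ x := by
  have := (HomB_int0 hk hτ hs q).comp_sub_right q
  simpa using this

theorem HomB_shift (k τ : Pos3 → ℝ) (q : Pos3) :
    ∫ x, k (x - q) * τ x = ∫ y, k y * τ (y + q) := by
  rw [← integral_add_right_eq_self (fun x => k (x - q) * τ x) q]
  simp

theorem HomB_prod {k τ : Pos3 → ℝ} (hk : LocallyIntegrable k) (hm : Measurable k)
    (hτ : Continuous τ) (hs : HasCompactSupport τ) (p w : Pos3) :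
    Integrable (Function.uncurry fun (s : ℝ) (y : Pos3) => k y * τ (y + (p + s • w)))
      ((volume.restrict (uIoc (0 : ℝ) 1)).prod volume) := by
  obtain ⟨M, hM⟩ := hτ.bounded_above_of_compact_support hs
  obtain ⟨R, hR⟩ := hs.isCompact.isBounded.subset_closedBall (0 : Pos3)
  set B : Set Pos3 := Metric.closedBall 0 (R + ‖p‖ + ‖w‖) with hB
  have hI : Integrable (B.indicator fun y => M * ‖k y‖) := by
    rw [integrable_indicator_iff measurableSet_closedBall]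
    exact ((hk.integrableOn_isCompact (isCompact_closedBall _ _)).norm).const_mul M
  have hfin : IsFiniteMeasure (volume.restrict (uIoc (0 : ℝ) 1)) := by
    rw [uIoc_of_le zero_le_one]; infer_instance
  have hI2 : Integrable (fun z : ℝ × Pos3 => (B.indicator fun y => M * ‖k y‖) z.2)
      ((volume.restrict (uIoc (0 : ℝ) 1)).prod volume) := hI.comp_snd _
  refine hI2.mono' ?_ ?_
  · refine Measurable.aestronglyMeasurable ?_
    refine (hm.comp measurable_snd).mul (Continuous.measurable ?_)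
    exact hτ.comp (continuous_snd.add (continuous_const.add (continuous_fst.smul continuous_const)))
  · have : ∀ᵐ z : ℝ × Pos3 ∂((volume.restrict (uIoc (0 : ℝ) 1)).prod volume),
        z.1 ∈ uIoc (0 : ℝ) 1 := by
      have h0 : ∀ᵐ s ∂(volume.restrict (uIoc (0 : ℝ) 1)), s ∈ uIoc (0 : ℝ) 1 :=
        ae_restrict_mem measurableSet_uIoc
      exact (Measure.quasiMeasurePreserving_fst).ae h0
    filter_upwards [this] with z hz
    rw [uIoc_of_le zero_le_one] at hz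
    simp only [Function.uncurry, norm_mul]
    by_cases hzB : z.2 ∈ B
    · rw [indicator_of_mem hzB, mul_comm M]
      exact mul_le_mul_of_nonneg_left (hM _) (norm_nonneg _)
    · rw [indicator_of_notMem hzB]
      have : τ (z.2 + (p + z.1 • w)) = 0 := by
        by_contra hne
        apply hzB
        have h1 : z.2 + (p + z.1 • w) ∈ Metric.closedBall (0 : Pos3) R :=
          hR (subset_tsupport _ hne)
        rw [mem_closedBall_zero_iff] at h1
        rw [hB, mem_closedBall_zero_iff]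
        have h2 : ‖z.1 • w‖ ≤ ‖w‖ := by
          rw [norm_smul, Real.norm_of_nonneg hz.1.le]
          exact mul_le_of_le_one_left (norm_nonneg _) hz.2
        calc ‖z.2‖ = ‖(z.2 + (p + z.1 • w)) - p - z.1 • w‖ := by congr 1; abel
          _ ≤ ‖z.2 + (p + z.1 • w)‖ + ‖p‖ + ‖z.1 • w‖ :=
            (norm_sub_le _ _).trans (add_le_add_left (norm_sub_le _ _) _)
          _ ≤ R + ‖p‖ + ‖w‖ := by linarith
      simp [this]

theorem HomB_ftc {σ : Pos3 → ℝ} (hσ : ContDiff ℝ 1 σ) (q w : Pos3) :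
    |σ (q + w) - σ q| ≤ ‖w‖ * ∫ s in (0 : ℝ)..1, ‖fderiv ℝ σ (q + s • w)‖ := by
  have hd : ∀ s : ℝ, HasDerivAt (fun t : ℝ => σ (q + t • w)) (fderiv ℝ σ (q + s • w) w) s := by
    intro s
    have h1 : HasDerivAt (fun t : ℝ => q + t • w) w s := by
      simpa using ((hasDerivAt_id s).smul_const w).const_add q
    exact (hσ.differentiable one_ne_zero _).hasFDerivAt.comp_hasDerivAt s h1
  have hc : Continuous fun s : ℝ => fderiv ℝ σ (q + s • w) :=
    (hσ.continuous_fderiv one_ne_zero).comp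
      (continuous_const.add (continuous_id.smul continuous_const))
  have h := intervalIntegral.integral_eq_sub_of_hasDerivAt (a := 0) (b := 1)
    (fun s _ => hd s) ((hc.clm_apply continuous_const).intervalIntegrable _ _)
  simp only [one_smul, zero_smul, add_zero] at h
  rw [← h, ← intervalIntegral.integral_const_mul]
  refine (intervalIntegral.abs_integral_le_integral_abs zero_le_one).trans ?_
  refine intervalIntegral.integral_mono_on zero_le_one
    ((hc.clm_apply continuous_const).abs.intervalIntegrable _ _)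
    ((continuous_const.mul hc.norm).intervalIntegrable _ _) fun s _ => ?_
  rw [mul_comm, ← Real.norm_eq_abs]
  exact ContinuousLinearMap.le_opNorm _ _

theorem HomB_fd {σ : Pos3 → ℝ} (hσ : Test σ) :
    Continuous (fun x => ‖fderiv ℝ σ x‖) ∧ HasCompactSupport fun x => ‖fderiv ℝ σ x‖ :=
  ⟨(hσ.diff.continuous_fderiv one_ne_zero).norm, (hσ.supp.fderiv ℝ).norm⟩

theorem HomB_locabs {k : Pos3 → ℝ} (hk : LocallyIntegrable k) :
    LocallyIntegrable fun y => |k y| := by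
  intro x
  obtain ⟨s, hs, h⟩ := hk x
  exact ⟨s, hs, h.abs⟩

/-- Moving the shift to the test function. -/
theorem integral_shift_le {k σ : Pos3 → ℝ} (hk : LocallyIntegrable k) (hm : Measurable k)
    (hσ : Test σ) (p w : Pos3) :
    |∫ x, (k (x - (p + w)) - k (x - p)) * σ x| ≤
      ‖w‖ * ∫ s in (0 : ℝ)..1, ∫ x, |k (x - (p + s • w))| * ‖fderiv ℝ σ x‖ := by
  have hc := hσ.continuous
  obtain ⟨hDc, hDs⟩ := HomB_fd hσ
  have e1 : ∫ x, (k (x - (p + w)) - k (x - p)) * σ x =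
      ∫ y, k y * (σ (y + (p + w)) - σ (y + p)) := by
    simp only [sub_mul, mul_sub]
    rw [integral_sub (HomB_int hk hc hσ.supp _) (HomB_int hk hc hσ.supp _),
      integral_sub (HomB_int0 hk hc hσ.supp _) (HomB_int0 hk hc hσ.supp _), HomB_shift, HomB_shift]
  have e2 : ∀ s : ℝ, ∫ x, |k (x - (p + s • w))| * ‖fderiv ℝ σ x‖ =
      ∫ y, |k y| * ‖fderiv ℝ σ (y + (p + s • w))‖ := fun s =>
    HomB_shift (fun y => |k y|) (fun x => ‖fderiv ℝ σ x‖) _
  have hP := HomB_prod (HomB_locabs hk) hm.abs hDc hDs p w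
  simp only [e1, e2]
  rw [intervalIntegral_integral_swap hP, ← integral_const_mul]
  refine (abs_integral_le_integral_abs).trans ?_
  refine integral_mono_of_nonneg (Filter.Eventually.of_forall fun y => abs_nonneg _) ?_
    (Filter.Eventually.of_forall fun y => ?_)
  · refine Integrable.const_mul ?_ _
    have := hP.integral_prod_right
    simp only [intervalIntegral.integral_of_le zero_le_one]
    rw [uIoc_of_le zero_le_one] at this
    exact this
  · simp only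
    rw [abs_mul, intervalIntegral.integral_const_mul, mul_left_comm]
    refine mul_le_mul_of_nonneg_left ?_ (abs_nonneg _)
    have := HomB_ftc hσ.diff (y + p) w
    simpa only [add_assoc] using this

theorem HomB_grad {ρ u : Pos3 → ℝ} {Λ : ℝ} (hρ : Wt ρ Λ) (hu : ContDiff ℝ 1 u) (x : Pos3) :
    ‖fderiv ℝ (fun y => ρ y * u y ^ 2) x‖ ≤
      Λ * (ρ x * u x ^ 2) + 2 * ρ x * |u x| * ‖fderiv ℝ u x‖ := by
  have h1 : HasFDerivAt ρ (fderiv ℝ ρ x) x :=
    (hρ.diff.differentiable two_ne_zero x).hasFDerivAt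
  have h2 : HasFDerivAt u (fderiv ℝ u x) x := (hu.differentiable one_ne_zero x).hasFDerivAt
  have h3 := h1.mul (h2.mul h2)
  have e : (fun y => ρ y * u y ^ 2) = ρ * (u * u) := by
    funext y; simp [sq]
  rw [e, h3.fderiv]
  have hp := (hρ.pos x).le
  refine (norm_add_le _ _).trans ?_
  rw [norm_smul, norm_smul, Real.norm_of_nonneg hp]
  have a1 : ‖u x • fderiv ℝ u x + u x • fderiv ℝ u x‖ ≤ 2 * |u x| * ‖fderiv ℝ u x‖ := by
    refine (norm_add_le _ _).trans ?_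
    rw [norm_smul, Real.norm_eq_abs]; linarith
  have a2 : ‖(u * u) x‖ = u x ^ 2 := by
    simp [sq]
  rw [a2]
  have a3 := mul_le_mul_of_nonneg_left a1 hp
  have a4 := mul_le_mul_of_nonneg_left (hρ.d1 x) (sq_nonneg (u x))
  nlinarith

theorem HomB_pt {κ a K Λ δ r v D g : ℝ} (hκ : 0 ≤ κ) (hκ' : κ ≤ a + K) (hΛ : 0 ≤ Λ) (hδ : 0 < δ)
    (hr : 0 ≤ r) (hD : 0 ≤ D) (hg0 : 0 ≤ g) (hg : g ≤ Λ * (r * v ^ 2) + 2 * r * |v| * D) :
    κ * g ≤ (a * Λ + 2 * δ * a ^ 2) * (r * v ^ 2) + Λ * (K * (r * v ^ 2)) +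
      2 * δ * (K ^ 2 * (r * v ^ 2)) + δ⁻¹ * (r * D ^ 2) := by
  set k := a + K with hk
  have hk0 : 0 ≤ k := hκ.trans hκ'
  have h1 : κ * g ≤ k * (Λ * (r * v ^ 2) + 2 * r * |v| * D) :=
    mul_le_mul hκ' hg hg0 hk0
  have h2 : 2 * k * |v| * D ≤ δ * k ^ 2 * v ^ 2 + δ⁻¹ * D ^ 2 := by
    have h := sq_nonneg (δ * k * |v| - D)
    have e : δ * k ^ 2 * v ^ 2 + δ⁻¹ * D ^ 2 - 2 * k * |v| * D = δ⁻¹ * (δ * k * |v| - D) ^ 2 := by
      rw [← sq_abs v]; field_simp; ring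
    have : 0 ≤ δ⁻¹ * (δ * k * |v| - D) ^ 2 := by positivity
    linarith
  have h3 : k ^ 2 ≤ 2 * a ^ 2 + 2 * K ^ 2 := by
    rw [hk]; nlinarith [sq_nonneg (a - K)]
  have h4 := mul_le_mul_of_nonneg_left h2 hr
  have h5 : δ * (r * v ^ 2) * k ^ 2 ≤ δ * (r * v ^ 2) * (2 * a ^ 2 + 2 * K ^ 2) :=
    mul_le_mul_of_nonneg_left h3 (by positivity)
  have e1 : k * (Λ * (r * v ^ 2) + 2 * r * |v| * D) =
      a * Λ * (r * v ^ 2) + Λ * (K * (r * v ^ 2)) + r * (2 * k * |v| * D) := by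
    rw [hk]; ring
  nlinarith

theorem HomB_cell {c : ℝ} (hc : 0 ≤ c) : ∃ C, 0 ≤ C ∧ ∀ (δ Λ : ℝ) (ρ u κ : Pos3 → ℝ) (p w : Pos3),
    0 < δ → δ ≤ 1 → ‖w‖ ≤ δ / 4 → Wt ρ Λ → Λ * δ ≤ 1 → ContDiff ℝ 1 u →
    (∀ y ∈ Qc δ, 0 ≤ κ y ∧ κ y ≤ c / δ + Kn (y - w)) →
    ∫ y in Qc δ, κ y * ‖fderiv ℝ (fun y => ρ y * u y ^ 2) (p + y)‖ ≤
      C * δ⁻¹ * ((∫ y in Qc δ, ρ (p + y) * gsq u (p + y)) +
        (1 + Λ) * ∫ y in Qc δ, ρ (p + y) * u (p + y) ^ 2) := by
  obtain ⟨C₂, h₂⟩ := cell_K1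
  obtain ⟨C₃, h₃⟩ := cell_K2
  refine ⟨c + |C₂| + 2 * c ^ 2 + 2 * |C₃| + 1, by positivity, ?_⟩
  intro δ Λ ρ u κ p w hδ hδ1 hw hρ hΛδ hu hκ
  have hΛ := hρ.nonneg
  have hQ := isCompact_Qc δ
  have hQm := measurableSet_Qc δ
  have hsh : Continuous fun y : Pos3 => p + y := continuous_const.add continuous_id
  have hm : Continuous fun y => ρ (p + y) * u (p + y) ^ 2 :=
    (hρ.diff.continuous.comp hsh).mul ((hu.continuous.comp hsh).pow 2)
  have hgc : Continuous fun y => ρ (p + y) * gsq u (p + y) :=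
    (hρ.diff.continuous.comp hsh).mul ((continuous_gsq hu).comp hsh)
  have hK : ∀ y, Kn (y - w) = Kn (w - y) := fun y => by rw [← Kn_neg, neg_sub]
  have i1 : IntegrableOn (fun y => ρ (p + y) * u (p + y) ^ 2) (Qc δ) :=
    hm.continuousOn.integrableOn_compact hQ
  have i2 : IntegrableOn (fun y => Kn (y - w) * (ρ (p + y) * u (p + y) ^ 2)) (Qc δ) := by
    simp only [hK]
    exact (integrableOn_Kn w hQ.isBounded).mul_continuousOn hm.continuousOn hQ
  have i3 : IntegrableOn (fun y => Kn (y - w) ^ 2 * (ρ (p + y) * u (p + y) ^ 2)) (Qc δ) := by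
    simp only [hK]
    exact (integrableOn_Kn_sq w hQ.isBounded).mul_continuousOn hm.continuousOn hQ
  have i4 : IntegrableOn (fun y => ρ (p + y) * gsq u (p + y)) (Qc δ) :=
    hgc.continuousOn.integrableOn_compact hQ
  have b2 := h₂ δ Λ ρ u p w hδ hρ hΛδ hu hw
  have b3 := h₃ δ Λ ρ u p w hδ hρ hΛδ hu hw
  set M := ∫ y in Qc δ, ρ (p + y) * u (p + y) ^ 2 with hM
  set G := ∫ y in Qc δ, ρ (p + y) * gsq u (p + y) with hG
  set K₁ := ∫ y in Qc δ, Kn (y - w) * (ρ (p + y) * u (p + y) ^ 2) with hK₁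
  set K₂ := ∫ y in Qc δ, Kn (y - w) ^ 2 * (ρ (p + y) * u (p + y) ^ 2) with hK₂
  have hM0 : 0 ≤ M := integral_nonneg fun y => mul_nonneg (hρ.pos _).le (sq_nonneg _)
  have hG0 : 0 ≤ G := integral_nonneg fun y => mul_nonneg (hρ.pos _).le (gsq_nonneg _ _)
  have key : ∫ y in Qc δ, κ y * ‖fderiv ℝ (fun y => ρ y * u y ^ 2) (p + y)‖ ≤
      (c / δ * Λ + 2 * δ * (c / δ) ^ 2) * M + Λ * K₁ + 2 * δ * K₂ + δ⁻¹ * G := by
    rw [hM, hG, hK₁, hK₂, ← integral_const_mul, ← integral_const_mul, ← integral_const_mul,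
      ← integral_const_mul, ← integral_add (i1.const_mul _) (i2.const_mul _),
      ← integral_add ((i1.const_mul _).fun_add (i2.const_mul _)) (i3.const_mul _),
      ← integral_add (((i1.const_mul _).fun_add (i2.const_mul _)).fun_add (i3.const_mul _))
        (i4.const_mul _)]
    refine integral_mono_of_nonneg ?_
      ((((i1.const_mul _).add (i2.const_mul _)).add (i3.const_mul _)).add (i4.const_mul _)) ?_
    · exact ae_restrict_of_forall_mem hQm fun y hy => mul_nonneg (hκ y hy).1 (norm_nonneg _)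
    · refine ae_restrict_of_forall_mem hQm fun y hy => ?_
      simp only [gsq_eq_norm]
      exact HomB_pt (hκ y hy).1 (hκ y hy).2 hΛ hδ (hρ.pos _).le (norm_nonneg _) (norm_nonneg _)
        (HomB_grad hρ hu _)
  refine key.trans ?_
  have hi : 0 < δ⁻¹ := inv_pos.2 hδ
  have hi1 : 1 ≤ δ⁻¹ := (one_le_inv₀ hδ).2 hδ1
  have b2' : K₁ ≤ |C₂| * (δ * G + δ⁻¹ * M) :=
    b2.trans (mul_le_mul_of_nonneg_right (le_abs_self _) (by positivity))
  have b3' : K₂ ≤ |C₃| * (G + (δ ^ 2)⁻¹ * M) :=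
    b3.trans (mul_le_mul_of_nonneg_right (le_abs_self _) (by positivity))
  have t1 : Λ * K₁ ≤ δ⁻¹ * (|C₂| * G + |C₂| * Λ * M) := by
    have := mul_le_mul_of_nonneg_left b2' hΛ
    have h' : (Λ * δ) * (|C₂| * G) ≤ δ⁻¹ * (|C₂| * G) :=
      mul_le_mul_of_nonneg_right (hΛδ.trans hi1) (by positivity)
    nlinarith
  have t2 : 2 * δ * K₂ ≤ δ⁻¹ * (2 * |C₃| * G + 2 * |C₃| * M) := by
    have := mul_le_mul_of_nonneg_left b3' (by positivity : 0 ≤ 2 * δ)
    have h' : δ * (2 * |C₃| * G) ≤ δ⁻¹ * (2 * |C₃| * G) :=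
      mul_le_mul_of_nonneg_right (hδ1.trans hi1) (by positivity)
    have e : 2 * δ * (|C₃| * (G + (δ ^ 2)⁻¹ * M)) = δ * (2 * |C₃| * G) + δ⁻¹ * (2 * |C₃| * M) := by
      field_simp
    linarith
  have t3 : (c / δ * Λ + 2 * δ * (c / δ) ^ 2) * M = δ⁻¹ * (c * Λ * M + 2 * c ^ 2 * M) := by
    field_simp
  rw [t3]
  have t4 : c * Λ * M + 2 * c ^ 2 * M + (|C₂| * G + |C₂| * Λ * M) + (2 * |C₃| * G + 2 * |C₃| * M)
      + G ≤ (c + |C₂| + 2 * c ^ 2 + 2 * |C₃| + 1) * (G + (1 + Λ) * M) := by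
    have : 0 ≤ c * G + 2 * c ^ 2 * G + c * M + |C₂| * M + M + 2 * c ^ 2 * Λ * M +
      2 * |C₃| * Λ * M + Λ * M := by positivity
    nlinarith
  have t5 := mul_le_mul_of_nonneg_left t4 hi.le
  nlinarith

theorem HomB_test {ρ u : Pos3 → ℝ} {Λ : ℝ} (hρ : Wt ρ Λ) (hu : Test u) :
    Test fun y => ρ y * u y ^ 2 := by
  have h1 : ContDiff ℝ 1 ρ := hρ.diff.of_le (by norm_num)
  have := (hu.mul_left hu.diff).mul_left h1
  simpa only [sq] using this

/-- `hasSum_cells`, `sum_kk_le`, `cell_K1`, `cell_K2`;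
`‖D (ρ u²)‖ ≤ Λ ρ u² + 2 ρ |u| √(gsq u)` and `2 κ |u| √gsq ≤ δ κ² u² + gsq / δ`. -/
theorem sum_kk_grad : ∃ C, ∀ (δ Λ : ℝ) (S : Finset (Fin 3 → ℤ)) (w : (Fin 3 → ℤ) → Pos3)
    (ρ u : Pos3 → ℝ), 0 < δ → δ ≤ 1 → (∀ β, ‖w β‖ ≤ δ / 4) → Wt ρ Λ → Λ * δ ≤ 1 → Test u →
    ∑ β ∈ S, ∫ x, |kk δ (x - (lat δ β + w β))| * ‖fderiv ℝ (fun y => ρ y * u y ^ 2) x‖ ≤
      C * δ⁻¹ * ((∫ x, ρ x * gsq u x) + (1 + Λ) * ∫ x, ρ x * u x ^ 2) := by
  obtain ⟨C₁, h₁⟩ := sum_kk_le
  obtain ⟨C, -, hC⟩ := HomB_cell (abs_nonneg C₁)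
  refine ⟨C, ?_⟩
  intro δ Λ S w ρ u hδ hδ1 hw hρ hΛδ hu
  obtain ⟨hDc, hDs⟩ := HomB_fd (HomB_test hρ hu)
  have hi : ∀ β ∈ S, Integrable fun x =>
      |kk δ (x - (lat δ β + w β))| * ‖fderiv ℝ (fun y => ρ y * u y ^ 2) x‖ := fun β _ =>
    HomB_int (HomB_locabs (locallyIntegrable_kk hδ)) hDc hDs _
  rw [← integral_finsetSum S hi]
  have s1 := hasSum_cells hδ (integrable_finsetSum S hi)
  have s2 := hasSum_cells hδ (hu.integrable_gsq hρ.diff.continuous)
  have s3 := hasSum_cells hδ (hu.integrable_sq hρ.diff.continuous)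
  refine hasSum_le (fun β₀ => ?_) s1 ((s2.add (s3.mul_left (1 + Λ))).mul_left (C * δ⁻¹))
  simp only [← Finset.sum_mul]
  refine hC δ Λ ρ u _ (lat δ β₀) (w β₀) hδ hδ1 (hw β₀) hρ hΛδ hu.diff fun y hy => ⟨?_, ?_⟩
  · exact Finset.sum_nonneg fun β _ => abs_nonneg _
  · refine (h₁ δ hδ S w hw β₀ y hy).trans ?_
    gcongr
    exact le_abs_self _

theorem homB : ∃ C, ∀ (δ Λ us : ℝ) (I J : ℕ) (w : (Fin 3 → ℤ) → Pos3) (ρ u : Pos3 → ℝ),
    0 < δ → δ ≤ 1 → (∀ β, ‖w β‖ ≤ us) → us ≤ δ / 4 → Wt ρ Λ → Λ * δ ≤ 1 → Test u →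
    |∫ x, ((PhiN δ I J w x - PhiC δ I J w x) - (PhiN δ I J 0 x - PhiC δ I J 0 x)) *
        (ρ x * u x ^ 2)| ≤
      C * (us / δ) * ((∫ x, ρ x * gsq u x) + (1 + Λ) * ∫ x, ρ x * u x ^ 2) := by
  obtain ⟨C, hC⟩ := sum_kk_grad
  refine ⟨C, ?_⟩
  intro δ Λ us I J w ρ u hδ hδ1 hw hus hρ hΛδ hu
  have hσ := HomB_test hρ hu
  obtain ⟨hDc, hDs⟩ := HomB_fd hσ
  have hk := locallyIntegrable_kk hδ
  have hm := measurable_kk δ
  have hus0 : 0 ≤ us := (norm_nonneg _).trans (hw 0)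
  set E := (∫ x, ρ x * gsq u x) + (1 + Λ) * ∫ x, ρ x * u x ^ 2 with hE
  simp only [PhiN_sub_PhiC, Pi.zero_apply, add_zero, ← Finset.sum_sub_distrib, Finset.sum_mul]
  have hi : ∀ β ∈ Lam I J, Integrable fun x =>
      (kk δ (x - (lat δ β + w β)) - kk δ (x - lat δ β)) * (ρ x * u x ^ 2) := fun β _ => by
    simp only [sub_mul]
    exact (HomB_int hk hσ.continuous hσ.supp _).sub (HomB_int hk hσ.continuous hσ.supp _)
  rw [integral_finsetSum _ hi]
  refine (Finset.abs_sum_le_sum_abs _ _).trans ?_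
  set F : (Fin 3 → ℤ) → ℝ → ℝ := fun β s =>
    ∫ x, |kk δ (x - (lat δ β + s • w β))| * ‖fderiv ℝ (fun y => ρ y * u y ^ 2) x‖ with hF
  have hF0 : ∀ β s, 0 ≤ F β s := fun β s =>
    integral_nonneg fun x => mul_nonneg (abs_nonneg _) (norm_nonneg _)
  have hFi : ∀ β, IntervalIntegrable (F β) volume 0 1 := fun β => by
    have hP := (HomB_prod (HomB_locabs hk) hm.abs hDc hDs (lat δ β) (w β)).integral_prod_left
    rw [intervalIntegrable_iff]
    have e : F β = fun s => ∫ y, |kk δ y| *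
        ‖fderiv ℝ (fun y => ρ y * u y ^ 2) (y + (lat δ β + s • w β))‖ := by
      funext s
      exact HomB_shift (fun y => |kk δ y|) (fun x => ‖fderiv ℝ (fun y => ρ y * u y ^ 2) x‖) _
    rw [e]
    exact hP
  have h1 : ∀ β ∈ Lam I J, |∫ x, (kk δ (x - (lat δ β + w β)) - kk δ (x - lat δ β)) *
      (ρ x * u x ^ 2)| ≤ us * ∫ s in (0 : ℝ)..1, F β s := fun β _ => by
    refine (integral_shift_le hk hm hσ _ _).trans ?_
    exact mul_le_mul_of_nonneg_right (hw β)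
      (intervalIntegral.integral_nonneg zero_le_one fun s _ => hF0 β s)
  refine (Finset.sum_le_sum h1).trans ?_
  rw [← Finset.mul_sum, ← intervalIntegral.integral_finsetSum fun β _ => hFi β]
  have h2 : ∫ s in (0 : ℝ)..1, ∑ β ∈ Lam I J, F β s ≤ ∫ s in (0 : ℝ)..1, C * δ⁻¹ * E := by
    refine intervalIntegral.integral_mono_on zero_le_one ?_ (by simp) fun s hs => ?_
    · have := IntervalIntegrable.sum (Lam I J) fun β _ => hFi β
      rwa [Finset.sum_fn] at this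
    · refine hC δ Λ (Lam I J) (fun β => s • w β) ρ u hδ hδ1 (fun β => ?_) hρ hΛδ hu
      rw [norm_smul, Real.norm_of_nonneg hs.1]
      exact (mul_le_of_le_one_left (norm_nonneg _) hs.2).trans ((hw β).trans hus)
  simp only [intervalIntegral.integral_const, sub_zero, one_smul] at h2
  calc us * ∫ s in (0 : ℝ)..1, ∑ β ∈ Lam I J, F β s ≤ us * (C * δ⁻¹ * E) :=
        mul_le_mul_of_nonneg_left h2 hus0
    _ = C * (us / δ) * E := by ring

end Crest.Agent.R338
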