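/-
R338/HomC: displacing the cubes
Skeleton by helper15 (row 338); keep the statements unchanged, add any helper lemmas you like.
-/
import Crest.Agent.R338.Cube

set_option autoImplicit false
set_option linter.unusedSectionVars false
set_option linter.unusedVariables false
set_option linter.unusedSimpArgs false

noncomputable section

namespace Crest.Agent.R338

open MeasureTheory Set Crest.MathPhysics.ElectronicCoulomb
open scoped RealInnerProductSpace

theorem homC_tr (f : Pos3 → ℝ) (z : Pos3) (R : ℝ) :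
    ∫ y in Metric.ball z R, f y = ∫ y in Metric.ball 0 R, f (z + y) := by
  have h := (measurePreserving_add_left (volume : Measure Pos3) z).setIntegral_preimage_emb
    (measurableEmbedding_addLeft z) f (Metric.ball z R)
  rw [← h]
  congr 2
  ext y
  simp [Metric.mem_ball, dist_eq_norm]

theorem homC_ball_one : ∃ C, 0 ≤ C ∧ ∀ (a z : Pos3) (R : ℝ), 0 < R →
    ∫ y in Metric.ball z R, Kn (a - y) ≤ C * R ^ 2 := by
  obtain ⟨C, hC⟩ := int_ball_one
  refine ⟨|C|, abs_nonneg C, fun a z R hR => ?_⟩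
  rw [homC_tr]
  simp only [← sub_sub]
  exact (hC _ R hR).trans (mul_le_mul_of_nonneg_right (le_abs_self C) (by positivity))

theorem homC_ball_two : ∃ C, 0 ≤ C ∧ ∀ (a z : Pos3) (R : ℝ), 0 < R →
    ∫ y in Metric.ball z R, Kn (a - y) ^ 2 ≤ C * R := by
  obtain ⟨C, hC⟩ := int_ball_two
  refine ⟨|C|, abs_nonneg C, fun a z R hR => ?_⟩
  rw [homC_tr]
  simp only [← sub_sub]
  exact (hC _ R hR).trans (mul_le_mul_of_nonneg_right (le_abs_self C) hR.le)

/-- The truncated cube of the kernel. -/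
def homCf (x : Pos3) (r : ℝ) : Pos3 → ℝ := {y | r ≤ ‖x - y‖}.indicator fun y => Kn (x - y) ^ 3

theorem homC_meas (x : Pos3) (r : ℝ) : MeasurableSet {y : Pos3 | r ≤ ‖x - y‖} :=
  (isClosed_le continuous_const (by fun_prop)).measurableSet

theorem homCf_nonneg (x : Pos3) (r : ℝ) (y : Pos3) : 0 ≤ homCf x r y :=
  indicator_nonneg (fun _ _ => pow_nonneg (Kn_nonneg _) 3) y

theorem homCf_of_le {x y : Pos3} {r : ℝ} (h : r ≤ ‖x - y‖) : homCf x r y = Kn (x - y) ^ 3 :=
  indicator_of_mem (s := {y | r ≤ ‖x - y‖}) h _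

theorem homCf_int (x : Pos3) {r : ℝ} (hr : 0 < r) {s : Set Pos3} (hs : Bornology.IsBounded s) :
    IntegrableOn (homCf x r) s := by
  refine Measure.integrableOn_of_bounded (M := (1 / r) ^ 3) hs.measure_lt_top.ne
    (Measurable.aestronglyMeasurable ?_) (ae_of_all _ fun y => ?_)
  · exact ((measurable_Kn.comp (measurable_const.sub measurable_id)).pow_const 3).indicator
      (homC_meas x r)
  · rw [Real.norm_of_nonneg (homCf_nonneg x r y)]
    by_cases h : r ≤ ‖x - y‖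
    · rw [homCf_of_le h]
      exact pow_le_pow_left₀ (Kn_nonneg _) (Kn_le_of_le hr h) 3
    · rw [homCf, indicator_of_notMem (s := {y | r ≤ ‖x - y‖}) h]
      positivity

theorem homCf_add (x p : Pos3) (r : ℝ) (y : Pos3) : homCf x r (p + y) = homCf (x - p) r y := by
  simp only [homCf, indicator, mem_ofPred_eq, sub_sub]

theorem homCf_set (x : Pos3) (r : ℝ) (s : Set Pos3) :
    ∫ y in s, homCf x r y = ∫ y in s ∩ {y | r ≤ ‖x - y‖}, Kn (x - y) ^ 3 :=
  setIntegral_indicator (homC_meas x r)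

theorem homC_abs_inner (a u : Pos3) : |⟪a, gK u⟫| ≤ ‖a‖ * Kn u ^ 2 := by
  rw [← norm_gK]; exact abs_real_inner_le_norm _ _

theorem homC_far {δ : ℝ} {z y : Pos3} (hz : 4 * δ ≤ ‖z‖) (hy : y ∈ Qc δ) : 3 * δ ≤ ‖z - y‖ := by
  have h1 := norm_le_of_mem_Qc hy
  have h2 := norm_sub_norm_le z y
  have h3 := norm_nonneg y
  linarith

theorem homC_taylor' : ∃ C, 0 ≤ C ∧ ∀ (δ us : ℝ) (w z : Pos3), 0 < us → us ≤ δ → ‖w‖ ≤ us →
    ∫ y in Qc δ, |Kn (z - w - y) - Kn (z - y) + ⟪w, gK (z - y)⟫| ≤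
      C * us ^ 2 * ((if ‖z‖ ≤ 4 * δ then 1 else 0) + ∫ y in Qc δ, homCf z us y) := by
  obtain ⟨A, hA0, hA⟩ := homC_ball_one
  obtain ⟨B, hB0, hB⟩ := homC_ball_two
  obtain ⟨C, hC⟩ := taylor1
  refine ⟨8 * A + 2 * B + |C|, by positivity, fun δ us w z hus hδ hw => ?_⟩
  set H : Pos3 → ℝ := fun y => Kn (z - w - y) + Kn (z - y) + us * Kn (z - y) ^ 2 with hH
  have hH0 : ∀ y, 0 ≤ H y := fun y => by
    have := Kn_nonneg (z - w - y)
    have := Kn_nonneg (z - y)
    simp only [hH]; positivity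
  have i1 := integrableOn_Kn (z - w) (Metric.isBounded_ball (x := z) (r := 2 * us))
  have i2 := integrableOn_Kn z (Metric.isBounded_ball (x := z) (r := 2 * us))
  have i3 := (integrableOn_Kn_sq z (Metric.isBounded_ball (x := z) (r := 2 * us))).const_mul us
  have hHi : Integrable ((Metric.ball z (2 * us)).indicator H) :=
    (integrable_indicator_iff measurableSet_ball).2 ((i1.add i2).add i3)
  have hfi := homCf_int z hus (isCompact_Qc δ).isBounded
  have hpt : ∀ y, |Kn (z - w - y) - Kn (z - y) + ⟪w, gK (z - y)⟫| ≤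
      (Metric.ball z (2 * us)).indicator H y + |C| * us ^ 2 * homCf z us y := by
    intro y
    have k1 := Kn_nonneg (z - w - y)
    have k2 := Kn_nonneg (z - y)
    have k3 := homCf_nonneg z us y
    by_cases hy : y ∈ Metric.ball z (2 * us)
    · rw [indicator_of_mem hy]
      have h1 := homC_abs_inner w (z - y)
      have h2 : ‖w‖ * Kn (z - y) ^ 2 ≤ us * Kn (z - y) ^ 2 := by gcongr
      have h3 : 0 ≤ |C| * us ^ 2 * homCf z us y := by positivity
      have h4 := abs_le.1 (h1.trans h2)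
      simp only [hH]
      rw [abs_le]
      constructor <;> linarith [h4.1, h4.2]
    · rw [indicator_of_notMem hy, zero_add]
      rw [Metric.mem_ball, dist_comm, dist_eq_norm, not_lt] at hy
      have hne : z - y ≠ 0 := by
        rw [← norm_pos_iff]; linarith
      have h1 := hC (z - y) (-w) hne (by rw [norm_neg]; linarith)
      rw [show z - y + -w = z - w - y by abel, inner_neg_right, sub_neg_eq_add, real_inner_comm,
        norm_neg] at h1
      rw [homCf_of_le (by linarith)]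
      refine h1.trans ?_
      gcongr
      exact le_abs_self C
  have h1 : ∫ y in Qc δ, |Kn (z - w - y) - Kn (z - y) + ⟪w, gK (z - y)⟫| ≤
      ∫ y in Qc δ, ((Metric.ball z (2 * us)).indicator H y + |C| * us ^ 2 * homCf z us y) :=
    integral_mono_of_nonneg (ae_of_all _ fun y => abs_nonneg _)
      (hHi.integrableOn.add (hfi.const_mul _)) (ae_of_all _ hpt)
  rw [integral_add hHi.integrableOn (hfi.const_mul _), integral_const_mul] at h1
  have h2 : ∫ y in Qc δ, (Metric.ball z (2 * us)).indicator H y ≤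
      (8 * A + 2 * B) * us ^ 2 * (if ‖z‖ ≤ 4 * δ then 1 else 0) := by
    split_ifs with hz
    · refine (setIntegral_le_integral hHi
        (ae_of_all _ fun y => indicator_nonneg (fun y _ => hH0 y) y)).trans ?_
      rw [integral_indicator measurableSet_ball]
      simp only [hH]
      have i12 : IntegrableOn (fun y => Kn (z - w - y) + Kn (z - y)) (Metric.ball z (2 * us)) :=
        i1.add i2
      rw [integral_add i12 i3, integral_add i1 i2, integral_const_mul]
      have e1 := hA (z - w) z (2 * us) (by positivity)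
      have e2 := hA z z (2 * us) (by positivity)
      have e3 := mul_le_mul_of_nonneg_left (hB z z (2 * us) (by positivity)) hus.le
      nlinarith
    · rw [setIntegral_eq_zero_of_forall_eq_zero, mul_zero]
      intro y hy
      refine indicator_of_notMem ?_ _
      rw [Metric.mem_ball, dist_comm, dist_eq_norm, not_lt]
      have := homC_far (not_le.1 hz).le hy
      linarith
  have h3 : 0 ≤ ∫ y in Qc δ, homCf z us y := integral_nonneg (homCf_nonneg z us)
  have h4 : (0 : ℝ) ≤ if ‖z‖ ≤ 4 * δ then 1 else 0 := by split_ifs <;> norm_num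
  have h5 : 0 ≤ (8 * A + 2 * B) * us ^ 2 * ∫ y in Qc δ, homCf z us y := by positivity
  have h6 : 0 ≤ |C| * us ^ 2 * (if ‖z‖ ≤ 4 * δ then (1 : ℝ) else 0) := by positivity
  nlinarith

/-- First order Taylor expansion integrated over one cell: on `‖x - (p + y)‖ < 2 us` (possible only if
`‖x - p‖ ≤ 4 δ`) bound the three terms separately by `int_ball_one`, `int_ball_two` (translated),
elsewhere use `taylor1`. -/
theorem homC_taylor : ∃ C, ∀ (δ us : ℝ) (w p x : Pos3), 0 < us → us ≤ δ → ‖w‖ ≤ us →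
    ∫ y in Qc δ, |Kn (x - (p + w) - y) - Kn (x - p - y) + ⟪w, gK (x - (p + y))⟫| ≤
      C * us ^ 2 * ((if ‖x - p‖ ≤ 4 * δ then 1 else 0) +
        ∫ y in Qc δ ∩ {y | us ≤ ‖x - (p + y)‖}, Kn (x - (p + y)) ^ 3) := by
  obtain ⟨C, -, hC⟩ := homC_taylor'
  refine ⟨C, fun δ us w p x h1 h2 h3 => ?_⟩
  have := hC δ us w (x - p) h1 h2 h3
  rw [homCf_set] at this
  simpa only [sub_sub, add_assoc] using this

theorem card_near {δ : ℝ} (hδ : 0 < δ) (x : Pos3) (S : Finset (Fin 3 → ℤ))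
    (h : ∀ β ∈ S, ‖x - lat δ β‖ ≤ 4 * δ) : S.card ≤ 729 := by
  have hsub : S ⊆ Fintype.piFinset fun c => Finset.Icc ⌈x c / δ - 4⌉ (⌈x c / δ - 4⌉ + 8) := by
    intro β hβ
    rw [Fintype.mem_piFinset]
    intro c
    have h1 := (abs_le_norm (x - lat δ β) c).trans (h β hβ)
    rw [PiLp.sub_apply, lat_apply, abs_le] at h1
    have e : x c = δ * (x c / δ) := by field_simp
    have h2 : x c / δ - 4 ≤ β c := by
      refine le_of_mul_le_mul_left ?_ hδ
      linarith [h1.2]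
    have h3 : (β c : ℝ) ≤ x c / δ + 4 := by
      refine le_of_mul_le_mul_left ?_ hδ
      linarith [h1.1]
    rw [Finset.mem_Icc]
    refine ⟨Int.ceil_le.2 h2, ?_⟩
    have h4 := Int.le_ceil (x c / δ - 4)
    have : (β c : ℝ) ≤ ((⌈x c / δ - 4⌉ + 8 : ℤ) : ℝ) := by push_cast; linarith
    exact_mod_cast this
  refine (Finset.card_le_card hsub).trans ?_
  rw [Fintype.card_piFinset]
  simp only [Int.card_Icc, show ∀ k : ℤ, k + 8 + 1 - k = 9 from fun k => by ring]
  simp

/-- A sum over cells is bounded by the integral over a set containing them (`hasSum_cells` for an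
indicator function). -/
theorem sum_cells_le {δ : ℝ} (hδ : 0 < δ) (S : Finset (Fin 3 → ℤ)) {f : Pos3 → ℝ} {s : Set Pos3}
    (hs : MeasurableSet s) (hf : IntegrableOn f s) (h0 : ∀ y, 0 ≤ f y)
    (h : ∀ β ∈ S, ∀ y ∈ Qc δ, lat δ β + y ∈ s) :
    ∑ β ∈ S, ∫ y in Qc δ, f (lat δ β + y) ≤ ∫ y in s, f y := by
  have hg : Integrable (s.indicator f) := (integrable_indicator_iff hs).2 hf
  rw [← integral_indicator hs]
  refine le_trans (le_of_eq (Finset.sum_congr rfl fun β hβ => ?_))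
    (sum_le_hasSum S (fun β _ => integral_nonneg fun y => indicator_nonneg (fun y _ => h0 y) _)
      (hasSum_cells hδ hg))
  exact setIntegral_congr_fun (measurableSet_Qc δ) fun y hy => (indicator_of_mem (h β hβ y hy) f).symm

theorem homC_int_inner {a : Pos3 → Pos3} (ha : Continuous a) (z : Pos3) {s : Set Pos3}
    (hs : IsCompact s) : IntegrableOn (fun y => ⟪a y, gK (z - y)⟫) s := by
  obtain ⟨M, hM⟩ := hs.exists_bound_of_continuousOn ha.continuousOn
  refine Integrable.mono' ((integrableOn_Kn_sq z hs.isBounded).const_mul M)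
    (Measurable.aestronglyMeasurable ?_) ?_
  · exact ha.measurable.inner (measurable_gK.comp (measurable_const.sub measurable_id))
  · refine (ae_restrict_iff' hs.measurableSet).2 (ae_of_all _ fun y hy => ?_)
    rw [Real.norm_eq_abs]
    exact (homC_abs_inner _ _).trans (mul_le_mul_of_nonneg_right (hM y hy) (sq_nonneg _))

theorem homC_cont {v : Pos3 → Pos3} {L : ℝ} (hL : 0 ≤ L) (h : ∀ y y', ‖v y - v y'‖ ≤ L * ‖y - y'‖) :
    Continuous v :=
  (LipschitzWith.of_dist_le_mul (K := ⟨L, hL⟩) fun y y' => by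
    rw [dist_eq_norm, dist_eq_norm]; exact h y y').continuous

theorem homC_cell' : ∃ C, 0 ≤ C ∧ ∀ (δ L : ℝ) (v : Pos3 → Pos3) (z : Pos3), 0 < δ → 0 ≤ L →
    (∀ y y', ‖v y - v y'‖ ≤ L * ‖y - y'‖) →
    |∫ y in Qc δ, ⟪(δ ^ 3)⁻¹ • (∫ y' in Qc δ, v y') - v y, gK (z - y)⟫| ≤
      C * L * (if 4 * δ ≤ ‖z‖ then δ ^ 2 * ∫ y in Qc δ, Kn (z - y) ^ 3
        else δ * ∫ y in Qc δ, Kn (z - y) ^ 2) := by
  obtain ⟨C, hC⟩ := gK_lip
  refine ⟨2 * |C| + 2, by positivity, fun δ L v z hδ hL hv => ?_⟩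
  have hvc := homC_cont hL hv
  have hQ := isCompact_Qc δ
  have hvi : IntegrableOn v (Qc δ) := hvc.continuousOn.integrableOn_compact hQ
  have hδ3 : (0 : ℝ) < δ ^ 3 := by positivity
  have hconst : ∀ u : Pos3, ∫ _ in Qc δ, u = δ ^ 3 • u := fun u => by
    rw [setIntegral_const, volume_Qc hδ.le]
  have hci : ∀ u : Pos3, IntegrableOn (fun _ : Pos3 => u) (Qc δ) := fun u =>
    continuous_const.continuousOn.integrableOn_compact hQ
  set m : Pos3 := (δ ^ 3)⁻¹ • ∫ y' in Qc δ, v y' with hm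
  have ha : ∀ y ∈ Qc δ, ‖m - v y‖ ≤ 2 * L * δ := by
    intro y hy
    have e : m - v y = (δ ^ 3)⁻¹ • ∫ y' in Qc δ, (v y' - v y) := by
      rw [integral_sub hvi (hci _), hconst, smul_sub, smul_smul, inv_mul_cancel₀ hδ3.ne', one_smul]
    have h1 : ‖∫ y' in Qc δ, (v y' - v y)‖ ≤ 2 * L * δ * volume.real (Qc δ) := by
      refine norm_setIntegral_le_of_norm_le_const hQ.measure_lt_top fun y' hy' => (hv _ _).trans ?_
      have h2 := norm_le_of_mem_Qc hy
      have h3 := norm_le_of_mem_Qc hy'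
      have h4 := norm_sub_le y' y
      have : ‖y' - y‖ ≤ 2 * δ := by linarith
      nlinarith
    rw [volume_Qc hδ.le] at h1
    rw [e, norm_smul, Real.norm_of_nonneg (inv_nonneg.2 hδ3.le), inv_mul_le_iff₀ hδ3]
    linarith
  have hac : Continuous fun y => m - v y := continuous_const.sub hvc
  have hC0 := abs_nonneg C
  split_ifs with hz
  · have h0 : ∫ y in Qc δ, ⟪gK z, m - v y⟫ = 0 := by
      have hi : IntegrableOn (fun y => m - v y) (Qc δ) := (hci m).sub hvi
      rw [integral_inner hi, integral_sub (hci m) hvi, hconst, hm, smul_smul,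
        mul_inv_cancel₀ hδ3.ne', one_smul, sub_self, inner_zero_right]
    have i0 : IntegrableOn (fun y => ⟪gK z, m - v y⟫) (Qc δ) :=
      (continuous_const.inner hac).continuousOn.integrableOn_compact hQ
    have i3 : IntegrableOn (fun y => Kn (z - y) ^ 3) (Qc δ) :=
      (homCf_int z hδ hQ.isBounded).congr_fun
        (fun y hy => homCf_of_le (by linarith [homC_far hz hy])) (measurableSet_Qc δ)
    rw [← sub_zero (∫ y in Qc δ, ⟪m - v y, gK (z - y)⟫), ← h0,
      ← integral_sub (homC_int_inner hac z hQ) i0, ← Real.norm_eq_abs]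
    refine (norm_integral_le_of_norm_le (i3.const_mul (2 * |C| * L * δ ^ 2)) ?_).trans ?_
    · refine (ae_restrict_iff' hQ.measurableSet).2 (ae_of_all _ fun y hy => ?_)
      have h1 := homC_far hz hy
      have h2 := norm_le_of_mem_Qc hy
      have hne : z - y ≠ 0 := by
        rw [← norm_pos_iff]; linarith
      have h3 := hC (z - y) y hne (by linarith)
      rw [sub_add_cancel, norm_sub_rev] at h3
      have k := pow_nonneg (Kn_nonneg (z - y)) 3
      have h4 : ‖gK (z - y) - gK z‖ ≤ |C| * δ * Kn (z - y) ^ 3 := by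
        refine h3.trans ?_
        gcongr
        · exact le_abs_self C
        · linarith
      show ‖⟪m - v y, gK (z - y)⟫ - ⟪gK z, m - v y⟫‖ ≤ _
      rw [real_inner_comm (m - v y) (gK z), ← inner_sub_right]
      refine (norm_inner_le_norm _ _).trans ?_
      calc ‖m - v y‖ * ‖gK (z - y) - gK z‖ ≤ (2 * L * δ) * (|C| * δ * Kn (z - y) ^ 3) :=
            mul_le_mul (ha y hy) h4 (norm_nonneg _) (by positivity)
        _ = 2 * |C| * L * δ ^ 2 * Kn (z - y) ^ 3 := by ring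
    · rw [integral_const_mul]
      have h5 : 0 ≤ ∫ y in Qc δ, Kn (z - y) ^ 3 :=
        integral_nonneg fun y => pow_nonneg (Kn_nonneg _) 3
      have h6 : 0 ≤ L * δ ^ 2 * ∫ y in Qc δ, Kn (z - y) ^ 3 := by positivity
      nlinarith
  · rw [← Real.norm_eq_abs]
    refine (norm_integral_le_of_norm_le
      ((integrableOn_Kn_sq z hQ.isBounded).const_mul (2 * L * δ)) ?_).trans ?_
    · refine (ae_restrict_iff' hQ.measurableSet).2 (ae_of_all _ fun y hy => ?_)
      rw [Real.norm_eq_abs]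
      exact (homC_abs_inner _ _).trans (mul_le_mul_of_nonneg_right (ha y hy) (sq_nonneg _))
    · rw [integral_const_mul]
      have h5 : 0 ≤ ∫ y in Qc δ, Kn (z - y) ^ 2 := integral_nonneg fun y => sq_nonneg _
      have h6 : 0 ≤ |C| * (L * δ * ∫ y in Qc δ, Kn (z - y) ^ 2) := by positivity
      nlinarith

/-- Replacing a Lipschitz field by its cell average: in a far cell (`4 δ ≤ ‖x - p‖`) subtract the
constant `gK (x - p)` and use `gK_lip`. -/
theorem homC_cell : ∃ C, ∀ (δ L : ℝ) (v : Pos3 → Pos3) (p x : Pos3), 0 < δ → 0 ≤ L →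
    (∀ y y', ‖v y - v y'‖ ≤ L * ‖y - y'‖) →
    |∫ y in Qc δ, ⟪(δ ^ 3)⁻¹ • (∫ y' in Qc δ, v (p + y')) - v (p + y), gK (x - (p + y))⟫| ≤
      C * L * (if 4 * δ ≤ ‖x - p‖ then δ ^ 2 * ∫ y in Qc δ, Kn (x - (p + y)) ^ 3
        else δ * ∫ y in Qc δ, Kn (x - (p + y)) ^ 2) := by
  obtain ⟨C, -, hC⟩ := homC_cell'
  refine ⟨C, fun δ L v p x h1 h2 h3 => ?_⟩
  have := hC δ L (fun y => v (p + y)) (x - p) h1 h2 fun y y' => by
    simpa only [add_sub_add_left_eq_sub] using h3 (p + y) (p + y')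
  simpa only [sub_sub] using this

/-- The estimate in one cell. -/
theorem homC_one : ∃ C, 0 ≤ C ∧ ∀ (δ us L₁ L₂ : ℝ) (w z : Pos3) (v : Pos3 → Pos3), 0 < us →
    us ≤ δ → 0 ≤ L₁ → ‖w‖ ≤ us → (∀ y y', ‖v y - v y'‖ ≤ L₁ * ‖y - y'‖) →
    ‖w - (δ ^ 3)⁻¹ • ∫ y in Qc δ, v y‖ ≤ L₂ →
    |(∫ y in Qc δ, Kn (z - w - y)) - (∫ y in Qc δ, Kn (z - y)) +
        ∫ y in Qc δ, ⟪v y, gK (z - y)⟫| ≤
      C * (us ^ 2 + L₁ * δ ^ 2) * ((if ‖z‖ ≤ 4 * δ then 1 else 0) + ∫ y in Qc δ, homCf z us y) +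
        L₂ * ∫ y in Qc δ, Kn (z - y) ^ 2 := by
  obtain ⟨A, hA0, hA⟩ := homC_taylor'
  obtain ⟨B, hB0, hB⟩ := homC_cell'
  obtain ⟨D, hD0, hD⟩ := homC_ball_two
  refine ⟨A + B + B * D, by positivity, fun δ us L₁ L₂ w z v hus hδ hL hw hv hm => ?_⟩
  have hδ0 : 0 < δ := hus.trans_le hδ
  have hQ := isCompact_Qc δ
  have hvc := homC_cont hL hv
  have h1 := hA δ us w z hus hδ hw
  have h2 := hB δ L₁ v z hδ0 hL hv
  set m : Pos3 := (δ ^ 3)⁻¹ • ∫ y' in Qc δ, v y' with hm'
  have i1 := integrableOn_Kn (z - w) hQ.isBounded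
  have i2 := integrableOn_Kn z hQ.isBounded
  have i3 := homC_int_inner (a := fun _ => w) continuous_const z hQ
  have i4 := homC_int_inner (a := fun _ => w - m) continuous_const z hQ
  have i5 := homC_int_inner (a := fun y => m - v y) (continuous_const.sub hvc) z hQ
  have i6 := integrableOn_Kn_sq z hQ.isBounded
  have e1 : ∫ y in Qc δ, ⟪v y, gK (z - y)⟫ = (∫ y in Qc δ, ⟪w, gK (z - y)⟫) -
      (∫ y in Qc δ, ⟪w - m, gK (z - y)⟫) - ∫ y in Qc δ, ⟪m - v y, gK (z - y)⟫ := by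
    have i34 : IntegrableOn (fun y => ⟪w, gK (z - y)⟫ - ⟪w - m, gK (z - y)⟫) (Qc δ) := i3.sub i4
    rw [← integral_sub i3 i4, ← integral_sub i34 i5]
    refine integral_congr_ae (ae_of_all _ fun y => ?_)
    simp only [Pi.sub_apply, inner_sub_left]
    ring
  have e2 : ∫ y in Qc δ, (Kn (z - w - y) - Kn (z - y) + ⟪w, gK (z - y)⟫) =
      (∫ y in Qc δ, Kn (z - w - y)) - (∫ y in Qc δ, Kn (z - y)) +
        ∫ y in Qc δ, ⟪w, gK (z - y)⟫ := by
    have i12 : IntegrableOn (fun y => Kn (z - w - y) - Kn (z - y)) (Qc δ) := i1.sub i2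
    rw [integral_add i12 i3, integral_sub i1 i2]
  have b1 := abs_integral_le_integral_abs (μ := volume.restrict (Qc δ))
    (f := fun y => Kn (z - w - y) - Kn (z - y) + ⟪w, gK (z - y)⟫)
  rw [e2] at b1
  have b2 : |∫ y in Qc δ, ⟪w - m, gK (z - y)⟫| ≤ L₂ * ∫ y in Qc δ, Kn (z - y) ^ 2 := by
    rw [← Real.norm_eq_abs, ← integral_const_mul]
    refine norm_integral_le_of_norm_le (i6.const_mul L₂) (ae_of_all _ fun y => ?_)
    rw [Real.norm_eq_abs]
    exact (homC_abs_inner _ _).trans (mul_le_mul_of_nonneg_right hm (sq_nonneg _))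
  have h3 : 0 ≤ ∫ y in Qc δ, homCf z us y := integral_nonneg (homCf_nonneg z us)
  have h4 : (0 : ℝ) ≤ if ‖z‖ ≤ 4 * δ then 1 else 0 := by split_ifs <;> norm_num
  have b3 : (if 4 * δ ≤ ‖z‖ then δ ^ 2 * ∫ y in Qc δ, Kn (z - y) ^ 3
      else δ * ∫ y in Qc δ, Kn (z - y) ^ 2) ≤ (1 + D) * δ ^ 2 *
        ((if ‖z‖ ≤ 4 * δ then 1 else 0) + ∫ y in Qc δ, homCf z us y) := by
    by_cases hz : 4 * δ ≤ ‖z‖
    · rw [if_pos hz, setIntegral_congr_fun (measurableSet_Qc δ) (g := homCf z us)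
        fun y hy => (homCf_of_le (by linarith [homC_far hz hy])).symm]
      have k1 : 0 ≤ (1 + D) * δ ^ 2 * (if ‖z‖ ≤ 4 * δ then (1 : ℝ) else 0) := by positivity
      have k2 : 0 ≤ D * δ ^ 2 * ∫ y in Qc δ, homCf z us y := by positivity
      nlinarith
    · rw [if_neg hz, if_pos (not_le.1 hz).le]
      have k1 : ∫ y in Qc δ, Kn (z - y) ^ 2 ≤ D * δ := by
        refine le_trans (setIntegral_mono_set (integrableOn_Kn_sq z Metric.isBounded_ball)
          (ae_of_all _ fun y => sq_nonneg _) (LE.le.eventuallyLE fun y hy => ?_))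
          (hD z 0 δ hδ0)
        rw [mem_ball_zero_iff]
        linarith [norm_le_of_mem_Qc hy]
      have k2 := mul_le_mul_of_nonneg_left k1 hδ0.le
      have k3 : 0 ≤ (1 + D) * δ ^ 2 * ∫ y in Qc δ, homCf z us y := by positivity
      nlinarith [sq_nonneg δ]
  have b4 := h2.trans (mul_le_mul_of_nonneg_left b3 (mul_nonneg hB0 hL))
  set N := (if ‖z‖ ≤ 4 * δ then (1 : ℝ) else 0) + ∫ y in Qc δ, homCf z us y with hN
  have hN0 : 0 ≤ N := add_nonneg h4 h3
  have k1 : 0 ≤ A * (L₁ * δ ^ 2) * N := by positivity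
  have k2 : 0 ≤ (B + B * D) * us ^ 2 * N := by positivity
  have c1 := abs_le.1 (b1.trans h1)
  have c2 := abs_le.1 b2
  have c3 := abs_le.1 b4
  rw [e1, abs_le]
  constructor <;> nlinarith [c1.1, c1.2, c2.1, c2.2, c3.1, c3.2]

/-- Recipe: only the cells with `‖lat δ β‖ < 2 R` contribute, they lie in `ball 0 (3 R)`.  Write all
terms as sums over cells (`integral_slab`); per cell split into the Taylor remainder
(`homC_taylor`), `⟪w β - average, gK⟫` (at most `L₂ ∫ Kn²`) and `homC_cell`; sum with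
`sum_cells_le`, `card_near`, `int_ball_two`, `int_shell_three`. -/
theorem homC : ∃ C, ∀ (δ us R L₁ L₂ : ℝ) (I J : ℕ) (w : (Fin 3 → ℤ) → Pos3) (v : Pos3 → Pos3)
    (x : Pos3), 0 < us → us ≤ δ → δ ≤ R → 0 ≤ L₁ → 0 ≤ L₂ → (∀ β, ‖w β‖ ≤ us) →
    (∀ β, 2 * R ≤ ‖lat δ β‖ → w β = 0) → (∀ y y', ‖v y - v y'‖ ≤ L₁ * ‖y - y'‖) →
    (∀ y, R ≤ ‖y‖ → v y = 0) →
    (∀ y, y ∉ bx (-((I + 1 / 2) * δ)) ((I + 1 / 2) * δ) (-((I + 1 / 2) * δ)) ((I + 1 / 2) * δ)
      ((J + 1 / 2) * δ) → v y = 0) →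
    (∀ β, ‖w β - (δ ^ 3)⁻¹ • ∫ y in Qc δ, v (lat δ β + y)‖ ≤ L₂) →
    |PhiC δ I J w x - PhiC δ I J 0 x + (δ ^ 3)⁻¹ * ∫ y, ⟪v y, gK (x - y)⟫| ≤
      C * (δ ^ 3)⁻¹ * ((us ^ 2 + L₁ * δ ^ 2) * (1 + Real.log (R / us)) + L₂ * R) := by
  obtain ⟨A, hA0, hA⟩ := homC_one
  obtain ⟨D, hD0, hD⟩ := homC_ball_two
  obtain ⟨E, hE⟩ := int_shell_three
  refine ⟨A * (729 + 3 * |E|) + 3 * D,
    fun δ us R L₁ L₂ I J w v x hus hδ hR hL₁ hL₂ hw hw0 hv hv0 hvb hm => ?_⟩
  have hδ0 : 0 < δ := hus.trans_le hδ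
  have hR0 : 0 < R := hδ0.trans_le hR
  have hδ3 : (0 : ℝ) < δ ^ 3 := by positivity
  have hvc := homC_cont hL₁ hv
  set T : (Fin 3 → ℤ) → ℝ := fun β =>
    (∫ y in Qc δ, Kn (x - lat δ β - w β - y)) - (∫ y in Qc δ, Kn (x - lat δ β - y)) +
      ∫ y in Qc δ, ⟪v (lat δ β + y), gK (x - lat δ β - y)⟫ with hT
  have e1 : ∫ y, ⟪v y, gK (x - y)⟫ =
      ∑ β ∈ Lam I J, ∫ y in Qc δ, ⟪v (lat δ β + y), gK (x - lat δ β - y)⟫ := by
    rw [← setIntegral_eq_integral_of_forall_compl_eq_zero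
      (fun y hy => by rw [hvb y hy, inner_zero_left]),
      integral_slab hδ0 I J (homC_int_inner hvc x (isCompact_bx _ _ _ _ _))]
    simp only [sub_sub]
  have e2 : PhiC δ I J w x - PhiC δ I J 0 x + (δ ^ 3)⁻¹ * ∫ y, ⟪v y, gK (x - y)⟫ =
      (δ ^ 3)⁻¹ * ∑ β ∈ Lam I J, T β := by
    rw [e1]
    simp only [PhiC, hT, Finset.mul_sum, ← Finset.sum_sub_distrib, ← Finset.sum_add_distrib,
      Pi.zero_apply, add_zero, ← sub_sub]
    exact Finset.sum_congr rfl fun β _ => by ring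
  set S := (Lam I J).filter fun β => ‖lat δ β‖ < 2 * R with hS
  have e3 : ∑ β ∈ Lam I J, T β = ∑ β ∈ S, T β := by
    refine (Finset.sum_filter_of_ne fun β _ hne => ?_).symm
    by_contra hlt
    rw [not_lt] at hlt
    apply hne
    simp only [hT, hw0 β hlt, sub_zero, sub_self, zero_add]
    refine setIntegral_eq_zero_of_forall_eq_zero fun y hy => ?_
    have h1 := norm_le_of_mem_Qc hy
    have h2 := norm_sub_norm_le (lat δ β) (-y)
    rw [sub_neg_eq_add, norm_neg] at h2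
    rw [hv0 _ (by linarith), inner_zero_left]
  have hball : ∀ β ∈ S, ∀ y ∈ Qc δ, lat δ β + y ∈ Metric.ball (0 : Pos3) (3 * R) := by
    intro β hβ y hy
    have h1 := norm_le_of_mem_Qc hy
    have h2 := (Finset.mem_filter.1 hβ).2
    have h3 := norm_add_le (lat δ β) y
    rw [mem_ball_zero_iff]
    linarith
  have hlog : 0 ≤ Real.log (R / us) := Real.log_nonneg ((one_le_div hus).2 (hδ.trans hR))
  have s1 : ∑ β ∈ S, (if ‖x - lat δ β‖ ≤ 4 * δ then (1 : ℝ) else 0) ≤ 729 := by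
    rw [Finset.sum_boole]
    exact_mod_cast card_near hδ0 x _ fun β hβ => (Finset.mem_filter.1 hβ).2
  have s2 : ∑ β ∈ S, ∫ y in Qc δ, homCf (x - lat δ β) us y ≤ 3 * |E| * (1 + Real.log (R / us)) := by
    have h1 := sum_cells_le hδ0 S measurableSet_ball (homCf_int x hus Metric.isBounded_ball)
      (homCf_nonneg x us) hball
    simp only [homCf_add] at h1
    rw [homCf_set x] at h1
    have h2 := hE x us (3 * R) hus (by linarith)
    have h3 : Real.log (3 * R / us) ≤ 2 + Real.log (R / us) := by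
      rw [mul_div_assoc, Real.log_mul (by norm_num) (by positivity)]
      have := Real.log_le_sub_one_of_pos (show (0 : ℝ) < 3 by norm_num)
      linarith
    have h4 : 0 ≤ Real.log (3 * R / us) := Real.log_nonneg ((one_le_div hus).2 (by linarith))
    have h5 : E * (1 + Real.log (3 * R / us)) ≤ |E| * (3 * (1 + Real.log (R / us))) :=
      mul_le_mul (le_abs_self E) (by linarith) (by linarith) (abs_nonneg E)
    linarith
  have s3 : ∑ β ∈ S, ∫ y in Qc δ, Kn (x - lat δ β - y) ^ 2 ≤ 3 * D * R := by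
    have h1 := sum_cells_le hδ0 S (f := fun y => Kn (x - y) ^ 2) measurableSet_ball
      (integrableOn_Kn_sq x Metric.isBounded_ball) (fun y => sq_nonneg _) hball
    simp only [← sub_sub] at h1
    have h2 := hD x 0 (3 * R) (by positivity)
    linarith
  have s4 : |∑ β ∈ S, T β| ≤ A * (us ^ 2 + L₁ * δ ^ 2) *
      (729 + 3 * |E| * (1 + Real.log (R / us))) + L₂ * (3 * D * R) := by
    refine (Finset.abs_sum_le_sum_abs _ _).trans ((Finset.sum_le_sum fun β _ =>
      hA δ us L₁ L₂ (w β) (x - lat δ β) (fun y => v (lat δ β + y)) hus hδ hL₁ (hw β)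
        (fun y y' => by
          simpa only [add_sub_add_left_eq_sub] using hv (lat δ β + y) (lat δ β + y'))
        (hm β)).trans ?_)
    rw [Finset.sum_add_distrib, ← Finset.mul_sum, ← Finset.mul_sum, Finset.sum_add_distrib]
    gcongr
  rw [e2, e3, abs_mul, abs_of_pos (inv_pos.2 hδ3), mul_comm _ (δ ^ 3)⁻¹, mul_assoc]
  refine mul_le_mul_of_nonneg_left (s4.trans ?_) (inv_pos.2 hδ3).le
  set U := us ^ 2 + L₁ * δ ^ 2 with hU
  have hU0 : 0 ≤ U := by positivity
  have hE0 := abs_nonneg E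
  have k1 : 0 ≤ A * U * Real.log (R / us) := by positivity
  have k2 : 0 ≤ A * (729 + 3 * |E|) * (L₂ * R) := by positivity
  have k3 : 0 ≤ D * (U * (1 + Real.log (R / us))) := by positivity
  nlinarith

end Crest.Agent.R338
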