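/-
R338/Hom: homogenisation of the displaced lattice
Skeleton by helper15 (row 338); keep the statements unchanged, add any helper lemmas you like.
-/
import Crest.Agent.R338.HomA
import Crest.Agent.R338.HomB
import Crest.Agent.R338.HomC
import Crest.Agent.R338.Green

set_option autoImplicit false
set_option linter.unusedSectionVars false
set_option linter.unusedVariables false
set_option linter.unusedSimpArgs false

noncomputable section

namespace Crest.Agent.R338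

open MeasureTheory Set Crest.MathPhysics.ElectronicCoulomb
open scoped RealInnerProductSpace

/-- The displacement given by centred differences of `g` (`p ≈ π`). -/
def dispR (δ p : ℝ) (g : Pos3 → ℝ) (β : Fin 3 → ℤ) : Pos3 :=
  WithLp.toLp 2 fun c => -δ ^ 2 / (4 * p) *
    (g (lat δ β + EuclideanSpace.single c (δ / 2)) - g (lat δ β - EuclideanSpace.single c (δ / 2)))

theorem Hom_lip {G : Type} [NormedAddCommGroup G] [NormedSpace ℝ G] {F : Pos3 → G} {M : ℝ}
    (hF : Differentiable ℝ F) (hM : ∀ x, ‖fderiv ℝ F x‖ ≤ M) (x y : Pos3) :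
    ‖F y - F x‖ ≤ M * ‖y - x‖ :=
  convex_univ.norm_image_sub_le_of_norm_fderiv_le (fun x _ => hF x) (fun x _ => hM x)
    (mem_univ _) (mem_univ _)

theorem Hom_second_diff {G : Type} [NormedAddCommGroup G] [NormedSpace ℝ G] {F : Pos3 → G} {M : ℝ}
    (hF2 : ContDiff ℝ 2 F) (hM' : ∀ x, ‖iteratedFDeriv ℝ 2 F x‖ ≤ M) (a y : Pos3) :
    ‖F (a + y) + F (a - y) - (F a + F a)‖ ≤ 2 * M * ‖y‖ ^ 2 := by
  have hM0 : 0 ≤ M := (norm_nonneg _).trans (hM' 0)
  have hF : Differentiable ℝ F := hF2.differentiable (by norm_num)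
  have hF' : Differentiable ℝ (fderiv ℝ F) :=
    (hF2.fderiv_right (m := 1) (by norm_num)).differentiable (by norm_num)
  have hM := fun x => (norm_iteratedFDeriv_one (𝕜 := ℝ) (x := x) (fderiv ℝ F)).symm.le.trans
    (norm_iteratedFDeriv_fderiv.le.trans (hM' x))
  have hd : ∀ z, HasFDerivAt (fun z => F (a + z) + F (a - z))
      (fderiv ℝ F (a + z) - fderiv ℝ F (a - z)) z := fun z => by
    have h1 := (hF (a + z)).hasFDerivAt.comp z ((hasFDerivAt_id z).const_add a)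
    have h2 := (hF (a - z)).hasFDerivAt.comp z ((hasFDerivAt_id z).const_sub a)
    refine (h1.add h2).congr_fderiv ?_
    simp [sub_eq_add_neg]
  have := (convex_closedBall (0 : Pos3) ‖y‖).norm_image_sub_le_of_norm_hasFDerivWithin_le
    (C := 2 * M * ‖y‖) (fun z _ => (hd z).hasFDerivWithinAt) (fun z hz => by
      refine (Hom_lip hF' hM _ _).trans ?_
      rw [mem_closedBall_zero_iff] at hz
      have : a + z - (a - z) = (2 : ℝ) • z := by rw [two_smul]; abel
      rw [this, norm_smul, Real.norm_ofNat]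
      nlinarith)
    (Metric.mem_closedBall_self (norm_nonneg y)) (mem_closedBall_zero_iff.2 le_rfl)
  simp only [add_zero, sub_zero] at this
  calc _ ≤ _ := this
    _ = _ := by ring

section
variable {A lam : ℝ} {g : Pos3 → ℝ}

theorem Hom_d0 (hg : DB 3 A lam g) (x : Pos3) : |g x| ≤ A := by
  simpa using hg.bd 0 (by norm_num) x

theorem Hom_d1 (hg : DB 3 A lam g) (x : Pos3) : ‖fderiv ℝ g x‖ ≤ A * lam := by
  simpa [norm_iteratedFDeriv_one] using hg.bd 1 (by norm_num) x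

theorem Hom_d2 (hg : DB 3 A lam g) (x : Pos3) : ‖fderiv ℝ (fderiv ℝ g) x‖ ≤ A * lam ^ 2 := by
  rw [← norm_iteratedFDeriv_one, norm_iteratedFDeriv_fderiv]
  exact hg.bd 2 (by norm_num) x

theorem Hom_d3 (hg : DB 3 A lam g) (x : Pos3) :
    ‖iteratedFDeriv ℝ 2 (fderiv ℝ g) x‖ ≤ A * lam ^ 3 := by
  rw [norm_iteratedFDeriv_fderiv]
  exact hg.bd 3 (by norm_num) x

theorem Hom_c2 (hg : DB 3 A lam g) : ContDiff ℝ 2 (fderiv ℝ g) :=
  hg.diff.fderiv_right (by norm_num)

theorem Hom_pd_second (hg : DB 3 A lam g) (c : Fin 3) (a y : Pos3) :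
    |pd c g (a + y) + pd c g (a - y) - 2 * pd c g a| ≤ 2 * (A * lam ^ 3) * ‖y‖ ^ 2 := by
  have h := Hom_second_diff (Hom_c2 hg) (Hom_d3 hg) a y
  have h2 := (fderiv ℝ g (a + y) + fderiv ℝ g (a - y) - (fderiv ℝ g a + fderiv ℝ g a)).le_opNorm
    (EuclideanSpace.single c (1 : ℝ))
  rw [PiLp.norm_single, norm_one, mul_one] at h2
  refine le_trans (le_of_eq ?_) (h2.trans h)
  simp only [pd, two_mul]
  rfl

theorem Hom_centred (hg : DB 3 A lam g) (c : Fin 3) (a : Pos3) {s : ℝ} (hs : 0 ≤ s) :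
    |g (a + EuclideanSpace.single c s) - g (a - EuclideanSpace.single c s) - 2 * s * pd c g a| ≤
      2 * (A * lam ^ 3) * s ^ 3 := by
  have hM0 : 0 ≤ A * lam ^ 3 := (norm_nonneg _).trans (Hom_d3 hg 0)
  have hd := hg.diff.differentiable (by norm_num)
  have hneg : ∀ t : ℝ, a + EuclideanSpace.single c (-t) = a - EuclideanSpace.single c t := fun t => by
    rw [sub_eq_add_neg]; congr 1; ext i; by_cases h : i = c <;> simp [h]
  have hder : ∀ t : ℝ, HasDerivAt (fun t : ℝ => g (a + EuclideanSpace.single c t) -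
      g (a + EuclideanSpace.single c (-t)) - 2 * t * pd c g a)
      (pd c g (a + EuclideanSpace.single c t) + pd c g (a - EuclideanSpace.single c t) -
        2 * pd c g a) t := fun t => by
    have h1 := hasDerivAt_pd (x := a) c (s := t) (hd _)
    have h2 := (hasDerivAt_pd (x := a) c (s := -t) (hd _)).comp t (hasDerivAt_neg t)
    have h3 := ((hasDerivAt_id t).const_mul 2).mul_const (pd c g a)
    refine ((h1.sub h2).sub h3).congr_deriv ?_
    rw [hneg]; ring
  have := norm_image_sub_le_of_norm_deriv_le_segment' (a := 0) (b := s)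
    (C := 2 * (A * lam ^ 3) * s ^ 2) (fun t _ => (hder t).hasDerivWithinAt) (fun t ht => by
      refine (Hom_pd_second hg c a _).trans ?_
      rw [PiLp.norm_single, Real.norm_eq_abs, sq_abs]
      have := ht.1
      have := ht.2.le
      gcongr) s ⟨hs, le_rfl⟩
  simp only [hneg, neg_zero, mul_zero, zero_mul, sub_zero, Real.norm_eq_abs] at this
  have h0 : (EuclideanSpace.single c (0 : ℝ) : Pos3) = 0 := by simp
  rw [h0, add_zero, sub_self, sub_zero] at this
  calc _ ≤ _ := this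
    _ = _ := by ring

theorem Hom_avg (hg : DB 3 A lam g) (c : Fin 3) (a : Pos3) {δ : ℝ} (hδ : 0 < δ) :
    |(∫ y in Qc δ, pd c g (a + y)) - δ ^ 3 * pd c g a| ≤ A * lam ^ 3 * δ ^ 5 := by
  have hM0 : 0 ≤ A * lam ^ 3 := (norm_nonneg _).trans (Hom_d3 hg 0)
  have hc : Continuous (pd c g) := continuous_pd c (hg.diff.of_le (by norm_num))
  have i1 : IntegrableOn (fun y => pd c g (a + y)) (Qc δ) :=
    (hc.comp (by fun_prop)).continuousOn.integrableOn_compact (isCompact_Qc δ)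
  have i2 : IntegrableOn (fun y => pd c g (a - y)) (Qc δ) :=
    (hc.comp (by fun_prop)).continuousOn.integrableOn_compact (isCompact_Qc δ)
  have i3 : IntegrableOn (fun _ => 2 * pd c g a) (Qc δ) :=
    continuousOn_const.integrableOn_compact (isCompact_Qc δ)
  have h1 : ∫ y in Qc δ, pd c g (a - y) = ∫ y in Qc δ, pd c g (a + y) := by
    simpa only [sub_eq_add_neg] using integral_Qc_neg δ fun y => pd c g (a + y)
  have h2 := norm_setIntegral_le_of_norm_le_const (μ := volume) (s := Qc δ)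
    (f := fun y => pd c g (a + y) + pd c g (a - y) - 2 * pd c g a)
    (C := 2 * (A * lam ^ 3) * δ ^ 2) (isCompact_Qc δ).measure_lt_top fun y hy => by
      refine (Hom_pd_second hg c a y).trans ?_
      have := norm_le_of_mem_Qc hy
      gcongr
      linarith
  rw [integral_sub (by exact i1.add i2) i3, integral_add i1 i2, h1, setIntegral_const, volume_Qc hδ.le,
    Real.norm_eq_abs, smul_eq_mul] at h2
  rw [abs_le] at h2 ⊢
  constructor <;> nlinarith [h2.1, h2.2]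

theorem Hom_grad_apply (g : Pos3 → ℝ) (x : Pos3) (c : Fin 3) : gradient g x c = pd c g x := by
  rw [pd, ← inner_gradient_left, EuclideanSpace.inner_single_right]
  simp

theorem Hom_grad_sub (g : Pos3 → ℝ) (x y : Pos3) :
    ‖gradient g x - gradient g y‖ = ‖fderiv ℝ g x - fderiv ℝ g y‖ := by
  rw [gradient, gradient, ← map_sub, LinearIsometryEquiv.norm_map]

theorem Hom_grad_zero {s : Set Pos3} (hs : IsOpen s) (h : ∀ y ∈ s, g y = 0) {y : Pos3}
    (hy : y ∈ s) : gradient g y = 0 := by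
  have : g =ᶠ[nhds y] fun _ => 0 := Filter.eventually_of_mem (hs.mem_nhds hy) h
  rw [gradient, this.fderiv_eq]
  simp

end

theorem norm_dispR_le {δ p A lam : ℝ} {g : Pos3 → ℝ} (hδ : 0 < δ) (hp : 3 ≤ p) (hg : DB 3 A lam g)
    (β : Fin 3 → ℤ) : ‖dispR δ p g β‖ ≤ δ ^ 3 * A * lam / 4 := by
  have h0 : 0 ≤ A * lam := (norm_nonneg _).trans (Hom_d1 hg 0)
  have h1 : ∀ c, |dispR δ p g β c| ≤ δ ^ 3 * A * lam / 12 := by
    intro c
    have h2 := Hom_lip (hg.diff.differentiable (by norm_num)) (Hom_d1 hg)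
      (lat δ β - EuclideanSpace.single c (δ / 2)) (lat δ β + EuclideanSpace.single c (δ / 2))
    have h3 : lat δ β + EuclideanSpace.single c (δ / 2) -
        (lat δ β - EuclideanSpace.single c (δ / 2)) = (2 : ℝ) • EuclideanSpace.single c (δ / 2) := by
      rw [two_smul]; abel
    rw [h3, norm_smul, PiLp.norm_single, Real.norm_ofNat, Real.norm_eq_abs,
      Real.norm_eq_abs, abs_of_pos (half_pos hδ)] at h2
    have h4 : |(-δ ^ 2 / (4 * p))| ≤ δ ^ 2 / 12 := by
      rw [neg_div, abs_neg, abs_of_nonneg (by positivity)]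
      gcongr
      linarith
    simp only [dispR, abs_mul]
    calc _ ≤ δ ^ 2 / 12 * (A * lam * (2 * (δ / 2))) :=
          mul_le_mul h4 h2 (abs_nonneg _) (by positivity)
      _ = _ := by ring
  have := norm_le_sum (dispR δ p g β)
  linarith [h1 0, h1 1, h1 2]

/-- Both the centred difference quotient and the cell average of `pd c g` differ from
`pd c g (lat δ β)` by `O(δ² ‖D³ g‖)` (Taylor to first order and symmetry). -/
theorem dispR_avg : ∃ C, ∀ (δ p A lam : ℝ) (g : Pos3 → ℝ) (β : Fin 3 → ℤ), 0 < δ → 3 ≤ p →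
    DB 3 A lam g →
    ‖dispR δ p g β - (δ ^ 3)⁻¹ • ∫ y in Qc δ, (-δ ^ 3 / (4 * p)) • gradient g (lat δ β + y)‖ ≤
      C * δ ^ 5 * A * lam ^ 3 := by
  refine ⟨3, fun δ p A lam g β hδ hp hg => ?_⟩
  have hM0 : 0 ≤ A * lam ^ 3 := (norm_nonneg _).trans (Hom_d3 hg 0)
  have hc : Continuous (gradient g) := by
    have := (Hom_c2 hg).continuous
    unfold gradient
    fun_prop
  have i1 : IntegrableOn (fun y => gradient g (lat δ β + y)) (Qc δ) :=
    (hc.comp (by fun_prop)).continuousOn.integrableOn_compact (isCompact_Qc δ)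
  have h1 : ∀ c, |(dispR δ p g β -
      (δ ^ 3)⁻¹ • ∫ y in Qc δ, (-δ ^ 3 / (4 * p)) • gradient g (lat δ β + y)) c| ≤
      δ ^ 5 * A * lam ^ 3 := by
    intro c
    have h2 : (∫ y in Qc δ, gradient g (lat δ β + y)) c = ∫ y in Qc δ, pd c g (lat δ β + y) := by
      have := (EuclideanSpace.proj (𝕜 := ℝ) c).integral_comp_comm i1
      simp only [← Hom_grad_apply]
      exact this.symm
    have h3 := Hom_centred hg c (lat δ β) (half_pos hδ).le
    have h4 := Hom_avg hg c (lat δ β) hδ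
    rw [integral_smul, PiLp.sub_apply, PiLp.smul_apply, PiLp.smul_apply, h2]
    simp only [dispR, smul_eq_mul]
    generalize g (lat δ β + EuclideanSpace.single c (δ / 2)) -
      g (lat δ β - EuclideanSpace.single c (δ / 2)) = D at h3 ⊢
    generalize (∫ y in Qc δ, pd c g (lat δ β + y)) = J at h4 ⊢
    generalize pd c g (lat δ β) = P at h3 h4
    have hp0 : 0 < p := by linarith
    have h5 : -δ ^ 2 / (4 * p) * D - (δ ^ 3)⁻¹ * (-δ ^ 3 / (4 * p) * J) =
        (1 / (4 * p)) * ((J - δ ^ 3 * P) - δ ^ 2 * (D - 2 * (δ / 2) * P)) := by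
      field_simp
      ring
    have h6 : 1 / (4 * p) ≤ 1 / 12 := by gcongr; linarith
    have h7 : |(J - δ ^ 3 * P) - δ ^ 2 * (D - 2 * (δ / 2) * P)| ≤
        A * lam ^ 3 * δ ^ 5 + δ ^ 2 * (2 * (A * lam ^ 3) * (δ / 2) ^ 3) := by
      refine (abs_sub _ _).trans (add_le_add h4 ?_)
      rw [abs_mul, abs_of_nonneg (sq_nonneg δ)]
      gcongr
    rw [h5, abs_mul, abs_of_nonneg (by positivity)]
    have h8 : 0 ≤ A * lam ^ 3 * δ ^ 5 := by positivity
    calc _ ≤ 1 / 12 * (A * lam ^ 3 * δ ^ 5 + δ ^ 2 * (2 * (A * lam ^ 3) * (δ / 2) ^ 3)) :=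
          mul_le_mul h6 h7 (abs_nonneg _) (by norm_num)
      _ ≤ _ := by nlinarith
  refine (norm_le_sum _).trans ?_
  linarith [h1 0, h1 1, h1 2]

/-- The pointwise estimate of the long-range part. -/
theorem Hom_long : ∃ C, 0 ≤ C ∧ ∀ (δ p η A lam R : ℝ) (I m : ℕ) (g : Pos3 → ℝ), 0 < δ →
    3 ≤ p → |p - Real.pi| ≤ η → 0 < A → 0 < lam → DB 3 A lam g →
    δ ^ 2 * A * lam ≤ 1 → δ ≤ R → (∀ y, R ≤ ‖y‖ → g y = 0) → (∀ y ∈ NB δ I m, g y = 0) → ∀ x,
    |PhiC δ I (2 * m) (dispR δ p g) x - PhiC δ I (2 * m) 0 x + g x| ≤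
      C * ((δ ^ 3 * A ^ 2 * lam ^ 2 + δ ^ 2 * A * lam ^ 2) * (1 + Real.log (R / (δ ^ 3 * A * lam))) +
          δ ^ 2 * A * lam ^ 3 * R + η * A) := by
  obtain ⟨CC, hC⟩ := homC
  obtain ⟨CD, hD⟩ := dispR_avg
  refine ⟨2 * |CC| * (1 + |CD|) + 1, by positivity,
    fun δ p η A lam R I m g hδ hp hη hA hlam hg h1 hR hgR hgN x => ?_⟩
  have hp0 : 0 < p := by linarith
  have hus : δ ^ 3 * A * lam ≤ δ := by nlinarith
  have hus0 : 0 < δ ^ 3 * A * lam := by positivity
  have hR0 : 0 < R := by linarith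
  have hη0 : 0 ≤ η := (abs_nonneg _).trans hη
  have hco : |(-δ ^ 3 / (4 * p))| ≤ δ ^ 3 := by
    rw [neg_div, abs_neg, abs_of_nonneg (by positivity)]
    exact div_le_self (by positivity) (by linarith)
  have h2 := hC δ (δ ^ 3 * A * lam) (2 * R) (δ ^ 3 * A * lam ^ 2) (|CD| * δ ^ 5 * A * lam ^ 3) I
    (2 * m) (dispR δ p g) (fun y => (-δ ^ 3 / (4 * p)) • gradient g y) x hus0 hus (by linarith)
    (by positivity) (by positivity)
    (fun β => (norm_dispR_le hδ hp hg β).trans (by linarith))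
    (fun β hβ => by
      ext c
      have h3 : ‖(EuclideanSpace.single c (δ / 2) : Pos3)‖ = δ / 2 := by
        rw [PiLp.norm_single, Real.norm_eq_abs, abs_of_pos (half_pos hδ)]
      have h4 := norm_sub_norm_le (lat δ β) (EuclideanSpace.single c (δ / 2))
      have h5 := norm_sub_norm_le (lat δ β) (-EuclideanSpace.single c (δ / 2))
      rw [sub_neg_eq_add, norm_neg] at h5
      simp only [dispR]
      rw [hgR _ (by linarith), hgR _ (by linarith)]
      simp)
    (fun y y' => by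
      rw [← smul_sub, norm_smul, Hom_grad_sub, Real.norm_eq_abs]
      have := Hom_lip ((Hom_c2 hg).differentiable (by norm_num)) (Hom_d2 hg) y' y
      calc _ ≤ δ ^ 3 * (A * lam ^ 2 * ‖y - y'‖) :=
            mul_le_mul hco this (norm_nonneg _) (by positivity)
        _ = _ := by ring)
    (fun y hy => by
      rw [Hom_grad_zero (s := {y | R < ‖y‖}) (isOpen_lt continuous_const continuous_norm)
        (fun y hy => hgR y (le_of_lt hy)) (show R < ‖y‖ by linarith), smul_zero])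
    (fun y hy => by
      have ho' : ∀ (r : ℝ) (c : Fin 3), IsOpen {x : Pos3 | r < |x c|} := fun r c =>
        isOpen_lt continuous_const (by fun_prop)
      have ho : IsOpen (NB δ I m) := (ho' _ 0).union ((ho' _ 1).union (ho' _ 2))
      rw [Hom_grad_zero ho hgN, smul_zero]
      by_contra hn
      simp only [NB, mem_ofPred_eq, not_or, not_lt] at hn
      apply hy
      have hI : 0 ≤ (I : ℝ) * δ := by positivity
      have hm : 0 ≤ (m : ℝ) * δ := by positivity
      obtain ⟨a0, a1, a2⟩ := hn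
      rw [abs_le] at a0 a1 a2
      simp only [bx, mem_ofPred_eq, mem_Icc]
      push_cast
      refine ⟨⟨?_, ?_⟩, ⟨?_, ?_⟩, ?_, ?_⟩ <;> nlinarith [a0.1, a0.2, a1.1, a1.2, a2.1, a2.2])
    (fun β => (hD δ p A lam g β hδ hp hg).trans (by gcongr; exact le_abs_self _))
  have hT : Test g := ⟨hg.diff.of_le (by norm_num), HasCompactSupport.intro
    (isCompact_closedBall (0 : Pos3) R) fun y hy => hgR y (by
      rw [mem_closedBall_zero_iff, not_le] at hy; exact hy.le)⟩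
  have h3 : (δ ^ 3)⁻¹ * ∫ y, ⟪(-δ ^ 3 / (4 * p)) • gradient g y, gK (x - y)⟫ =
      Real.pi / p * g x := by
    simp only [real_inner_smul_left, inner_gradient_left]
    rw [integral_const_mul, green hT]
    field_simp
  rw [h3] at h2
  have h4 : |g x - Real.pi / p * g x| ≤ η * A := by
    have : g x - Real.pi / p * g x = (p - Real.pi) / p * g x := by field_simp
    rw [this, abs_mul, abs_div, abs_of_pos hp0]
    exact mul_le_mul ((div_le_self (abs_nonneg _) (by linarith)).trans hη) (Hom_d0 hg x)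
      (abs_nonneg _) hη0
  have hl0 : 0 ≤ Real.log (R / (δ ^ 3 * A * lam)) :=
    Real.log_nonneg ((one_le_div hus0).2 (by linarith))
  have hl : 1 + Real.log (2 * R / (δ ^ 3 * A * lam)) ≤
      2 * (1 + Real.log (R / (δ ^ 3 * A * lam))) := by
    rw [mul_div_assoc, Real.log_mul (by norm_num) (by positivity)]
    have := Real.log_two_lt_d9
    linarith
  have hl1 : 0 ≤ Real.log (2 * R / (δ ^ 3 * A * lam)) :=
    Real.log_nonneg ((one_le_div hus0).2 (by linarith))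
  generalize Real.log (2 * R / (δ ^ 3 * A * lam)) = l2 at h2 hl hl1
  generalize Real.log (R / (δ ^ 3 * A * lam)) = l at hl hl0 ⊢
  have h5 : CC * (δ ^ 3)⁻¹ * (((δ ^ 3 * A * lam) ^ 2 + δ ^ 3 * A * lam ^ 2 * δ ^ 2) * (1 + l2) +
      |CD| * δ ^ 5 * A * lam ^ 3 * (2 * R)) =
      CC * ((δ ^ 3 * A ^ 2 * lam ^ 2 + δ ^ 2 * A * lam ^ 2) * (1 + l2) +
        2 * |CD| * (δ ^ 2 * A * lam ^ 3 * R)) := by
    field_simp
  rw [h5] at h2
  have hT0 : 0 ≤ δ ^ 3 * A ^ 2 * lam ^ 2 + δ ^ 2 * A * lam ^ 2 := by positivity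
  have hT2 : 0 ≤ δ ^ 2 * A * lam ^ 3 * R := by positivity
  have hT3 : 0 ≤ η * A := by positivity
  generalize δ ^ 3 * A ^ 2 * lam ^ 2 + δ ^ 2 * A * lam ^ 2 = T0 at h2 hT0 ⊢
  generalize δ ^ 2 * A * lam ^ 3 * R = T2 at h2 hT2 ⊢
  generalize η * A = T3 at h4 hT3 ⊢
  have h6 : CC * (T0 * (1 + l2) + 2 * |CD| * T2) ≤
      |CC| * (T0 * (2 * (1 + l)) + 2 * |CD| * T2) :=
    mul_le_mul (le_abs_self _) (by gcongr) (by positivity) (abs_nonneg _)
  have h7 := abs_add_le (PhiC δ I (2 * m) (dispR δ p g) x - PhiC δ I (2 * m) 0 x +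
    Real.pi / p * g x) (g x - Real.pi / p * g x)
  rw [add_assoc, add_sub_cancel] at h7
  have hT1 : 0 ≤ T0 * (1 + l) := by positivity
  have e1 : 0 ≤ |CC| * |CD| * (T0 * (1 + l)) := by positivity
  have e2 : 0 ≤ |CC| * T2 := by positivity
  have e3 : 0 ≤ |CC| * T3 := by positivity
  have e4 : 0 ≤ |CC| * |CD| * T3 := by positivity
  nlinarith

/-- Recipe: `homA + homB + homC` with `v = -(δ³ / (4 p)) • gradient g`, `us = δ³ A lam`,
`L₁ = δ³ A lam²` (use `2 R` for `R` if convenient), `green`, `PhiC_zero`. -/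
theorem hom : ∃ C, ∀ (δ Λ ε p η A lam R : ℝ) (I m : ℕ) (g ρ u : Pos3 → ℝ), 0 < δ → δ ≤ 1 → 0 < ε →
    1 ≤ m → 2 * m ≤ I → 3 ≤ p → |p - Real.pi| ≤ η → 0 < A → 0 < lam → DB 3 A lam g →
    δ ^ 2 * A * lam ≤ 1 → δ ≤ R → (∀ y, R ≤ ‖y‖ → g y = 0) → (∀ y ∈ NB δ I m, g y = 0) →
    Wt ρ Λ → Λ * δ ≤ 1 → Test u →
    |∫ x, (PhiN δ I (2 * m) (dispR δ p g) x -
        (PhiJ δ ((I + 1 / 2) * δ) ((2 * m + 1 / 2) * δ) x - g x + ebar δ m)) * (ρ x * u x ^ 2)| ≤
      C * ((δ + ε + δ ^ 2 * A * lam) * (∫ x, ρ x * gsq u x) +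
        (ε⁻¹ + δ * Λ ^ 2 + (δ * m)⁻¹ + δ ^ 2 * A * lam * (1 + Λ) +
          (δ ^ 3 * A ^ 2 * lam ^ 2 + δ ^ 2 * A * lam ^ 2) * (1 + Real.log (R / (δ ^ 3 * A * lam))) +
          δ ^ 2 * A * lam ^ 3 * R + η * A) * (∫ x, ρ x * u x ^ 2) +
        δ⁻¹ * ∫ x in NB δ I m, ρ x * u x ^ 2) := by
  obtain ⟨CA, hA'⟩ := homA
  obtain ⟨CB, hB⟩ := homB
  obtain ⟨CC, hC0, hC⟩ := Hom_long
  refine ⟨|CA| + |CB| + CC, fun δ Λ ε p η A lam R I m g ρ u hδ hδ1 hε hm hI hp hη hA hlam hg h1 hR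
    hgR hgN hρ hΛ hu => ?_⟩
  have h2 := hA' δ Λ ε I m ρ u hδ hε hm hI hρ hΛ hu
  have h3 := hB δ Λ (δ ^ 3 * A * lam / 4) I (2 * m) (dispR δ p g) ρ u hδ hδ1
    (norm_dispR_le hδ hp hg) (by nlinarith) hρ hΛ hu
  have h4 := hC δ p η A lam R I m g hδ hp hη hA hlam hg h1 hR hgR hgN
  have hσ : Nice fun x => ρ x * u x ^ 2 := by
    have := ((hu.mul_left hu.diff).mul_left (hρ.diff.of_le (by norm_num))).nice
    simpa only [sq] using this
  have hσ0 : ∀ x, 0 ≤ ρ x * u x ^ 2 := fun x => mul_nonneg (hρ.pos x).le (sq_nonneg _)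
  have iN : ∀ w, Integrable fun x => PhiN δ I (2 * m) w x * (ρ x * u x ^ 2) := fun w =>
    hσ.integrable_loc_mul (pot_sum _ fun β => lat δ β + w β).loc
  have iC : ∀ w, Integrable fun x => PhiC δ I (2 * m) w x * (ρ x * u x ^ 2) := fun w => by
    obtain ⟨hm, C, hC⟩ := PhiC_meas_bdd δ I (2 * m) w
    exact (hσ.mul_bdd hm hC).integrable
  have ig : Integrable fun x => g x * (ρ x * u x ^ 2) :=
    (hσ.mul_bdd hg.diff.continuous.measurable (Hom_d0 hg)).integrable
  have ie : Integrable fun x => ebar δ m * (ρ x * u x ^ 2) := hσ.integrable.const_mul _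
  have i1 : Integrable fun x => (PhiN δ I (2 * m) 0 x - PhiC δ I (2 * m) 0 x - ebar δ m) *
      (ρ x * u x ^ 2) := by
    simp only [sub_mul]
    exact ((iN 0).sub (iC 0)).sub ie
  have i2 : Integrable fun x => ((PhiN δ I (2 * m) (dispR δ p g) x -
      PhiC δ I (2 * m) (dispR δ p g) x) - (PhiN δ I (2 * m) 0 x - PhiC δ I (2 * m) 0 x)) *
      (ρ x * u x ^ 2) := by
    simp only [sub_mul]
    exact ((iN _).sub (iC _)).sub ((iN 0).sub (iC 0))
  have i3 : Integrable fun x => (PhiC δ I (2 * m) (dispR δ p g) x - PhiC δ I (2 * m) 0 x + g x) *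
      (ρ x * u x ^ 2) := by
    simp only [sub_mul, add_mul]
    exact ((iC _).sub (iC 0)).add ig
  have hsplit : ∫ x, (PhiN δ I (2 * m) (dispR δ p g) x -
        (PhiJ δ ((I + 1 / 2) * δ) ((2 * m + 1 / 2) * δ) x - g x + ebar δ m)) * (ρ x * u x ^ 2) =
      (∫ x, (PhiN δ I (2 * m) 0 x - PhiC δ I (2 * m) 0 x - ebar δ m) * (ρ x * u x ^ 2)) +
      (∫ x, ((PhiN δ I (2 * m) (dispR δ p g) x - PhiC δ I (2 * m) (dispR δ p g) x) -
        (PhiN δ I (2 * m) 0 x - PhiC δ I (2 * m) 0 x)) * (ρ x * u x ^ 2)) +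
      ∫ x, (PhiC δ I (2 * m) (dispR δ p g) x - PhiC δ I (2 * m) 0 x + g x) * (ρ x * u x ^ 2) := by
    rw [← integral_add i1 i2, ← integral_add (by exact i1.add i2) i3]
    refine integral_congr_ae (ae_of_all _ fun x => ?_)
    have := PhiC_zero hδ I (2 * m) x
    push_cast at this
    simp only [this]
    ring
  have hΛ0 := hρ.nonneg
  have hη0 : 0 ≤ η := (abs_nonneg _).trans hη
  have hl0 : 0 ≤ Real.log (R / (δ ^ 3 * A * lam)) :=
    Real.log_nonneg ((one_le_div (by positivity)).2 (by nlinarith))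
  have hR0 : 0 < R := by linarith
  have hT : 0 ≤ (δ ^ 3 * A ^ 2 * lam ^ 2 + δ ^ 2 * A * lam ^ 2) *
    (1 + Real.log (R / (δ ^ 3 * A * lam))) + δ ^ 2 * A * lam ^ 3 * R + η * A := by positivity
  have h5 := norm_integral_le_of_norm_le (μ := volume)
    (f := fun x => (PhiC δ I (2 * m) (dispR δ p g) x - PhiC δ I (2 * m) 0 x + g x) *
      (ρ x * u x ^ 2)) (hσ.integrable.const_mul _) (ae_of_all _ fun x => by
      rw [norm_mul, Real.norm_of_nonneg (hσ0 x)]
      exact mul_le_mul_of_nonneg_right (h4 x) (hσ0 x))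
  rw [integral_const_mul, Real.norm_eq_abs] at h5
  have ha : 0 ≤ ∫ x, ρ x * gsq u x :=
    integral_nonneg fun x => mul_nonneg (hρ.pos x).le (gsq_nonneg _ _)
  have hb : 0 ≤ ∫ x, ρ x * u x ^ 2 := integral_nonneg hσ0
  have hc : 0 ≤ δ⁻¹ * ∫ x in NB δ I m, ρ x * u x ^ 2 :=
    mul_nonneg (by positivity) (integral_nonneg hσ0)
  rw [hsplit]
  refine (abs_add_three _ _ _).trans ?_
  have e1 : δ ^ 3 * A * lam / 4 / δ = δ ^ 2 * A * lam / 4 := by field_simp
  rw [e1] at h3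
  have hS0 : 0 ≤ δ ^ 2 * A * lam := by positivity
  have hS1 : 0 ≤ ε⁻¹ + δ * Λ ^ 2 + (δ * m)⁻¹ := by positivity
  have hS2 : 0 ≤ δ + ε := by positivity
  have hS3 : 0 ≤ 1 + Λ := by positivity
  rw [add_assoc _ _ (η * A), add_assoc _ _ (_ + η * A), ← add_assoc _ _ (η * A)]
  generalize (δ ^ 3 * A ^ 2 * lam ^ 2 + δ ^ 2 * A * lam ^ 2) *
    (1 + Real.log (R / (δ ^ 3 * A * lam))) + δ ^ 2 * A * lam ^ 3 * R + η * A = T at h5 hT ⊢
  generalize δ⁻¹ * ∫ x in NB δ I m, ρ x * u x ^ 2 = c at h2 hc ⊢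
  generalize ∫ x, ρ x * u x ^ 2 = b at h2 h3 h5 hb ⊢
  generalize ∫ x, ρ x * gsq u x = a at h2 h3 ha ⊢
  generalize δ ^ 2 * A * lam = S0 at h3 hS0 ⊢
  generalize ε⁻¹ + δ * Λ ^ 2 + (δ * m)⁻¹ = S1 at h2 hS1 ⊢
  generalize δ + ε = S2 at h2 hS2 ⊢
  generalize 1 + Λ = S3 at h3 hS3 ⊢
  have p1 : 0 ≤ S2 * a := by positivity
  have p2 : 0 ≤ S0 * a := by positivity
  have p3 : 0 ≤ S1 * b := by positivity
  have p4 : 0 ≤ S0 * S3 * b := by positivity
  have p5 : 0 ≤ T * b := by positivity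
  have q1 : CA * (S2 * a + S1 * b + c) ≤ |CA| * ((S2 + S0) * a + (S1 + S0 * S3 + T) * b + c) :=
    mul_le_mul (le_abs_self _) (by linarith) (by positivity) (abs_nonneg _)
  have q2 : CB * (S0 / 4) * (a + S3 * b) ≤
      |CB| * ((S2 + S0) * a + (S1 + S0 * S3 + T) * b + c) := by
    rw [mul_assoc]
    exact mul_le_mul (le_abs_self _) (by linarith) (by positivity) (abs_nonneg _)
  have q3 : CC * T * b ≤ CC * ((S2 + S0) * a + (S1 + S0 * S3 + T) * b + c) := by
    rw [mul_assoc]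
    exact mul_le_mul_of_nonneg_left (by linarith) hC0
  linarith

end Crest.Agent.R338
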