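/-
R338/DDefs: the design of the molecule (row 338).  Author: helper15.  FROZEN (ask helper15 for changes).
See `R338/Blueprint.lean`.

All scales are powers of one large number `S`.  In the planar unit `ℓ = S⁻²¹⁶⁰` the room `A < 3 n` is a
vertical wire `[xA, xA + 1] × [-1, ytop]` carrying `M` pads `[xA, xA + 1] × [yl, yl + 1]`; the three wires
of a qubit are joined by a bus `[x (3 q), x (3 q + 2) + 1] × [-1, 0]`; the neck of a wire is its part at
the heights `[σ, 1 + σ]`.  The weight `Ψ = F ^ 536 * φ` is an approximate ground state.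
The definitions over `K` are used for `K = ℚ` (the reduction) and `K = ℝ` (the analysis).
-/
import Crest.Agent.R338.Hom
import Crest.Agent.R338.BoxP

set_option autoImplicit false
set_option linter.unusedSectionVars false

noncomputable section

namespace Crest.Agent.R338

open MeasureTheory Set Crest.MathPhysics.ElectronicCoulomb Crest.MathPhysics.CoulombProblem

/-! ### Smooth steps and plateaus -/

section generic
variable {K : Type} [Field K] [LinearOrder K]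

/-- The smoothstep polynomial and its first two derivatives. -/
def sp (j : ℕ) (t : K) : K :=
  if j = 0 then t ^ 6 * (462 - 1980 * t + 3465 * t ^ 2 - 3080 * t ^ 3 + 1386 * t ^ 4 - 252 * t ^ 5)
  else if j = 1 then 2772 * (t ^ 5 * (1 - t) ^ 5)
  else 13860 * (t ^ 4 * (1 - t) ^ 4 * (1 - 2 * t))

/-- The step from `0` (at `t ≤ 0`) to `1` (at `1 ≤ t`) and its first two derivatives. -/
def st (j : ℕ) (t : K) : K := sp j (max 0 (min t 1))

/-- The plateau: one on `[a, b]`, zero outside `(a - σ, b + σ)`; `j` derivatives. -/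
def pl (σ a b : K) (j : ℕ) (x : K) : K := (st j ((x - a) / σ + 1) - st j ((x - b) / σ)) / σ ^ j

end generic

/-- A ramp from `0` (at `η ≤ σ`) to `1` (at `1 + σ ≤ η`) of slope about one. -/
def ramp (σ η : ℝ) : ℝ :=
  (∫ s in σ..η, pl σ (2 * σ) 1 0 s) / ∫ s in σ..1 + σ, pl σ (2 * σ) 1 0 s

/-- The slope of the ramp. -/
def ramp' (σ η : ℝ) : ℝ := pl σ (2 * σ) 1 0 η / ∫ s in σ..1 + σ, pl σ (2 * σ) 1 0 s

/-! ### Rational approximations -/

/-- The Leibniz series. -/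
def piHat (Y : ℕ) : ℚ := 4 * ∑ i ∈ Finset.range Y, (-1 : ℚ) ^ i / (2 * (i : ℚ) + 1)

/-- The planar kernel truncated at the height `Y`. -/
def kHat (Y : ℕ) (x y : ℚ) : ℚ :=
  (Y : ℚ) ^ 3 / (max (Nat.sqrt ⌊(Y : ℚ) ^ 6 * (x ^ 2 + y ^ 2)⌋.toNat) (Y ^ 2) : ℕ)

/-- A Riemann sum for the potential of the unit square. -/
def hHat (Y : ℕ) (x y : ℚ) : ℚ :=
  (∑ i ∈ Finset.range (Y ^ 3), ∑ j ∈ Finset.range (Y ^ 3),
    kHat Y (x - (i : ℚ) / (Y : ℚ) ^ 3) (y - (j : ℚ) / (Y : ℚ) ^ 3)) / (Y : ℚ) ^ 6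

/-- An approximation of `c1`. -/
def c1Hat (Y : ℕ) : ℚ := 2 * hHat Y (1 / 2) (1 / 2)

/-- An approximation of `c0`. -/
def c0Hat (Y : ℕ) : ℚ :=
  (∑ i ∈ Finset.range (Y ^ 3), ∑ j ∈ Finset.range (Y ^ 3),
    hHat Y ((i : ℚ) / (Y : ℚ) ^ 3) ((j : ℚ) / (Y : ℚ) ^ 3)) / (Y : ℚ) ^ 6

/-- The integers of absolute value at most `I`. -/
def rng (I : ℕ) : List ℤ := (List.range (2 * I + 1)).map fun i : ℕ => (i : ℤ) - I

/-- The index list of the slab. -/
def tri (I J : ℕ) : List (ℤ × ℤ × ℤ) :=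
  (rng I).flatMap fun a => (rng I).flatMap fun b => (rng J).map fun c => (a, b, c)

/-! ### Designs -/

/-- A design: scale, number of qubits, number of levels, pads per room, the table of pads. -/
structure Des where
  S : ℕ
  n : ℕ
  Lv : ℕ
  M : ℕ
  pad : ℕ → ℕ → Bool

namespace Des

/-- The levels of the pads of a room. -/
def pads (D : Des) (A : ℕ) : Finset ℕ := (Finset.range D.Lv).filter fun l => D.pad A l = true

/-- Admissible designs. -/
structure Good (D : Des) : Prop where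
  n1 : 1 ≤ D.n
  nS : D.n ≤ D.S
  LS : D.Lv ≤ D.S
  M1 : 1 ≤ D.M
  MS : D.M ≤ D.S
  cnt : ∀ A < 3 * D.n, (D.pads A).card = D.M

/-- The numbers of common levels realise the couplings `kc` (same qubit) and `k`. -/
def Lay (D : Des) (kc : ℕ) (k : ℕ → ℕ → ℕ) : Prop :=
  ∀ A < 3 * D.n, ∀ B < 3 * D.n, A ≠ B →
    (D.pads A ∩ D.pads B).card = (if A / 3 = B / 3 then kc else k A B) * Nat.dist A B

variable (D : Des)

/-- Half the number of layers is `2 * mm`. -/
def mm : ℕ := D.S ^ 1920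

/-- The lateral size of the slab. -/
def II : ℕ := D.S ^ 7680

/-- The precision of the approximations. -/
def YY : ℕ := D.S ^ 14400

section constants
variable (K : Type) [Field K] [LinearOrder K]

/-- The width of the transition layers. -/
def sg : K := ((D.S : K) ^ 56)⁻¹

/-- The planar unit of length. -/
def ell : K := ((D.S : K) ^ 2160)⁻¹

/-- The lattice constant. -/
def del : K := ((D.S : K) ^ 3840)⁻¹

/-- The barrier outside the pads. -/
def BB : K := (D.S : K) ^ 2199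

/-- The exterior value of `F`. -/
def fE : K := ((D.S : K) ^ 3)⁻¹

/-- The increment on the wires. -/
def fB : K := ((D.S : K) ^ 2)⁻¹ - ((D.S : K) ^ 3)⁻¹

/-- The increment on the thick parts. -/
def fT : K := (D.S : K)⁻¹

/-- The value of `F` on the pads. -/
def FP : K := 1 + (D.S : K)⁻¹ + ((D.S : K) ^ 2)⁻¹

/-- The value of `F ^ 536` on the pads. -/
def wP : K := D.FP K ^ 536

/-- The abscissa of a wire. -/
def xA (A : ℕ) : K := (D.S : K) ^ 6 * A

/-- The height of a level. -/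
def yl (l : ℕ) : K := (D.S : K) ^ 12 * (l + 1)

/-- The upper end of the wires. -/
def ytop : K := D.yl K D.Lv

/-- The hopping energy. -/
def tt : K := (D.S : K) ^ 2176 / (2 * D.M * D.wP K ^ 2)

/-- The unit of the Coulomb energies. -/
def v0 : K := (D.S : K) ^ 2154 / (D.M : K) ^ 2

/-- Half the side of the slab. -/
def aa : K := (D.II + 1 / 2) * D.del K

/-- Half the thickness of the slab. -/
def HH : K := (2 * D.mm + 1 / 2) * D.del K

end constants

section functions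
variable {K : Type} [Field K] [LinearOrder K]

/-- The horizontal profile of a wire. -/
def col (A i : ℕ) (x : K) : K := pl (D.sg K) (D.xA K A) (D.xA K A + 1) i x

/-- The vertical profile of a wire. -/
def row (A j : ℕ) (y : K) : K :=
  D.fB K * pl (D.sg K) (-1) (D.ytop K) j y + D.fT K * pl (D.sg K) (1 + 2 * D.sg K) (D.ytop K) j y +
    ∑ l ∈ Finset.range D.Lv,
      if D.pad A l = true then pl (D.sg K) (D.yl K l) (D.yl K l + 1) j y else 0

/-- The horizontal profile of a bus. -/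
def bus (q i : ℕ) (x : K) : K := pl (D.sg K) (D.xA K (3 * q)) (D.xA K (3 * q + 2) + 1) i x

/-- The planar weight and its partial derivatives. -/
def F (i j : ℕ) (x y : K) : K :=
  (if i = 0 ∧ j = 0 then D.fE K else 0) + ∑ A ∈ Finset.range (3 * D.n), D.col A i x * D.row A j y +
    D.fT K * ∑ q ∈ Finset.range D.n, D.bus q i x * pl (D.sg K) (-1) 0 j y

/-- The smoothed indicator function of the pads. -/
def G (x y : K) : K :=
  ∑ A ∈ Finset.range (3 * D.n), ∑ l ∈ Finset.range D.Lv,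
    if D.pad A l = true then pl (D.sg K) (D.xA K A + D.sg K) (D.xA K A + 1 - D.sg K) 0 x *
      pl (D.sg K) (D.yl K l + D.sg K) (D.yl K l + 1 - D.sg K) 0 y else 0

/-- `Δ (F ^ 536) / (2 F ^ 536)`. -/
def W (x y : K) : K :=
  (536 * D.F 0 0 x y * (D.F 2 0 x y + D.F 0 2 x y) +
    536 * 535 * (D.F 1 0 x y ^ 2 + D.F 0 1 x y ^ 2)) / (2 * D.F 0 0 x y ^ 2)

/-- The potential to be produced by the displacements. -/
def g3 (x y z : K) : K :=
  (D.W (x / D.ell K) (y / D.ell K) / D.ell K ^ 2 - D.BB K * D.G (x / D.ell K) (y / D.ell K)) *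
    pl 1 (-1) 1 0 (z / D.ell K)

end functions

/-! ### The instance -/

/-- The position of a nucleus. -/
def pos (β : ℤ × ℤ × ℤ) : Fin 3 → ℚ :=
  let δ := D.del ℚ
  let κ := -δ ^ 2 / (4 * piHat D.YY)
  let x := δ * β.1
  let y := δ * β.2.1
  let z := δ * β.2.2
  ![x + κ * (D.g3 (x + δ / 2) y z - D.g3 (x - δ / 2) y z),
    y + κ * (D.g3 x (y + δ / 2) z - D.g3 x (y - δ / 2) z),
    z + κ * (D.g3 x y (z + δ / 2) - D.g3 x y (z - δ / 2))]

/-- An approximation of the vertical frequency. -/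
def omHat : ℕ := Nat.sqrt ⌊4 * piHat D.YY * (D.S : ℚ) ^ 11520⌋.toNat

/-- An approximation of the one-electron ground energy. -/
def C1Hat : ℚ :=
  -((D.S : ℚ) ^ 11520 * (2 * D.HH ℚ * D.aa ℚ * c1Hat D.YY - 2 * piHat D.YY * D.HH ℚ ^ 2)) -
    piHat D.YY / (6 * D.del ℚ) + D.omHat / 2 - D.BB ℚ

/-- An approximation of the on-site repulsion. -/
def UHat : ℚ := c0Hat D.YY * D.M * (D.S : ℚ) ^ 6

/-- The thresholds. -/
def thr (kc : ℕ) (e : ℚ) : ℚ :=
  3 * D.n * D.C1Hat + D.tt ℚ * D.n + D.v0 ℚ * (3 * D.n * kc + 2 * D.n / 3 * (D.UHat - kc) + e)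

/-- The instance of the ground energy problem. -/
def inst (kc a b : ℕ) : Instance where
  nuclei := (tri D.II (2 * D.mm)).map D.pos
  electrons := 3 * D.n
  lower := D.thr kc (a + 3)
  upper := D.thr kc (b - 3)

/-! ### The analytic objects -/

/-- The radius of the structure. -/
def RR : ℝ := ((D.S : ℝ) ^ 2146)⁻¹

/-- Half the thickness of the rooms. -/
def z1 : ℝ := ((D.S : ℝ) ^ 2879)⁻¹

/-- The vertical frequency. -/
def om : ℝ := √(4 * Real.pi * (D.S : ℝ) ^ 11520)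

/-- The vertical profile. -/
def phi (z : ℝ) : ℝ := Real.exp (-(D.om * z ^ 2 / 2)) + D.del ℝ

/-- Its first derivative. -/
def phi1 (z : ℝ) : ℝ := -(D.om * z) * Real.exp (-(D.om * z ^ 2 / 2))

/-- Its second derivative. -/
def phi2 (z : ℝ) : ℝ := (D.om ^ 2 * z ^ 2 - D.om) * Real.exp (-(D.om * z ^ 2 / 2))

/-- The vertical mass. -/
def mz : ℝ := ∫ z in (-D.z1)..D.z1, D.phi z ^ 2

/-- The mass of a room. -/
def mass : ℝ := D.M * D.wP ℝ ^ 2 * D.ell ℝ ^ 2 * D.mz

/-- `F` in space. -/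
def F3 (i j : ℕ) (x : Pos3) : ℝ := D.F i j (x 0 / D.ell ℝ) (x 1 / D.ell ℝ)

/-- `G` in space. -/
def G3 (x : Pos3) : ℝ := D.G (x 0 / D.ell ℝ) (x 1 / D.ell ℝ)

/-- `W` in space. -/
def W3 (x : Pos3) : ℝ := D.W (x 0 / D.ell ℝ) (x 1 / D.ell ℝ)

/-- `g3` in space. -/
def g (x : Pos3) : ℝ := D.g3 (x 0) (x 1) (x 2)

/-- The approximate ground state. -/
def Psi (x : Pos3) : ℝ := D.F3 0 0 x ^ 536 * D.phi (x 2)

/-- The weight. -/
def rho (x : Pos3) : ℝ := D.Psi x ^ 2

/-- The potential of the nuclei. -/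
def Phi : Pos3 → ℝ := PhiN (D.del ℝ) D.II (2 * D.mm) (dispR (D.del ℝ) (piHat D.YY) D.g)

/-- The potential of the uniform slab. -/
def PJ : Pos3 → ℝ := PhiJ (D.del ℝ) (D.aa ℝ) (D.HH ℝ)

/-- The one-electron ground energy. -/
def C1 : ℝ := -D.PJ 0 - ebar (D.del ℝ) D.mm + D.om / 2 - D.BB ℝ

/-- The residual potential. -/
def Vres (x : Pos3) : ℝ :=
  D.PJ 0 - D.PJ x + D.g x - (D.W3 x / D.ell ℝ ^ 2 + D.phi2 (x 2) / (2 * D.phi (x 2))) - D.om / 2 +
    D.BB ℝ

/-- The on-site repulsion. -/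
def UU : ℝ := c0 * D.M * (D.S : ℝ) ^ 6

/-- A pad. -/
def padBox (A l : ℕ) : Set Pos3 :=
  bx (D.ell ℝ * D.xA ℝ A) (D.ell ℝ * D.xA ℝ A + D.ell ℝ) (D.ell ℝ * D.yl ℝ l)
    (D.ell ℝ * D.yl ℝ l + D.ell ℝ) D.z1

/-- A room. -/
def Om (A : Room D.n) : Set Pos3 := ⋃ l ∈ D.pads (rid A), D.padBox (rid A) l

/-- A box containing the whole structure. -/
def box : Set Pos3 := bx (-D.RR) D.RR (-D.RR) D.RR (2 * D.z1)

/-- The complement of the bulk. -/
def nb : Set Pos3 := NB (D.del ℝ) D.II D.mm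

/-- The planar trial function of a room. -/
def uP (A : ℕ) (ξ η : ℝ) : ℝ :=
  ramp (D.sg ℝ) η * (pl 1 (D.xA ℝ A - 1) (D.xA ℝ A + 2) 0 ξ * (1 - st 0 (η - D.ytop ℝ - 1))) +
    (1 - ramp (D.sg ℝ) η) / 3 *
      (pl 1 (D.xA ℝ (3 * (A / 3)) - 1) (D.xA ℝ (3 * (A / 3) + 2) + 2) 0 ξ * st 0 (η + 3))

/-- A combination of the planar trial functions, in space. -/
def P3 (a : Room D.n → ℝ) (x : Pos3) : ℝ :=
  ∑ A, a A * D.uP (rid A) (x 0 / D.ell ℝ) (x 1 / D.ell ℝ)

/-- The vertical cut-off. -/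
def cz (j : ℕ) (z : ℝ) : ℝ := pl D.z1 (-D.z1) D.z1 j z

/-- The normalised combination of the trial functions. -/
def uT (a : Room D.n → ℝ) (x : Pos3) : ℝ := (√D.mass)⁻¹ * (D.P3 a x * D.cz 0 (x 2))

/-- The trial orbital of a room. -/
def phiT (A : Room D.n) (x : Pos3) : ℝ :=
  D.Psi x * ((√D.mass)⁻¹ * (D.uP (rid A) (x 0 / D.ell ℝ) (x 1 / D.ell ℝ) * D.cz 0 (x 2)))

/-- The average over a pad. -/
def Upad (u : Pos3 → ℝ) (A l : ℕ) : ℝ :=
  Ub (fun z => D.phi z ^ 2) D.z1 D.mz (D.ell ℝ) u (D.ell ℝ * D.xA ℝ A) (D.ell ℝ * D.yl ℝ l)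

/-- The average over a room. -/
def Uroom (u : Pos3 → ℝ) (A : ℕ) : ℝ := (D.M : ℝ)⁻¹ * ∑ l ∈ D.pads A, D.Upad u A l

end Des

/-- Admissible designs of large scale. -/
def evD : Filter Des := Filter.comap Des.S Filter.atTop ⊓ Filter.principal {D | D.Good}

/-! ### The layout -/

/-- The number of common levels. -/
def cmn (kc : ℕ) (k : ℕ → ℕ → ℕ) (A B : ℕ) : ℕ :=
  (if A / 3 = B / 3 then kc else k A B) * Nat.dist A B

/-- The level `(P * R + P') * M + i` is shared by the rooms `P < P'` or belongs to the room `P = P'`. -/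
def padOf (R M : ℕ) (c : ℕ → ℕ → ℕ) (A l : ℕ) : Bool :=
  if l / M / R = l / M % R then
    decide (A = l / M / R ∧ l % M + ∑ B ∈ Finset.range R, c A B < M)
  else decide (l / M / R < l / M % R ∧ (A = l / M / R ∨ A = l / M % R) ∧
    l % M < c (l / M / R) (l / M % R))

/-- The design of a trine problem. -/
def desOf (S₀ Q n : ℕ) (k : ℕ → ℕ → ℕ) : Des where
  S := S₀ + 9000 * Q ^ 10
  n := n
  Lv := 3 * n * (3 * n) * (1000 * Q ^ 8)
  M := 1000 * Q ^ 8
  pad := padOf (3 * n) (1000 * Q ^ 8) (cmn (100 * Q ^ 6) k)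

/-- The instance of a 2-local Hamiltonian. -/
def instOf (S₀ Q n : ℕ) (H : Ham) : Instance :=
  (desOf S₀ Q n (ktab Q H)).inst (100 * Q ^ 6) (aT Q n) (bT Q n)

end Crest.Agent.R338
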