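/-
R338/Plane: planar integrals of the Coulomb kernel
Skeleton by helper15 (row 338); keep the statements unchanged, add any helper lemmas you like.
-/
import Crest.Agent.R338.Kern

set_option autoImplicit false
set_option linter.unusedSectionVars false
set_option linter.unusedVariables false
set_option linter.unusedSimpArgs false

noncomputable section

namespace Crest.Agent.R338

open MeasureTheory Set Crest.MathPhysics.ElectronicCoulomb
open scoped RealInnerProductSpace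

/-- The kernel at height `z` above the plane. -/
def K3 (z : ℝ) (p : ℝ × ℝ) : ℝ := 1 / √(p.1 ^ 2 + p.2 ^ 2 + z ^ 2)

theorem Kn_mk3 (p : ℝ × ℝ) (z : ℝ) : Kn (mk3 p z) = K3 z p := by
  simp only [Kn, K3, norm_eq_sqrt, mk3_0, mk3_1, mk3_2]

theorem K2_nonneg (p : ℝ × ℝ) : 0 ≤ K2 p := by
  unfold K2; positivity

theorem measurable_K2 : Measurable K2 := by
  unfold K2; fun_prop

theorem plane_pos {p : ℝ × ℝ} (hp : p ≠ 0) : 0 < p.1 ^ 2 + p.2 ^ 2 := by
  by_contra h
  apply hp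
  have h1 : p.1 = 0 := by nlinarith [sq_nonneg p.1, sq_nonneg p.2]
  have h2 : p.2 = 0 := by nlinarith [sq_nonneg p.1, sq_nonneg p.2]
  exact Prod.ext h1 h2

theorem plane_K2_neg (p : ℝ × ℝ) : K2 (-p) = K2 p := by
  simp [K2]

/-- polar coordinates for radial functions -/
theorem plane_radial {g : ℝ → ℝ} (hm : Measurable g)
    (hi : IntegrableOn (fun r => r * g r) (Ioi 0)) :
    Integrable (fun p : ℝ × ℝ => g √(p.1 ^ 2 + p.2 ^ 2)) ∧
      ∫ p : ℝ × ℝ, g √(p.1 ^ 2 + p.2 ^ 2) = 2 * Real.pi * ∫ r in Ioi (0 : ℝ), r * g r := by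
  have hs : ∀ p ∈ polarCoord.target,
      √((polarCoord.symm p).1 ^ 2 + (polarCoord.symm p).2 ^ 2) = p.1 := by
    intro p hp
    have h1 : 0 < p.1 := hp.1
    simp only [polarCoord_symm_apply]
    rw [show (p.1 * Real.cos p.2) ^ 2 + (p.1 * Real.sin p.2) ^ 2 = p.1 ^ 2 by
      have := Real.sin_sq_add_cos_sq p.2
      linear_combination p.1 ^ 2 * this, Real.sqrt_sq h1.le]
  have hmt : MeasurableSet polarCoord.target := polarCoord.open_target.measurableSet
  have hI : IntegrableOn (fun p : ℝ × ℝ => p.1 * g p.1 * (fun _ : ℝ => (1 : ℝ)) p.2)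
      (Ioi (0 : ℝ) ×ˢ Ioo (-Real.pi) Real.pi) := by
    rw [IntegrableOn, Measure.volume_eq_prod, ← Measure.prod_restrict]
    exact Integrable.mul_prod (f := fun r => r * g r) hi (integrable_const _)
  constructor
  · refine ⟨(hm.comp (by fun_prop)).aestronglyMeasurable, ?_⟩
    rw [HasFiniteIntegral, ← lintegral_comp_polarCoord_symm]
    refine lt_of_eq_of_lt ?_ hI.2
    refine setLIntegral_congr_fun hmt fun p hp => ?_
    have h1 : 0 < p.1 := hp.1
    simp only [hs p hp, mul_one, smul_eq_mul, enorm_mul, Real.enorm_eq_ofReal h1.le]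
  · rw [← integral_comp_polarCoord_symm,
      setIntegral_congr_fun (g := fun p : ℝ × ℝ => p.1 * g p.1 * (fun _ : ℝ => (1 : ℝ)) p.2) hmt
        (fun p hp => by simp only [hs p hp, mul_one, smul_eq_mul])]
    have := setIntegral_prod_mul (μ := (volume : Measure ℝ)) (ν := (volume : Measure ℝ))
      (fun r : ℝ => r * g r) (fun _ : ℝ => (1 : ℝ)) (Ioi (0 : ℝ)) (Ioo (-Real.pi) Real.pi)
    rw [← Measure.volume_eq_prod] at this
    refine this.trans ?_
    have hpi := Real.pi_pos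
    rw [setIntegral_const, Real.volume_real_Ioo_of_le (by linarith), smul_eq_mul]
    ring

/-- the kernel cut off outside the disc of radius `R` -/
def planeD (R : ℝ) (p : ℝ × ℝ) : ℝ := (Iio R).indicator (fun r => 1 / r) √(p.1 ^ 2 + p.2 ^ 2)

theorem planeD_spec {R : ℝ} (hR : 0 ≤ R) :
    Integrable (planeD R) ∧ ∫ p, planeD R p = 2 * Real.pi * R := by
  have e : EqOn (fun r : ℝ => r * (Iio R).indicator (fun r => 1 / r) r)
      ((Iio R).indicator fun _ => (1 : ℝ)) (Ioi 0) := by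
    intro r hr
    have hr' : r ≠ 0 := ne_of_gt hr
    by_cases h : r ∈ Iio R
    · simp only [indicator_of_mem h]; field_simp
    · simp only [indicator_of_notMem h, mul_zero]
  have hi : IntegrableOn ((Iio R).indicator fun _ => (1 : ℝ)) (Ioi 0) := by
    rw [IntegrableOn, integrable_indicator_iff measurableSet_Iio, IntegrableOn,
      Measure.restrict_restrict measurableSet_Iio, Iio_inter_Ioi]
    exact integrable_const _
  have := plane_radial (g := (Iio R).indicator fun r => 1 / r)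
    (Measurable.indicator (by fun_prop) measurableSet_Iio)
    (hi.congr_fun e.symm measurableSet_Ioi)
  refine ⟨this.1, this.2.trans ?_⟩
  rw [setIntegral_congr_fun measurableSet_Ioi e, integral_indicator measurableSet_Iio,
    Measure.restrict_restrict measurableSet_Iio, Iio_inter_Ioi, setIntegral_const,
    Real.volume_real_Ioo_of_le hR]
  simp

theorem planeD_nonneg (R : ℝ) (p : ℝ × ℝ) : 0 ≤ planeD R p :=
  indicator_apply_nonneg fun _ => by positivity

theorem planeD_eq {R M : ℝ} {p : ℝ × ℝ} (h1 : |p.1| ≤ M) (h2 : |p.2| ≤ M) (h : 2 * M ≤ R)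
    (hR : 0 < R) : planeD R p = K2 p := by
  have hM : 0 ≤ M := (abs_nonneg _).trans h1
  have : √(p.1 ^ 2 + p.2 ^ 2) ∈ Iio R := by
    rw [mem_Iio, Real.sqrt_lt' hR]
    have a1 : p.1 ^ 2 ≤ M ^ 2 := sq_le_sq' (abs_le.1 h1).1 (abs_le.1 h1).2
    have a2 : p.2 ^ 2 ≤ M ^ 2 := sq_le_sq' (abs_le.1 h2).1 (abs_le.1 h2).2
    nlinarith
  simp only [planeD, indicator_of_mem this, K2]

theorem K3_le_K2 (z : ℝ) {p : ℝ × ℝ} (hp : p ≠ 0) : K3 z p ≤ K2 p := by
  have := plane_pos hp
  exact one_div_le_one_div_of_le (Real.sqrt_pos.2 this)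
    (Real.sqrt_le_sqrt (by nlinarith [sq_nonneg z]))

theorem plane_intOn (p : ℝ × ℝ) {s : Set (ℝ × ℝ)} (hs : Bornology.IsBounded s) :
    IntegrableOn (fun q => K2 (p - q)) s := by
  obtain ⟨M, hM0, hM⟩ := hs.subset_closedBall_lt 0 p
  refine IntegrableOn.mono_set ?_ hM
  refine (((planeD_spec (R := 2 * M) (by linarith)).1.comp_sub_left p).integrableOn).congr_fun
    (fun q hq => ?_) Metric.isClosed_closedBall.measurableSet
  rw [mem_closedBall_iff_norm'] at hq
  exact planeD_eq ((norm_fst_le _).trans hq) ((norm_snd_le _).trans hq) le_rfl (by linarith)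

/-- `K2 p ≤ |p.1|^(-1/2) |p.2|^(-1/2)` almost everywhere, or polar coordinates. -/
theorem locallyIntegrable_K2 : LocallyIntegrable K2 := by
  intro p
  refine ⟨Metric.ball p 1, Metric.ball_mem_nhds p one_pos, ?_⟩
  simpa only [zero_sub, plane_K2_neg] using plane_intOn 0 (s := Metric.ball p 1) Metric.isBounded_ball

theorem integrableOn_K2 (p : ℝ × ℝ) {s : Set (ℝ × ℝ)} (hs : Bornology.IsBounded s) :
    IntegrableOn (fun q => K2 (p - q)) s := by
  exact plane_intOn p hs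

/-- Scaling. -/
theorem integral_K2_square {a : ℝ} (ha : 0 ≤ a) :
    ∫ p in Icc (-a) a ×ˢ Icc (-a) a, K2 p = a * c1 := by
  rcases ha.eq_or_lt with rfl | ha
  · rw [zero_mul]
    apply setIntegral_measure_zero
    rw [Measure.volume_eq_prod, Measure.prod_prod]
    simp
  · have h := Measure.setIntegral_comp_smul_of_pos (volume : Measure (ℝ × ℝ)) K2
      (Icc (-1 : ℝ) 1 ×ˢ Icc (-1 : ℝ) 1) ha
    have e1 : open Pointwise in
        a • (Icc (-1 : ℝ) 1 ×ˢ Icc (-1 : ℝ) 1) = Icc (-a) a ×ˢ Icc (-a) a := by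
      ext p
      rw [mem_smul_set_iff_inv_smul_mem₀ ha.ne']
      simp only [mem_prod, mem_Icc, Prod.smul_fst, Prod.smul_snd, smul_eq_mul,
        inv_mul_le_iff₀ ha, le_inv_mul_iff₀ ha, mul_neg, mul_one]
    have e2 : ∀ p : ℝ × ℝ, K2 (a • p) = a⁻¹ * K2 p := by
      intro p
      simp only [K2, Prod.smul_fst, Prod.smul_snd, smul_eq_mul]
      rw [show (a * p.1) ^ 2 + (a * p.2) ^ 2 = a ^ 2 * (p.1 ^ 2 + p.2 ^ 2) by ring,
        Real.sqrt_mul (sq_nonneg a), Real.sqrt_sq ha.le, one_div, mul_inv, one_div]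
    simp only [e1, e2, integral_const_mul, Module.finrank_prod, Module.finrank_self,
      smul_eq_mul] at h
    unfold c1
    field_simp at h
    refine mul_left_cancel₀ ha.ne' ?_
    rw [← h]; ring

theorem plane_le16 (p : ℝ × ℝ) {s : Set (ℝ × ℝ)} (hs : MeasurableSet s)
    (h : ∀ q ∈ s, |p.1 - q.1| ≤ 1 ∧ |p.2 - q.2| ≤ 1) : ∫ q in s, K2 (p - q) ≤ 16 := by
  have hD := planeD_spec (R := 2) (by norm_num)
  calc ∫ q in s, K2 (p - q) = ∫ q in s, planeD 2 (p - q) :=
        setIntegral_congr_fun hs fun q hq =>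
          (planeD_eq (M := 1) (h q hq).1 (h q hq).2 (by norm_num) (by norm_num)).symm
    _ ≤ ∫ q, planeD 2 (p - q) := setIntegral_le_integral (hD.1.comp_sub_left p)
        (Filter.Eventually.of_forall fun q => planeD_nonneg _ _)
    _ = 2 * Real.pi * 2 := by rw [integral_sub_left_eq_self (planeD 2), hD.2]
    _ ≤ 16 := by linarith [Real.pi_le_four]

theorem c1_bounds : 0 ≤ c1 ∧ c1 ≤ 16 := by
  refine ⟨integral_nonneg fun p => K2_nonneg p, ?_⟩
  have := plane_le16 0 (s := Icc (-1 : ℝ) 1 ×ˢ Icc (-1 : ℝ) 1)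
    (measurableSet_Icc.prod measurableSet_Icc) (fun q hq => by
      simp only [Prod.fst_zero, Prod.snd_zero, zero_sub, abs_neg]
      exact ⟨abs_le.2 hq.1, abs_le.2 hq.2⟩)
  simpa only [zero_sub, plane_K2_neg, c1] using this

theorem c0_bounds : 1 / 2 ≤ c0 ∧ c0 ≤ 16 := by
  obtain ⟨s, hs⟩ : ∃ s : Set (ℝ × ℝ), s = Icc (0 : ℝ) 1 ×ˢ Icc (0 : ℝ) 1 := ⟨_, rfl⟩
  have hm : MeasurableSet s := hs ▸ measurableSet_Icc.prod measurableSet_Icc
  have hb : Bornology.IsBounded s := hs ▸ (isCompact_Icc.prod isCompact_Icc).isBounded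
  have hv : volume s = 1 := by
    rw [hs, Measure.volume_eq_prod, Measure.prod_prod]; simp
  have hv' : volume.real s = 1 := by rw [Measure.real, hv]; rfl
  have hfin : volume s ≠ ⊤ := by rw [hv]; exact ENNReal.one_ne_top
  have hd : ∀ p ∈ s, ∀ q ∈ s, |p.1 - q.1| ≤ 1 ∧ |p.2 - q.2| ≤ 1 := by
    intro p hp q hq
    rw [hs] at hp hq
    obtain ⟨⟨a1, a2⟩, a3, a4⟩ := hp
    obtain ⟨⟨b1, b2⟩, b3, b4⟩ := hq
    exact ⟨abs_le.2 ⟨by linarith, by linarith⟩, abs_le.2 ⟨by linarith, by linarith⟩⟩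
  have hup : ∀ p ∈ s, ∫ q in s, K2 (p - q) ≤ 16 := fun p hp => plane_le16 p hm (hd p hp)
  have hlo : ∀ p ∈ s, 1 / 2 ≤ ∫ q in s, K2 (p - q) := by
    intro p hp
    calc (1 / 2 : ℝ) = ∫ _ in s, (1 / 2 : ℝ) := by rw [setIntegral_const, hv', one_smul]
      _ ≤ _ := by
        refine setIntegral_mono_on_ae (integrableOn_const hfin) (integrableOn_K2 p hb) hm ?_
        filter_upwards [Measure.ae_ne volume p] with q hq hqs
        refine one_div_le_one_div_of_le (Real.sqrt_pos.2 (plane_pos (sub_ne_zero.2 hq.symm))) ?_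
        rw [Real.sqrt_le_left (by norm_num)]
        obtain ⟨h1, h2⟩ := hd p hp q hqs
        have a1 := sq_le_sq' (abs_le.1 h1).1 (abs_le.1 h1).2
        have a2 := sq_le_sq' (abs_le.1 h2).1 (abs_le.1 h2).2
        simp only [Prod.fst_sub, Prod.snd_sub]
        linarith
  have hmeas : StronglyMeasurable fun p : ℝ × ℝ => ∫ q in s, K2 (p - q) :=
    StronglyMeasurable.integral_prod_right' (f := fun z : (ℝ × ℝ) × (ℝ × ℝ) => K2 (z.1 - z.2))
      (measurable_K2.comp (by fun_prop)).stronglyMeasurable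
  have hint : IntegrableOn (fun p : ℝ × ℝ => ∫ q in s, K2 (p - q)) s :=
    Measure.integrableOn_of_bounded (M := 16) hfin hmeas.aestronglyMeasurable
      ((ae_restrict_iff' hm).2 (Filter.Eventually.of_forall fun p hp => by
        rw [Real.norm_of_nonneg (by linarith [hlo p hp])]; exact hup p hp))
  unfold c0
  rw [← hs]
  constructor
  · calc (1 / 2 : ℝ) = ∫ _ in s, (1 / 2 : ℝ) := by rw [setIntegral_const, hv', one_smul]
      _ ≤ _ := setIntegral_mono_on (integrableOn_const hfin) hint hm hlo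
  · calc _ ≤ ∫ _ in s, (16 : ℝ) := setIntegral_mono_on hint (integrableOn_const hfin) hm hup
      _ = 16 := by rw [setIntegral_const, hv', one_smul]

theorem plane_sqrt_le {r : ℝ} (hr : 0 < r) (z : ℝ) : √(r ^ 2 + z ^ 2) - r ≤ z ^ 2 / (2 * r) := by
  rw [sub_le_iff_le_add, Real.sqrt_le_left (by positivity)]
  have : (z ^ 2 / (2 * r) + r) ^ 2 = (z ^ 2 / (2 * r)) ^ 2 + z ^ 2 + r ^ 2 := by
    field_simp; ring
  rw [this]
  nlinarith [sq_nonneg (z ^ 2 / (2 * r))]

theorem plane_le_sqrt {r : ℝ} (z : ℝ) : r ≤ √(r ^ 2 + z ^ 2) :=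
  Real.le_sqrt_of_sq_le (by nlinarith [sq_nonneg z])

theorem plane_rad1 (z : ℝ) {d : ℝ} (hd : 0 ≤ d) :
    IntegrableOn (fun r : ℝ => r * (1 / r - 1 / √(r ^ 2 + z ^ 2))) (Ioi d) ∧
      ∫ r in Ioi d, r * (1 / r - 1 / √(r ^ 2 + z ^ 2)) = √(d ^ 2 + z ^ 2) - d := by
  have hc : ContinuousWithinAt (fun r : ℝ => r - √(r ^ 2 + z ^ 2)) (Ici d) d :=
    (by fun_prop : Continuous fun r : ℝ => r - √(r ^ 2 + z ^ 2)).continuousWithinAt
  have hder : ∀ r ∈ Ioi d, HasDerivAt (fun r : ℝ => r - √(r ^ 2 + z ^ 2))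
      (r * (1 / r - 1 / √(r ^ 2 + z ^ 2))) r := by
    intro r hr
    have hr0 : 0 < r := hd.trans_lt hr
    have hpos : 0 < r ^ 2 + z ^ 2 := by positivity
    have hs : 0 < √(r ^ 2 + z ^ 2) := Real.sqrt_pos.2 hpos
    refine ((hasDerivAt_id r).sub (((hasDerivAt_pow 2 r).add_const (z ^ 2)).sqrt
      hpos.ne')).congr_deriv ?_
    simp only [Nat.cast_ofNat, Nat.add_one_sub_one, pow_one]
    field_simp
  have hnn : ∀ r ∈ Ioi d, 0 ≤ r * (1 / r - 1 / √(r ^ 2 + z ^ 2)) := by
    intro r hr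
    have hr0 : 0 < r := hd.trans_lt hr
    exact mul_nonneg hr0.le (sub_nonneg.2 (one_div_le_one_div_of_le hr0 (plane_le_sqrt z)))
  have hlim : Filter.Tendsto (fun r : ℝ => r - √(r ^ 2 + z ^ 2)) Filter.atTop (nhds 0) := by
    have h1 : Filter.Tendsto (fun r : ℝ => -(z ^ 2 / (2 * r))) Filter.atTop (nhds 0) := by
      have := (Filter.tendsto_id.const_mul_atTop (r := (2 : ℝ)) two_pos).const_div_atTop (z ^ 2)
      simpa using this.neg
    refine tendsto_of_tendsto_of_tendsto_of_le_of_le' h1 tendsto_const_nhds ?_ ?_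
    · filter_upwards [Filter.eventually_gt_atTop 0] with r hr
      linarith [plane_sqrt_le hr z]
    · exact Filter.Eventually.of_forall fun r => sub_nonpos.2 (plane_le_sqrt z)
  refine ⟨integrableOn_Ioi_deriv_of_nonneg hc hder hnn hlim, ?_⟩
  rw [integral_Ioi_of_hasDerivAt_of_nonneg hc hder hnn hlim]
  ring

theorem plane_sub_eq (z : ℝ) (p : ℝ × ℝ) : K2 p - K3 z p =
    1 / √(p.1 ^ 2 + p.2 ^ 2) - 1 / √(√(p.1 ^ 2 + p.2 ^ 2) ^ 2 + z ^ 2) := by
  rw [Real.sq_sqrt (by positivity)]; rfl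

/-- Polar coordinates (`integral_comp_polarCoord_symm`): `∫ (1 - r / √(r² + z²)) dr = |z|`. -/
theorem integral_K2_sub_K3 (z : ℝ) :
    Integrable (fun p => K2 p - K3 z p) ∧ ∫ p, (K2 p - K3 z p) = 2 * Real.pi * |z| := by
  have h := plane_rad1 z le_rfl
  have := plane_radial (g := fun r => 1 / r - 1 / √(r ^ 2 + z ^ 2)) (by fun_prop) h.1
  simp only [plane_sub_eq]
  refine ⟨this.1, this.2.trans ?_⟩
  rw [h.2]
  simp [Real.sqrt_sq_eq_abs]

/-- `0 ≤ K2 - K3 z ≤ z² K2³ / 2`; the tail outside a disc. -/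
theorem tail_K2_sub_K3 (z : ℝ) {d : ℝ} (hd : 0 < d) {s : Set (ℝ × ℝ)} (hs : MeasurableSet s)
    (h : ∀ p ∈ s, d ^ 2 ≤ p.1 ^ 2 + p.2 ^ 2) :
    0 ≤ ∫ p in s, (K2 p - K3 z p) ∧ ∫ p in s, (K2 p - K3 z p) ≤ Real.pi * z ^ 2 / d := by
  have hnn : ∀ p ∈ s, 0 ≤ K2 p - K3 z p := by
    intro p hp
    refine sub_nonneg.2 (K3_le_K2 z ?_)
    rintro rfl
    have := h 0 hp
    simp only [Prod.fst_zero, Prod.snd_zero] at this
    nlinarith
  refine ⟨setIntegral_nonneg hs hnn, ?_⟩
  have h1 := plane_rad1 z hd.le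
  have e : (fun r : ℝ => r * (Ici d).indicator (fun r => 1 / r - 1 / √(r ^ 2 + z ^ 2)) r) =
      (Ici d).indicator fun r => r * (1 / r - 1 / √(r ^ 2 + z ^ 2)) := by
    funext r
    by_cases hr : r ∈ Ici d
    · simp only [indicator_of_mem hr]
    · simp only [indicator_of_notMem hr, mul_zero]
  have hsub : Ici d ∩ Ioi 0 = Ici d := inter_eq_left.2 fun r hr => hd.trans_le hr
  have h2 := plane_radial (g := (Ici d).indicator fun r => 1 / r - 1 / √(r ^ 2 + z ^ 2))
    (Measurable.indicator (by fun_prop) measurableSet_Ici) (by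
      rw [e, IntegrableOn, integrable_indicator_iff measurableSet_Ici, IntegrableOn,
        Measure.restrict_restrict measurableSet_Ici, hsub]
      exact (integrableOn_Ici_iff_integrableOn_Ioi enorm_ne_top).2 h1.1)
  rw [e, integral_indicator measurableSet_Ici, Measure.restrict_restrict measurableSet_Ici, hsub,
    integral_Ici_eq_integral_Ioi, h1.2] at h2
  calc ∫ p in s, (K2 p - K3 z p) = ∫ p in s, (Ici d).indicator
        (fun r => 1 / r - 1 / √(r ^ 2 + z ^ 2)) √(p.1 ^ 2 + p.2 ^ 2) := by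
        refine setIntegral_congr_fun hs fun p hp => ?_
        have : √(p.1 ^ 2 + p.2 ^ 2) ∈ Ici d := Real.le_sqrt_of_sq_le (h p hp)
        simp only [indicator_of_mem this, plane_sub_eq]
    _ ≤ _ := setIntegral_le_integral h2.1 (Filter.Eventually.of_forall fun p =>
        indicator_nonneg (fun r hr => sub_nonneg.2
          (one_div_le_one_div_of_le (hd.trans_le hr) (plane_le_sqrt z))) _)
    _ = 2 * Real.pi * (√(d ^ 2 + z ^ 2) - d) := h2.2
    _ ≤ 2 * Real.pi * (z ^ 2 / (2 * d)) :=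
        mul_le_mul_of_nonneg_left (plane_sqrt_le hd z) (by positivity)
    _ = _ := by field_simp

/-- The potential of the square at height `z` above an interior point. -/
theorem square_K3 {a r : ℝ} (hr : r ≤ a / 2) (ha : 0 < a) {p : ℝ × ℝ} (h1 : |p.1| ≤ r)
    (h2 : |p.2| ≤ r) (z : ℝ) :
    |(∫ q in Icc (-a) a ×ˢ Icc (-a) a, K3 z (p - q)) -
      ((∫ q in Icc (-a) a ×ˢ Icc (-a) a, K2 (p - q)) - 2 * Real.pi * |z|)| ≤
      2 * Real.pi * z ^ 2 / a := by
  obtain ⟨s, hs⟩ : ∃ s : Set (ℝ × ℝ), s = Icc (-a) a ×ˢ Icc (-a) a := ⟨_, rfl⟩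
  rw [← hs]
  have hm : MeasurableSet s := hs ▸ measurableSet_Icc.prod measurableSet_Icc
  have hb : Bornology.IsBounded s := hs ▸ (isCompact_Icc.prod isCompact_Icc).isBounded
  obtain ⟨hI, hv⟩ := integral_K2_sub_K3 z
  have hI' : Integrable fun q => K2 (p - q) - K3 z (p - q) := hI.comp_sub_left p
  have e1 : ∫ q in s, K3 z (p - q) =
      (∫ q in s, K2 (p - q)) - ∫ q in s, (K2 (p - q) - K3 z (p - q)) := by
    rw [← integral_sub (integrableOn_K2 p hb) hI'.integrableOn]
    simp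
  have e2 := integral_add_compl hm hI'
  rw [integral_sub_left_eq_self (fun p => K2 p - K3 z p) volume p, hv] at e2
  have e3 := (Measure.measurePreserving_sub_left volume p).setIntegral_preimage_emb
    (MeasurableEquiv.subLeft p).measurableEmbedding (fun p => K2 p - K3 z p)
    ((fun q => p - q) ⁻¹' sᶜ)
  have e4 : (fun q => p - q) ⁻¹' ((fun q => p - q) ⁻¹' sᶜ) = sᶜ := by
    ext q; simp
  rw [e4] at e3
  have ht := tail_K2_sub_K3 z (d := a / 2) (by linarith) (s := (fun q => p - q) ⁻¹' sᶜ)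
    (hm.compl.preimage (by fun_prop)) (by
      intro q hq
      rw [hs] at hq
      simp only [mem_preimage, mem_compl_iff, mem_prod, mem_Icc, Prod.fst_sub, Prod.snd_sub,
        not_and_or, not_le] at hq
      have a1 := abs_le.1 h1
      have a2 := abs_le.1 h2
      rcases hq with (hq | hq) | hq | hq <;> nlinarith [sq_nonneg q.1, sq_nonneg q.2])
  rw [← e3] at ht
  have e5 : Real.pi * z ^ 2 / (a / 2) = 2 * Real.pi * z ^ 2 / a := by field_simp
  rw [e1, abs_le]
  constructor <;> linarith [ht.1, ht.2]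

theorem plane_shift {k : ℝ → ℝ} (hi : ∀ x y, IntervalIntegrable k volume x y) {a : ℝ} (h0 : 0 ≤ a)
    (t t' : ℝ) : (∫ s in Icc (-a) a, k (t - s)) - ∫ s in Icc (-a) a, k (t' - s) =
      ∫ u in t'..t, (k (u + a) - k (u - a)) := by
  have hF : ∀ t, ∫ s in Icc (-a) a, k (t - s) = ∫ s in (t - a)..(t + a), k s := by
    intro t
    rw [integral_Icc_eq_integral_Ioc, ← intervalIntegral.integral_of_le (by linarith),
      intervalIntegral.integral_comp_sub_left, sub_neg_eq_add]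
  have i1 : IntervalIntegrable (fun u => k (u + a)) volume t' t := by
    simpa using (hi (t' + a) (t + a)).comp_add_right a
  have i2 : IntervalIntegrable (fun u => k (u - a)) volume t' t := by
    simpa using (hi (t' - a) (t - a)).comp_sub_right a
  rw [hF, hF, intervalIntegral.integral_sub i1 i2, intervalIntegral.integral_comp_add_right,
    intervalIntegral.integral_comp_sub_right]
  have a1 := intervalIntegral.integral_add_adjacent_intervals (hi (t' - a) (t' + a))
    (hi (t' + a) (t + a))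
  have a2 := intervalIntegral.integral_add_adjacent_intervals (hi (t' - a) (t - a))
    (hi (t - a) (t + a))
  linarith

/-- Shifting an interval: for `k` even and antitone on `[0, ∞)`,
`∫ k (t - s) - ∫ k s = ∫ s in a - t .. a, (k (s + t) - k s)` when `0 ≤ t`. -/
theorem shift_mono {k : ℝ → ℝ} (he : ∀ s, k (-s) = k s) (ha : AntitoneOn k (Ioi 0))
    (hi : LocallyIntegrable k) {a t t' : ℝ} (h0 : 0 ≤ a) (h : |t'| ≤ |t|) :
    ∫ s in Icc (-a) a, k (t - s) ≤ ∫ s in Icc (-a) a, k (t' - s) := by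
  have hI : ∀ x y, IntervalIntegrable k volume x y := fun x y =>
    (hi.integrableOn_isCompact isCompact_uIcc).intervalIntegrable
  have hev : ∀ t, ∫ s in Icc (-a) a, k (t - s) = ∫ s in Icc (-a) a, k (|t| - s) := by
    intro t
    rcases abs_choice t with h | h
    · rw [h]
    · rw [h, integral_Icc_eq_integral_Ioc, ← intervalIntegral.integral_of_le (by linarith),
        integral_Icc_eq_integral_Ioc, ← intervalIntegral.integral_of_le (by linarith)]
      have := intervalIntegral.integral_comp_neg (a := -a) (b := a) (fun s => k (t - s))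
      simp only [neg_neg] at this
      rw [← this]
      refine intervalIntegral.integral_congr fun s _ => ?_
      rw [← he]; congr 1; ring
  rw [hev t, hev t', ← sub_nonpos, plane_shift hI h0, ← neg_nonneg,
    ← intervalIntegral.integral_neg]
  refine intervalIntegral.integral_nonneg_of_ae_restrict h ?_
  refine (ae_restrict_iff' measurableSet_Icc).2 ?_
  filter_upwards [Measure.ae_ne volume a, Measure.ae_ne volume 0] with u hua hu0 hu
  have hu' : 0 < u := lt_of_le_of_ne ((abs_nonneg _).trans hu.1) hu0.symm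
  have e : k (u - a) = k |u - a| := by
    rcases abs_choice (u - a) with h | h
    · rw [h]
    · rw [h, he]
  have := ha (a := |u - a|) (b := u + a) (abs_pos.2 (sub_ne_zero.2 hua))
    (show 0 < u + a by linarith) (abs_le.2 ⟨by linarith, by linarith⟩)
  simp only [Pi.zero_apply]
  linarith

theorem plane_lip (c : ℝ) {b s s' : ℝ} (hb : 0 < b) (hs : b ≤ s) (hs' : b ≤ s') :
    |1 / √(c ^ 2 + s ^ 2) - 1 / √(c ^ 2 + s' ^ 2)| ≤ |s - s'| / b ^ 2 := by
  obtain ⟨A, hA⟩ : ∃ A, A = √(c ^ 2 + s ^ 2) := ⟨_, rfl⟩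
  obtain ⟨B, hB⟩ : ∃ B, B = √(c ^ 2 + s' ^ 2) := ⟨_, rfl⟩
  have hA1 : s ≤ A := by rw [hA, add_comm]; exact plane_le_sqrt c
  have hB1 : s' ≤ B := by rw [hB, add_comm]; exact plane_le_sqrt c
  have hA2 : A ^ 2 = c ^ 2 + s ^ 2 := by rw [hA, Real.sq_sqrt (by positivity)]
  have hB2 : B ^ 2 = c ^ 2 + s' ^ 2 := by rw [hB, Real.sq_sqrt (by positivity)]
  rw [← hA, ← hB]
  have hA0 : 0 < A := by linarith
  have hB0 : 0 < B := by linarith
  have h1 : |B - A| ≤ |s - s'| := by
    have e : |B - A| * (A + B) = |s - s'| * (s + s') := by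
      rw [← abs_of_pos (show 0 < A + B by linarith), ← abs_of_pos (show 0 < s + s' by linarith),
        ← abs_mul, ← abs_mul, ← abs_neg]
      congr 1; linear_combination hA2 - hB2
    refine le_of_mul_le_mul_right ?_ (show 0 < A + B by linarith)
    rw [e]
    exact mul_le_mul_of_nonneg_left (by linarith) (abs_nonneg _)
  rw [show 1 / A - 1 / B = (B - A) / (A * B) by field_simp, abs_div,
    abs_of_pos (mul_pos hA0 hB0)]
  exact div_le_div₀ (abs_nonneg _) h1 (by positivity) (by nlinarith)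

theorem plane_move1 {c a t : ℝ} (hc : c ≠ 0) (ha : 0 < a) (ht : |t| ≤ a / 2) :
    |∫ s in Icc (-a) a, (1 / √(c ^ 2 + (t - s) ^ 2) - 1 / √(c ^ 2 + (0 - s) ^ 2))| ≤
      8 * t ^ 2 / a ^ 2 := by
  have hk : Continuous fun s : ℝ => 1 / √(c ^ 2 + s ^ 2) :=
    continuous_const.div (by fun_prop) fun s => (Real.sqrt_pos.2 (by positivity)).ne'
  have i1 : ∀ t : ℝ, IntegrableOn (fun s : ℝ => 1 / √(c ^ 2 + (t - s) ^ 2)) (Icc (-a) a) :=
    fun t => (hk.comp (continuous_const.sub continuous_id)).integrableOn_Icc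
  rw [integral_sub (i1 t) (i1 0),
    plane_shift (k := fun s : ℝ => 1 / √(c ^ 2 + s ^ 2)) (fun x y => hk.intervalIntegrable x y)
      ha.le t 0]
  rw [← Real.norm_eq_abs]
  refine (intervalIntegral.norm_integral_le_of_norm_le_const (C := 8 * |t| / a ^ 2)
    fun u hu => ?_).trans (le_of_eq ?_)
  · have hu' : |u| ≤ |t| := by
      simpa using Set.abs_sub_left_of_mem_uIcc (uIoc_subset_uIcc hu)
    have h1 := abs_le.1 (hu'.trans ht)
    rw [show (u - a) ^ 2 = (a - u) ^ 2 by ring, Real.norm_eq_abs]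
    refine (plane_lip c (b := a / 2) (by linarith) (by linarith) (by linarith)).trans ?_
    rw [show u + a - (a - u) = 2 * u by ring, abs_mul, abs_two,
      show 2 * |u| / (a / 2) ^ 2 = 8 * |u| / a ^ 2 by field_simp; ring]
    gcongr
  · rw [sub_zero, ← sq_abs t]; ring

theorem plane_move2 {a t : ℝ} (x : ℝ) (ha : 0 < a) (ht : |t| ≤ a / 2) :
    |(∫ q in Icc (-a) a ×ˢ Icc (-a) a, K2 ((x, t) - q)) -
      ∫ q in Icc (-a) a ×ˢ Icc (-a) a, K2 ((x, 0) - q)| ≤ 16 * t ^ 2 / a := by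
  have hb : Bornology.IsBounded (Icc (-a) a ×ˢ Icc (-a) a) :=
    (isCompact_Icc.prod isCompact_Icc).isBounded
  have hI : IntegrableOn (fun q => K2 ((x, t) - q) - K2 ((x, 0) - q)) (Icc (-a) a ×ˢ Icc (-a) a) :=
    (integrableOn_K2 (x, t) hb).sub (integrableOn_K2 (x, 0) hb)
  rw [← integral_sub (integrableOn_K2 _ hb) (integrableOn_K2 _ hb), Measure.volume_eq_prod,
    setIntegral_prod _ hI, ← Real.norm_eq_abs]
  refine (norm_setIntegral_le_of_norm_le_const_ae' (C := 8 * t ^ 2 / a ^ 2) (by simp) ?_).trans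
    (le_of_eq ?_)
  · filter_upwards [Measure.ae_ne volume x] with y hy _
    exact plane_move1 (c := x - y) (sub_ne_zero.2 hy.symm) ha ht
  · rw [Real.volume_real_Icc_of_le (by linarith)]
    field_simp; ring

theorem plane_swap (a x y : ℝ) : ∫ q in Icc (-a) a ×ˢ Icc (-a) a, K2 ((x, y) - q) =
    ∫ q in Icc (-a) a ×ˢ Icc (-a) a, K2 ((y, x) - q) := by
  rw [Measure.volume_eq_prod, ← setIntegral_prod_swap]
  simp only [K2, Prod.fst_sub, Prod.snd_sub, Prod.fst_swap, Prod.snd_swap, add_comm]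

/-- Move one coordinate at a time; on the two strips `K2` is `C / a²`-Lipschitz. -/
theorem square_K2 : ∃ C, ∀ (a r : ℝ) (p : ℝ × ℝ), 0 < a → r ≤ a / 2 → |p.1| ≤ r → |p.2| ≤ r →
    |(∫ q in Icc (-a) a ×ˢ Icc (-a) a, K2 (p - q)) - a * c1| ≤ C * r ^ 2 / a := by
  refine ⟨32, fun a r p ha hr h1 h2 => ?_⟩
  have a1 := plane_move2 p.1 ha (h2.trans hr)
  have a2 := plane_move2 0 ha (h1.trans hr)
  rw [plane_swap a 0 p.1] at a2
  have e : ∫ q in Icc (-a) a ×ˢ Icc (-a) a, K2 (((0 : ℝ), (0 : ℝ)) - q) = a * c1 := by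
    rw [← integral_K2_square ha.le]
    simp only [Prod.mk_zero_zero, zero_sub, plane_K2_neg]
  rw [e] at a2
  have b1 : 16 * p.1 ^ 2 / a ≤ 16 * r ^ 2 / a := by
    have := sq_le_sq' (abs_le.1 h1).1 (abs_le.1 h1).2
    gcongr
  have b2 : 16 * p.2 ^ 2 / a ≤ 16 * r ^ 2 / a := by
    have := sq_le_sq' (abs_le.1 h2).1 (abs_le.1 h2).2
    gcongr
  have e2 : 32 * r ^ 2 / a = 16 * r ^ 2 / a + 16 * r ^ 2 / a := by ring
  rw [abs_le] at a1 a2 ⊢
  simp only [Prod.mk.eta] at a1
  constructor <;> linarith [a1.1, a1.2, a2.1, a2.2]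

end Crest.Agent.R338
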