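/-
R338/Riem: Riemann sums for the planar constants
Skeleton by helper15 (row 338); keep the statements unchanged, add any helper lemmas you like.
-/
import Crest.Agent.R338.DDefs
import Crest.Agent.R338.Plane

set_option autoImplicit false
set_option linter.unusedSectionVars false
set_option linter.unusedVariables false
set_option linter.unusedSimpArgs false

noncomputable section

namespace Crest.Agent.R338

open MeasureTheory Set Filter Crest.MathPhysics.ElectronicCoulomb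

/-- The truncated planar kernel. -/
def KT (T : ℝ) (p : ℝ × ℝ) : ℝ := 1 / max (√(p.1 ^ 2 + p.2 ^ 2)) T⁻¹

theorem riem_cont1 {f : ℝ → ℝ} {L : ℝ} (hf : ∀ s t, |f s - f t| ≤ L * |s - t|) : Continuous f :=
  (LipschitzWith.of_dist_le' (K := L) fun s t => by simpa only [Real.dist_eq] using hf s t).continuous

theorem riem_cont2 {f : ℝ × ℝ → ℝ} {L : ℝ}
    (hf : ∀ p q, |f p - f q| ≤ L * (|p.1 - q.1| + |p.2 - q.2|)) : Continuous f := by
  have hL : 0 ≤ L := by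
    have := (abs_nonneg _).trans (hf (1, 0) (0, 0))
    simpa using this
  refine (LipschitzWith.of_dist_le' (K := 2 * L) fun p q => ?_).continuous
  rw [Real.dist_eq, Prod.dist_eq, Real.dist_eq, Real.dist_eq]
  have h1 := le_max_left |p.1 - q.1| |p.2 - q.2|
  have h2 := le_max_right |p.1 - q.1| |p.2 - q.2|
  nlinarith [hf p q]

theorem riem_avg {K : ℕ} (hK : 1 ≤ K) {a b : ℕ → ℝ} {e : ℝ} (h : ∀ i, |a i - b i| ≤ e) :
    |(∑ i ∈ Finset.range K, a i) / K - (∑ i ∈ Finset.range K, b i) / K| ≤ e := by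
  have hK0 : (0 : ℝ) < K := by exact_mod_cast hK
  rw [← sub_div, ← Finset.sum_sub_distrib, abs_div, abs_of_pos hK0, div_le_iff₀ hK0]
  refine (Finset.abs_sum_le_sum_abs _ _).trans ((Finset.sum_le_sum fun i _ => h i).trans ?_)
  rw [Finset.sum_const, Finset.card_range, nsmul_eq_mul, mul_comm]

theorem riem_avg2 {K : ℕ} (hK : 1 ≤ K) {a b : ℕ → ℕ → ℝ} {e : ℝ} (h : ∀ i j, |a i j - b i j| ≤ e) :
    |(∑ i ∈ Finset.range K, ∑ j ∈ Finset.range K, a i j) / K ^ 2 -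
      (∑ i ∈ Finset.range K, ∑ j ∈ Finset.range K, b i j) / K ^ 2| ≤ e := by
  have := riem_avg hK fun i => riem_avg hK (h i)
  rwa [← Finset.sum_div, ← Finset.sum_div, div_div, div_div, ← pow_two] at this

theorem riem_inv {a b m : ℝ} (hm : 0 < m) (ha : m ≤ a) (hb : m ≤ b) :
    |1 / a - 1 / b| ≤ |a - b| / m ^ 2 := by
  have ha0 := hm.trans_le ha
  have hb0 := hm.trans_le hb
  rw [div_sub_div _ _ ha0.ne' hb0.ne', abs_div, one_mul, mul_one, abs_sub_comm,
    abs_of_pos (mul_pos ha0 hb0), pow_two]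
  gcongr

theorem riemann_one {f : ℝ → ℝ} {L : ℝ} (hf : ∀ s t, |f s - f t| ≤ L * |s - t|) {K : ℕ}
    (hK : 1 ≤ K) : |(∫ s in (0 : ℝ)..1, f s) - (∑ i ∈ Finset.range K, f (i / K)) / K| ≤ L / K := by
  have hK0 : (0 : ℝ) < K := by exact_mod_cast hK
  have hL : 0 ≤ L := by
    have := (abs_nonneg _).trans (hf 1 0)
    simpa using this
  have hc := riem_cont1 hf
  have h1 := intervalIntegral.sum_integral_adjacent_intervals (f := f) (μ := volume)
    (a := fun i : ℕ => (i : ℝ) / K) (n := K) fun k _ => hc.intervalIntegrable _ _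
  simp only [Nat.cast_zero, zero_div, div_self hK0.ne'] at h1
  rw [← h1, Finset.sum_div, ← Finset.sum_sub_distrib]
  refine (Finset.abs_sum_le_sum_abs _ _).trans ?_
  have h2 : ∀ i ∈ Finset.range K, |(∫ s in ((i : ℝ) / K)..(((i + 1 : ℕ) : ℝ) / K), f s) -
      f (i / K) / K| ≤ L / K * (1 / K) := by
    intro i _
    have e : ((i + 1 : ℕ) : ℝ) / K - (i : ℝ) / K = 1 / K := by push_cast; ring
    have hle : (i : ℝ) / K ≤ ((i + 1 : ℕ) : ℝ) / K := by
      have : (0 : ℝ) ≤ 1 / K := by positivity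
      linarith
    have e2 : (∫ s in ((i : ℝ) / K)..(((i + 1 : ℕ) : ℝ) / K), f s) - f (i / K) / K =
        ∫ s in ((i : ℝ) / K)..(((i + 1 : ℕ) : ℝ) / K), (f s - f (i / K)) := by
      rw [intervalIntegral.integral_sub (hc.intervalIntegrable _ _) intervalIntegrable_const,
        intervalIntegral.integral_const, e, smul_eq_mul]
      ring
    rw [e2]
    have h3 := intervalIntegral.norm_integral_le_of_norm_le_const (a := (i : ℝ) / K)
      (b := ((i + 1 : ℕ) : ℝ) / K) (C := L / K) (f := fun s => f s - f (i / K)) fun x hx => by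
        rw [uIoc_of_le hle] at hx
        refine (hf _ _).trans ?_
        rw [div_eq_mul_one_div L]
        refine mul_le_mul_of_nonneg_left (abs_le.2 ⟨?_, ?_⟩) hL
        · have : (0 : ℝ) ≤ 1 / K := by positivity
          linarith [hx.1]
        · linarith [hx.2]
    rw [e, abs_of_nonneg (by positivity : (0 : ℝ) ≤ 1 / K)] at h3
    exact h3
  refine (Finset.sum_le_sum h2).trans (le_of_eq ?_)
  rw [Finset.sum_const, Finset.card_range, nsmul_eq_mul]
  field_simp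

theorem riemann_two {f : ℝ × ℝ → ℝ} {L : ℝ}
    (hf : ∀ p q, |f p - f q| ≤ L * (|p.1 - q.1| + |p.2 - q.2|)) {K : ℕ} (hK : 1 ≤ K) :
    |(∫ p in Icc (0 : ℝ) 1 ×ˢ Icc (0 : ℝ) 1, f p) -
      (∑ i ∈ Finset.range K, ∑ j ∈ Finset.range K, f (i / K, j / K)) / K ^ 2| ≤ 2 * L / K := by
  have hK0 : (0 : ℝ) < K := by exact_mod_cast hK
  have hc := riem_cont2 hf
  have hs : ∀ x : ℝ, ∀ s t, |f (x, s) - f (x, t)| ≤ L * |s - t| := fun x s t => by
    simpa using hf (x, s) (x, t)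
  set g : ℝ → ℝ := fun x => ∫ y in (0 : ℝ)..1, f (x, y) with hg
  have e : (∫ p in Icc (0 : ℝ) 1 ×ˢ Icc (0 : ℝ) 1, f p) = ∫ x in (0 : ℝ)..1, g x := by
    rw [Measure.volume_eq_prod, setIntegral_prod _ (by
      rw [← Measure.volume_eq_prod]
      exact hc.continuousOn.integrableOn_compact (isCompact_Icc.prod isCompact_Icc))]
    simp only [hg, intervalIntegral.integral_of_le zero_le_one, integral_Icc_eq_integral_Ioc]
  have hgl : ∀ s t, |g s - g t| ≤ L * |s - t| := by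
    intro s t
    rw [hg]
    simp only
    rw [← intervalIntegral.integral_sub ((riem_cont1 (hs s)).intervalIntegrable _ _)
      ((riem_cont1 (hs t)).intervalIntegrable _ _)]
    have h3 := intervalIntegral.norm_integral_le_of_norm_le_const (a := (0 : ℝ)) (b := 1)
      (C := L * |s - t|) (f := fun y => f (s, y) - f (t, y)) fun y _ => by
        simpa using hf (s, y) (t, y)
    simpa using h3
  have h1 := riemann_one hgl hK
  have h2 : |(∑ i ∈ Finset.range K, g (i / K)) / K -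
      (∑ i ∈ Finset.range K, (∑ j ∈ Finset.range K, f (i / K, j / K)) / K) / K| ≤ L / K :=
    riem_avg hK fun i => riemann_one (hs _) hK
  rw [← Finset.sum_div, div_div, ← pow_two] at h2
  rw [e]
  refine (abs_sub_le _ _ _).trans ((add_le_add h1 h2).trans (le_of_eq ?_))
  ring

theorem KT_lip {T : ℝ} (hT : 0 < T) (p q : ℝ × ℝ) :
    |KT T p - KT T q| ≤ T ^ 2 * (|p.1 - q.1| + |p.2 - q.2|) := by
  have h1 : |√(p.1 ^ 2 + p.2 ^ 2) - √(q.1 ^ 2 + q.2 ^ 2)| ≤ |p.1 - q.1| + |p.2 - q.2| := by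
    have a := abs_norm_sub_norm_le (⟨p.1, p.2⟩ : ℂ) ⟨q.1, q.2⟩
    have b := Complex.norm_le_abs_re_add_abs_im ((⟨p.1, p.2⟩ : ℂ) - ⟨q.1, q.2⟩)
    rw [Complex.norm_eq_sqrt_sq_add_sq, Complex.norm_eq_sqrt_sq_add_sq] at a
    exact a.trans b
  have h2 := riem_inv (m := T⁻¹) (by positivity) (le_max_right √(p.1 ^ 2 + p.2 ^ 2) T⁻¹)
    (le_max_right √(q.1 ^ 2 + q.2 ^ 2) T⁻¹)
  have h3 := (abs_max_sub_max_le_abs _ _ T⁻¹).trans h1
  refine h2.trans ?_
  rw [inv_pow, div_inv_eq_mul, mul_comm]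
  gcongr

theorem KT_eq_min {T : ℝ} (hT : 0 < T) {p : ℝ × ℝ} (hp : p ≠ 0) : KT T p = min (K2 p) T := by
  have hr : 0 < √(p.1 ^ 2 + p.2 ^ 2) := Real.sqrt_pos.2 (plane_pos hp)
  unfold KT K2
  rcases le_total √(p.1 ^ 2 + p.2 ^ 2) T⁻¹ with h | h
  · rw [max_eq_right h, min_eq_right, one_div, inv_inv]
    rw [one_div]; exact (le_inv_comm₀ hr hT).1 h
  · rw [max_eq_left h, min_eq_left]
    rw [one_div]; exact (inv_le_comm₀ hT hr).1 h

theorem riem_KT_int {T : ℝ} (hT : 0 < T) (p : ℝ × ℝ) {s : Set (ℝ × ℝ)}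
    (hb : Bornology.IsBounded s) : IntegrableOn (fun q => KT T (p - q)) s :=
  (((riem_cont2 (KT_lip hT)).comp (continuous_const.sub continuous_id)).continuousOn.integrableOn_compact
    hb.isCompact_closure).mono_set subset_closure

/-- The difference is supported in the square of side `2 / T` around `p`; `integral_K2_square`. -/
theorem K2_sub_KT {T : ℝ} (hT : 0 < T) (p : ℝ × ℝ) {s : Set (ℝ × ℝ)} (hs : MeasurableSet s)
    (hb : Bornology.IsBounded s) :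
    0 ≤ (∫ q in s, K2 (p - q)) - (∫ q in s, KT T (p - q)) ∧
      (∫ q in s, K2 (p - q)) - (∫ q in s, KT T (p - q)) ≤ 16 / T := by
  have i1 := integrableOn_K2 p hb
  have i2 := riem_KT_int hT p hb
  rw [← integral_sub i1 i2]
  have hQ : MeasurableSet (Icc (-T⁻¹) T⁻¹ ×ˢ Icc (-T⁻¹) T⁻¹ : Set (ℝ × ℝ)) :=
    measurableSet_Icc.prod measurableSet_Icc
  have iF : Integrable ((Icc (-T⁻¹) T⁻¹ ×ˢ Icc (-T⁻¹) T⁻¹ : Set (ℝ × ℝ)).indicator K2) :=
    (integrable_indicator_iff hQ).2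
      (locallyIntegrable_K2.integrableOn_isCompact (isCompact_Icc.prod isCompact_Icc))
  constructor
  · refine integral_nonneg_of_ae (ae_restrict_of_ae ?_)
    filter_upwards [Measure.ae_ne volume p] with q hq
    rw [KT_eq_min hT (sub_ne_zero.2 hq.symm)]
    exact sub_nonneg.2 (min_le_left _ _)
  · calc ∫ q in s, (K2 (p - q) - KT T (p - q))
        ≤ ∫ q in s, (Icc (-T⁻¹) T⁻¹ ×ˢ Icc (-T⁻¹) T⁻¹ : Set (ℝ × ℝ)).indicator K2 (p - q) := by
          refine integral_mono_ae (i1.sub i2) (iF.comp_sub_left p).integrableOn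
            (ae_restrict_of_ae ?_)
          filter_upwards [Measure.ae_ne volume p] with q hq
          have hd : p - q ≠ 0 := sub_ne_zero.2 hq.symm
          rw [KT_eq_min hT hd]
          generalize p - q = d at hd
          rcases le_total (K2 d) T with h | h
          · rw [min_eq_left h, sub_self]
            exact indicator_nonneg (fun x _ => K2_nonneg x) _
          · have hr : 0 < √(d.1 ^ 2 + d.2 ^ 2) := Real.sqrt_pos.2 (plane_pos hd)
            have h1 : √(d.1 ^ 2 + d.2 ^ 2) ≤ T⁻¹ := by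
              rw [K2, one_div] at h
              exact (le_inv_comm₀ hT hr).1 h
            have h2 : |d.1| ≤ T⁻¹ :=
              (Real.abs_le_sqrt (by nlinarith [sq_nonneg d.2])).trans h1
            have h3 : |d.2| ≤ T⁻¹ :=
              (Real.abs_le_sqrt (by nlinarith [sq_nonneg d.1])).trans h1
            rw [min_eq_right h, indicator_of_mem (mem_prod.2 ⟨abs_le.1 h2, abs_le.1 h3⟩)]
            linarith
      _ ≤ ∫ q, (Icc (-T⁻¹) T⁻¹ ×ˢ Icc (-T⁻¹) T⁻¹ : Set (ℝ × ℝ)).indicator K2 (p - q) :=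
          setIntegral_le_integral (iF.comp_sub_left p)
            (Eventually.of_forall fun q => indicator_nonneg (fun x _ => K2_nonneg x) _)
      _ = T⁻¹ * c1 := by
          rw [integral_sub_left_eq_self, integral_indicator hQ,
            integral_K2_square (by positivity)]
      _ ≤ 16 / T := by
          rw [div_eq_inv_mul]
          exact mul_le_mul_of_nonneg_left c1_bounds.2 (by positivity)

/-- `Nat.sqrt ⌊r²⌋` is within one of `r`. -/
theorem kHat_close {Y : ℕ} (hY : 1 ≤ Y) (x y : ℚ) :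
    |(kHat Y x y : ℝ) - KT Y (x, y)| ≤ 1 / Y := by
  have hY0 : (0 : ℝ) < Y := by exact_mod_cast hY
  set u : ℚ := (Y : ℚ) ^ 6 * (x ^ 2 + y ^ 2) with hu
  have hu0 : 0 ≤ u := by positivity
  set m := ⌊u⌋.toNat with hm
  have hm' : (m : ℤ) = ⌊u⌋ := Int.toNat_of_nonneg (Int.floor_nonneg.2 hu0)
  have hm1 : (m : ℚ) ≤ u := by
    have := Int.floor_le u
    rw [← hm'] at this; exact_mod_cast this
  have hm2 : u < m + 1 := by
    have := Int.lt_floor_add_one u
    rw [← hm'] at this; exact_mod_cast this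
  set r := √((x : ℝ) ^ 2 + (y : ℝ) ^ 2) with hr
  have hr0 : 0 ≤ r := Real.sqrt_nonneg _
  have hR : ((Y : ℝ) ^ 3 * r) ^ 2 = u := by
    rw [mul_pow, hr, Real.sq_sqrt (by positivity), hu]; push_cast; ring
  have a1 : ((Nat.sqrt m : ℕ) : ℝ) ^ 2 ≤ m := by exact_mod_cast Nat.sqrt_le' m
  have a2 : (m : ℝ) + 1 ≤ (((Nat.sqrt m : ℕ) : ℝ) + 1) ^ 2 := by
    exact_mod_cast Nat.lt_succ_sqrt' m
  have a3 : (m : ℝ) ≤ u := by exact_mod_cast hm1
  have a4 : (u : ℝ) < m + 1 := by exact_mod_cast hm2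
  have b1 : ((Nat.sqrt m : ℕ) : ℝ) ≤ (Y : ℝ) ^ 3 * r :=
    (abs_le_of_sq_le_sq' (by linarith) (by positivity)).2
  have b2 : (Y : ℝ) ^ 3 * r ≤ ((Nat.sqrt m : ℕ) : ℝ) + 1 :=
    (abs_le_of_sq_le_sq' (by linarith) (by positivity)).2
  have e1 : (kHat Y x y : ℝ) = (Y : ℝ) ^ 3 * (1 / max ((Nat.sqrt m : ℕ) : ℝ) ((Y : ℝ) ^ 2)) := by
    rw [kHat]; push_cast; rw [mul_one_div]
  have e2 : KT Y (x, y) = (Y : ℝ) ^ 3 * (1 / max ((Y : ℝ) ^ 3 * r) ((Y : ℝ) ^ 2)) := by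
    have : (Y : ℝ) ^ 2 = (Y : ℝ) ^ 3 * (Y : ℝ)⁻¹ := by field_simp
    rw [KT, this, ← mul_max_of_nonneg _ _ (by positivity)]
    have : 0 < max r (Y : ℝ)⁻¹ := lt_max_of_lt_right (by positivity)
    simp only [← hr]
    field_simp
  have h2 := riem_inv (m := (Y : ℝ) ^ 2) (by positivity)
    (le_max_right ((Nat.sqrt m : ℕ) : ℝ) ((Y : ℝ) ^ 2)) (le_max_right ((Y : ℝ) ^ 3 * r) _)
  have h3 := (abs_max_sub_max_le_abs ((Nat.sqrt m : ℕ) : ℝ) ((Y : ℝ) ^ 3 * r) ((Y : ℝ) ^ 2)).trans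
    (abs_le.2 ⟨by linarith, by linarith⟩ : |((Nat.sqrt m : ℕ) : ℝ) - (Y : ℝ) ^ 3 * r| ≤ 1)
  rw [e1, e2, ← mul_sub, abs_mul, abs_of_nonneg (by positivity : (0 : ℝ) ≤ (Y : ℝ) ^ 3)]
  calc _ ≤ (Y : ℝ) ^ 3 * (1 / ((Y : ℝ) ^ 2) ^ 2) := by
        refine mul_le_mul_of_nonneg_left (h2.trans ?_) (by positivity)
        gcongr
    _ = 1 / Y := by field_simp

theorem hHat_close {Y : ℕ} (hY : 1 ≤ Y) (x y : ℚ) :
    |(hHat Y x y : ℝ) - ∫ q in Icc (0 : ℝ) 1 ×ˢ Icc (0 : ℝ) 1, KT Y (((x : ℝ), (y : ℝ)) - q)| ≤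
      3 / Y := by
  have hY0 : (0 : ℝ) < Y := by exact_mod_cast hY
  have hK : 1 ≤ Y ^ 3 := Nat.one_le_pow _ _ hY
  have h1 := riemann_two (f := fun q => KT Y (((x : ℝ), (y : ℝ)) - q)) (L := (Y : ℝ) ^ 2)
    (fun p q => by
      refine (KT_lip hY0 _ _).trans (le_of_eq ?_)
      simp only [Prod.fst_sub, Prod.snd_sub, sub_sub_sub_cancel_left, abs_sub_comm]) hK
  have h2 := riem_avg2 hK
    (a := fun i j => (kHat Y (x - (i : ℚ) / (Y : ℚ) ^ 3) (y - (j : ℚ) / (Y : ℚ) ^ 3) : ℝ))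
    (b := fun i j => KT Y (((x : ℝ), (y : ℝ)) - ((i : ℝ) / (Y ^ 3 : ℕ), (j : ℝ) / (Y ^ 3 : ℕ))))
    (e := 1 / Y) fun i j => by
      have := kHat_close hY (x - (i : ℚ) / (Y : ℚ) ^ 3) (y - (j : ℚ) / (Y : ℚ) ^ 3)
      push_cast at this ⊢
      exact this
  have e : (hHat Y x y : ℝ) = (∑ i ∈ Finset.range (Y ^ 3), ∑ j ∈ Finset.range (Y ^ 3),
      (kHat Y (x - (i : ℚ) / (Y : ℚ) ^ 3) (y - (j : ℚ) / (Y : ℚ) ^ 3) : ℝ)) / ((Y ^ 3 : ℕ) : ℝ) ^ 2 := by
    rw [hHat, Rat.cast_div, Rat.cast_sum]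
    simp only [Rat.cast_sum]
    congr 1
    push_cast; ring
  rw [e]
  rw [abs_sub_comm] at h1
  refine (abs_sub_le _ _ _).trans ((add_le_add h2 h1).trans (le_of_eq ?_))
  push_cast; field_simp; norm_num

/-- Translate the square; `integral_K2_square` with `a = 1 / 2`. -/
theorem c1Hat_close {Y : ℕ} (hY : 1 ≤ Y) : |(c1Hat Y : ℝ) - c1| ≤ 38 / Y := by
  have hY0 : (0 : ℝ) < Y := by exact_mod_cast hY
  have h1 := hHat_close hY (1 / 2) (1 / 2)
  have hm : MeasurableSet (Icc (0 : ℝ) 1 ×ˢ Icc (0 : ℝ) 1) :=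
    measurableSet_Icc.prod measurableSet_Icc
  have hm' : MeasurableSet (Icc (-(1 / 2) : ℝ) (1 / 2) ×ˢ Icc (-(1 / 2) : ℝ) (1 / 2)) :=
    measurableSet_Icc.prod measurableSet_Icc
  have h2 := K2_sub_KT hY0 ((1 / 2 : ℝ), (1 / 2 : ℝ)) hm (isCompact_Icc.prod isCompact_Icc).isBounded
  have h3 : ∫ q in Icc (0 : ℝ) 1 ×ˢ Icc (0 : ℝ) 1, K2 (((1 / 2 : ℝ), (1 / 2 : ℝ)) - q) =
      1 / 2 * c1 := by
    rw [← integral_K2_square (by norm_num), ← integral_indicator hm, ← integral_indicator hm']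
    conv_rhs => rw [← integral_sub_left_eq_self _ volume ((1 / 2 : ℝ), (1 / 2 : ℝ))]
    congr 1
    funext q
    have : ((1 / 2 : ℝ), (1 / 2 : ℝ)) - q ∈
        Icc (-(1 / 2) : ℝ) (1 / 2) ×ˢ Icc (-(1 / 2) : ℝ) (1 / 2) ↔
        q ∈ Icc (0 : ℝ) 1 ×ˢ Icc (0 : ℝ) 1 := by
      simp only [mem_prod, mem_Icc, Prod.fst_sub, Prod.snd_sub]
      constructor <;> rintro ⟨⟨a1, a2⟩, a3, a4⟩ <;>
        exact ⟨⟨by linarith, by linarith⟩, by linarith, by linarith⟩
    by_cases hq : q ∈ Icc (0 : ℝ) 1 ×ˢ Icc (0 : ℝ) 1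
    · rw [indicator_of_mem hq, indicator_of_mem (this.2 hq)]
    · rw [indicator_of_notMem hq, indicator_of_notMem (mt this.1 hq)]
  rw [h3] at h2
  push_cast at h1
  rw [c1Hat]
  push_cast
  have h4 := abs_le.1 h1
  have e1 : (38 : ℝ) / Y = 2 * (3 / Y) + 2 * (16 / Y) := by ring
  have e2 : (0 : ℝ) ≤ 16 / Y := by positivity
  rw [abs_le]
  constructor <;> linarith [h4.1, h4.2, h2.1, h2.2]

theorem c0Hat_close {Y : ℕ} (hY : 1 ≤ Y) : |(c0Hat Y : ℝ) - c0| ≤ 21 / Y := by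
  have hY0 : (0 : ℝ) < Y := by exact_mod_cast hY
  have hK : 1 ≤ Y ^ 3 := Nat.one_le_pow _ _ hY
  obtain ⟨s, hs⟩ : ∃ s : Set (ℝ × ℝ), s = Icc (0 : ℝ) 1 ×ˢ Icc (0 : ℝ) 1 := ⟨_, rfl⟩
  have hm : MeasurableSet s := hs ▸ measurableSet_Icc.prod measurableSet_Icc
  have hcs : IsCompact s := hs ▸ isCompact_Icc.prod isCompact_Icc
  have hb : Bornology.IsBounded s := hcs.isBounded
  have hv : volume s = 1 := by
    rw [hs, Measure.volume_eq_prod, Measure.prod_prod]; simp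
  have hv' : volume.real s = 1 := by rw [Measure.real, hv]; rfl
  have hfin : volume s < ⊤ := by rw [hv]; exact ENNReal.one_lt_top
  set H : ℝ × ℝ → ℝ := fun p => ∫ q in s, KT Y (p - q) with hH
  have hl : ∀ p p', |H p - H p'| ≤ (Y : ℝ) ^ 2 * (|p.1 - p'.1| + |p.2 - p'.2|) := by
    intro p p'
    rw [hH]
    simp only
    rw [← integral_sub (riem_KT_int hY0 p hb) (riem_KT_int hY0 p' hb)]
    have := norm_setIntegral_le_of_norm_le_const (μ := volume) (s := s)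
      (f := fun q => KT Y (p - q) - KT Y (p' - q))
      (C := (Y : ℝ) ^ 2 * (|p.1 - p'.1| + |p.2 - p'.2|)) hfin fun q _ => by
        refine (KT_lip hY0 _ _).trans (le_of_eq ?_)
        simp only [Prod.fst_sub, Prod.snd_sub, sub_sub_sub_cancel_right]
    rwa [hv', mul_one] at this
  have h1 := riemann_two hl hK
  have h2 := riem_avg2 hK
    (a := fun i j => (hHat Y ((i : ℚ) / (Y : ℚ) ^ 3) ((j : ℚ) / (Y : ℚ) ^ 3) : ℝ))
    (b := fun i j => H ((i : ℝ) / (Y ^ 3 : ℕ), (j : ℝ) / (Y ^ 3 : ℕ)))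
    (e := 3 / Y) fun i j => by
      have := hHat_close hY ((i : ℚ) / (Y : ℚ) ^ 3) ((j : ℚ) / (Y : ℚ) ^ 3)
      rw [← hs] at this
      push_cast at this ⊢
      exact this
  have e : (c0Hat Y : ℝ) = (∑ i ∈ Finset.range (Y ^ 3), ∑ j ∈ Finset.range (Y ^ 3),
      (hHat Y ((i : ℚ) / (Y : ℚ) ^ 3) ((j : ℚ) / (Y : ℚ) ^ 3) : ℝ)) / ((Y ^ 3 : ℕ) : ℝ) ^ 2 := by
    rw [c0Hat, Rat.cast_div, Rat.cast_sum]
    simp only [Rat.cast_sum]
    congr 1
    push_cast; ring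
  have iH : IntegrableOn H s := (riem_cont2 hl).continuousOn.integrableOn_compact hcs
  have hmeas : StronglyMeasurable fun p : ℝ × ℝ => ∫ q in s, K2 (p - q) :=
    StronglyMeasurable.integral_prod_right' (f := fun z : (ℝ × ℝ) × (ℝ × ℝ) => K2 (z.1 - z.2))
      (measurable_K2.comp (by fun_prop)).stronglyMeasurable
  have hd : ∀ p, ‖(∫ q in s, K2 (p - q)) - H p‖ ≤ 16 / Y := fun p => by
    have := K2_sub_KT hY0 p hm hb
    rw [Real.norm_of_nonneg this.1]; exact this.2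
  have iD : IntegrableOn (fun p => (∫ q in s, K2 (p - q)) - H p) s :=
    Measure.integrableOn_of_bounded (M := 16 / Y) hfin.ne
      (hmeas.sub (riem_cont2 hl).stronglyMeasurable).aestronglyMeasurable
      (Eventually.of_forall hd)
  have h3 : |(∫ p in s, H p) - c0| ≤ 16 / Y := by
    have e0 : c0 = (∫ p in s, ((∫ q in s, K2 (p - q)) - H p)) + ∫ p in s, H p := by
      rw [← integral_add iD iH, c0, ← hs]
      simp only [sub_add_cancel]
    have := norm_setIntegral_le_of_norm_le_const (μ := volume) (s := s) hfin fun p _ => hd p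
    rw [hv', mul_one] at this
    rw [e0, abs_sub_comm, add_sub_cancel_right]
    exact this
  rw [← hs, abs_sub_comm] at h1
  rw [e]
  refine (abs_sub_le _ _ _).trans ((add_le_add ((abs_sub_le _ _ _).trans (add_le_add h2 h1))
    h3).trans (le_of_eq ?_))
  push_cast; field_simp; norm_num

end Crest.Agent.R338
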