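/-
R338/DBasic: the filter of large designs; elementary facts on the parameters
Skeleton by helper15 (row 338); keep the statements unchanged, add any helper lemmas you like.
-/
import Crest.Agent.R338.DDefs

set_option autoImplicit false
set_option linter.unusedSectionVars false
set_option linter.unusedVariables false
set_option linter.unusedSimpArgs false

noncomputable section

namespace Crest.Agent.R338

open MeasureTheory Set Filter Crest.MathPhysics.ElectronicCoulomb

theorem ev_good : ∀ᶠ D : Des in evD, D.Good :=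
  Filter.mem_inf_of_right (Filter.mem_principal_self _)

theorem tendsto_S : Tendsto (fun D : Des => (D.S : ℝ)) evD atTop :=
  tendsto_natCast_atTop_atTop.comp (Filter.tendsto_comap.mono_left inf_le_left)

theorem ev_of_atTop {p : ℝ → Prop} (h : ∀ᶠ s in atTop, p s) : ∀ᶠ D : Des in evD, p D.S :=
  tendsto_S.eventually h

theorem ev_ge (C : ℝ) : ∀ᶠ D : Des in evD, C ≤ (D.S : ℝ) := ev_of_atTop (eventually_ge_atTop C)

theorem ev_exists {p : Des → Prop} (h : ∀ᶠ D : Des in evD, p D) :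
    ∃ S₀ : ℕ, ∀ D : Des, D.Good → S₀ ≤ D.S → p D := by
  rw [evD, Filter.eventually_inf_principal, Filter.eventually_comap, Filter.eventually_atTop] at h
  obtain ⟨S₀, h⟩ := h
  exact ⟨S₀, fun D hD hS => h D.S hS D rfl hD⟩

/-- Absorb a constant: `C * s ^ a ≤ s ^ b`. -/
theorem mul_pow_le {s C : ℝ} {a b : ℕ} (h1 : 1 ≤ s) (hC : C ≤ s) (hab : a + 1 ≤ b) :
    C * s ^ a ≤ s ^ b :=
  calc C * s ^ a ≤ s * s ^ a := by gcongr
    _ = s ^ (a + 1) := by ring
    _ ≤ s ^ b := pow_le_pow_right₀ h1 hab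

/-- Absorb a constant: `C / s ^ b ≤ 1 / s ^ a`. -/
theorem mul_inv_pow_le {s C : ℝ} {a b : ℕ} (h1 : 1 ≤ s) (hC : C ≤ s) (hab : a + 1 ≤ b) :
    C * (s ^ b)⁻¹ ≤ (s ^ a)⁻¹ := by
  have h0 : 0 < s := by linarith
  rw [← div_eq_mul_inv, ← one_div, div_le_div_iff₀ (by positivity) (by positivity), one_mul]
  exact mul_pow_le h1 hC hab

theorem inv_pow_le {s : ℝ} {a b : ℕ} (h1 : 1 ≤ s) (hab : a ≤ b) : (s ^ b)⁻¹ ≤ (s ^ a)⁻¹ :=
  inv_anti₀ (by positivity) (pow_le_pow_right₀ h1 hab)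

namespace Des
variable {D : Des}

theorem Good.one_le (h : D.Good) : (1 : ℝ) ≤ D.S := by exact_mod_cast h.n1.trans h.nS

theorem Good.pos (h : D.Good) : (0 : ℝ) < D.S := zero_lt_one.trans_le h.one_le

theorem Good.n_le (h : D.Good) : (D.n : ℝ) ≤ D.S := by exact_mod_cast h.nS

theorem Good.M_le (h : D.Good) : (D.M : ℝ) ≤ D.S := by exact_mod_cast h.MS

theorem Good.L_le (h : D.Good) : (D.Lv : ℝ) ≤ D.S := by exact_mod_cast h.LS

theorem Good.one_le_M (h : D.Good) : (1 : ℝ) ≤ D.M := by exact_mod_cast h.M1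

theorem Good.one_le_n (h : D.Good) : (1 : ℝ) ≤ D.n := by exact_mod_cast h.n1

theorem Good.sg_pos (h : D.Good) : 0 < D.sg ℝ := by have := h.pos; unfold sg; positivity

theorem Good.ell_pos (h : D.Good) : 0 < D.ell ℝ := by have := h.pos; unfold ell; positivity

theorem Good.del_pos (h : D.Good) : 0 < D.del ℝ := by have := h.pos; unfold del; positivity

theorem Good.z1_pos (h : D.Good) : 0 < D.z1 := by have := h.pos; unfold z1; positivity

theorem Good.RR_pos (h : D.Good) : 0 < D.RR := by have := h.pos; unfold RR; positivity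

theorem Good.RR_eq (h : D.Good) : D.RR = D.ell ℝ * (D.S : ℝ) ^ 14 := by
  have := h.pos; unfold RR ell; field_simp

theorem Good.one_le_wP (h : D.Good) : 1 ≤ D.wP ℝ := by
  have := h.pos
  refine one_le_pow₀ ?_
  unfold FP
  have : 0 ≤ (D.S : ℝ)⁻¹ + ((D.S : ℝ) ^ 2)⁻¹ := by positivity
  linarith

theorem rid_lt (A : Room D.n) : rid A < 3 * D.n := by
  have := A.1.2; have := A.2.2; unfold rid; omega

theorem mem_pads {A l : ℕ} : l ∈ D.pads A ↔ l < D.Lv ∧ D.pad A l = true := by simp [pads]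

end Des

theorem rid_div {n : ℕ} (A : Room n) : rid A / 3 = A.1 := by
  have := A.2.2; unfold rid; omega

theorem rid_injective {n : ℕ} : Function.Injective (rid : Room n → ℕ) := by
  rintro ⟨a, b⟩ ⟨c, d⟩ h
  have := b.2; have := d.2
  simp only [rid] at h
  ext <;> simp <;> omega

theorem ev_sg : ∀ᶠ D : Des in evD, D.sg ℝ ≤ 1 / 100 := by
  filter_upwards [ev_good, ev_ge 100] with D hD h
  have := mul_inv_pow_le (a := 0) (b := 56) hD.one_le h (by norm_num)
  unfold Des.sg
  simp only [pow_zero, inv_one] at this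
  linarith

theorem ev_wP : ∀ᶠ D : Des in evD, D.wP ℝ ≤ 2 := by
  filter_upwards [ev_good, ev_ge 2000] with D hD h
  have h0 := hD.pos
  have h1 : (D.S : ℝ)⁻¹ ≤ 1 / 2000 := by rw [one_div]; exact inv_anti₀ (by norm_num) h
  have h2 : ((D.S : ℝ) ^ 2)⁻¹ ≤ (D.S : ℝ)⁻¹ := by
    simpa using inv_pow_le (a := 1) (b := 2) hD.one_le (by norm_num)
  have h3 : D.FP ℝ ≤ Real.exp (1 / 1000) := by
    have := Real.add_one_le_exp (1 / 1000 : ℝ)
    unfold Des.FP; linarith
  have h4 : 0 ≤ D.FP ℝ := by unfold Des.FP; positivity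
  calc D.wP ℝ ≤ Real.exp (1 / 1000) ^ 536 := pow_le_pow_left₀ h4 h3 _
    _ = Real.exp (536 * (1 / 1000)) := by rw [← Real.exp_nat_mul]; norm_num
    _ ≤ Real.exp (Real.log 2) := Real.exp_le_exp.2 (by have := Real.log_two_gt_d9; linarith)
    _ = 2 := Real.exp_log (by norm_num)

/-- The mean minimises the quadratic deviation. -/
theorem dev_le {n : ℕ} (a : Room n → ℝ) (c : Fin n → ℝ) : dev a ≤ ∑ A, (a A - c A.1) ^ 2 := by
  unfold dev
  rw [Fintype.sum_prod_type, Fintype.sum_prod_type]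
  refine Finset.sum_le_sum fun q _ => ?_
  simp only [Fin.sum_univ_three]
  nlinarith [sq_nonneg (a (q, 0) + a (q, 1) + a (q, 2) - 3 * c q)]

theorem dev_nonneg {n : ℕ} (a : Room n → ℝ) : 0 ≤ dev a :=
  Finset.sum_nonneg fun _ _ => sq_nonneg _

end Crest.Agent.R338
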