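/-
R338/DBlib: calculus of derivative bounds
Skeleton by helper15 (row 338); keep the statements unchanged, add any helper lemmas you like.
-/
import Crest.Agent.R338.Coord

set_option autoImplicit false
set_option linter.unusedSectionVars false
set_option linter.unusedVariables false
set_option linter.unusedSimpArgs false

noncomputable section

namespace Crest.Agent.R338

open MeasureTheory Set Crest.MathPhysics.ElectronicCoulomb
open scoped RealInnerProductSpace

variable {r : ℕ} {A A' lam lam' : ℝ} {f g : Pos3 → ℝ}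

theorem DB.abs_le (h : DB r A lam f) (x : Pos3) : |f x| ≤ A := by
  simpa using h.bd 0 (Nat.zero_le _) x

theorem DB.nonneg (h : DB r A lam f) : 0 ≤ A := by
  exact (abs_nonneg _).trans (h.abs_le 0)

theorem DB.mono (h : DB r A lam f) (hl : 0 ≤ lam) (hA : A ≤ A') (hl' : lam ≤ lam') :
    DB r A' lam' f := by
  refine ⟨h.diff, fun j hj x => (h.bd j hj x).trans ?_⟩
  have := h.nonneg
  gcongr
  exact this.trans hA

theorem DB.of_le (h : DB r A lam f) {r' : ℕ} (hr : r' ≤ r) : DB r' A lam f := by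
  exact ⟨h.diff.of_le (by exact_mod_cast hr), fun j hj x => h.bd j (hj.trans hr) x⟩

theorem DB.const (r : ℕ) (c : ℝ) (hl : 0 ≤ lam) : DB r |c| lam fun _ => c := by
  refine ⟨contDiff_const, fun j hj x => ?_⟩
  rcases eq_or_ne j 0 with rfl | h0
  · simp
  · rw [iteratedFDeriv_const_of_ne h0]
    simp only [Pi.zero_apply, norm_zero]
    positivity

theorem DB.add (h : DB r A lam f) (h' : DB r A' lam g) : DB r (A + A') lam fun x => f x + g x := by
  refine ⟨h.diff.add h'.diff, fun j hj x => ?_⟩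
  rw [fun_iteratedFDeriv_add_apply (h.of_le hj).diff.contDiffAt (h'.of_le hj).diff.contDiffAt,
    add_mul]
  exact (norm_add_le _ _).trans (add_le_add (h.bd j hj x) (h'.bd j hj x))

theorem DB.sub (h : DB r A lam f) (h' : DB r A' lam g) : DB r (A + A') lam fun x => f x - g x := by
  refine ⟨h.diff.sub h'.diff, fun j hj x => ?_⟩
  rw [fun_iteratedFDeriv_sub_apply (h.of_le hj).diff.contDiffAt (h'.of_le hj).diff.contDiffAt,
    add_mul]
  exact (norm_sub_le _ _).trans (add_le_add (h.bd j hj x) (h'.bd j hj x))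

theorem DB.const_mul (h : DB r A lam f) (c : ℝ) : DB r (|c| * A) lam fun x => c * f x := by
  refine ⟨contDiff_const.mul h.diff, fun j hj x => ?_⟩
  have := iteratedFDeriv_const_smul_apply' (a := c) (x := x) (h.of_le hj).diff.contDiffAt
  simp only [smul_eq_mul] at this
  rw [this, norm_smul, Real.norm_eq_abs, mul_assoc]
  exact mul_le_mul_of_nonneg_left (h.bd j hj x) (abs_nonneg _)

theorem DB.sum {κ : Type} (s : Finset κ) {F : κ → Pos3 → ℝ} (hl : 0 ≤ lam)
    (h : ∀ k ∈ s, DB r A lam (F k)) : DB r (s.card * A) lam fun x => ∑ k ∈ s, F k x := by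
  classical
  induction s using Finset.induction_on with
  | empty => simpa using DB.const r 0 hl
  | insert a s ha ih =>
    have h1 := (h a (Finset.mem_insert_self a s)).add
      (ih fun k hk => h k (Finset.mem_insert_of_mem hk))
    simp only [Finset.sum_insert ha, Finset.card_insert_of_notMem ha]
    convert h1 using 1
    push_cast
    ring

theorem DBlib_mul_bd {n : ℕ} (hf : ContDiff ℝ n f) (hg : ContDiff ℝ n g) {x : Pos3}
    (h : ∀ j ≤ n, ‖iteratedFDeriv ℝ j f x‖ ≤ A * lam ^ j)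
    (h' : ∀ j ≤ n, ‖iteratedFDeriv ℝ j g x‖ ≤ A' * lam' ^ j) :
    ‖iteratedFDeriv ℝ n (fun y => f y * g y) x‖ ≤ A * A' * (lam + lam') ^ n := by
  refine (norm_iteratedFDeriv_mul_le hf hg x le_rfl).trans ?_
  rw [add_pow, Finset.mul_sum]
  refine Finset.sum_le_sum fun i hi => ?_
  have hi' : i ≤ n := Nat.lt_succ_iff.1 (Finset.mem_range.1 hi)
  have h1 := h i hi'
  have h2 := h' (n - i) (Nat.sub_le _ _)
  calc (n.choose i : ℝ) * ‖iteratedFDeriv ℝ i f x‖ * ‖iteratedFDeriv ℝ (n - i) g x‖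
      ≤ (n.choose i : ℝ) * (A * lam ^ i) * (A' * lam' ^ (n - i)) := by
        have h3 := (norm_nonneg _).trans h1
        gcongr
    _ = _ := by ring

/-- Leibniz (`norm_iteratedFDeriv_mul_le`) and the binomial theorem. -/
theorem DB.mul (h : DB r A lam f) (h' : DB r A' lam' g) (hl : 0 ≤ lam) (hl' : 0 ≤ lam') :
    DB r (A * A') (lam + lam') fun x => f x * g x := by
  exact ⟨h.diff.mul h'.diff, fun j hj x => DBlib_mul_bd (h.of_le hj).diff (h'.of_le hj).diff
    (fun i hi => h.bd i (hi.trans hj) x) fun i hi => h'.bd i (hi.trans hj) x⟩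

theorem DBlib_coord_bd {h : ℝ → ℝ} {j : ℕ} (hh : ContDiff ℝ j h) (c : Fin 3) (a b : ℝ) (x : Pos3) :
    ‖iteratedFDeriv ℝ j (fun x : Pos3 => h (a * x c + b)) x‖ ≤
      |iteratedDeriv j h (a * x c + b)| * |a| ^ j := by
  set L : Pos3 →L[ℝ] ℝ := a • EuclideanSpace.proj c with hL
  have hn : ‖L‖ ≤ |a| := by
    refine ContinuousLinearMap.opNorm_le_bound _ (abs_nonneg _) fun y => ?_
    have : L y = a * y c := rfl
    rw [this, norm_mul, Real.norm_eq_abs]
    exact mul_le_mul_of_nonneg_left (PiLp.norm_apply_le y c) (abs_nonneg _)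
  have h1 : (fun x : Pos3 => h (a * x c + b)) = (fun t => h (t + b)) ∘ L := rfl
  have h2 : ContDiff ℝ j fun t => h (t + b) := hh.comp (contDiff_id.add contDiff_const)
  rw [h1, L.iteratedFDeriv_comp_right h2 x le_rfl]
  refine (ContinuousMultilinearMap.norm_compContinuousLinearMap_le _ _).trans ?_
  rw [iteratedFDeriv_comp_add_right, norm_iteratedFDeriv_eq_norm_iteratedDeriv, Finset.prod_const,
    Finset.card_univ, Fintype.card_fin, Real.norm_eq_abs]
  have : L x = a * x c := rfl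
  rw [this]
  gcongr

theorem DBlib_coord_diff {h : ℝ → ℝ} {j : ℕ} (hh : ContDiff ℝ j h) (c : Fin 3) (a b : ℝ) :
    ContDiff ℝ j fun x : Pos3 => h (a * x c + b) :=
  hh.comp ((contDiff_const.mul (EuclideanSpace.proj (𝕜 := ℝ) c).contDiff).add contDiff_const)

/-- A function of one rescaled coordinate (`ContinuousLinearMap.iteratedFDeriv_comp_right`,
`iteratedFDeriv_comp_add_right`, `norm_iteratedFDeriv_eq_norm_iteratedDeriv`). -/
theorem DB.coord {h : ℝ → ℝ} (hh : ContDiff ℝ r h) (hb : ∀ j ≤ r, ∀ t, |iteratedDeriv j h t| ≤ A)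
    (c : Fin 3) (a b : ℝ) : DB r A |a| fun x => h (a * x c + b) := by
  refine ⟨DBlib_coord_diff hh c a b, fun j hj x => ?_⟩
  refine (DBlib_coord_bd (hh.of_le (by exact_mod_cast hj)) c a b x).trans ?_
  exact mul_le_mul_of_nonneg_right (hb j hj _) (by positivity)

/-- `norm_iteratedFDeriv_comp_le` with an outer function that is smooth on `ℝ` and agrees with
`t ↦ 1 / t` on `[1, ∞)` (apply it to `f / c`), or `norm_iteratedFDerivWithin_comp_le`. -/
theorem DB.inv (r : ℕ) : ∃ C, ∀ (A lam c : ℝ) (f : Pos3 → ℝ), 0 < c → c ≤ A → 0 ≤ lam →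
    DB r A lam f → (∀ x, c ≤ f x) → DB r (C / c) (A / c * lam) fun x => (f x)⁻¹ := by
  refine ⟨(r.factorial : ℝ) * r.factorial, fun A lam c f hc hA hl h hf => ?_⟩
  have hF := h.const_mul c⁻¹
  have h1 : ∀ x, 1 ≤ c⁻¹ * f x := fun x => by
    rw [← div_eq_inv_mul, le_div_iff₀ hc, one_mul]
    exact hf x
  have hA1 : 1 ≤ A / c := by rwa [le_div_iff₀ hc, one_mul]
  have h2 : DB r (r.factorial * r.factorial) (A / c * lam) fun x => (c⁻¹ * f x)⁻¹ := by
    refine ⟨hF.diff.inv fun x => by linarith [h1 x], fun j hj x => ?_⟩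
    have key := norm_iteratedFDeriv_comp_le' (𝕜 := ℝ) (g := fun t : ℝ => t⁻¹)
      (f := fun x => c⁻¹ * f x) (n := j) (N := r) (t := Ioi 0)
      (by rintro _ ⟨y, rfl⟩; exact lt_of_lt_of_le one_pos (h1 y)) isOpen_Ioi.uniqueDiffOn
      (contDiffOn_id.inv fun t ht => ne_of_gt ht) hF.diff (by exact_mod_cast hj) x
      (C := r.factorial) (D := A / c * lam) (fun i hi => ?_) fun i hi1 hi => ?_
    · refine le_trans key ?_
      gcongr
    · have hx : c⁻¹ * f x ∈ Ioi (0 : ℝ) := lt_of_lt_of_le one_pos (h1 x)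
      rw [iteratedFDerivWithin_of_isOpen i isOpen_Ioi hx, norm_iteratedFDeriv_eq_norm_iteratedDeriv,
        iteratedDeriv_eq_iterate, iter_deriv_inv, norm_mul, norm_mul, norm_pow, norm_neg, norm_one,
        one_pow, one_mul, Real.norm_natCast, norm_zpow, Real.norm_of_nonneg (le_of_lt hx)]
      have h3 : (c⁻¹ * f x) ^ (-1 - (i : ℤ)) ≤ 1 := zpow_le_one_of_nonpos₀ (h1 x) (by omega)
      have h4 : (i.factorial : ℝ) ≤ r.factorial := by
        exact_mod_cast Nat.factorial_le (hi.trans hj)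
      calc (i.factorial : ℝ) * (c⁻¹ * f x) ^ (-1 - (i : ℤ)) ≤ r.factorial * 1 := by
            have := zpow_pos (show 0 < c⁻¹ * f x from hx) (-1 - (i : ℤ))
            gcongr
        _ = _ := mul_one _
    · refine (hF.bd i (hi.trans hj) x).trans ?_
      rw [abs_of_pos (inv_pos.2 hc), ← div_eq_inv_mul, mul_pow]
      exact mul_le_mul_of_nonneg_right (le_self_pow₀ hA1 (by omega)) (by positivity)
  have h3 := h2.const_mul c⁻¹
  rw [abs_of_pos (inv_pos.2 hc), ← div_eq_inv_mul] at h3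
  convert h3 using 2 with x
  have : f x ≠ 0 := by linarith [hf x, hc] |> ne_of_gt
  field_simp

theorem DB.norm_fderiv_le (h : DB r A lam f) (hr : 1 ≤ r) (x : Pos3) :
    ‖fderiv ℝ f x‖ ≤ A * lam := by
  simpa [norm_iteratedFDeriv_one] using h.bd 1 hr x

theorem DBlib_wt_nonneg {ρ : Pos3 → ℝ} {Λ : ℝ} (h : Wt ρ Λ) : 0 ≤ Λ :=
  nonneg_of_mul_nonneg_left ((norm_nonneg _).trans (h.d1 0)) (h.pos 0)

theorem DBlib_wt_bd {ρ : Pos3 → ℝ} {Λ : ℝ} (h : Wt ρ Λ) (x : Pos3) :
    ∀ j ≤ 2, ‖iteratedFDeriv ℝ j ρ x‖ ≤ ρ x * Λ ^ j := by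
  intro j hj
  interval_cases j
  · simp [abs_of_pos (h.pos x)]
  · rw [norm_iteratedFDeriv_one, pow_one, mul_comm]
    exact h.d1 x
  · rw [mul_comm]
    exact h.d2 x

/-- Products of weights. -/
theorem Wt.mul {ρ ρ' : Pos3 → ℝ} {Λ Λ' : ℝ} (h : Wt ρ Λ) (h' : Wt ρ' Λ') :
    Wt (fun x => ρ x * ρ' x) (Λ + Λ') := by
  refine ⟨h.diff.mul h'.diff, fun x => mul_pos (h.pos x) (h'.pos x), fun x => ?_, fun x => ?_⟩
  · have := DBlib_mul_bd (n := 1) (h.diff.of_le (by norm_num)) (h'.diff.of_le (by norm_num))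
      (fun j hj => DBlib_wt_bd h x j (by omega)) fun j hj => DBlib_wt_bd h' x j (by omega)
    rwa [norm_iteratedFDeriv_one, pow_one, mul_comm] at this
  · have := DBlib_mul_bd (n := 2) h.diff h'.diff (DBlib_wt_bd h x) (DBlib_wt_bd h' x)
    rwa [mul_comm] at this

theorem Wt.pow {ρ : Pos3 → ℝ} {Λ : ℝ} (h : Wt ρ Λ) (k : ℕ) : Wt (fun x => ρ x ^ k) (k * Λ) := by
  induction k with
  | zero =>
    simp only [pow_zero, Nat.cast_zero, zero_mul]
    refine ⟨contDiff_const, fun _ => one_pos, fun x => by simp, fun x => ?_⟩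
    rw [iteratedFDeriv_const_of_ne (by norm_num)]
    simp
  | succ k ih =>
    have := ih.mul h
    simp only [pow_succ, Nat.cast_succ, add_mul, one_mul]
    exact this

theorem Wt.mono {ρ : Pos3 → ℝ} {Λ Λ' : ℝ} (h : Wt ρ Λ) (hΛ : Λ ≤ Λ') : Wt ρ Λ' := by
  have h0 := DBlib_wt_nonneg h
  refine ⟨h.diff, h.pos, fun x => (h.d1 x).trans ?_, fun x => (h.d2 x).trans ?_⟩
  · have := h.pos x
    gcongr
  · have := h.pos x
    gcongr

theorem DB.wt (h : DB 2 A lam f) {c : ℝ} (hc : 0 < c) (hA : c ≤ A) (hl : 0 ≤ lam)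
    (hf : ∀ x, c ≤ f x) : Wt f (A / c * lam) := by
  have hA1 : 1 ≤ A / c := by rwa [le_div_iff₀ hc, one_mul]
  have h1 : ∀ x, A ≤ A / c * f x := fun x => by
    calc A = A / c * c := by field_simp
      _ ≤ A / c * f x := mul_le_mul_of_nonneg_left (hf x) (by linarith)
  refine ⟨h.diff, fun x => hc.trans_le (hf x), fun x => (h.norm_fderiv_le (by norm_num) x).trans ?_,
    fun x => (h.bd 2 le_rfl x).trans ?_⟩
  · calc A * lam ≤ A / c * f x * lam := mul_le_mul_of_nonneg_right (h1 x) hl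
      _ = _ := by ring
  · have h2 : A / c * f x ≤ A / c * (A / c * f x) :=
      le_mul_of_one_le_left (h.nonneg.trans (h1 x)) hA1
    calc A * lam ^ 2 ≤ A / c * (A / c * f x) * lam ^ 2 :=
          mul_le_mul_of_nonneg_right ((h1 x).trans h2) (by positivity)
      _ = _ := by ring

theorem Wt.coord {h h' h'' : ℝ → ℝ} {Λ : ℝ} (h1 : ∀ t, HasDerivAt h (h' t) t)
    (h2 : ∀ t, HasDerivAt h' (h'' t) t) (hc : Continuous h'') (hp : ∀ t, 0 < h t)
    (b1 : ∀ t, |h' t| ≤ Λ * h t) (b2 : ∀ t, |h'' t| ≤ Λ ^ 2 * h t) (c : Fin 3) :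
    Wt (fun x => h (x c)) Λ := by
  have e1 : deriv h = h' := funext fun t => (h1 t).deriv
  have e2 : deriv h' = h'' := funext fun t => (h2 t).deriv
  have hd : ContDiff ℝ 2 h := by
    rw [show (2 : WithTop ℕ∞) = 1 + 1 from rfl, contDiff_succ_iff_deriv, e1, contDiff_one_iff_deriv,
      e2]
    exact ⟨fun t => (h1 t).differentiableAt, by simp, fun t => (h2 t).differentiableAt, hc⟩
  have hd2 := DBlib_coord_diff (j := 2) hd c 1 0
  have k1 := DBlib_coord_bd (j := 1) (hd.of_le (by norm_num)) c 1 0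
  have k2 := DBlib_coord_bd (j := 2) hd c 1 0
  simp only [one_mul, add_zero, abs_one, one_pow, mul_one] at hd2 k1 k2
  refine ⟨hd2, fun x => hp _, fun x => ?_, fun x => (k2 x).trans ?_⟩
  · rw [← norm_iteratedFDeriv_one]
    refine (k1 x).trans ?_
    rw [iteratedDeriv_one, e1]
    exact b1 _
  · rw [iteratedDeriv_succ, iteratedDeriv_one, e1, e2]
    exact b2 _

end Crest.Agent.R338
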