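/-
R338/Step: calculus of the smooth steps, plateaus and ramps
Skeleton by helper15 (row 338); keep the statements unchanged, add any helper lemmas you like.
-/
import Crest.Agent.R338.DDefs
import Crest.Agent.R338.DBlib

set_option autoImplicit false
set_option linter.unusedSectionVars false
set_option linter.unusedVariables false
set_option linter.unusedSimpArgs false

noncomputable section

namespace Crest.Agent.R338

open MeasureTheory Set Filter Crest.MathPhysics.ElectronicCoulomb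

variable {σ a b x t ℓ : ℝ} {j : ℕ}

theorem st_of_le (j : ℕ) (h : t ≤ 0) : st j t = 0 := by
  have : max 0 (min t 1) = 0 := max_eq_left ((min_le_left _ _).trans h)
  unfold st sp
  rw [this]
  split_ifs <;> simp

theorem st_of_ge (j : ℕ) (h : 1 ≤ t) : st j t = if j = 0 then 1 else 0 := by
  have : max 0 (min t 1) = 1 := by rw [min_eq_right h, max_eq_right zero_le_one]
  unfold st sp
  rw [this]
  split_ifs <;> norm_num

/-- If `f' 0 = f' 1 = 0` then `f ∘ clamp` has the derivative `f' ∘ clamp`. -/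
theorem hasDerivAt_clamp {f f' : ℝ → ℝ} (hf : ∀ s, HasDerivAt f (f' s) s) (h0 : f' 0 = 0)
    (h1 : f' 1 = 0) (t : ℝ) :
    HasDerivAt (fun s => f (max 0 (min s 1))) (f' (max 0 (min t 1))) t := by
  have hc : Continuous fun s : ℝ => max 0 (min s 1) := by fun_prop
  have key : f' (max 0 (min t 1)) = 0 →
      HasDerivAt (fun s => f (max 0 (min s 1))) (f' (max 0 (min t 1))) t := by
    intro hz
    have h2 := ((hf (max 0 (min t 1))).isLittleO).comp_tendsto (hc.tendsto t)
    rw [hz] at h2 ⊢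
    rw [hasDerivAt_iff_isLittleO]
    simp only [smul_zero, sub_zero, Function.comp_def] at h2 ⊢
    refine h2.trans_isBigO (Asymptotics.IsBigO.of_bound' (Eventually.of_forall fun s => ?_))
    simp only [Real.norm_eq_abs]
    refine (abs_max_sub_max_le_max _ _ _ _).trans ?_
    simp only [sub_self, abs_zero, max_le_iff, abs_nonneg, true_and]
    refine (abs_min_sub_min_le_max _ _ _ _).trans ?_
    simp
  rcases le_or_gt t 0 with ht | ht
  · exact key (by rw [max_eq_left ((min_le_left _ _).trans ht), h0])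
  rcases le_or_gt 1 t with ht1 | ht1
  · exact key (by rw [min_eq_right ht1, max_eq_right zero_le_one, h1])
  rw [min_eq_left ht1.le, max_eq_right ht.le]
  refine (hf t).congr_of_eventuallyEq ?_
  filter_upwards [Ioo_mem_nhds ht ht1] with s hs
  rw [min_eq_left hs.2.le, max_eq_right hs.1.le]

/-- The `k`-th derivative of a monomial. -/
def Step_mono (i k : ℕ) (t : ℝ) : ℝ := (i.descFactorial k : ℝ) * t ^ (i - k)

theorem Step_mono_deriv (i k : ℕ) (t : ℝ) :
    HasDerivAt (Step_mono i k) (Step_mono i (k + 1) t) t := by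
  refine ((hasDerivAt_pow (i - k) t).const_mul (i.descFactorial k : ℝ)).congr_deriv ?_
  rw [Step_mono, Nat.descFactorial_succ, Nat.sub_sub]
  push_cast
  ring

/-- The `k`-th derivative of the smoothstep polynomial. -/
def Step_p (k : ℕ) (t : ℝ) : ℝ :=
  462 * Step_mono 6 k t - 1980 * Step_mono 7 k t + 3465 * Step_mono 8 k t -
    3080 * Step_mono 9 k t + 1386 * Step_mono 10 k t - 252 * Step_mono 11 k t

theorem Step_p_deriv (k : ℕ) (t : ℝ) : HasDerivAt (Step_p k) (Step_p (k + 1) t) t :=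
  ((((((Step_mono_deriv 6 k t).const_mul 462).sub ((Step_mono_deriv 7 k t).const_mul 1980)).add
    ((Step_mono_deriv 8 k t).const_mul 3465)).sub ((Step_mono_deriv 9 k t).const_mul 3080)).add
    ((Step_mono_deriv 10 k t).const_mul 1386)).sub ((Step_mono_deriv 11 k t).const_mul 252)

theorem Step_p_cont (k : ℕ) : Continuous (Step_p k) :=
  continuous_iff_continuousAt.2 fun t => (Step_p_deriv k t).continuousAt

theorem Step_p_end {k : ℕ} (hk : k ≤ 4) : Step_p (k + 1) 0 = 0 ∧ Step_p (k + 1) 1 = 0 := by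
  interval_cases k <;> norm_num [Step_p, Step_mono, Nat.descFactorial]

theorem Step_p_eq (hj : j ≤ 2) (t : ℝ) : sp j t = Step_p j t := by
  interval_cases j <;> norm_num [sp, Step_p, Step_mono, Nat.descFactorial] <;> ring

/-- The `k`-th derivative of the step. -/
def Step_g (k : ℕ) (t : ℝ) : ℝ := Step_p k (max 0 (min t 1))

theorem Step_g_eq (hj : j ≤ 2) : (st j : ℝ → ℝ) = Step_g j :=
  funext fun _ => Step_p_eq hj _

theorem Step_g_deriv {k : ℕ} (hk : k ≤ 4) (t : ℝ) : HasDerivAt (Step_g k) (Step_g (k + 1) t) t :=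
  hasDerivAt_clamp (Step_p_deriv k) (Step_p_end hk).1 (Step_p_end hk).2 t

theorem Step_g_deriv' {k : ℕ} (hk : k ≤ 4) : deriv (Step_g k) = Step_g (k + 1) :=
  funext fun t => (Step_g_deriv hk t).deriv

theorem Step_g_contDiff (n : ℕ) : ∀ k : ℕ, k + n ≤ 5 → ContDiff ℝ n (Step_g k) := by
  induction n with
  | zero =>
    intro k _
    exact contDiff_zero.2 ((Step_p_cont k).comp (by fun_prop))
  | succ n ih =>
    intro k hk
    rw [Nat.cast_succ, contDiff_succ_iff_deriv, Step_g_deriv' (by omega)]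
    exact ⟨fun t => (Step_g_deriv (by omega) t).differentiableAt, by simp, ih _ (by omega)⟩

theorem Step_g_iter (i : ℕ) : ∀ k : ℕ, k + i ≤ 5 → iteratedDeriv i (Step_g k) = Step_g (k + i) := by
  induction i with
  | zero => intro k _; simp
  | succ i ih =>
    intro k hk
    rw [iteratedDeriv_succ, ih k (by omega), Step_g_deriv' (by omega), add_assoc]

theorem Step_g_bound (k : ℕ) : ∃ C : ℝ, ∀ t, |Step_g k t| ≤ C := by
  obtain ⟨C, hC⟩ := (isCompact_Icc (a := (0 : ℝ)) (b := 1)).exists_bound_of_continuousOn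
    (Step_p_cont k).continuousOn
  exact ⟨C, fun t => hC _ ⟨le_max_left _ _, max_le zero_le_one (min_le_right _ _)⟩⟩

theorem hasDerivAt_st (hj : j ≤ 1) (t : ℝ) : HasDerivAt (st j) (st (j + 1) t) t := by
  rw [Step_g_eq (j := j) (by omega), Step_g_eq (j := j + 1) (by omega)]
  exact Step_g_deriv (by omega) t

/-- The derivatives of the polynomial of the orders `1, …, 5` vanish at `0` and `1`. -/
theorem contDiff_st (hj : j ≤ 2) : ContDiff ℝ 3 (st j : ℝ → ℝ) := by
  rw [Step_g_eq hj]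
  exact Step_g_contDiff 3 j (by omega)

theorem st_bound : ∃ C : ℝ, 1 ≤ C ∧ ∀ j ≤ 2, ∀ i ≤ 3, ∀ t : ℝ, |iteratedDeriv i (st j) t| ≤ C := by
  choose C hC using Step_g_bound
  have h0 : ∀ k, 0 ≤ C k := fun k => (abs_nonneg _).trans (hC k 0)
  refine ⟨1 + ∑ k ∈ Finset.range 6, C k,
    le_add_of_nonneg_right (Finset.sum_nonneg fun k _ => h0 k), fun j hj i hi t => ?_⟩
  rw [Step_g_eq hj, Step_g_iter i j (by omega)]
  have := Finset.single_le_sum (f := C) (s := Finset.range 6) (fun k _ => h0 k)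
    (Finset.mem_range.2 (show j + i < 6 by omega))
  linarith [hC (j + i) t]

theorem st1_nonneg (t : ℝ) : 0 ≤ st 1 t := by
  have h0 : 0 ≤ max 0 (min t 1) := le_max_left _ _
  have h1 : 0 ≤ 1 - max 0 (min t 1) := sub_nonneg.2 (max_le zero_le_one (min_le_right _ _))
  simp only [st, sp, one_ne_zero, if_false, if_true]
  positivity

theorem st1_le (t : ℝ) : st 1 t ≤ 3 := by
  have h0 : 0 ≤ max 0 (min t 1) := le_max_left _ _
  have h1 : 0 ≤ 1 - max 0 (min t 1) := sub_nonneg.2 (max_le zero_le_one (min_le_right _ _))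
  simp only [st, sp, one_ne_zero, if_false, if_true]
  generalize max 0 (min t 1) = u at h0 h1
  have h2 : u * (1 - u) ≤ 1 / 4 := by nlinarith [sq_nonneg (u - 1 / 2)]
  have h3 := pow_le_pow_left₀ (mul_nonneg h0 h1) h2 5
  rw [← mul_pow]
  linarith

theorem monotone_st : Monotone (st 0 : ℝ → ℝ) := by
  exact monotone_of_hasDerivAt_nonneg (f' := st 1) (fun t => hasDerivAt_st (j := 0) zero_le_one t)
    st1_nonneg

theorem st_nonneg (t : ℝ) : 0 ≤ st 0 t := by
  have := monotone_st (min_le_left t 0)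
  rwa [st_of_le 0 (min_le_right t 0)] at this

theorem st_le_one (t : ℝ) : st 0 t ≤ 1 := by
  have := monotone_st (le_max_left t 1)
  rwa [st_of_ge 0 (le_max_right t 1), if_pos rfl] at this

theorem pl_of_mem (j : ℕ) (hσ : 0 < σ) (h1 : a ≤ x) (h2 : x ≤ b) :
    pl σ a b j x = if j = 0 then 1 else 0 := by
  have e1 : 1 ≤ (x - a) / σ + 1 := le_add_of_nonneg_left (div_nonneg (by linarith) hσ.le)
  have e2 : (x - b) / σ ≤ 0 := div_nonpos_of_nonpos_of_nonneg (by linarith) hσ.le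
  rw [pl, st_of_ge j e1, st_of_le j e2]
  split_ifs with h
  · simp [h]
  · simp

theorem pl_of_le (j : ℕ) (hσ : 0 < σ) (hab : a ≤ b) (h : x ≤ a - σ) : pl σ a b j x = 0 := by
  have e1 : (x - a) / σ + 1 ≤ 0 := by
    have : (x - a) / σ ≤ -1 := by rw [div_le_iff₀ hσ]; linarith
    linarith
  have e2 : (x - b) / σ ≤ 0 := div_nonpos_of_nonpos_of_nonneg (by linarith) hσ.le
  rw [pl, st_of_le j e1, st_of_le j e2]
  simp

theorem pl_of_ge (j : ℕ) (hσ : 0 < σ) (hab : a ≤ b) (h : b + σ ≤ x) : pl σ a b j x = 0 := by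
  have e1 : 1 ≤ (x - a) / σ + 1 := le_add_of_nonneg_left (div_nonneg (by linarith) hσ.le)
  have e2 : 1 ≤ (x - b) / σ := by rw [le_div_iff₀ hσ]; linarith
  rw [pl, st_of_ge j e1, st_of_ge j e2]
  simp

theorem mem_of_pl_ne (hσ : 0 < σ) (hab : a ≤ b) (h : pl σ a b j x ≠ 0) : a - σ < x ∧ x < b + σ := by
  exact ⟨not_le.1 fun h' => h (pl_of_le j hσ hab h'), not_le.1 fun h' => h (pl_of_ge j hσ hab h')⟩

theorem pl_nonneg (hσ : 0 < σ) (hab : a ≤ b) (x : ℝ) : 0 ≤ pl σ a b 0 x := by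
  have e : (x - b) / σ ≤ (x - a) / σ + 1 := by
    have : (x - b) / σ ≤ (x - a) / σ := div_le_div_of_nonneg_right (by linarith) hσ.le
    linarith
  have := monotone_st e
  rw [pl, pow_zero, div_one]
  linarith

theorem pl_le_one (σ a b x : ℝ) : pl σ a b 0 x ≤ 1 := by
  rw [pl, pow_zero, div_one]
  linarith [st_le_one ((x - a) / σ + 1), st_nonneg ((x - b) / σ)]

theorem abs_pl1_le (hσ : 0 < σ) (a b x : ℝ) : |pl σ a b 1 x| ≤ 3 / σ := by
  rw [pl, pow_one, abs_div, abs_of_pos hσ]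
  refine div_le_div_of_nonneg_right (abs_le.2 ⟨?_, ?_⟩) hσ.le
  · linarith [st1_nonneg ((x - a) / σ + 1), st1_le ((x - b) / σ)]
  · linarith [st1_le ((x - a) / σ + 1), st1_nonneg ((x - b) / σ)]

theorem hasDerivAt_pl (hσ : 0 < σ) (a b : ℝ) (hj : j ≤ 1) (x : ℝ) :
    HasDerivAt (pl σ a b j) (pl σ a b (j + 1) x) x := by
  have h1 := (hasDerivAt_st hj ((x - a) / σ + 1)).comp x
    ((((hasDerivAt_id' x).sub_const a).div_const σ).add_const 1)
  have h2 := (hasDerivAt_st hj ((x - b) / σ)).comp x (((hasDerivAt_id' x).sub_const b).div_const σ)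
  refine ((h1.sub h2).div_const (σ ^ j)).congr_deriv ?_
  rw [pl, pow_succ]
  field_simp

theorem contDiff_pl (σ a b : ℝ) (hj : j ≤ 2) : ContDiff ℝ 3 (pl σ a b j) := by
  have h1 : ContDiff ℝ 3 fun x : ℝ => st j ((x - a) / σ + 1) :=
    (contDiff_st hj).comp (((contDiff_id.sub contDiff_const).div_const σ).add contDiff_const)
  have h2 : ContDiff ℝ 3 fun x : ℝ => st j ((x - b) / σ) :=
    (contDiff_st hj).comp ((contDiff_id.sub contDiff_const).div_const σ)
  exact (h1.sub h2).div_const (σ ^ j)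

/-- `DB.coord`, `DB.sub`, `DB.const_mul`. -/
theorem DB_pl : ∃ C : ℝ, 1 ≤ C ∧ ∀ (σ a b ℓ : ℝ) (j : ℕ) (c : Fin 3), 0 < σ → 0 < ℓ → j ≤ 2 →
    DB 3 (C / σ ^ j) (σ * ℓ)⁻¹ fun x => pl σ a b j (x c / ℓ) := by
  obtain ⟨C, hC, hb⟩ := st_bound
  refine ⟨C + C, by linarith, fun σ a b ℓ j c hσ hℓ hj => ?_⟩
  have h1 := DB.coord (r := 3) (contDiff_st hj) (hb j hj) c (σ * ℓ)⁻¹ (1 - a / σ)
  have h2 := DB.coord (r := 3) (contDiff_st hj) (hb j hj) c (σ * ℓ)⁻¹ (-(b / σ))
  have h3 := (h1.sub h2).const_mul (σ ^ j)⁻¹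
  rw [abs_of_pos (by positivity), abs_of_pos (by positivity), ← div_eq_inv_mul] at h3
  convert h3 using 2 with x
  rw [pl, div_eq_inv_mul]
  congr 3 <;> field_simp <;> ring

theorem Step_cont (σ : ℝ) : Continuous (pl σ (2 * σ) 1 0 : ℝ → ℝ) :=
  (contDiff_pl σ _ _ (j := 0) (by norm_num)).continuous

theorem Step_int (hσ : 0 < σ) (h4 : σ ≤ 1 / 4) :
    1 - 2 * σ ≤ ∫ s in σ..1 + σ, pl σ (2 * σ) 1 0 s := by
  have h1 : ∫ s in (2 * σ)..1, pl σ (2 * σ) 1 0 s = 1 - 2 * σ := by
    rw [intervalIntegral.integral_congr (g := fun _ => (1 : ℝ))]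
    · simp
    · intro s hs
      rw [uIcc_of_le (by linarith)] at hs
      simpa using pl_of_mem 0 hσ hs.1 hs.2
  rw [← h1]
  exact intervalIntegral.integral_mono_interval (by linarith) (by linarith) (by linarith)
    (Eventually.of_forall fun s => pl_nonneg hσ (by linarith) s)
    ((Step_cont σ).intervalIntegrable _ _)

theorem hasDerivAt_ramp (σ η : ℝ) : HasDerivAt (ramp σ) (ramp' σ η) η := by
  exact ((Step_cont σ).integral_hasStrictDerivAt σ η).hasDerivAt.div_const _

theorem continuous_ramp' (σ : ℝ) : Continuous (ramp' σ) := by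
  exact (Step_cont σ).div_const _

theorem contDiff_ramp (σ : ℝ) : ContDiff ℝ 1 (ramp σ) := by
  have : deriv (ramp σ) = ramp' σ := funext fun η => (hasDerivAt_ramp σ η).deriv
  rw [contDiff_one_iff_deriv, this]
  exact ⟨fun η => (hasDerivAt_ramp σ η).differentiableAt, continuous_ramp' σ⟩

/-- The normalising integral is at least `1 - 2 σ`. -/
theorem ramp'_bounds (hσ : 0 < σ) (h4 : σ ≤ 1 / 4) (η : ℝ) :
    0 ≤ ramp' σ η ∧ ramp' σ η ≤ 1 + 4 * σ := by
  have h1 := Step_int hσ h4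
  have h2 : 0 < ∫ s in σ..1 + σ, pl σ (2 * σ) 1 0 s := by linarith
  refine ⟨div_nonneg (pl_nonneg hσ (by linarith) η) h2.le, ?_⟩
  rw [ramp', div_le_iff₀ h2]
  have h3 := pl_le_one σ (2 * σ) 1 η
  have h5 := mul_le_mul_of_nonneg_left h1 (show 0 ≤ 1 + 4 * σ by linarith)
  nlinarith

theorem ramp_of_le (hσ : 0 < σ) (h4 : σ ≤ 1 / 4) {η : ℝ} (h : η ≤ σ) :
    ramp σ η = 0 ∧ ramp' σ η = 0 := by
  constructor
  · rw [ramp, intervalIntegral.integral_congr (a := σ) (b := η) (g := fun _ => (0 : ℝ))]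
    · simp
    · intro s hs
      rw [uIcc_of_ge h] at hs
      exact pl_of_le 0 hσ (by linarith) (by linarith [hs.2])
  · rw [ramp', pl_of_le 0 hσ (by linarith) (by linarith), zero_div]

theorem ramp_of_ge (hσ : 0 < σ) (h4 : σ ≤ 1 / 4) {η : ℝ} (h : 1 + σ ≤ η) :
    ramp σ η = 1 ∧ ramp' σ η = 0 := by
  have h1 := Step_int hσ h4
  have h2 : 0 < ∫ s in σ..1 + σ, pl σ (2 * σ) 1 0 s := by linarith
  constructor
  · rw [ramp, ← intervalIntegral.integral_add_adjacent_intervals (a := σ) (b := 1 + σ) (c := η)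
      ((Step_cont σ).intervalIntegrable _ _) ((Step_cont σ).intervalIntegrable _ _),
      intervalIntegral.integral_congr (a := 1 + σ) (b := η) (g := fun _ => (0 : ℝ))]
    · simp [h2.ne']
    · intro s hs
      rw [uIcc_of_le h] at hs
      exact pl_of_ge 0 hσ (by linarith) hs.1
  · rw [ramp', pl_of_ge 0 hσ (by linarith) h, zero_div]

theorem ramp_bounds (hσ : 0 < σ) (h4 : σ ≤ 1 / 4) (η : ℝ) : 0 ≤ ramp σ η ∧ ramp σ η ≤ 1 := by
  have hm : Monotone (ramp σ) :=
    monotone_of_hasDerivAt_nonneg (hasDerivAt_ramp σ) fun η => (ramp'_bounds hσ h4 η).1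
  constructor
  · have := hm (min_le_left η σ)
    rwa [(ramp_of_le hσ h4 (min_le_right η σ)).1] at this
  · have := hm (le_max_left η (1 + σ))
    rwa [(ramp_of_ge hσ h4 (le_max_right η (1 + σ))).1] at this

end Crest.Agent.R338
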