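/-
R338/Geo: the planar geometry of the weight
Skeleton by helper15 (row 338); keep the statements unchanged, add any helper lemmas you like.
-/
import Crest.Agent.R338.DBasic
import Crest.Agent.R338.Step

set_option autoImplicit false
set_option linter.unusedSectionVars false
set_option linter.unusedVariables false
set_option linter.unusedSimpArgs false

noncomputable section

namespace Crest.Agent.R338

open MeasureTheory Set Filter Crest.MathPhysics.ElectronicCoulomb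

/-! All lengths in the unit `ℓ`.  `xA A = S ^ 6 * A`, `yl l = S ^ 12 * (l + 1)`: different columns and
different levels are far apart, so at most one term of each sum is not zero.  It may be convenient
to prove the facts for `D.Good`, `100 ≤ D.S`, `D.sg ℝ ≤ 1 / 100` first. -/

theorem geo_sum_le {ι : Type} (s : Finset ι) (f : ι → ℝ) {B : ℝ} (hB : 0 ≤ B)
    (hle : ∀ i ∈ s, f i ≠ 0 → f i ≤ B) (hu : ∀ i ∈ s, ∀ j ∈ s, f i ≠ 0 → f j ≠ 0 → i = j) :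
    ∑ i ∈ s, f i ≤ B := by
  by_cases h : ∃ i ∈ s, f i ≠ 0
  · obtain ⟨i, hi, h0⟩ := h
    rw [Finset.sum_eq_single_of_mem i hi fun j hj hji => by
      by_contra h1
      exact hji (hu j hj i hi h1 h0)]
    exact hle i hi h0
  · push Not at h
    rw [Finset.sum_eq_zero h]
    exact hB

theorem geo_nat_eq {c : ℝ} {A B : ℕ} (hc : 0 < c) (h1 : c * A - c * B < c)
    (h2 : c * B - c * A < c) : A = B := by
  have h3 : (A : ℝ) < B + 1 := by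
    by_contra h
    push Not at h
    nlinarith
  have h4 : (B : ℝ) < A + 1 := by
    by_contra h
    push Not at h
    nlinarith
  have h5 : A < B + 1 := by exact_mod_cast h3
  have h6 : B < A + 1 := by exact_mod_cast h4
  omega

/-- The standing assumptions of this file. -/
structure GeoOK (D : Des) : Prop where
  good : D.Good
  big : (100 : ℝ) ≤ D.S
  small : D.sg ℝ ≤ 1 / 100

theorem geo_ev : ∀ᶠ D : Des in evD, GeoOK D := by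
  filter_upwards [ev_good, ev_ge 100, ev_sg] with D h1 h2 h3 using ⟨h1, h2, h3⟩

namespace GeoOK

variable {D : Des} (h : GeoOK D)
include h

theorem sg_pos : 0 < D.sg ℝ := h.good.sg_pos

theorem pow_ge {k : ℕ} (hk : 1 ≤ k) : (100 : ℝ) ≤ (D.S : ℝ) ^ k :=
  h.big.trans (by simpa using pow_le_pow_right₀ h.good.one_le hk)

theorem fE_pos : 0 < D.fE ℝ := by
  have := h.good.pos
  unfold Des.fE; positivity

theorem fB_nonneg : 0 ≤ D.fB ℝ :=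
  sub_nonneg.2 (inv_pow_le h.good.one_le (by norm_num))

theorem fT_pos : 0 < D.fT ℝ := by
  have := h.good.pos
  unfold Des.fT; positivity

theorem fE_add_fB : D.fE ℝ + D.fB ℝ = ((D.S : ℝ) ^ 2)⁻¹ := by
  unfold Des.fE Des.fB; ring

theorem sq_inv_le : ((D.S : ℝ) ^ 2)⁻¹ ≤ (D.S : ℝ)⁻¹ := by
  simpa using inv_pow_le (a := 1) (b := 2) h.good.one_le (by norm_num)

theorem xA_nonneg (A : ℕ) : 0 ≤ D.xA ℝ A := by
  unfold Des.xA; positivity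

theorem xA_le {A : ℕ} (hA : A ≤ 3 * D.n) : D.xA ℝ A ≤ 3 * (D.S : ℝ) ^ 7 := by
  have h1 : (A : ℝ) ≤ 3 * D.n := by exact_mod_cast hA
  have h2 := h.good.n_le
  have h3 : (0 : ℝ) ≤ (D.S : ℝ) ^ 6 := by positivity
  unfold Des.xA
  calc (D.S : ℝ) ^ 6 * A ≤ (D.S : ℝ) ^ 6 * (3 * D.S) := by gcongr; linarith
    _ = _ := by ring

theorem bus_le (q : ℕ) : D.xA ℝ (3 * q) ≤ D.xA ℝ (3 * q + 2) + 1 := by
  have h3 : (0 : ℝ) ≤ (D.S : ℝ) ^ 6 := by positivity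
  unfold Des.xA
  push_cast
  nlinarith

theorem yl_ge (l : ℕ) : (D.S : ℝ) ^ 12 ≤ D.yl ℝ l := by
  have h3 : (0 : ℝ) ≤ (D.S : ℝ) ^ 12 := by positivity
  have h4 : (0 : ℝ) ≤ l := Nat.cast_nonneg l
  unfold Des.yl
  nlinarith

theorem yl_ge' (l : ℕ) : 100 ≤ D.yl ℝ l := (h.pow_ge (by norm_num)).trans (h.yl_ge l)

theorem yl_le {l : ℕ} (hl : l ≤ D.Lv) : D.yl ℝ l ≤ 2 * (D.S : ℝ) ^ 13 := by
  have h1 : (l : ℝ) ≤ D.Lv := by exact_mod_cast hl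
  have h2 := h.good.L_le
  have h4 := h.good.one_le
  have h3 : (0 : ℝ) ≤ (D.S : ℝ) ^ 12 := by positivity
  unfold Des.yl
  calc (D.S : ℝ) ^ 12 * (l + 1) ≤ (D.S : ℝ) ^ 12 * (2 * D.S) := by gcongr; linarith
    _ = _ := by ring

theorem yl_le_top {l : ℕ} (hl : l < D.Lv) : D.yl ℝ l + 1 ≤ D.ytop ℝ := by
  have h1 : (l : ℝ) + 1 ≤ D.Lv := by exact_mod_cast hl
  have h3 := h.pow_ge (k := 12) (by norm_num)
  unfold Des.ytop Des.yl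
  nlinarith

theorem ytop_ge : 100 ≤ D.ytop ℝ := h.yl_ge' _

theorem xA_eq {A B : ℕ} {ξ : ℝ} (h1 : D.xA ℝ A - 1 ≤ ξ) (h2 : ξ ≤ D.xA ℝ A + 2)
    (h3 : D.xA ℝ B - 1 ≤ ξ) (h4 : ξ ≤ D.xA ℝ B + 2) : A = B := by
  have h5 := h.pow_ge (k := 6) (by norm_num)
  unfold Des.xA at h1 h2 h3 h4
  exact geo_nat_eq (c := (D.S : ℝ) ^ 6) (by linarith) (by linarith) (by linarith)

theorem bus_eq {q r : ℕ} {ξ : ℝ} (h1 : D.xA ℝ (3 * q) - 1 ≤ ξ) (h2 : ξ ≤ D.xA ℝ (3 * q + 2) + 2)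
    (h3 : D.xA ℝ (3 * r) - 1 ≤ ξ) (h4 : ξ ≤ D.xA ℝ (3 * r + 2) + 2) : q = r := by
  have h5 := h.pow_ge (k := 6) (by norm_num)
  unfold Des.xA at h1 h2 h3 h4
  push_cast at h1 h2 h3 h4
  exact geo_nat_eq (c := 3 * (D.S : ℝ) ^ 6) (by linarith) (by linarith) (by linarith)

theorem yl_eq {l m : ℕ} {η : ℝ} (h1 : D.yl ℝ l - 1 ≤ η) (h2 : η ≤ D.yl ℝ l + 2)
    (h3 : D.yl ℝ m - 1 ≤ η) (h4 : η ≤ D.yl ℝ m + 2) : l = m := by
  have h5 := h.pow_ge (k := 12) (by norm_num)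
  unfold Des.yl at h1 h2 h3 h4
  exact geo_nat_eq (c := (D.S : ℝ) ^ 12) (by linarith) (by linarith) (by linarith)

theorem col_nonneg (A : ℕ) (ξ : ℝ) : 0 ≤ D.col A 0 ξ := pl_nonneg h.sg_pos (by linarith) ξ

theorem col_le (A : ℕ) (ξ : ℝ) : D.col A 0 ξ ≤ 1 := pl_le_one _ _ _ _

theorem col_mem {A i : ℕ} {ξ : ℝ} (h0 : D.col A i ξ ≠ 0) :
    D.xA ℝ A - D.sg ℝ < ξ ∧ ξ < D.xA ℝ A + 1 + D.sg ℝ := mem_of_pl_ne h.sg_pos (by linarith) h0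

theorem col_one {A : ℕ} {ξ : ℝ} (hξ : ξ ∈ Icc (D.xA ℝ A) (D.xA ℝ A + 1)) : D.col A 0 ξ = 1 := by
  simpa [Des.col] using pl_of_mem 0 h.sg_pos hξ.1 hξ.2

theorem bus_nonneg (q : ℕ) (ξ : ℝ) : 0 ≤ D.bus q 0 ξ := pl_nonneg h.sg_pos (h.bus_le q) ξ

theorem bus_mem {q i : ℕ} {ξ : ℝ} (h0 : D.bus q i ξ ≠ 0) :
    D.xA ℝ (3 * q) - D.sg ℝ < ξ ∧ ξ < D.xA ℝ (3 * q + 2) + 1 + D.sg ℝ :=
  mem_of_pl_ne h.sg_pos (h.bus_le q) h0

theorem pad_mem {A l j : ℕ} {η : ℝ}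
    (h0 : (if D.pad A l = true then pl (D.sg ℝ) (D.yl ℝ l) (D.yl ℝ l + 1) j η else 0) ≠ 0) :
    D.pad A l = true ∧ D.yl ℝ l - D.sg ℝ < η ∧ η < D.yl ℝ l + 1 + D.sg ℝ := by
  split_ifs at h0 with hp
  · exact ⟨hp, mem_of_pl_ne h.sg_pos (by linarith) h0⟩
  · exact absurd rfl h0

theorem pads_nonneg (A : ℕ) (η : ℝ) : 0 ≤ ∑ l ∈ Finset.range D.Lv,
    if D.pad A l = true then pl (D.sg ℝ) (D.yl ℝ l) (D.yl ℝ l + 1) 0 η else 0 :=
  Finset.sum_nonneg fun l _ => by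
    split_ifs
    · exact pl_nonneg h.sg_pos (by linarith) η
    · exact le_rfl

theorem pads_le (A : ℕ) (η : ℝ) : (∑ l ∈ Finset.range D.Lv,
    if D.pad A l = true then pl (D.sg ℝ) (D.yl ℝ l) (D.yl ℝ l + 1) 0 η else 0) ≤ 1 := by
  have hs := h.small
  refine geo_sum_le _ _ zero_le_one (fun l _ _ => ?_) fun l _ m _ hl hm => ?_
  · split_ifs
    · exact pl_le_one _ _ _ _
    · exact zero_le_one
  · obtain ⟨-, h1, h2⟩ := h.pad_mem hl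
    obtain ⟨-, h3, h4⟩ := h.pad_mem hm
    exact h.yl_eq (η := η) (by linarith) (by linarith) (by linarith) (by linarith)

theorem pads_zero (A j : ℕ) {η : ℝ} (hη : ∀ l < D.Lv, D.pad A l = true →
      ¬ (D.yl ℝ l - D.sg ℝ < η ∧ η < D.yl ℝ l + 1 + D.sg ℝ)) : (∑ l ∈ Finset.range D.Lv,
    if D.pad A l = true then pl (D.sg ℝ) (D.yl ℝ l) (D.yl ℝ l + 1) j η else 0) = 0 :=
  Finset.sum_eq_zero fun l hl => by
    by_contra h0
    exact hη l (Finset.mem_range.1 hl) (h.pad_mem h0).1 (h.pad_mem h0).2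

theorem p1_nonneg (η : ℝ) : 0 ≤ pl (D.sg ℝ) (-1) (D.ytop ℝ) 0 η :=
  pl_nonneg h.sg_pos (by linarith [h.ytop_ge]) η

theorem p2_nonneg (η : ℝ) : 0 ≤ pl (D.sg ℝ) (1 + 2 * D.sg ℝ) (D.ytop ℝ) 0 η :=
  pl_nonneg h.sg_pos (by linarith [h.ytop_ge, h.small]) η

theorem p0_nonneg (η : ℝ) : 0 ≤ pl (D.sg ℝ) (-1) 0 0 η :=
  pl_nonneg h.sg_pos (by norm_num) η

theorem row_nonneg (A : ℕ) (η : ℝ) : 0 ≤ D.row A 0 η :=
  add_nonneg (add_nonneg (mul_nonneg h.fB_nonneg (h.p1_nonneg η))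
    (mul_nonneg h.fT_pos.le (h.p2_nonneg η))) (h.pads_nonneg A η)

theorem row_le (A : ℕ) (η : ℝ) : D.row A 0 η ≤ D.fB ℝ + D.fT ℝ + 1 :=
  add_le_add (add_le_add (mul_le_of_le_one_right h.fB_nonneg (pl_le_one _ _ _ _))
    (mul_le_of_le_one_right h.fT_pos.le (pl_le_one _ _ _ _))) (h.pads_le A η)

theorem row_le_off (A : ℕ) {η : ℝ} (hη : ∀ l < D.Lv, D.pad A l = true →
      ¬ (D.yl ℝ l - D.sg ℝ < η ∧ η < D.yl ℝ l + 1 + D.sg ℝ)) :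
    D.row A 0 η ≤ D.fB ℝ + D.fT ℝ := by
  unfold Des.row
  rw [h.pads_zero A 0 hη, add_zero]
  exact add_le_add (mul_le_of_le_one_right h.fB_nonneg (pl_le_one _ _ _ _))
    (mul_le_of_le_one_right h.fT_pos.le (pl_le_one _ _ _ _))

theorem row_le_low (A : ℕ) {η : ℝ} (hη : η ≤ 1 + D.sg ℝ) : D.row A 0 η ≤ D.fB ℝ := by
  have hs := h.small
  unfold Des.row
  rw [h.pads_zero A 0 fun l _ _ hl => by linarith [hl.1, h.yl_ge' l], add_zero,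
    pl_of_le 0 h.sg_pos (a := 1 + 2 * D.sg ℝ) (by linarith [h.ytop_ge]) (by linarith), mul_zero,
    add_zero]
  exact mul_le_of_le_one_right h.fB_nonneg (pl_le_one _ _ _ _)

theorem row_zero (A j : ℕ) {η : ℝ} (hη : η ≤ -1 - D.sg ℝ ∨ D.ytop ℝ + D.sg ℝ ≤ η) :
    D.row A j η = 0 := by
  have hs := h.small
  have h0 := h.sg_pos
  have ht := h.ytop_ge
  unfold Des.row
  rcases hη with hη | hη
  · rw [h.pads_zero A j fun l _ _ hl => by linarith [hl.1, h.yl_ge' l],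
      pl_of_le j h0 (by linarith) hη,
      pl_of_le j h0 (a := 1 + 2 * D.sg ℝ) (by linarith) (by linarith)]
    simp
  · rw [h.pads_zero A j fun l hl' _ hl => by linarith [hl.2, h.yl_le_top hl'],
      pl_of_ge j h0 (by linarith) hη,
      pl_of_ge j h0 (a := 1 + 2 * D.sg ℝ) (by linarith) hη]
    simp

theorem wires_nonneg (ξ η : ℝ) :
    0 ≤ ∑ A ∈ Finset.range (3 * D.n), D.col A 0 ξ * D.row A 0 η :=
  Finset.sum_nonneg fun A _ => mul_nonneg (h.col_nonneg A ξ) (h.row_nonneg A η)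

theorem wires_le {ξ η B : ℝ} (hB : 0 ≤ B)
    (hr : ∀ A < 3 * D.n, D.col A 0 ξ ≠ 0 → D.row A 0 η ≤ B) :
    ∑ A ∈ Finset.range (3 * D.n), D.col A 0 ξ * D.row A 0 η ≤ B := by
  have hs := h.small
  refine geo_sum_le _ _ hB (fun A hA h0 => ?_) fun A _ A' _ hA hA' => ?_
  · exact (mul_le_of_le_one_left (h.row_nonneg A η) (h.col_le A ξ)).trans
      (hr A (Finset.mem_range.1 hA) (left_ne_zero_of_mul h0))
  · obtain ⟨h1, h2⟩ := h.col_mem (left_ne_zero_of_mul hA)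
    obtain ⟨h3, h4⟩ := h.col_mem (left_ne_zero_of_mul hA')
    exact h.xA_eq (ξ := ξ) (by linarith) (by linarith) (by linarith) (by linarith)

theorem wires_eq {A : ℕ} (hA : A < 3 * D.n) {ξ : ℝ} (hξ : ξ ∈ Icc (D.xA ℝ A) (D.xA ℝ A + 1))
    (η : ℝ) : ∑ A ∈ Finset.range (3 * D.n), D.col A 0 ξ * D.row A 0 η = D.row A 0 η := by
  have hs := h.small
  rw [Finset.sum_eq_single_of_mem A (Finset.mem_range.2 hA), h.col_one hξ, one_mul]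
  intro B _ hBA
  by_contra h0
  obtain ⟨h3, h4⟩ := h.col_mem (left_ne_zero_of_mul h0)
  exact hBA (h.xA_eq (ξ := ξ) (by linarith) (by linarith) (by linarith [hξ.1])
    (by linarith [hξ.2]))

theorem buses_nonneg (ξ η : ℝ) :
    0 ≤ ∑ q ∈ Finset.range D.n, D.bus q 0 ξ * pl (D.sg ℝ) (-1) 0 0 η :=
  Finset.sum_nonneg fun q _ => mul_nonneg (h.bus_nonneg q ξ) (h.p0_nonneg η)

theorem buses_le (ξ η : ℝ) :
    ∑ q ∈ Finset.range D.n, D.bus q 0 ξ * pl (D.sg ℝ) (-1) 0 0 η ≤ 1 := by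
  have hs := h.small
  refine geo_sum_le _ _ zero_le_one (fun q _ _ => ?_) fun q _ r _ hq hr => ?_
  · exact mul_le_one₀ (pl_le_one _ _ _ _) (h.p0_nonneg η) (pl_le_one _ _ _ _)
  · obtain ⟨h1, h2⟩ := h.bus_mem (left_ne_zero_of_mul hq)
    obtain ⟨h3, h4⟩ := h.bus_mem (left_ne_zero_of_mul hr)
    exact h.bus_eq (ξ := ξ) (by linarith) (by linarith) (by linarith) (by linarith)

theorem buses_zero (i j : ℕ) (ξ : ℝ) {η : ℝ} (hη : η ≤ -1 - D.sg ℝ ∨ D.sg ℝ ≤ η) :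
    ∑ q ∈ Finset.range D.n, D.bus q i ξ * pl (D.sg ℝ) (-1) 0 j η = 0 := by
  refine Finset.sum_eq_zero fun q _ => ?_
  rcases hη with hη | hη
  · rw [pl_of_le j h.sg_pos (by norm_num) hη, mul_zero]
  · rw [pl_of_ge j h.sg_pos (by norm_num) (by linarith), mul_zero]

theorem F00 (ξ η : ℝ) : D.F 0 0 ξ η = D.fE ℝ +
    ∑ A ∈ Finset.range (3 * D.n), D.col A 0 ξ * D.row A 0 η +
    D.fT ℝ * ∑ q ∈ Finset.range D.n, D.bus q 0 ξ * pl (D.sg ℝ) (-1) 0 0 η := by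
  simp [Des.F]

theorem F_low (ξ : ℝ) {η : ℝ} (hη : η ≤ 1 + D.sg ℝ) :
    D.F 0 0 ξ η ≤ ((D.S : ℝ) ^ 2)⁻¹ + (D.S : ℝ)⁻¹ := by
  have h1 := h.wires_le (ξ := ξ) h.fB_nonneg fun A _ _ => h.row_le_low A hη
  have h2 := mul_le_of_le_one_right h.fT_pos.le (h.buses_le ξ η)
  rw [h.F00, ← h.fE_add_fB]
  have : D.fT ℝ = (D.S : ℝ)⁻¹ := rfl
  linarith

theorem F_ge_row {A : ℕ} (hA : A < 3 * D.n) {ξ : ℝ} (hξ : ξ ∈ Icc (D.xA ℝ A) (D.xA ℝ A + 1))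
    (η : ℝ) : D.fE ℝ + D.row A 0 η ≤ D.F 0 0 ξ η := by
  rw [h.F00, h.wires_eq hA hξ]
  exact le_add_of_nonneg_right (mul_nonneg h.fT_pos.le (h.buses_nonneg ξ η))

theorem G_mem {A l : ℕ} {ξ η : ℝ}
    (h0 : (if D.pad A l = true then pl (D.sg ℝ) (D.xA ℝ A + D.sg ℝ) (D.xA ℝ A + 1 - D.sg ℝ) 0 ξ *
      pl (D.sg ℝ) (D.yl ℝ l + D.sg ℝ) (D.yl ℝ l + 1 - D.sg ℝ) 0 η else 0) ≠ 0) :
    D.pad A l = true ∧ ξ ∈ Icc (D.xA ℝ A) (D.xA ℝ A + 1) ∧ η ∈ Icc (D.yl ℝ l) (D.yl ℝ l + 1) := by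
  have hs := h.small
  split_ifs at h0 with hp
  · obtain ⟨h1, h2⟩ := mem_of_pl_ne h.sg_pos (by linarith) (left_ne_zero_of_mul h0)
    obtain ⟨h3, h4⟩ := mem_of_pl_ne h.sg_pos (by linarith) (right_ne_zero_of_mul h0)
    exact ⟨hp, ⟨by linarith, by linarith⟩, ⟨by linarith, by linarith⟩⟩
  · exact absurd rfl h0

theorem G_zero (ξ η : ℝ) : D.G ξ η = 0 ∨
    ∃ A < 3 * D.n, ∃ l ∈ D.pads A, ξ ∈ Icc (D.xA ℝ A) (D.xA ℝ A + 1) ∧
      η ∈ Icc (D.yl ℝ l) (D.yl ℝ l + 1) := by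
  by_cases h0 : D.G ξ η = 0
  · exact Or.inl h0
  obtain ⟨A, hA, h1⟩ := Finset.exists_ne_zero_of_sum_ne_zero h0
  obtain ⟨l, hl, h2⟩ := Finset.exists_ne_zero_of_sum_ne_zero h1
  obtain ⟨h3, h4, h5⟩ := h.G_mem h2
  exact Or.inr ⟨A, Finset.mem_range.1 hA, l, Des.mem_pads.2 ⟨Finset.mem_range.1 hl, h3⟩, h4, h5⟩

theorem far1 : 3 * (D.S : ℝ) ^ 7 + 2 ≤ (D.S : ℝ) ^ 14 / 2 := by
  have h1 := h.pow_ge (k := 7) (by norm_num)
  have h2 : (D.S : ℝ) ^ 14 = (D.S : ℝ) ^ 7 * (D.S : ℝ) ^ 7 := by ring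
  nlinarith

theorem far2 : 2 * (D.S : ℝ) ^ 13 + 2 ≤ (D.S : ℝ) ^ 14 / 2 := by
  have h1 := h.pow_ge (k := 13) (by norm_num)
  have h2 : (D.S : ℝ) ^ 14 = (D.S : ℝ) ^ 13 * D.S := by ring
  have h3 := h.big
  nlinarith

theorem F_far {i j : ℕ} (hij : ¬ (i = 0 ∧ j = 0)) {ξ η : ℝ}
    (hf : (D.S : ℝ) ^ 14 / 2 ≤ |ξ| ∨ (D.S : ℝ) ^ 14 / 2 ≤ |η|) : D.F i j ξ η = 0 := by
  have hs := h.small
  have h0 := h.sg_pos
  have h1 := h.far1
  have h2 := h.far2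
  have h7 := h.pow_ge (k := 7) (by norm_num)
  have h13 := h.pow_ge (k := 13) (by norm_num)
  unfold Des.F
  rw [if_neg hij, zero_add]
  rcases hf with hf | hf
  · rw [Finset.sum_eq_zero, Finset.sum_eq_zero, mul_zero, add_zero]
    · intro q hq
      by_contra h3
      obtain ⟨h4, h5⟩ := h.bus_mem (left_ne_zero_of_mul h3)
      have h6 := h.xA_le (A := 3 * q + 2) (by have := Finset.mem_range.1 hq; omega)
      have h8 := h.xA_nonneg (3 * q)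
      rcases le_abs.1 hf with hf | hf <;> linarith
    · intro A hA
      by_contra h3
      obtain ⟨h4, h5⟩ := h.col_mem (left_ne_zero_of_mul h3)
      have h6 := h.xA_le (Finset.mem_range.1 hA).le
      have h8 := h.xA_nonneg A
      rcases le_abs.1 hf with hf | hf <;> linarith
  · have h6 : D.ytop ℝ ≤ 2 * (D.S : ℝ) ^ 13 := h.yl_le le_rfl
    rw [h.buses_zero i j ξ ((le_abs.1 hf).symm.imp (fun hf => by linarith) fun hf => by linarith),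
      Finset.sum_eq_zero fun A _ => by
        rw [h.row_zero A j ((le_abs.1 hf).symm.imp (fun hf => by linarith) fun hf => by linarith),
          mul_zero]]
    simp

end GeoOK

theorem hasDerivAt_F_x {D : Des} (h : D.Good) {i : ℕ} (hi : i ≤ 1) (j : ℕ) (ξ η : ℝ) :
    HasDerivAt (fun ξ => D.F i j ξ η) (D.F (i + 1) j ξ η) ξ := by
  unfold Des.F
  rw [if_neg (show ¬ (i + 1 = 0 ∧ j = 0) by omega)]
  refine ((hasDerivAt_const _ _).add (HasDerivAt.fun_sum fun A _ => ?_)).add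
    ((HasDerivAt.fun_sum fun q _ => ?_).const_mul _)
  · exact (hasDerivAt_pl h.sg_pos _ _ hi ξ).mul_const _
  · exact (hasDerivAt_pl h.sg_pos _ _ hi ξ).mul_const _

theorem hasDerivAt_F_y {D : Des} (h : D.Good) (i : ℕ) {j : ℕ} (hj : j ≤ 1) (ξ η : ℝ) :
    HasDerivAt (fun η => D.F i j ξ η) (D.F i (j + 1) ξ η) η := by
  unfold Des.F
  rw [if_neg (show ¬ (i = 0 ∧ j + 1 = 0) by omega)]
  refine ((hasDerivAt_const _ _).add (HasDerivAt.fun_sum fun A _ => ?_)).add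
    ((HasDerivAt.fun_sum fun q _ => ?_).const_mul _)
  · refine HasDerivAt.const_mul _ ?_
    unfold Des.row
    refine (((hasDerivAt_pl h.sg_pos _ _ hj η).const_mul _).add
      ((hasDerivAt_pl h.sg_pos _ _ hj η).const_mul _)).add (HasDerivAt.fun_sum fun l _ => ?_)
    split_ifs
    · exact hasDerivAt_pl h.sg_pos _ _ hj η
    · exact hasDerivAt_const _ _
  · exact (hasDerivAt_pl h.sg_pos _ _ hj η).const_mul _

theorem F_ge : ∀ᶠ D : Des in evD, ∀ ξ η : ℝ, ((D.S : ℝ) ^ 3)⁻¹ ≤ D.F 0 0 ξ η := by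
  filter_upwards [geo_ev] with D h ξ η
  have h1 := h.wires_nonneg ξ η
  have h2 := mul_nonneg h.fT_pos.le (h.buses_nonneg ξ η)
  have : D.fE ℝ = ((D.S : ℝ) ^ 3)⁻¹ := rfl
  rw [h.F00]
  linarith

theorem F_le : ∀ᶠ D : Des in evD, ∀ ξ η : ℝ, D.F 0 0 ξ η ≤ D.FP ℝ := by
  filter_upwards [geo_ev] with D h ξ η
  have hP : D.FP ℝ = 1 + (D.S : ℝ)⁻¹ + ((D.S : ℝ) ^ 2)⁻¹ := rfl
  have hT : D.fT ℝ = (D.S : ℝ)⁻¹ := rfl
  rcases le_total η (D.sg ℝ) with hη | hη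
  · have := h.F_low ξ (η := η) (by linarith)
    linarith
  · have h1 := h.wires_le (ξ := ξ) (η := η) (B := D.fB ℝ + D.fT ℝ + 1)
      (by linarith [h.fB_nonneg, h.fT_pos]) fun A _ _ => h.row_le A η
    have h2 := h.fE_add_fB
    rw [h.F00, h.buses_zero 0 0 ξ (Or.inr hη)]
    linarith

theorem F_pad : ∀ᶠ D : Des in evD, ∀ A < 3 * D.n, ∀ l ∈ D.pads A, ∀ ξ ∈ Icc (D.xA ℝ A) (D.xA ℝ A + 1),
    ∀ η ∈ Icc (D.yl ℝ l) (D.yl ℝ l + 1), D.F 0 0 ξ η = D.FP ℝ := by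
  filter_upwards [geo_ev] with D h A hA l hl ξ hξ η hη
  have hP : D.FP ℝ = 1 + (D.S : ℝ)⁻¹ + ((D.S : ℝ) ^ 2)⁻¹ := rfl
  have hT : D.fT ℝ = (D.S : ℝ)⁻¹ := rfl
  have hs := h.small
  have h0 := h.sg_pos
  obtain ⟨hl1, hl2⟩ := Des.mem_pads.1 hl
  have h1 := h.yl_ge' l
  have h2 := h.yl_le_top hl1
  have h3 := h.fE_add_fB
  rw [h.F00, h.wires_eq hA hξ, h.buses_zero 0 0 ξ (Or.inr (by linarith [hη.1]))]
  unfold Des.row
  rw [pl_of_mem 0 h0 (by linarith [hη.1]) (hη.2.trans h2),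
    pl_of_mem 0 h0 (by linarith [hη.1]) (hη.2.trans h2),
    Finset.sum_eq_single_of_mem l (Finset.mem_range.2 hl1), if_pos hl2,
    pl_of_mem 0 h0 hη.1 hη.2]
  · simp only [if_true]
    linarith
  · intro m _ hml
    by_contra h4
    obtain ⟨-, h5, h6⟩ := h.pad_mem h4
    exact hml (h.yl_eq (η := η) (by linarith) (by linarith) (by linarith [hη.1])
      (by linarith [hη.2]))

theorem F_wire_ge : ∀ᶠ D : Des in evD, ∀ A < 3 * D.n, ∀ ξ ∈ Icc (D.xA ℝ A) (D.xA ℝ A + 1),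
    ∀ η ∈ Icc (-1) (D.ytop ℝ), ((D.S : ℝ) ^ 2)⁻¹ ≤ D.F 0 0 ξ η := by
  filter_upwards [geo_ev] with D h A hA ξ hξ η hη
  refine le_trans ?_ (h.F_ge_row hA hξ η)
  have h1 := mul_nonneg h.fT_pos.le (h.p2_nonneg η)
  have h2 := h.pads_nonneg A η
  have h3 := h.fE_add_fB
  unfold Des.row
  rw [pl_of_mem 0 h.sg_pos hη.1 hη.2]
  simp only [if_true]
  linarith

theorem F_top_ge : ∀ᶠ D : Des in evD, ∀ A < 3 * D.n, ∀ ξ ∈ Icc (D.xA ℝ A) (D.xA ℝ A + 1),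
    ∀ η ∈ Icc (1 + 2 * D.sg ℝ) (D.ytop ℝ), (D.S : ℝ)⁻¹ ≤ D.F 0 0 ξ η := by
  filter_upwards [geo_ev] with D h A hA ξ hξ η hη
  refine le_trans ?_ (h.F_ge_row hA hξ η)
  have h1 := mul_nonneg h.fB_nonneg (h.p1_nonneg η)
  have h2 := h.pads_nonneg A η
  have h3 := h.fE_pos
  have hT : D.fT ℝ = (D.S : ℝ)⁻¹ := rfl
  unfold Des.row
  rw [pl_of_mem 0 h.sg_pos hη.1 hη.2]
  simp only [if_true]
  linarith

theorem F_bus_ge : ∀ᶠ D : Des in evD, ∀ q < D.n, ∀ ξ ∈ Icc (D.xA ℝ (3 * q)) (D.xA ℝ (3 * q + 2) + 1),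
    ∀ η ∈ Icc (-1 : ℝ) 0, (D.S : ℝ)⁻¹ ≤ D.F 0 0 ξ η := by
  filter_upwards [geo_ev] with D h q hq ξ hξ η hη
  have h1 := h.wires_nonneg ξ η
  have h3 := h.fE_pos
  have hT : D.fT ℝ = (D.S : ℝ)⁻¹ := rfl
  have h2 := Finset.single_le_sum (f := fun q => D.bus q 0 ξ * pl (D.sg ℝ) (-1) 0 0 η)
    (fun q _ => mul_nonneg (h.bus_nonneg q ξ) (h.p0_nonneg η)) (Finset.mem_range.2 hq)
  have h4 : D.bus q 0 ξ * pl (D.sg ℝ) (-1) 0 0 η = 1 := by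
    unfold Des.bus
    rw [pl_of_mem 0 h.sg_pos hξ.1 hξ.2, pl_of_mem 0 h.sg_pos hη.1 hη.2]
    simp
  simp only [h4] at h2
  have h5 := le_mul_of_one_le_right h.fT_pos.le h2
  rw [h.F00]
  linarith

theorem F_neck_le : ∀ᶠ D : Des in evD, ∀ ξ : ℝ, ∀ η ∈ Icc (D.sg ℝ) (1 + D.sg ℝ),
    D.F 0 0 ξ η ≤ ((D.S : ℝ) ^ 2)⁻¹ := by
  filter_upwards [geo_ev] with D h ξ η hη
  have h1 := h.wires_le (ξ := ξ) h.fB_nonneg fun A _ _ => h.row_le_low A hη.2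
  rw [h.F00, h.buses_zero 0 0 ξ (Or.inr hη.1), ← h.fE_add_fB]
  linarith

/-- Off the wires and buses `F` is constant. -/
theorem F_ext : ∀ᶠ D : Des in evD, ∀ ξ η : ℝ, D.F 0 0 ξ η = ((D.S : ℝ) ^ 3)⁻¹ ∨
    (∃ A < 3 * D.n, ξ ∈ Icc (D.xA ℝ A - D.sg ℝ) (D.xA ℝ A + 1 + D.sg ℝ) ∧
      η ∈ Icc (-1 - D.sg ℝ) (D.ytop ℝ + D.sg ℝ)) ∨
    ∃ q < D.n, ξ ∈ Icc (D.xA ℝ (3 * q) - D.sg ℝ) (D.xA ℝ (3 * q + 2) + 1 + D.sg ℝ) ∧
      η ∈ Icc (-1 - D.sg ℝ) (D.sg ℝ) := by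
  filter_upwards [geo_ev] with D h ξ η
  by_cases h1 : ∑ A ∈ Finset.range (3 * D.n), D.col A 0 ξ * D.row A 0 η = 0
  · by_cases h2 : ∑ q ∈ Finset.range D.n, D.bus q 0 ξ * pl (D.sg ℝ) (-1) 0 0 η = 0
    · left
      rw [h.F00, h1, h2, mul_zero, add_zero, add_zero]
      rfl
    · obtain ⟨q, hq, h3⟩ := Finset.exists_ne_zero_of_sum_ne_zero h2
      obtain ⟨h4, h5⟩ := h.bus_mem (left_ne_zero_of_mul h3)
      obtain ⟨h6, h7⟩ := mem_of_pl_ne h.sg_pos (by norm_num) (right_ne_zero_of_mul h3)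
      exact Or.inr (Or.inr ⟨q, Finset.mem_range.1 hq, ⟨h4.le, h5.le⟩, ⟨h6.le, by linarith⟩⟩)
  · obtain ⟨A, hA, h3⟩ := Finset.exists_ne_zero_of_sum_ne_zero h1
    obtain ⟨h4, h5⟩ := h.col_mem (left_ne_zero_of_mul h3)
    refine Or.inr (Or.inl ⟨A, Finset.mem_range.1 hA, ⟨h4.le, h5.le⟩, ?_⟩)
    by_contra h6
    rw [mem_Icc, not_and_or, not_le, not_le] at h6
    exact right_ne_zero_of_mul h3 (h.row_zero A 0 (h6.imp le_of_lt le_of_lt))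

/-- Off the pads `F` is small. -/
theorem F_small : ∀ᶠ D : Des in evD, ∀ ξ η : ℝ, D.F 0 0 ξ η ≤ 2 / (D.S : ℝ) ∨
    ∃ A < 3 * D.n, ∃ l ∈ D.pads A, ξ ∈ Icc (D.xA ℝ A - D.sg ℝ) (D.xA ℝ A + 1 + D.sg ℝ) ∧
      η ∈ Icc (D.yl ℝ l - D.sg ℝ) (D.yl ℝ l + 1 + D.sg ℝ) := by
  filter_upwards [geo_ev] with D h ξ η
  rw [or_iff_not_imp_right]
  intro hn
  have hT : D.fT ℝ = (D.S : ℝ)⁻¹ := rfl
  have h0 := h.sq_inv_le
  rw [div_eq_mul_inv]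
  rcases le_total η (D.sg ℝ) with hη | hη
  · have := h.F_low ξ (η := η) (by linarith)
    linarith
  · have h1 := h.wires_le (ξ := ξ) (η := η) (B := D.fB ℝ + D.fT ℝ)
      (by linarith [h.fB_nonneg, h.fT_pos]) fun A hA hc => h.row_le_off A fun l hl hp hl' =>
        hn ⟨A, hA, l, Des.mem_pads.2 ⟨hl, hp⟩, ⟨(h.col_mem hc).1.le, (h.col_mem hc).2.le⟩,
          ⟨hl'.1.le, hl'.2.le⟩⟩
    have h2 := h.fE_add_fB
    rw [h.F00, h.buses_zero 0 0 ξ (Or.inr hη)]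
    linarith

theorem G_bounds : ∀ᶠ D : Des in evD, ∀ ξ η : ℝ, 0 ≤ D.G ξ η ∧ D.G ξ η ≤ 1 := by
  filter_upwards [geo_ev] with D h ξ η
  have hs := h.small
  constructor
  · refine Finset.sum_nonneg fun A _ => Finset.sum_nonneg fun l _ => ?_
    split_ifs
    · exact mul_nonneg (pl_nonneg h.sg_pos (by linarith) _) (pl_nonneg h.sg_pos (by linarith) _)
    · exact le_rfl
  · refine geo_sum_le _ _ zero_le_one (fun A _ _ => ?_) fun A _ B _ hA hB => ?_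
    · refine geo_sum_le _ _ zero_le_one (fun l _ _ => ?_) fun l _ m _ hl hm => ?_
      · split_ifs
        · exact mul_le_one₀ (pl_le_one _ _ _ _) (pl_nonneg h.sg_pos (by linarith) _)
            (pl_le_one _ _ _ _)
        · exact zero_le_one
      · obtain ⟨-, -, h1, h2⟩ := h.G_mem hl
        obtain ⟨-, -, h3, h4⟩ := h.G_mem hm
        exact h.yl_eq (η := η) (by linarith) (by linarith) (by linarith) (by linarith)
    · obtain ⟨l, -, hl⟩ := Finset.exists_ne_zero_of_sum_ne_zero hA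
      obtain ⟨m, -, hm⟩ := Finset.exists_ne_zero_of_sum_ne_zero hB
      obtain ⟨-, ⟨h1, h2⟩, -⟩ := h.G_mem hl
      obtain ⟨-, ⟨h3, h4⟩, -⟩ := h.G_mem hm
      exact h.xA_eq (ξ := ξ) (by linarith) (by linarith) (by linarith) (by linarith)

theorem G_zero : ∀ᶠ D : Des in evD, ∀ ξ η : ℝ, D.G ξ η = 0 ∨
    ∃ A < 3 * D.n, ∃ l ∈ D.pads A, ξ ∈ Icc (D.xA ℝ A) (D.xA ℝ A + 1) ∧
      η ∈ Icc (D.yl ℝ l) (D.yl ℝ l + 1) := by
  filter_upwards [geo_ev] with D h ξ η using h.G_zero ξ η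

theorem G_one : ∀ᶠ D : Des in evD, ∀ A < 3 * D.n, ∀ l ∈ D.pads A,
    ∀ ξ ∈ Icc (D.xA ℝ A + D.sg ℝ) (D.xA ℝ A + 1 - D.sg ℝ),
    ∀ η ∈ Icc (D.yl ℝ l + D.sg ℝ) (D.yl ℝ l + 1 - D.sg ℝ), D.G ξ η = 1 := by
  filter_upwards [geo_ev] with D h A hA l hl ξ hξ η hη
  have h0 := h.sg_pos
  obtain ⟨hl1, hl2⟩ := Des.mem_pads.1 hl
  unfold Des.G
  rw [Finset.sum_eq_single_of_mem A (Finset.mem_range.2 hA),
    Finset.sum_eq_single_of_mem l (Finset.mem_range.2 hl1), if_pos hl2,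
    pl_of_mem 0 h0 hξ.1 hξ.2, pl_of_mem 0 h0 hη.1 hη.2]
  · simp
  · intro m _ hml
    by_contra h4
    obtain ⟨-, -, h5, h6⟩ := h.G_mem h4
    exact hml (h.yl_eq (η := η) (by linarith) (by linarith) (by linarith [hη.1])
      (by linarith [hη.2]))
  · intro B _ hBA
    refine Finset.sum_eq_zero fun m _ => ?_
    by_contra h4
    obtain ⟨-, ⟨h5, h6⟩, -⟩ := h.G_mem h4
    exact hBA (h.xA_eq (ξ := ξ) (by linarith) (by linarith) (by linarith [hξ.1])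
      (by linarith [hξ.2]))

/-- The extent of the structure. -/
theorem extent : ∀ᶠ D : Des in evD, (∀ A ≤ 3 * D.n, 0 ≤ D.xA ℝ A ∧ D.xA ℝ A ≤ 3 * (D.S : ℝ) ^ 7) ∧
    (∀ l ≤ D.Lv, (D.S : ℝ) ^ 12 ≤ D.yl ℝ l ∧ D.yl ℝ l ≤ 2 * (D.S : ℝ) ^ 13) ∧
    ∀ l < D.Lv, D.yl ℝ l + 1 ≤ D.ytop ℝ := by
  filter_upwards [geo_ev] with D h
  exact ⟨fun A hA => ⟨h.xA_nonneg A, h.xA_le hA⟩, fun l hl => ⟨h.yl_ge l, h.yl_le hl⟩,
    fun l hl => h.yl_le_top hl⟩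

theorem WG_far : ∀ᶠ D : Des in evD, ∀ ξ η : ℝ, ((D.S : ℝ) ^ 14 / 2 ≤ |ξ| ∨ (D.S : ℝ) ^ 14 / 2 ≤ |η|) →
    D.W ξ η = 0 ∧ D.G ξ η = 0 := by
  filter_upwards [geo_ev] with D h ξ η hf
  constructor
  · unfold Des.W
    rw [h.F_far (i := 2) (j := 0) (by omega) hf, h.F_far (i := 0) (j := 2) (by omega) hf,
      h.F_far (i := 1) (j := 0) (by omega) hf, h.F_far (i := 0) (j := 1) (by omega) hf]
    simp
  · refine (h.G_zero ξ η).resolve_right ?_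
    rintro ⟨A, hA, l, hl, ⟨h1, h2⟩, ⟨h3, h4⟩⟩
    have h5 := h.far1
    have h6 := h.far2
    have h7 := h.xA_le hA.le
    have h8 := h.xA_nonneg A
    have h9 := h.yl_le (Des.mem_pads.1 hl).1.le
    have h10 := h.yl_ge' l
    have h11 := h.pow_ge (k := 7) (by norm_num)
    have h12 := h.pow_ge (k := 13) (by norm_num)
    rcases hf with hf | hf <;> rcases le_abs.1 hf with hf | hf <;> linarith

end Crest.Agent.R338
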