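/-
R338/Vert: the vertical profile
Skeleton by helper15 (row 338); keep the statements unchanged, add any helper lemmas you like.
-/
import Crest.Agent.R338.DBasic
import Crest.Agent.R338.DBlib

set_option autoImplicit false
set_option linter.unusedSectionVars false
set_option linter.unusedVariables false
set_option linter.unusedSimpArgs false

noncomputable section

namespace Crest.Agent.R338

open MeasureTheory Set Filter Crest.MathPhysics.ElectronicCoulomb

variable {D : Des}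

theorem om_sq (D : Des) : D.om ^ 2 = 4 * Real.pi * (D.S : ℝ) ^ 11520 := by
  exact Real.sq_sqrt (by positivity)

theorem om_bounds (D : Des) : 3 * (D.S : ℝ) ^ 5760 ≤ D.om ∧ D.om ≤ 4 * (D.S : ℝ) ^ 5760 := by
  have h := om_sq D
  have h0 : 0 ≤ D.om := Real.sqrt_nonneg _
  rw [show (D.S : ℝ) ^ 11520 = ((D.S : ℝ) ^ 5760) ^ 2 by rw [← pow_mul]] at h
  have ht : 0 ≤ (D.S : ℝ) ^ 5760 := by positivity
  generalize (D.S : ℝ) ^ 5760 = t at h ht ⊢
  have h1 := Real.pi_gt_three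
  have h2 := Real.pi_le_four
  constructor
  · refine le_of_pow_le_pow_left₀ two_ne_zero h0 ?_
    rw [h]; nlinarith [sq_nonneg t]
  · refine le_of_pow_le_pow_left₀ two_ne_zero (by positivity) ?_
    rw [h]; nlinarith [sq_nonneg t]

theorem Vert_om_nonneg (D : Des) : 0 ≤ D.om := Real.sqrt_nonneg _

theorem Vert_exp (D : Des) (z : ℝ) :
    HasDerivAt (fun z => Real.exp (-(D.om * z ^ 2 / 2))) (D.phi1 z) z := by
  have h := ((((hasDerivAt_id z).pow 2).const_mul D.om).div_const 2).neg.exp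
  refine h.congr_deriv ?_
  simp only [Des.phi1, id, Pi.neg_apply, Pi.pow_apply]
  ring

theorem Vert_del_nonneg (D : Des) : 0 ≤ D.del ℝ := by unfold Des.del; positivity

theorem Vert_exp_le (D : Des) (z : ℝ) : Real.exp (-(D.om * z ^ 2 / 2)) ≤ D.phi z :=
  le_add_of_nonneg_right (Vert_del_nonneg D)

theorem Vert_del_le (D : Des) (z : ℝ) : D.del ℝ ≤ D.phi z :=
  le_add_of_nonneg_left (Real.exp_pos _).le

theorem Vert_exp_le_one (D : Des) (z : ℝ) : Real.exp (-(D.om * z ^ 2 / 2)) ≤ 1 :=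
  Real.exp_le_one_iff.2 (neg_nonpos.2 (by have := Vert_om_nonneg D; positivity))

/-- `ω |z| ≤ 4 c S²⁸⁸¹` for `|z| ≤ c z1`. -/
theorem Vert_small (h : D.Good) {z c : ℝ} (hz : |z| ≤ c * D.z1) :
    D.om * |z| ≤ 4 * c * (D.S : ℝ) ^ 2881 := by
  have h0 := h.pos
  calc D.om * |z| ≤ 4 * (D.S : ℝ) ^ 5760 * (c * D.z1) :=
        mul_le_mul (om_bounds D).2 hz (abs_nonneg _) (by positivity)
    _ = _ := by unfold Des.z1; field_simp

theorem Vert_small_sq (h : D.Good) {z c : ℝ} (hz : |z| ≤ c * D.z1) :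
    D.om ^ 2 * z ^ 2 ≤ 16 * c ^ 2 * (D.S : ℝ) ^ 5762 := by
  have h1 := pow_le_pow_left₀ (mul_nonneg (Vert_om_nonneg D) (abs_nonneg z)) (Vert_small h hz) 2
  rw [mul_pow, sq_abs] at h1
  exact h1.trans_eq (by ring)

/-- `3 S² ≤ ω z²` for `z1 ≤ |z|`. -/
theorem Vert_big (h : D.Good) {z : ℝ} (hz : D.z1 ≤ |z|) : 3 * (D.S : ℝ) ^ 2 ≤ D.om * z ^ 2 := by
  have h0 := h.pos
  have h1 := pow_le_pow_left₀ h.z1_pos.le hz 2
  rw [sq_abs] at h1
  calc 3 * (D.S : ℝ) ^ 2 = 3 * (D.S : ℝ) ^ 5760 * D.z1 ^ 2 := by unfold Des.z1; field_simp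
    _ ≤ _ := mul_le_mul (om_bounds D).1 h1 (by positivity) (Vert_om_nonneg D)

theorem hasDerivAt_phi (D : Des) (z : ℝ) : HasDerivAt D.phi (D.phi1 z) z := by
  exact ((Vert_exp D z).add_const (D.del ℝ))

theorem hasDerivAt_phi1 (D : Des) (z : ℝ) : HasDerivAt D.phi1 (D.phi2 z) z := by
  have h := (((hasDerivAt_id z).const_mul D.om).neg).mul (Vert_exp D z)
  refine h.congr_deriv ?_
  simp only [Des.phi1, Des.phi2, id, Pi.neg_apply]
  ring

theorem continuous_phi (D : Des) : Continuous D.phi := by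
  unfold Des.phi; fun_prop

theorem continuous_phi2 (D : Des) : Continuous D.phi2 := by
  unfold Des.phi2; fun_prop

theorem contDiff_phi (D : Des) : ContDiff ℝ 2 D.phi := by
  unfold Des.phi; fun_prop

theorem phi_pos (D : Des) (z : ℝ) : 0 < D.phi z := by
  exact (Real.exp_pos _).trans_le (Vert_exp_le D z)

theorem phi_le (h : D.Good) (z : ℝ) : D.phi z ≤ 2 := by
  have h1 : D.del ℝ ≤ 1 := inv_le_one_of_one_le₀ (one_le_pow₀ h.one_le)
  have h2 := Vert_exp_le_one D z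
  unfold Des.phi
  linarith

theorem zw_phi (h : D.Good) : ZW (fun z => D.phi z ^ 2) D.z1 D.mz := by
  refine ⟨(continuous_phi D).pow 2, fun z => pow_pos (phi_pos D z) 2, fun z => ?_,
    fun a ha b _ hab => ?_, h.z1_pos, rfl⟩
  · simp only [Des.phi, neg_sq]
  · refine pow_le_pow_left₀ (phi_pos D b).le ?_ 2
    unfold Des.phi
    have := Vert_om_nonneg D
    have ha' : 0 ≤ a := ha
    gcongr

/-- With `s = ω z² ≥ 3 S²`: `(1 + ω s) exp (-s / 2) ≤ S⁻³⁸⁴⁰`; use `s ≤ 4 exp (s / 4)` and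
`S ^ N * exp (-(3 / 4) S²) → 0`. -/
theorem phi_tail : ∀ᶠ D : Des in evD, ∀ z, D.z1 ≤ |z| →
    (1 + D.om ^ 2 * z ^ 2) * Real.exp (-(D.om * z ^ 2 / 2)) ≤ D.del ℝ := by
  have h1 : ∀ᶠ s : ℝ in atTop, s ^ 9600 * Real.exp (-s) < 1 / 17 :=
    (Real.tendsto_pow_mul_exp_neg_atTop_nhds_zero 9600).eventually (gt_mem_nhds (by norm_num))
  filter_upwards [ev_good, ev_ge 2, ev_of_atTop h1] with D hD h2 h3 z hz
  have h0 := hD.pos
  have hb := Vert_big hD hz
  have ho := (om_bounds D).2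
  have ho0 := Vert_om_nonneg D
  rw [show D.om ^ 2 * z ^ 2 = D.om * (D.om * z ^ 2) by ring]
  generalize D.om * z ^ 2 = s at hb ⊢
  have hs0 : 0 ≤ s := le_trans (by positivity) hb
  have h4 : s ≤ 4 * Real.exp (s / 4) := by linarith [Real.add_one_le_exp (s / 4)]
  have h5 : 1 ≤ Real.exp (s / 4) := Real.one_le_exp (by positivity)
  have h6 : 1 ≤ (D.S : ℝ) ^ 5760 := one_le_pow₀ hD.one_le
  have h7 : 1 + D.om * s ≤ 17 * (D.S : ℝ) ^ 5760 * Real.exp (s / 4) := by
    have a1 := mul_le_mul ho h4 hs0 (by positivity)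
    have a2 := one_le_mul_of_one_le_of_one_le h6 h5
    generalize (D.S : ℝ) ^ 5760 = t at a1 a2 ⊢
    linarith
  have h8 : Real.exp (s / 4) * Real.exp (-(s / 2)) ≤ Real.exp (-(D.S : ℝ)) := by
    rw [← Real.exp_add]
    exact Real.exp_le_exp.2 (by nlinarith)
  calc (1 + D.om * s) * Real.exp (-(s / 2))
      ≤ 17 * (D.S : ℝ) ^ 5760 * Real.exp (s / 4) * Real.exp (-(s / 2)) := by gcongr
    _ ≤ 17 * (D.S : ℝ) ^ 5760 * Real.exp (-(D.S : ℝ)) := by
        rw [mul_assoc _ (Real.exp (s / 4))]; gcongr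
    _ = 17 * ((D.S : ℝ) ^ 9600 * Real.exp (-(D.S : ℝ))) * D.del ℝ := by
        unfold Des.del; field_simp
    _ ≤ 1 * D.del ℝ := mul_le_mul_of_nonneg_right (by linarith) hD.del_pos.le
    _ = _ := one_mul _

theorem phi_tail' : ∀ᶠ D : Des in evD, ∀ z, D.z1 ≤ |z| → D.phi z ≤ 2 * D.del ℝ := by
  filter_upwards [phi_tail] with D h z hz
  have h1 := h z hz
  have h2 : Real.exp (-(D.om * z ^ 2 / 2)) ≤
      (1 + D.om ^ 2 * z ^ 2) * Real.exp (-(D.om * z ^ 2 / 2)) :=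
    le_mul_of_one_le_left (Real.exp_pos _).le (le_add_of_nonneg_right (by positivity))
  unfold Des.phi
  linarith

/-- On `|z| ≤ S⁻²⁸⁸⁰ / 2` the profile satisfies `φ² ≥ exp (-1) ≥ 1 / 3`. -/
theorem z1_le_mz (h : D.Good) : D.z1 ≤ 3 * D.S * D.mz := by
  have h0 := h.pos
  set a : ℝ := ((D.S : ℝ) ^ 2880)⁻¹ / 2 with ha
  have ha0 : 0 < a := by positivity
  have haz : a ≤ D.z1 := by
    have := inv_pow_le (a := 2879) (b := 2880) h.one_le (by norm_num)
    have h2 : 0 < ((D.S : ℝ) ^ 2880)⁻¹ := by positivity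
    unfold Des.z1
    linarith
  have hc : Continuous fun z => D.phi z ^ 2 := (continuous_phi D).pow 2
  have h1 : ∫ z in (-a)..a, D.phi z ^ 2 ≤ D.mz :=
    intervalIntegral.integral_mono_interval (by linarith) (by linarith) haz
      (Eventually.of_forall fun z => sq_nonneg _) (hc.intervalIntegrable _ _)
  have h2 : ∫ z in (-a)..a, (1 / 3 : ℝ) ≤ ∫ z in (-a)..a, D.phi z ^ 2 := by
    refine intervalIntegral.integral_mono_on (by linarith) (by simp) (hc.intervalIntegrable _ _)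
      fun z hz => ?_
    have b1 : z ^ 2 ≤ a ^ 2 := sq_le_sq' hz.1 hz.2
    have b2 : D.om * z ^ 2 ≤ 1 :=
      (mul_le_mul (om_bounds D).2 b1 (sq_nonneg _) (by positivity)).trans_eq (by
        rw [ha]; field_simp; norm_num)
    have b3 : (1 / 3 : ℝ) ≤ Real.exp (-1) := by
      have := Real.exp_neg_one_gt_d9
      linarith
    calc (1 / 3 : ℝ) ≤ Real.exp (-1) := b3
      _ ≤ Real.exp (-(D.om * z ^ 2 / 2)) ^ 2 := by
          rw [← Real.exp_nat_mul]
          exact Real.exp_le_exp.2 (by push_cast; linarith)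
      _ ≤ _ := pow_le_pow_left₀ (Real.exp_pos _).le (Vert_exp_le D z) 2
  rw [intervalIntegral.integral_const, smul_eq_mul] at h2
  calc D.z1 = 3 * D.S * ((a - -a) * (1 / 3)) := by rw [ha]; unfold Des.z1; field_simp; norm_num
    _ ≤ _ := by gcongr; exact h2.trans h1

theorem mz_pos (h : D.Good) : 0 < D.mz := (zw_phi h).mz_pos

theorem mass_pos (h : D.Good) : 0 < D.mass := by
  have := mz_pos h
  have := h.one_le_wP
  have := h.ell_pos
  have := h.one_le_M
  unfold Des.mass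
  positivity

theorem ell_sq_mz_le (h : D.Good) : D.M * (D.ell ℝ ^ 2 * D.mz) ≤ D.mass := by
  have h1 := mz_pos h
  have h2 : 1 ≤ D.wP ℝ ^ 2 := one_le_pow₀ h.one_le_wP
  have h3 : 0 ≤ D.M * (D.ell ℝ ^ 2 * D.mz) := by positivity
  exact (le_mul_of_one_le_left h3 h2).trans_eq (by unfold Des.mass; ring)

theorem tt_mul_mass (h : D.Good) : D.tt ℝ * D.mass = ((D.S : ℝ) ^ 2144)⁻¹ * D.mz / 2 := by
  have h0 := h.pos
  have h1 : 0 < D.wP ℝ := zero_lt_one.trans_le h.one_le_wP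
  have h2 : (0 : ℝ) < D.M := zero_lt_one.trans_le h.one_le_M
  unfold Des.tt Des.mass Des.ell
  generalize D.wP ℝ = w at h1 ⊢
  field_simp

theorem int_phi_two : ∀ᶠ D : Des in evD,
    ∫ z in (-(2 * D.z1))..(2 * D.z1), D.phi z ^ 2 ≤ (1 + ((D.S : ℝ) ^ 100)⁻¹) * D.mz := by
  filter_upwards [ev_good, ev_ge 24, phi_tail'] with D hD h24 ht
  have h0 := hD.pos
  have hz := hD.z1_pos
  have hc : Continuous fun z => D.phi z ^ 2 := (continuous_phi D).pow 2
  have e1 := intervalIntegral.integral_add_adjacent_intervals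
    (hc.intervalIntegrable (μ := volume) (-(2 * D.z1)) (-D.z1))
    (hc.intervalIntegrable (-D.z1) D.z1)
  have e2 := intervalIntegral.integral_add_adjacent_intervals
    (hc.intervalIntegrable (μ := volume) (-(2 * D.z1)) D.z1)
    (hc.intervalIntegrable D.z1 (2 * D.z1))
  have b1 : ∫ z in (-(2 * D.z1))..(-D.z1), D.phi z ^ 2 ≤
      ∫ z in (-(2 * D.z1))..(-D.z1), (2 * D.del ℝ) ^ 2 :=
    intervalIntegral.integral_mono_on (by linarith) (hc.intervalIntegrable _ _) (by simp)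
      fun z hz' => pow_le_pow_left₀ (phi_pos D z).le
        (ht z (le_trans (by linarith [hz'.2]) (neg_le_abs z))) 2
  have b2 : ∫ z in D.z1..(2 * D.z1), D.phi z ^ 2 ≤ ∫ z in D.z1..(2 * D.z1), (2 * D.del ℝ) ^ 2 :=
    intervalIntegral.integral_mono_on (by linarith) (hc.intervalIntegrable _ _) (by simp)
      fun z hz' => pow_le_pow_left₀ (phi_pos D z).le (ht z (hz'.1.trans (le_abs_self z))) 2
  rw [intervalIntegral.integral_const, smul_eq_mul] at b1 b2
  have b3 : 2 * (D.z1 * (2 * D.del ℝ) ^ 2) ≤ ((D.S : ℝ) ^ 100)⁻¹ * D.mz := by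
    have := mz_pos hD
    calc 2 * (D.z1 * (2 * D.del ℝ) ^ 2) ≤ 2 * ((3 * D.S * D.mz) * (2 * D.del ℝ) ^ 2) := by
          exact mul_le_mul_of_nonneg_left
            (mul_le_mul_of_nonneg_right (z1_le_mz hD) (sq_nonneg _)) two_pos.le
      _ = 24 * ((D.S : ℝ) ^ 7679)⁻¹ * D.mz := by unfold Des.del; field_simp; norm_num
      _ ≤ _ := mul_le_mul_of_nonneg_right (mul_inv_pow_le hD.one_le h24 (by norm_num)) this.le
  have e3 : ∫ z in (-D.z1)..D.z1, D.phi z ^ 2 = D.mz := rfl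
  rw [← e2, ← e1, e3]
  generalize (2 * D.del ℝ) ^ 2 = t at b1 b2 b3
  generalize ((D.S : ℝ) ^ 100)⁻¹ = u at b3 ⊢
  linarith

/-- `Wt.coord`; for `|z| ≤ z1` use `ω z1 ≤ 4 S²⁸⁸¹`, otherwise `phi_tail`. -/
theorem wt_phi : ∀ᶠ D : Des in evD, Wt (fun x => D.phi (x 2)) (5 * (D.S : ℝ) ^ 2881) := by
  filter_upwards [ev_good, phi_tail] with D hD ht
  have h0 := hD.pos
  have ho := Vert_om_nonneg D
  have h1 : 1 ≤ (D.S : ℝ) ^ 2881 := one_le_pow₀ hD.one_le
  have hL : 1 ≤ 5 * (D.S : ℝ) ^ 2881 := by linarith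
  refine Wt.coord (hasDerivAt_phi D) (hasDerivAt_phi1 D) (continuous_phi2 D) (phi_pos D)
    (fun z => ?_) (fun z => ?_) 2
  · rw [Des.phi1, abs_mul, abs_neg, abs_mul, abs_of_nonneg ho, abs_of_pos (Real.exp_pos _)]
    rcases le_total |z| D.z1 with hz | hz
    · have := Vert_small hD (c := 1) (by rwa [one_mul])
      exact mul_le_mul (by linarith) (Vert_exp_le D z) (Real.exp_pos _).le (by linarith)
    · have a1 : D.om * |z| ≤ 1 + D.om ^ 2 * z ^ 2 := by
        rw [← sq_abs z]; nlinarith [sq_nonneg (D.om * |z| - 1), sq_nonneg (D.om * |z|)]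
      exact ((mul_le_mul_of_nonneg_right a1 (Real.exp_pos _).le).trans (ht z hz)).trans
        ((Vert_del_le D z).trans (le_mul_of_one_le_left (phi_pos D z).le hL))
  · rw [Des.phi2, abs_mul, abs_of_pos (Real.exp_pos _)]
    rcases le_total |z| D.z1 with hz | hz
    · have a1 := Vert_small_sq hD (c := 1) (by rwa [one_mul])
      have a2 := (om_bounds D).2
      have a3 : (D.S : ℝ) ^ 5760 ≤ (D.S : ℝ) ^ 5762 := pow_le_pow_right₀ hD.one_le (by norm_num)
      have a4 : 0 ≤ D.om ^ 2 * z ^ 2 := by positivity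
      have a5 : 0 ≤ (D.S : ℝ) ^ 5762 := by positivity
      refine mul_le_mul ?_ (Vert_exp_le D z) (Real.exp_pos _).le (by positivity)
      rw [show (5 * (D.S : ℝ) ^ 2881) ^ 2 = 25 * (D.S : ℝ) ^ 5762 by ring, abs_le]
      constructor <;> linarith
    · have a1 := Vert_big hD hz
      have a2 : 1 ≤ (D.S : ℝ) ^ 2 := one_le_pow₀ hD.one_le
      have a3 : D.om ≤ D.om ^ 2 * z ^ 2 := by
        rw [show D.om ^ 2 * z ^ 2 = D.om * (D.om * z ^ 2) by ring]
        exact le_mul_of_one_le_right ho (by linarith)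
      have a4 : |D.om ^ 2 * z ^ 2 - D.om| ≤ 1 + D.om ^ 2 * z ^ 2 := by
        rw [abs_of_nonneg (by linarith)]; linarith
      exact ((mul_le_mul_of_nonneg_right a4 (Real.exp_pos _).le).trans (ht z hz)).trans
        ((Vert_del_le D z).trans (le_mul_of_one_le_left (phi_pos D z).le (one_le_pow₀ hL)))

/-- The identity behind the vertical bounds. -/
theorem vert_id (D : Des) (z : ℝ) :
    D.om ^ 2 * z ^ 2 / 2 - D.phi2 z / (2 * D.phi z) - D.om / 2 =
      (D.om ^ 2 * z ^ 2 - D.om) / 2 * (D.del ℝ / D.phi z) := by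
  have h := (phi_pos D z).ne'
  have e : D.del ℝ = D.phi z - Real.exp (-(D.om * z ^ 2 / 2)) := by unfold Des.phi; ring
  rw [e, Des.phi2]
  field_simp
  ring

/-- The right-hand side of `vert_id` is negative only if `ω z² < 1`, and then `φ ≥ 1 / 2`. -/
theorem vert_ge (h : D.Good) (z : ℝ) :
    -(4 * (D.S : ℝ) ^ 1920) ≤ D.om ^ 2 * z ^ 2 / 2 - D.phi2 z / (2 * D.phi z) - D.om / 2 := by
  have h0 := h.pos
  have ho := Vert_om_nonneg D
  have hp := phi_pos D z
  have hd := h.del_pos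
  rw [vert_id]
  rcases le_total 1 (D.om * z ^ 2) with hz | hz
  · have a3 : D.om ≤ D.om ^ 2 * z ^ 2 := by
      rw [show D.om ^ 2 * z ^ 2 = D.om * (D.om * z ^ 2) by ring]
      exact le_mul_of_one_le_right ho hz
    refine le_trans (neg_nonpos.2 (by positivity)) (mul_nonneg (by linarith) (by positivity))
  · have a1 : 1 / 2 ≤ D.phi z := by
      have := Real.add_one_le_exp (-(D.om * z ^ 2 / 2))
      linarith [Vert_exp_le D z]
    have a2 : D.del ℝ / D.phi z ≤ 2 * D.del ℝ := by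
      rw [div_le_iff₀ hp]; nlinarith
    have a3 : D.om * D.del ℝ ≤ 4 * (D.S : ℝ) ^ 1920 :=
      (mul_le_mul_of_nonneg_right (om_bounds D).2 hd.le).trans_eq (by unfold Des.del; field_simp)
    have a4 : 0 ≤ D.om ^ 2 * z ^ 2 * (D.del ℝ / D.phi z) := by positivity
    have a5 := mul_le_mul_of_nonneg_left a2 ho
    generalize (D.S : ℝ) ^ 1920 = t at a3 ⊢
    nlinarith

theorem vert_le (h : D.Good) {z : ℝ} (hz : |z| ≤ 2 * D.z1) :
    (D.om ^ 2 * z ^ 2 / 2 - D.phi2 z / (2 * D.phi z) - D.om / 2) * D.phi z ^ 2 ≤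
      64 * (D.S : ℝ) ^ 1922 := by
  have h0 := h.pos
  have ho := Vert_om_nonneg D
  have hp := phi_pos D z
  have hd := h.del_pos
  have a1 := Vert_small_sq h hz
  rw [vert_id]
  calc (D.om ^ 2 * z ^ 2 - D.om) / 2 * (D.del ℝ / D.phi z) * D.phi z ^ 2
      = (D.om ^ 2 * z ^ 2 - D.om) / 2 * (D.del ℝ * D.phi z) := by field_simp
    _ ≤ (16 * 2 ^ 2 * (D.S : ℝ) ^ 5762) / 2 * (D.del ℝ * D.phi z) :=
        mul_le_mul_of_nonneg_right (by linarith) (by positivity)
    _ ≤ (16 * 2 ^ 2 * (D.S : ℝ) ^ 5762) / 2 * (D.del ℝ * 2) := by gcongr; exact phi_le h z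
    _ = _ := by unfold Des.del; field_simp; norm_num

theorem phi2_div_tail : ∀ᶠ D : Des in evD, ∀ z, D.z1 ≤ |z| → D.phi2 z / (2 * D.phi z) ≤ 1 / 2 := by
  filter_upwards [phi_tail] with D ht z hz
  have hp := phi_pos D z
  have ho := Vert_om_nonneg D
  have a1 : D.phi2 z ≤ (1 + D.om ^ 2 * z ^ 2) * Real.exp (-(D.om * z ^ 2 / 2)) :=
    mul_le_mul_of_nonneg_right (by linarith) (Real.exp_pos _).le
  rw [div_le_iff₀ (by positivity)]
  linarith [ht z hz, Vert_del_le D z]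

theorem phi2_div_le (h : D.Good) {z : ℝ} (hz : |z| ≤ D.z1) :
    D.phi2 z / (2 * D.phi z) ≤ 8 * (D.S : ℝ) ^ 5762 := by
  have hp := phi_pos D z
  have ho := Vert_om_nonneg D
  have h0 := h.pos
  have a1 := Vert_small_sq h (c := 1) (by rwa [one_mul])
  have a2 : D.phi2 z ≤ (16 * (D.S : ℝ) ^ 5762) * D.phi z :=
    (mul_le_mul_of_nonneg_right (by linarith) (Real.exp_pos _).le).trans
      (mul_le_mul_of_nonneg_left (Vert_exp_le D z) (by positivity))
  rw [div_le_iff₀ (by positivity)]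
  exact a2.trans_eq (by ring)

theorem phi2_div_bdd (h : D.Good) : ∃ C, ∀ z, |D.phi2 z / (2 * D.phi z)| ≤ C := by
  have ho := Vert_om_nonneg D
  have hd := h.del_pos
  refine ⟨D.om / D.del ℝ, fun z => ?_⟩
  have hp := phi_pos D z
  have hs : 0 ≤ D.om * z ^ 2 := by positivity
  have a1 : |D.phi2 z| ≤ 2 * D.om := by
    rw [Des.phi2, show D.om ^ 2 * z ^ 2 - D.om = D.om * (D.om * z ^ 2 - 1) by ring, abs_mul,
      abs_mul, abs_of_nonneg ho, abs_of_pos (Real.exp_pos _), mul_assoc, mul_comm 2]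
    refine mul_le_mul_of_nonneg_left ?_ ho
    generalize D.om * z ^ 2 = s at hs
    have b1 : |s - 1| ≤ 2 * Real.exp (s / 2) := by
      have := Real.add_one_le_exp (s / 2)
      rw [abs_le]; constructor <;> linarith
    calc |s - 1| * Real.exp (-(s / 2)) ≤ 2 * Real.exp (s / 2) * Real.exp (-(s / 2)) := by gcongr
      _ = 2 := by rw [mul_assoc, ← Real.exp_add, add_neg_cancel, Real.exp_zero, mul_one]
  rw [abs_div, abs_of_pos (by positivity : 0 < 2 * D.phi z), div_le_div_iff₀ (by positivity) hd]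
  calc |D.phi2 z| * D.del ℝ ≤ 2 * D.om * D.phi z :=
        mul_le_mul a1 (Vert_del_le D z) hd.le (by positivity)
    _ = _ := by ring

end Crest.Agent.R338
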