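/-
R338/GBound: derivative bounds for the design
Skeleton by helper15 (row 338); keep the statements unchanged, add any helper lemmas you like.
-/
import Crest.Agent.R338.Geo
import Crest.Agent.R338.Vert

set_option autoImplicit false
set_option linter.unusedSectionVars false
set_option linter.unusedVariables false
set_option linter.unusedSimpArgs false

noncomputable section

namespace Crest.Agent.R338

open MeasureTheory Set Filter Crest.MathPhysics.ElectronicCoulomb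

theorem GBound_pl : ∃ C : ℝ, 1 ≤ C ∧ ∀ D : Des, D.Good → ∀ (a b : ℝ) (j : ℕ) (c : Fin 3), j ≤ 2 →
    DB 3 (C * (D.S : ℝ) ^ (56 * j)) ((D.S : ℝ) ^ 2216)
      fun x => pl (D.sg ℝ) a b j (x c / D.ell ℝ) := by
  obtain ⟨C, hC, h⟩ := DB_pl
  refine ⟨C, hC, fun D hD a b j c hj => ?_⟩
  have h1 := h (D.sg ℝ) a b (D.ell ℝ) j c hD.sg_pos hD.ell_pos hj
  have e1 : C / D.sg ℝ ^ j = C * (D.S : ℝ) ^ (56 * j) := by
    unfold Des.sg
    rw [inv_pow, div_inv_eq_mul, ← pow_mul]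
  have e2 : (D.sg ℝ * D.ell ℝ)⁻¹ = (D.S : ℝ) ^ 2216 := by
    unfold Des.sg Des.ell
    rw [mul_inv, inv_inv, inv_inv, ← pow_add]
  rwa [e1, e2] at h1

theorem GBound_ite {r : ℕ} {A lam : ℝ} {f : Pos3 → ℝ} (h : DB r A lam f) (hl : 0 ≤ lam) (p : Prop)
    [Decidable p] : DB r A lam fun x => if p then f x else 0 := by
  by_cases hp : p
  · simpa [hp] using h
  · simp only [hp, if_false]
    exact (DB.const r 0 hl).mono hl (by simpa using h.nonneg) le_rfl

/-- `DB_pl`, `DB.mul`, `DB.sum`, `DB.add`: at most `10 S²` products of two plateaus. -/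
theorem DB_F3 : ∀ᶠ D : Des in evD, ∀ i j : ℕ, i + j ≤ 2 →
    DB 3 ((D.S : ℝ) ^ (3 + 56 * (i + j))) (2 * (D.S : ℝ) ^ 2216) (D.F3 i j) := by
  obtain ⟨C, hC, h⟩ := GBound_pl
  filter_upwards [ev_good, ev_ge (11 * C ^ 2)] with D hD hS i j hij
  have P := h D hD
  have h1 := hD.one_le
  have h0 := hD.pos
  have hn := hD.n_le
  have hL := hD.L_le
  have hi : i ≤ 2 := by omega
  have hj : j ≤ 2 := by omega
  have hfT : |D.fT ℝ| ≤ 1 := by
    unfold Des.fT
    rw [abs_of_nonneg (by positivity)]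
    exact inv_le_one_of_one_le₀ h1
  have hfE : |D.fE ℝ| ≤ 1 := by
    unfold Des.fE
    rw [abs_of_nonneg (by positivity)]
    exact inv_le_one_of_one_le₀ (one_le_pow₀ h1)
  have hfB : |D.fB ℝ| ≤ 1 := by
    unfold Des.fB
    have a1 : ((D.S : ℝ) ^ 2)⁻¹ ≤ 1 := inv_le_one_of_one_le₀ (one_le_pow₀ h1)
    have a2 : ((D.S : ℝ) ^ 3)⁻¹ ≤ 1 := inv_le_one_of_one_le₀ (one_le_pow₀ h1)
    have a3 : 0 ≤ ((D.S : ℝ) ^ 2)⁻¹ := by positivity
    have a4 : 0 ≤ ((D.S : ℝ) ^ 3)⁻¹ := by positivity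
    rw [abs_le]
    constructor <;> linarith
  set s := (D.S : ℝ) with hs
  set lam := s ^ 2216 with hlam
  have hl : 0 ≤ lam := by positivity
  set u := s ^ (56 * i) with hu
  set v := s ^ (56 * j) with hv
  have hu1 : 1 ≤ u := one_le_pow₀ h1
  have hv1 : 1 ≤ v := one_le_pow₀ h1
  have hrow : ∀ A, DB 3 (3 * s * (C * v)) lam fun x => D.row A j (x 1 / D.ell ℝ) := by
    intro A
    have a1 := ((P (-1) (D.ytop ℝ) j 1 hj).const_mul (D.fB ℝ)).add
      ((P (1 + 2 * D.sg ℝ) (D.ytop ℝ) j 1 hj).const_mul (D.fT ℝ))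
    have a2 := DB.sum (Finset.range D.Lv) hl fun l _ =>
      GBound_ite (P (D.yl ℝ l) (D.yl ℝ l + 1) j 1 hj) hl (D.pad A l = true)
    refine (a1.add a2).mono hl ?_ le_rfl
    rw [Finset.card_range]
    have : 0 ≤ C * v := by positivity
    nlinarith
  have b1 := DB.sum (Finset.range (3 * D.n)) (lam := lam + lam) (by positivity) fun A _ =>
    (P (D.xA ℝ A) (D.xA ℝ A + 1) i 0 hi).mul (hrow A) hl hl
  have b2 := (DB.sum (Finset.range D.n) (lam := lam + lam) (by positivity) fun q _ =>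
    (P (D.xA ℝ (3 * q)) (D.xA ℝ (3 * q + 2) + 1) i 0 hi).mul (P (-1) 0 j 1 hj) hl hl).const_mul
      (D.fT ℝ)
  have b0 := DB.const 3 (if i = 0 ∧ j = 0 then D.fE ℝ else 0) (lam := lam + lam) (by positivity)
  refine ((b0.add b1).add b2).mono (by positivity) ?_ (by linarith)
  have c0 : |if i = 0 ∧ j = 0 then D.fE ℝ else 0| ≤ 1 := by
    split_ifs
    · exact hfE
    · simp
  have e : s ^ (3 + 56 * (i + j)) = s * s ^ 2 * (u * v) := by
    rw [hu, hv, ← pow_add, ← pow_succ', ← pow_add]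
    congr 1
    ring
  rw [e, Finset.card_range, Finset.card_range]
  push_cast
  have huv : 1 ≤ u * v := one_le_mul_of_one_le_of_one_le hu1 hv1
  have hC2 : 1 ≤ C ^ 2 := one_le_pow₀ hC
  set w := C ^ 2 * (u * v) with hw
  have hw1 : 1 ≤ w := one_le_mul_of_one_le_of_one_le hC2 huv
  have hs2 : s ≤ s ^ 2 := by nlinarith
  have d1 : 3 * (D.n : ℝ) * (C * u * (3 * s * (C * v))) ≤ 9 * (s ^ 2 * w) := by
    calc _ = 9 * (D.n * s * w) := by rw [hw]; ring
      _ ≤ 9 * (s * s * w) := by gcongr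
      _ = _ := by ring
  have d2 : |D.fT ℝ| * ((D.n : ℝ) * (C * u * (C * v))) ≤ s ^ 2 * w := by
    calc _ = |D.fT ℝ| * (D.n * w) := by rw [hw]; ring
      _ ≤ 1 * (s ^ 2 * w) := by gcongr; exact hn.trans hs2
      _ = _ := one_mul _
  have d3 : 1 ≤ s ^ 2 * w := one_le_mul_of_one_le_of_one_le (one_le_pow₀ h1) hw1
  have d4 : 11 * (s ^ 2 * w) ≤ s * s ^ 2 * (u * v) := by
    calc _ = (11 * C ^ 2) * (s ^ 2 * (u * v)) := by rw [hw]; ring
      _ ≤ s * (s ^ 2 * (u * v)) := by gcongr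
      _ = _ := by ring
  linarith

theorem DB_G3 : ∀ᶠ D : Des in evD, DB 3 ((D.S : ℝ) ^ 3) (2 * (D.S : ℝ) ^ 2216) D.G3 := by
  obtain ⟨C, hC, h⟩ := GBound_pl
  filter_upwards [ev_good, ev_ge (3 * C ^ 2)] with D hD hS
  have P := h D hD
  have h1 := hD.one_le
  have h0 := hD.pos
  have hn := hD.n_le
  have hL := hD.L_le
  set s := (D.S : ℝ) with hs
  set lam := s ^ 2216 with hlam
  have hl : 0 ≤ lam := by positivity
  have b1 := DB.sum (Finset.range (3 * D.n)) (lam := lam + lam) (by positivity) fun A _ =>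
    DB.sum (Finset.range D.Lv) (lam := lam + lam) (by positivity) fun l _ =>
      GBound_ite ((P (D.xA ℝ A + D.sg ℝ) (D.xA ℝ A + 1 - D.sg ℝ) 0 0 (by norm_num)).mul
        (P (D.yl ℝ l + D.sg ℝ) (D.yl ℝ l + 1 - D.sg ℝ) 0 1 (by norm_num)) hl hl)
        (by positivity) (D.pad A l = true)
  refine b1.mono (by positivity) ?_ (by linarith)
  rw [Finset.card_range, Finset.card_range]
  push_cast
  simp only [mul_zero, pow_zero, mul_one]
  calc _ = (3 * C ^ 2) * ((D.n : ℝ) * D.Lv) := by ring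
    _ ≤ s * (s * s) := by gcongr
    _ = _ := by ring

/-- `DB.inv` with `c = S⁻³`, `A = S³`. -/
theorem DB_W3 : ∀ᶠ D : Des in evD, DB 3 ((D.S : ℝ) ^ 126) ((D.S : ℝ) ^ 2223) D.W3 := by
  obtain ⟨C, hC⟩ := DB.inv 3
  filter_upwards [ev_good, ev_ge 8, ev_ge (287296 * C ^ 2), DB_F3, F_ge] with D hD hS8 hS hF hge
  have h1 := hD.one_le
  have h0 := hD.pos
  have f00 := hF 0 0 (by norm_num)
  have f20 := hF 2 0 (by norm_num)
  have f02 := hF 0 2 (by norm_num)
  have f10 := hF 1 0 (by norm_num)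
  have f01 := hF 0 1 (by norm_num)
  set s := (D.S : ℝ) with hs
  have hl : 0 ≤ 2 * s ^ 2216 := by positivity
  have hc : (s ^ 3)⁻¹ ≤ s ^ (3 + 56 * (0 + 0)) :=
    (inv_le_one_of_one_le₀ (one_le_pow₀ h1)).trans (one_le_pow₀ h1)
  have hinv := hC _ _ _ _ (by positivity) hc hl f00 fun x => hge _ _
  have e1 : s ^ (3 + 56 * (0 + 0)) / (s ^ 3)⁻¹ * (2 * s ^ 2216) = 2 * s ^ 2222 := by
    rw [div_inv_eq_mul, ← pow_add, mul_left_comm, ← pow_add]
  rw [e1, div_inv_eq_mul] at hinv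
  have hl' : 0 ≤ 2 * s ^ 2222 := by positivity
  have num := ((f00.mul (f20.add f02) hl hl).const_mul 268).add
    (((f10.mul f10 hl hl).add (f01.mul f01 hl hl)).const_mul (268 * 535))
  have all := num.mul (hinv.mul hinv hl' hl') (by positivity) (by positivity)
  have e2 : D.W3 = fun x => (268 * (D.F3 0 0 x * (D.F3 2 0 x + D.F3 0 2 x)) +
      268 * 535 * (D.F3 1 0 x * D.F3 1 0 x + D.F3 0 1 x * D.F3 0 1 x)) *
        ((D.F3 0 0 x)⁻¹ * (D.F3 0 0 x)⁻¹) := by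
    funext x
    unfold Des.W3 Des.W Des.F3
    ring
  rw [e2]
  refine all.mono (by positivity) ?_ ?_
  · have e3 : ∀ a b : ℕ, s ^ a * s ^ b = s ^ (a + b) := fun a b => (pow_add s a b).symm
    rw [abs_of_pos (by norm_num : (0 : ℝ) < 268), abs_of_pos (by norm_num : (0 : ℝ) < 268 * 535)]
    calc _ = (287296 * C ^ 2) * s ^ 124 := by ring
      _ ≤ s ^ 126 := mul_pow_le h1 hS (by norm_num)
  · have a1 : s ^ 2216 ≤ s ^ 2222 := pow_le_pow_right₀ h1 (by norm_num)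
    have a2 : 8 * s ^ 2222 ≤ s ^ 2223 := mul_pow_le h1 hS8 (by norm_num)
    linarith

theorem DB_g : ∀ᶠ D : Des in evD, DB 3 ((D.S : ℝ) ^ 4450) ((D.S : ℝ) ^ 2225) D.g := by
  obtain ⟨C, hC, h⟩ := DB_pl
  filter_upwards [ev_good, ev_ge 2, ev_ge (2 * C), DB_W3, DB_G3] with D hD hS2 hS hW hG
  have h1 := hD.one_le
  have h0 := hD.pos
  have P := h 1 (-1) 1 (D.ell ℝ) 0 2 one_pos hD.ell_pos (by norm_num)
  have e1 : (1 * D.ell ℝ)⁻¹ = (D.S : ℝ) ^ 2160 := by
    unfold Des.ell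
    rw [one_mul, inv_inv]
  rw [e1, pow_zero, div_one] at P
  have e2 : D.g = fun x => ((D.S : ℝ) ^ 4320 * D.W3 x - (D.S : ℝ) ^ 2199 * D.G3 x) *
      pl 1 (-1) 1 0 (x 2 / D.ell ℝ) := by
    funext x
    unfold Des.g Des.g3 Des.W3 Des.G3 Des.BB
    congr 2
    unfold Des.ell
    rw [inv_pow, div_inv_eq_mul, ← pow_mul, mul_comm]
  set s := (D.S : ℝ) with hs
  have hG' := hG.mono (by positivity) le_rfl
    (mul_pow_le (b := 2223) h1 hS2 (by norm_num))
  have all := ((hW.const_mul (s ^ 4320)).sub (hG'.const_mul (s ^ 2199))).mul P (by positivity)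
    (by positivity)
  rw [e2]
  refine all.mono (by positivity) ?_ ?_
  · rw [abs_of_pos (by positivity), abs_of_pos (by positivity), ← pow_add, ← pow_add]
    have a1 : s ^ (2199 + 3) ≤ s ^ (4320 + 126) := pow_le_pow_right₀ h1 (by norm_num)
    have a2 : 2 * C * s ^ (4320 + 126) ≤ s ^ 4450 := mul_pow_le h1 hS (by norm_num)
    calc _ ≤ (s ^ (4320 + 126) + s ^ (4320 + 126)) * C := by gcongr
      _ = 2 * C * s ^ (4320 + 126) := by generalize s ^ (4320 + 126) = t; ring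
      _ ≤ _ := a2
  · have a1 : s ^ 2160 ≤ s ^ 2223 := pow_le_pow_right₀ h1 (by norm_num)
    have a2 : 2 * s ^ 2223 ≤ s ^ 2225 := mul_pow_le h1 hS2 (by norm_num)
    linarith

/-- One coordinate has absolute value at least `RR / 2`; `WG_far`. -/
theorem g_far : ∀ᶠ D : Des in evD, ∀ y, D.RR ≤ ‖y‖ → D.g y = 0 := by
  filter_upwards [ev_good, ev_ge 4, WG_far] with D hD hS hW y hy
  have h1 := hD.one_le
  have hℓ := hD.ell_pos
  have hR := hD.RR_pos
  have key : ∀ t : ℝ, D.RR / 2 ≤ |t| → (D.S : ℝ) ^ 14 / 2 ≤ |t / D.ell ℝ| := by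
    intro t ht
    rw [abs_div, abs_of_pos hℓ, le_div_iff₀ hℓ]
    rw [hD.RR_eq] at ht
    linarith
  by_cases c : D.RR / 2 ≤ |y 0| ∨ D.RR / 2 ≤ |y 1|
  · obtain ⟨a1, a2⟩ := hW _ _ (c.imp (key _) (key _))
    unfold Des.g Des.g3
    rw [a1, a2]
    simp
  · push Not at c
    have c2 : D.RR / 2 ≤ |y 2| := by
      by_contra c2
      push Not at c2
      have b0 := sq_lt_sq' (abs_lt.mp c.1).1 (abs_lt.mp c.1).2
      have b1 := sq_lt_sq' (abs_lt.mp c.2).1 (abs_lt.mp c.2).2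
      have b2 := sq_lt_sq' (abs_lt.mp c2).1 (abs_lt.mp c2).2
      have b3 : D.RR ^ 2 ≤ ‖y‖ ^ 2 := pow_le_pow_left₀ hR.le hy 2
      rw [norm_sq_eq] at b3
      nlinarith
    have c3 := key _ c2
    have c4 : (4 : ℝ) ≤ (D.S : ℝ) ^ 14 := by
      have := mul_pow_le (a := 0) (b := 14) h1 hS (by norm_num)
      simpa using this
    have c5 : pl 1 (-1) 1 0 (y 2 / D.ell ℝ) = 0 := by
      rcases le_abs'.mp (show 2 ≤ |y 2 / D.ell ℝ| by linarith) with h | h
      · exact pl_of_le 0 one_pos (by norm_num) (by linarith)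
      · exact pl_of_ge 0 one_pos (by norm_num) (by linarith)
    unfold Des.g Des.g3
    rw [c5, mul_zero]

theorem g_nb : ∀ᶠ D : Des in evD, ∀ y ∈ D.nb, D.g y = 0 := by
  filter_upwards [ev_good, ev_ge 2, g_far] with D hD hS hg y hy
  have h1 := hD.one_le
  have h0 := hD.pos
  apply hg
  have a1 : D.RR ≤ (D.II : ℝ) * D.del ℝ / 2 := by
    have e : (D.II : ℝ) * D.del ℝ = (D.S : ℝ) ^ 3840 := by
      unfold Des.II Des.del
      rw [Nat.cast_pow, show 7680 = 3840 + 3840 from rfl, pow_add,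
        mul_inv_cancel_right₀ (by positivity)]
    have b1 : D.RR ≤ 1 := inv_le_one_of_one_le₀ (one_le_pow₀ h1)
    have b2 := mul_pow_le (a := 0) (b := 3840) h1 hS (by norm_num)
    rw [pow_zero] at b2
    rw [e]
    linarith
  have a2 : D.RR ≤ (D.mm : ℝ) * D.del ℝ := by
    have e : (D.mm : ℝ) * D.del ℝ = ((D.S : ℝ) ^ 1920)⁻¹ := by
      unfold Des.mm Des.del
      rw [Nat.cast_pow, show 3840 = 1920 + 1920 from rfl, pow_add, mul_inv,
        mul_inv_cancel_left₀ (by positivity)]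
    rw [e]
    exact inv_pow_le h1 (by norm_num)
  rcases hy with h | h | h
  · exact (a1.trans h.le).trans (abs_le_norm y 0)
  · exact (a1.trans h.le).trans (abs_le_norm y 1)
  · exact (a2.trans h.le).trans (abs_le_norm y 2)

theorem GBound_cd (σ a b ℓ : ℝ) {j : ℕ} (hj : j ≤ 2) (c : Fin 3) :
    ContDiff ℝ 3 fun x : Pos3 => pl σ a b j (x c / ℓ) :=
  (contDiff_pl σ a b hj).comp (by fun_prop)

theorem GBound_cd_ite {f : Pos3 → ℝ} (h : ContDiff ℝ 3 f) (p : Prop) [Decidable p] :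
    ContDiff ℝ 3 fun x => if p then f x else 0 := by
  by_cases hp : p
  · simpa [hp] using h
  · simp only [hp, if_false]
    exact contDiff_const

theorem contDiff_F3 {D : Des} {i j : ℕ} (hi : i ≤ 2) (hj : j ≤ 2) : ContDiff ℝ 3 (D.F3 i j) := by
  refine (contDiff_const.add (ContDiff.sum fun A _ => (GBound_cd _ _ _ _ hi 0).mul ?_)).add
    (contDiff_const.mul (ContDiff.sum fun q _ =>
      (GBound_cd _ _ _ _ hi 0).mul (GBound_cd _ _ _ _ hj 1)))
  exact ((contDiff_const.mul (GBound_cd _ _ _ _ hj 1)).add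
    (contDiff_const.mul (GBound_cd _ _ _ _ hj 1))).add
    (ContDiff.sum fun l _ => GBound_cd_ite (GBound_cd _ _ _ _ hj 1) _)

theorem contDiff_Psi (D : Des) : ContDiff ℝ 2 D.Psi := by
  have h1 : ContDiff ℝ 2 (D.F3 0 0) := (contDiff_F3 (by norm_num) (by norm_num)).of_le (by norm_num)
  exact (h1.pow 536).mul ((contDiff_phi D).comp (by fun_prop))

theorem continuous_rho (D : Des) : Continuous D.rho := by
  exact (contDiff_Psi D).continuous.pow 2

theorem continuous_G3 (D : Des) : Continuous D.G3 := by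
  refine ContDiff.continuous (𝕜 := ℝ) (n := 3) ?_
  unfold Des.G3 Des.G
  exact ContDiff.sum fun A _ => ContDiff.sum fun l _ =>
    GBound_cd_ite ((GBound_cd _ _ _ _ (Nat.zero_le 2) 0).mul
      (GBound_cd _ _ _ _ (Nat.zero_le 2) 1)) _

theorem rho_eq (D : Des) (x : Pos3) : D.rho x = D.F3 0 0 x ^ 1072 * D.phi (x 2) ^ 2 := by
  unfold Des.rho Des.Psi
  rw [mul_pow, ← pow_mul]

theorem Psi_pos : ∀ᶠ D : Des in evD, ∀ x, 0 < D.Psi x := by
  filter_upwards [ev_good, F_ge] with D hD hF x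
  have h0 := hD.pos
  have : 0 < D.F3 0 0 x := lt_of_lt_of_le (by positivity) (hF _ _)
  exact mul_pos (pow_pos this _) (phi_pos D _)

/-- `DB.wt`, `Wt.pow`, `Wt.mul`, `wt_phi`. -/
theorem wt_rho : ∀ᶠ D : Des in evD, Wt D.rho ((D.S : ℝ) ^ 2882) := by
  filter_upwards [ev_good, ev_ge 2154, DB_F3, F_ge, wt_phi] with D hD hS hF hge hφ
  have h1 := hD.one_le
  have h0 := hD.pos
  have f00 := (hF 0 0 (by norm_num)).of_le (r' := 2) (by norm_num)
  have e : D.rho = fun x => D.F3 0 0 x ^ 1072 * D.phi (x 2) ^ 2 := funext (rho_eq D)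
  set s := (D.S : ℝ) with hs
  have hc : (s ^ 3)⁻¹ ≤ s ^ (3 + 56 * (0 + 0)) :=
    (inv_le_one_of_one_le₀ (one_le_pow₀ h1)).trans (one_le_pow₀ h1)
  have w := f00.wt (by positivity) hc (by positivity) fun x => hge _ _
  have e1 : s ^ (3 + 56 * (0 + 0)) / (s ^ 3)⁻¹ * (2 * s ^ 2216) = 2 * s ^ 2222 := by
    rw [div_inv_eq_mul, ← pow_add, mul_left_comm, ← pow_add]
  rw [e1] at w
  rw [e]
  refine ((w.pow 1072).mul (hφ.pow 2)).mono ?_
  have a1 : s ^ 2222 ≤ s ^ 2881 := pow_le_pow_right₀ h1 (by norm_num)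
  have a2 : 2154 * s ^ 2881 ≤ s ^ 2882 := mul_pow_le h1 hS (by norm_num)
  push_cast
  linarith

theorem GBound_diff {D : Des} {i j : ℕ} (hi : i ≤ 2) (hj : j ≤ 2) (x : Pos3) :
    DifferentiableAt ℝ (D.F3 i j) x :=
  (contDiff_F3 hi hj).differentiable (by norm_num) x

theorem GBound_pd_of {f : Pos3 → ℝ} {x : Pos3} (c : Fin 3) (hf : DifferentiableAt ℝ f x) {d : ℝ}
    (h : HasDerivAt (fun t : ℝ => f (x + EuclideanSpace.single c t)) d 0) : pd c f x = d := by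
  have e : x + EuclideanSpace.single c (0 : ℝ) = x := by
    ext k
    simp
  have h1 := hasDerivAt_pd (f := f) (x := x) c (s := 0) (by rw [e]; exact hf)
  have h2 := h1.unique h
  rwa [e] at h2

theorem GBound_pd0 {D : Des} (h : D.Good) {i j : ℕ} (hi : i ≤ 1) (hj : j ≤ 2) (x : Pos3) :
    pd 0 (D.F3 i j) x = D.F3 (i + 1) j x / D.ell ℝ := by
  refine GBound_pd_of 0 (GBound_diff (by omega) hj x) ?_
  have e : (fun t : ℝ => D.F3 i j (x + EuclideanSpace.single 0 t)) =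
      fun t : ℝ => D.F i j ((x 0 + t) / D.ell ℝ) (x 1 / D.ell ℝ) := by
    funext t
    simp [Des.F3]
  rw [e]
  have h1 : HasDerivAt (fun t : ℝ => (x 0 + t) / D.ell ℝ) (1 / D.ell ℝ) 0 :=
    ((hasDerivAt_id' (0 : ℝ)).const_add (x 0)).div_const _
  have h2 := (hasDerivAt_F_x h hi j ((x 0 + 0) / D.ell ℝ) (x 1 / D.ell ℝ)).comp (0 : ℝ) h1
  rw [add_zero, mul_one_div] at h2
  exact h2

theorem GBound_pd1 {D : Des} (h : D.Good) {i j : ℕ} (hi : i ≤ 2) (hj : j ≤ 1) (x : Pos3) :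
    pd 1 (D.F3 i j) x = D.F3 i (j + 1) x / D.ell ℝ := by
  refine GBound_pd_of 1 (GBound_diff hi (by omega) x) ?_
  have e : (fun t : ℝ => D.F3 i j (x + EuclideanSpace.single 1 t)) =
      fun t : ℝ => D.F i j (x 0 / D.ell ℝ) ((x 1 + t) / D.ell ℝ) := by
    funext t
    simp [Des.F3]
  rw [e]
  have h1 : HasDerivAt (fun t : ℝ => (x 1 + t) / D.ell ℝ) (1 / D.ell ℝ) 0 :=
    ((hasDerivAt_id' (0 : ℝ)).const_add (x 1)).div_const _
  have h2 := (hasDerivAt_F_y h i hj (x 0 / D.ell ℝ) ((x 1 + 0) / D.ell ℝ)).comp (0 : ℝ) h1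
  rw [add_zero, mul_one_div] at h2
  exact h2

theorem GBound_pd2 {D : Des} {i j : ℕ} (hi : i ≤ 2) (hj : j ≤ 2) (x : Pos3) :
    pd 2 (D.F3 i j) x = 0 := by
  refine GBound_pd_of 2 (GBound_diff hi hj x) ?_
  have e : (fun t : ℝ => D.F3 i j (x + EuclideanSpace.single 2 t)) =
      fun t : ℝ => D.F i j (x 0 / D.ell ℝ) (x 1 / D.ell ℝ) := by
    funext t
    simp [Des.F3]
  rw [e]
  exact hasDerivAt_const _ _

theorem GBound_pd_pow {f : Pos3 → ℝ} {x : Pos3} (c : Fin 3) (hf : DifferentiableAt ℝ f x) (m : ℕ) :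
    pd c (fun y => f y ^ (m + 1)) x = (m + 1) * f x ^ m * pd c f x := by
  have := pd_comp (f := f) (x := x) c (hasDerivAt_pow (m + 1) (f x)) hf
  simpa using this

/-- The second derivative of `f ^ (m + 2) * p` in a direction in which `p` is constant. -/
theorem GBound_pd_pd {f f1 p : Pos3 → ℝ} (c : Fin 3) (hf : Differentiable ℝ f)
    (hf1 : Differentiable ℝ f1) (hp : Differentiable ℝ p) (h1 : ∀ y, pd c f y = f1 y)
    (hp0 : ∀ y, pd c p y = 0) (m : ℕ) (x : Pos3) :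
    pd c (pd c fun y => f y ^ (m + 2) * p y) x =
      f x ^ m * ((m + 2) * f x * pd c f1 x + (m + 2) * (m + 1) * f1 x ^ 2) * p x := by
  have e : (pd c fun y => f y ^ (m + 2) * p y) =
      fun y => ((m : ℝ) + 2) * (f y ^ (m + 1) * f1 y * p y) := by
    funext y
    rw [pd_mul c ((hf y).fun_pow _) (hp y), hp0, GBound_pd_pow c (hf y) (m + 1), h1]
    push_cast
    ring
  rw [e, pd_const_mul c _ ((((hf x).fun_pow _).fun_mul (hf1 x)).fun_mul (hp x)),
    pd_mul c (((hf x).fun_pow _).fun_mul (hf1 x)) (hp x), hp0, pd_mul c ((hf x).fun_pow _) (hf1 x),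
    GBound_pd_pow c (hf x) m, h1]
  ring

/-- `pd_mul`, `pd_comp`, `pd_coord`, `hasDerivAt_F_x`, `hasDerivAt_F_y`. -/
theorem lap_Psi : ∀ᶠ D : Des in evD, ∀ x, lap D.Psi x =
    2 * D.Psi x * (D.W3 x / D.ell ℝ ^ 2 + D.phi2 (x 2) / (2 * D.phi (x 2))) := by
  filter_upwards [ev_good, F_ge] with D hD hge x
  have h0 := hD.pos
  have hℓ := hD.ell_pos
  have hF : 0 < D.F3 0 0 x := lt_of_lt_of_le (by positivity) (hge _ _)
  have hφ := phi_pos D (x 2)
  have d00 : Differentiable ℝ (D.F3 0 0) := GBound_diff (by norm_num) (by norm_num)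
  have d10 : Differentiable ℝ (D.F3 1 0) := GBound_diff (by norm_num) (by norm_num)
  have d01 : Differentiable ℝ (D.F3 0 1) := GBound_diff (by norm_num) (by norm_num)
  have dc : Differentiable ℝ fun y : Pos3 => y 2 := by fun_prop
  have dp : Differentiable ℝ fun y : Pos3 => D.phi (y 2) := fun y =>
    DifferentiableAt.comp (g := D.phi) y (hasDerivAt_phi D (y 2)).differentiableAt (dc y)
  have dp1 : Differentiable ℝ fun y : Pos3 => D.phi1 (y 2) := fun y =>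
    DifferentiableAt.comp (g := D.phi1) y (hasDerivAt_phi1 D (y 2)).differentiableAt (dc y)
  have eΨ : D.Psi = fun y => D.F3 0 0 y ^ (534 + 2) * D.phi (y 2) := rfl
  have a0 := GBound_pd_pd 0 d00 (f1 := fun y => (D.ell ℝ)⁻¹ * D.F3 1 0 y) (d10.const_mul _) dp
    (fun y => by rw [GBound_pd0 hD (by norm_num) (by norm_num), div_eq_inv_mul])
    (fun y => by rw [pd_coord 0 2 (hasDerivAt_phi D (y 2))]; simp) 534 x
  have a1 := GBound_pd_pd 1 d00 (f1 := fun y => (D.ell ℝ)⁻¹ * D.F3 0 1 y) (d01.const_mul _) dp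
    (fun y => by rw [GBound_pd1 hD (by norm_num) (by norm_num), div_eq_inv_mul])
    (fun y => by rw [pd_coord 1 2 (hasDerivAt_phi D (y 2))]; simp) 534 x
  rw [pd_const_mul 0 _ (d10 x), GBound_pd0 hD (by norm_num) (by norm_num)] at a0
  rw [pd_const_mul 1 _ (d01 x), GBound_pd1 hD (by norm_num) (by norm_num)] at a1
  have a2 : pd 2 (pd 2 fun y => D.F3 0 0 y ^ (534 + 2) * D.phi (y 2)) x =
      D.F3 0 0 x ^ (534 + 2) * D.phi2 (x 2) := by
    have z : ∀ y, pd 2 (fun y => D.F3 0 0 y ^ (534 + 2)) y = 0 := fun y => by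
      rw [GBound_pd_pow 2 (d00 y) (534 + 1), GBound_pd2 (by norm_num) (by norm_num), mul_zero]
    have e : (pd 2 fun y => D.F3 0 0 y ^ (534 + 2) * D.phi (y 2)) =
        fun y => D.F3 0 0 y ^ (534 + 2) * D.phi1 (y 2) := by
      funext y
      rw [pd_mul 2 ((d00 y).fun_pow _) (dp y), z, pd_coord 2 2 (hasDerivAt_phi D (y 2))]
      simp
    rw [e, pd_mul 2 ((d00 x).fun_pow _) (dp1 x), z, pd_coord 2 2 (hasDerivAt_phi1 D (x 2))]
    simp
  have eW : D.W3 x = (536 * D.F3 0 0 x * (D.F3 2 0 x + D.F3 0 2 x) +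
    536 * 535 * (D.F3 1 0 x ^ 2 + D.F3 0 1 x ^ 2)) / (2 * D.F3 0 0 x ^ 2) := rfl
  unfold lap
  rw [Fin.sum_univ_three, eΨ, a0, a1, a2, eW]
  simp only [pow_add]
  generalize D.F3 0 0 x ^ 534 = P
  push_cast
  field_simp
  ring

end Crest.Agent.R338
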