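/-
R338/Jel: the potential of the uniform slab
Skeleton by helper15 (row 338); keep the statements unchanged, add any helper lemmas you like.
-/
import Crest.Agent.R338.Plane
import Crest.Agent.R338.Cube

set_option autoImplicit false
set_option linter.unusedSectionVars false
set_option linter.unusedVariables false
set_option linter.unusedSimpArgs false

noncomputable section

namespace Crest.Agent.R338

open MeasureTheory Set Crest.MathPhysics.ElectronicCoulomb
open scoped RealInnerProductSpace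

/-- reflection of one coordinate -/
def Jel_R (c : Fin 3) : Pos3 ≃ₗᵢ[ℝ] Pos3 :=
  LinearIsometryEquiv.piLpCongrRight 2 fun i =>
    if i = c then LinearIsometryEquiv.neg ℝ else LinearIsometryEquiv.refl ℝ ℝ

theorem Jel_R_apply (c : Fin 3) (y : Pos3) (i : Fin 3) :
    Jel_R c y i = if i = c then -y i else y i := by
  simp only [Jel_R, LinearIsometryEquiv.piLpCongrRight_apply]
  split_ifs <;> rfl

/-- centred boxes -/
def Jel_B (h : Fin 3 → ℝ) : Set Pos3 := {y | ∀ i, |y i| ≤ h i}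

theorem Jel_bx (a H : ℝ) : bx (-a) a (-a) a H = Jel_B ![a, a, H] := by
  ext y
  simp [bx, Jel_B, Fin.forall_fin_succ, abs_le]

theorem Jel_anti {σ : Pos3 → Pos3} (hσ : MeasurePreserving σ) (he : MeasurableEmbedding σ)
    (hσσ : ∀ y, σ (σ y) = y) {B : Set Pos3} (hB : MeasurableSet B) {D : Pos3 → ℝ}
    (hD : IntegrableOn D B) (hanti : ∀ y, D (σ y) = -D y) :
    ∫ y in B, D y = ∫ y in B \ σ ⁻¹' B, D y := by
  have h1 := integral_inter_add_sdiff (hσ.measurable hB) hD
  have h2 := hσ.setIntegral_preimage_emb he D (B ∩ σ ⁻¹' B)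
  have h3 : σ ⁻¹' (B ∩ σ ⁻¹' B) = B ∩ σ ⁻¹' B := by
    ext y
    simp [hσσ, and_comm]
  rw [h3] at h2
  simp only [hanti, integral_neg] at h2
  linarith

theorem Jel_step {a H : ℝ} (c : Fin 3) {x x' : Pos3} (hx : ∀ i, i ≠ c → x i = x' i) :
    (∫ y in bx (-a) a (-a) a H, Kn (x' - y)) - ∫ y in bx (-a) a (-a) a H, Kn (x - y) =
      ∫ y in bx (-a) a (-a) a H ∩ {y | ![a, a, H] c < |x c + x' c - y c|},
        (Kn (x' - y) - Kn (x - y)) := by
  have hb := (isCompact_bx (-a) a (-a) a H).isBounded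
  have hi := integrableOn_Kn x hb
  have hi' := integrableOn_Kn x' hb
  let σ : Pos3 → Pos3 := fun y => Jel_R c y + EuclideanSpace.single c (x c + x' c)
  have hσ : ∀ y i, σ y i = if i = c then x c + x' c - y c else y i := by
    intro y i
    simp only [σ, PiLp.add_apply, Jel_R_apply, PiLp.single_apply]
    split_ifs with h
    · rw [h]; ring
    · ring
  have h1 : ∀ y, x - σ y = Jel_R c (x' - y) := by
    intro y
    ext i
    simp only [PiLp.sub_apply, hσ, Jel_R_apply]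
    split_ifs with h
    · rw [h]; ring
    · rw [hx i h]
  have h2 : ∀ y, x' - σ y = Jel_R c (x - y) := by
    intro y
    ext i
    simp only [PiLp.sub_apply, hσ, Jel_R_apply]
    split_ifs with h
    · rw [h]; ring
    · rw [hx i h]
  rw [← integral_sub hi' hi, Jel_anti (σ := σ) (D := fun y => Kn (x' - y) - Kn (x - y))
    ((measurePreserving_add_right volume _).comp (Jel_R c).measurePreserving)
    ((measurableEmbedding_addRight _).comp (Jel_R c).toHomeomorph.measurableEmbedding)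
    (fun y => by
      ext i
      simp only [hσ]
      split_ifs with h
      · rw [h]; simp
      · rfl) (measurableSet_bx _ _ _ _ _) (hi'.sub hi)
    (fun y => by simp only [Kn, h1, h2, LinearIsometryEquiv.norm_map]; ring)]
  congr 2
  ext y
  simp only [Jel_bx, Jel_B, mem_sdiff, mem_ofPred_eq, mem_preimage, mem_inter_iff, hσ]
  refine and_congr_right fun hy => ⟨fun h => ?_, fun h h' => ?_⟩
  · by_contra hc
    refine h fun i => ?_
    split_ifs with hi
    · rw [hi]; exact not_lt.1 hc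
    · exact hy i
  · have := h' c
    rw [if_pos rfl] at this
    exact absurd h (not_lt.2 this)

theorem Jel_normsq (c : Fin 3) {x x' : Pos3} (hx : ∀ i, i ≠ c → x i = x' i) (y : Pos3) :
    ‖x - y‖ ^ 2 = ‖x' - y‖ ^ 2 + (x c - x' c) * (x c + x' c - 2 * y c) := by
  rw [norm_sq_eq, norm_sq_eq]
  simp only [PiLp.sub_apply]
  fin_cases c
  · rw [hx 1 (by decide), hx 2 (by decide)]; simp only [Fin.zero_eta]; ring
  · rw [hx 0 (by decide), hx 2 (by decide)]; simp only [Fin.mk_one]; ring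
  · rw [hx 0 (by decide), hx 1 (by decide)]; simp only [Fin.reduceFinMk]; ring

theorem Jel_meas (a H : ℝ) (c : Fin 3) (t m : ℝ) :
    MeasurableSet (bx (-a) a (-a) a H ∩ {y : Pos3 | t < |m - y c|}) :=
  (measurableSet_bx _ _ _ _ _).inter (measurableSet_lt measurable_const (by fun_prop))

theorem Jel_mono1 {a H : ℝ} (c : Fin 3) {x x' : Pos3} (hx : ∀ i, i ≠ c → x i = x' i)
    (h : |x' c| ≤ |x c|) :
    ∫ y in bx (-a) a (-a) a H, Kn (x - y) ≤ ∫ y in bx (-a) a (-a) a H, Kn (x' - y) := by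
  rw [← sub_nonneg, Jel_step c hx]
  refine setIntegral_nonneg_ae (Jel_meas _ _ _ _ _) ?_
  filter_upwards [compl_mem_ae_iff.2 (measure_singleton x')] with y hy hyS
  have hne : x' - y ≠ 0 := sub_ne_zero.2 (Ne.symm hy)
  have h1 : |y c| < |x c + x' c - y c| := by
    have := hyS.1
    rw [Jel_bx] at this
    exact (this c).trans_lt hyS.2
  have h2 := sq_lt_sq.2 h1
  have h3 := sq_le_sq.2 h
  have h4 : 0 ≤ (x c - x' c) * (x c + x' c - 2 * y c) := by
    have h5 : 0 < (x c + x' c) * (x c + x' c - 2 * y c) := by nlinarith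
    have h6 : 0 ≤ (x c - x' c) * (x c + x' c) := by nlinarith
    have h7 : 0 < (x c + x' c) ^ 2 := by
      rcases eq_or_ne (x c + x' c) 0 with h0 | h0
      · rw [h0, zero_mul] at h5; exact absurd h5 (lt_irrefl _)
      · positivity
    have h8 := mul_nonneg h6 h5.le
    by_contra hc
    have := mul_neg_of_neg_of_pos (not_le.1 hc) h7
    nlinarith
  have h5 : ‖x' - y‖ ≤ ‖x - y‖ := by
    refine le_of_sq_le_sq ?_ (norm_nonneg _)
    rw [Jel_normsq c hx y]
    linarith
  exact sub_nonneg.2 (Kn_le_of_le (norm_pos_iff.2 hne) h5)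

/-- One coordinate at a time: Fubini (`integral_bx_012` and its variants) and `shift_mono`; the inner
kernel `s ↦ Kn (mk3 (s, t) z)` is continuous for `(t, z) ≠ 0`. -/
theorem PhiJ_mono {δ a H : ℝ} (hδ : 0 < δ) (ha : 0 ≤ a) (hH : 0 ≤ H) {x x' : Pos3}
    (h : ∀ c, |x' c| ≤ |x c|) : PhiJ δ a H x ≤ PhiJ δ a H x' := by
  refine mul_le_mul_of_nonneg_left ?_ (by positivity)
  have h1 := Jel_mono1 (a := a) (H := H) 0 (x := x) (x' := mk3 (x' 0, x 1) (x 2))
    (fun i hi => by fin_cases i <;> simp at hi ⊢) (h 0)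
  have h2 := Jel_mono1 (a := a) (H := H) 1 (x := mk3 (x' 0, x 1) (x 2))
    (x' := mk3 (x' 0, x' 1) (x 2)) (fun i hi => by fin_cases i <;> simp at hi ⊢) (h 1)
  have h3 := Jel_mono1 (a := a) (H := H) 2 (x := mk3 (x' 0, x' 1) (x 2))
    (x' := x') (fun i hi => by fin_cases i <;> simp at hi ⊢) (h 2)
  exact h1.trans (h2.trans h3)

theorem Jel_int_abs {H z : ℝ} (h : |z| ≤ H) : ∫ w in Icc (-H) H, |z - w| = H ^ 2 + z ^ 2 := by
  obtain ⟨h1, h2⟩ := abs_le.1 h
  have hc : Continuous fun w : ℝ => |z - w| := by fun_prop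
  rw [integral_Icc_eq_integral_Ioc, ← intervalIntegral.integral_of_le (h1.trans h2),
    ← intervalIntegral.integral_add_adjacent_intervals (b := z) (hc.intervalIntegrable _ _)
      (hc.intervalIntegrable _ _),
    intervalIntegral.integral_congr (a := -H) (b := z) (g := fun w => z - w) (fun w hw => by
      rw [uIcc_of_le h1] at hw
      exact abs_of_nonneg (sub_nonneg.2 hw.2)),
    intervalIntegral.integral_congr (a := z) (b := H) (g := fun w => w - z) (fun w hw => by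
      rw [uIcc_of_le h2] at hw
      simp only
      rw [abs_sub_comm]
      exact abs_of_nonneg (sub_nonneg.2 hw.1)),
    intervalIntegral.integral_sub (by simp) (by simp),
    intervalIntegral.integral_sub (by simp) (by simp)]
  simp
  ring

/-- `integral_bx_prod'`, `square_K3`, `square_K2`, `∫ z' in -H..H, |z - z'| = H² + z²`. -/
theorem PhiJ_formula : ∃ C, ∀ (δ a H r : ℝ) (x : Pos3), 0 < δ → 0 < H → H ≤ a → r ≤ a / 2 →
    |x 0| ≤ r → |x 1| ≤ r → |x 2| ≤ H →
    |PhiJ δ a H x - (δ ^ 3)⁻¹ * (2 * H * a * c1 - 2 * Real.pi * (H ^ 2 + x 2 ^ 2))| ≤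
      C * (δ ^ 3)⁻¹ * H * (r ^ 2 + H ^ 2) / a := by
  obtain ⟨C, hC⟩ := square_K2
  refine ⟨2 * (8 * Real.pi + |C|), fun δ a H r x hδ hH hHa hr h0 h1 h2 => ?_⟩
  have ha : 0 < a := hH.trans_le hHa
  have hb := (isCompact_bx (-a) a (-a) a H).isBounded
  let F : ℝ → ℝ := fun z => ∫ p in Icc (-a) a ×ˢ Icc (-a) a, K3 (x 2 - z) ((x 0, x 1) - p)
  let G : ℝ → ℝ := fun z => a * c1 - 2 * Real.pi * |x 2 - z|
  have e1 : ∫ y in bx (-a) a (-a) a H, Kn (x - y) = ∫ z in Icc (-H) H, F z := by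
    rw [integral_bx_prod' (integrableOn_Kn x hb)]
    refine integral_congr_ae (Filter.Eventually.of_forall fun z => ?_)
    refine integral_congr_ae (Filter.Eventually.of_forall fun p => ?_)
    simp only
    rw [← Kn_mk3]
    congr 1
    ext i
    fin_cases i <;> simp
  have hG : IntegrableOn G (Icc (-H) H) :=
    (show Continuous G by simp only [G]; fun_prop).integrableOn_Icc
  have e2 : ∫ z in Icc (-H) H, G z = 2 * H * a * c1 - 2 * Real.pi * (H ^ 2 + x 2 ^ 2) := by
    simp only [G]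
    rw [integral_sub (Continuous.integrableOn_Icc (by fun_prop))
      (Continuous.integrableOn_Icc (by fun_prop)), integral_const_mul (2 * Real.pi),
      Jel_int_abs h2]
    simp [hH.le]
    ring
  have hbd : ∀ z ∈ Icc (-H) H, ‖F z - G z‖ ≤ (8 * Real.pi + |C|) * (r ^ 2 + H ^ 2) / a := by
    intro z hz
    have h3 := square_K3 hr ha (p := (x 0, x 1)) h0 h1 (x 2 - z)
    have h4 := hC a r (x 0, x 1) ha hr h0 h1
    have h5 : (x 2 - z) ^ 2 ≤ 4 * H ^ 2 := by
      obtain ⟨h6, h7⟩ := abs_le.1 h2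
      have := sq_le_sq' (a := x 2 - z) (b := 2 * H) (by linarith [hz.2]) (by linarith [hz.1])
      linarith
    have h6 : 2 * Real.pi * (x 2 - z) ^ 2 / a + C * r ^ 2 / a ≤
        (8 * Real.pi + |C|) * (r ^ 2 + H ^ 2) / a := by
      rw [← add_div]
      refine div_le_div_of_nonneg_right ?_ ha.le
      have := Real.pi_pos
      have h7 := mul_le_mul_of_nonneg_right (le_abs_self C) (sq_nonneg r)
      have h8 := mul_nonneg (abs_nonneg C) (sq_nonneg H)
      have h9 := mul_nonneg this.le (sq_nonneg r)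
      nlinarith
    rw [Real.norm_eq_abs, abs_le]
    obtain ⟨h7, h8⟩ := abs_le.1 h3
    obtain ⟨h9, h10⟩ := abs_le.1 h4
    simp only [F, G]
    constructor <;> linarith
  have hFm : StronglyMeasurable F := by
    refine StronglyMeasurable.integral_prod_right
      (f := fun z p => K3 (x 2 - z) ((x 0, x 1) - p)) (Measurable.stronglyMeasurable ?_)
    unfold K3 Function.uncurry
    fun_prop
  have hFG : IntegrableOn (fun z => F z - G z) (Icc (-H) H) := by
    refine Measure.integrableOn_of_bounded measure_Icc_lt_top.ne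
      (hFm.aestronglyMeasurable.sub
        (show Continuous G by simp only [G]; fun_prop).aestronglyMeasurable)
      (M := (8 * Real.pi + |C|) * (r ^ 2 + H ^ 2) / a) ?_
    exact (ae_restrict_iff' measurableSet_Icc).2 (Filter.Eventually.of_forall hbd)
  have hF : IntegrableOn F (Icc (-H) H) := by
    have := hFG.add hG
    simpa only [Pi.add_def, sub_add_cancel] using this
  have h3 := norm_setIntegral_le_of_norm_le_const measure_Icc_lt_top hbd (μ := volume)
  rw [integral_sub hF hG, e2, Real.volume_real_Icc_of_le (by linarith), Real.norm_eq_abs] at h3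
  rw [PhiJ, e1, ← mul_sub, abs_mul, abs_of_pos (show 0 < (δ ^ 3)⁻¹ by positivity)]
  refine (mul_le_mul_of_nonneg_left h3 (by positivity)).trans (le_of_eq ?_)
  ring

theorem Jel_far1 {a H : ℝ} (hH : 0 < H) (hHa : H ≤ a) (c : Fin 3) (hc : ![a, a, H] c = a)
    {S : Set Pos3} (hS : S ⊆ bx (-a) a (-a) a H) (hS' : ∀ y ∈ S, y c ≤ -(7 / 8 * a))
    (hv : volume.real S = a ^ 2 * H / 2) :
    (∫ y in bx (-a) a (-a) a H, Kn (EuclideanSpace.single c (a / 4) - y)) + 1 / 100 * H * a ≤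
      ∫ y in bx (-a) a (-a) a H, Kn (0 - y) := by
  have ha : 0 < a := hH.trans_le hHa
  have hK := isCompact_bx (-a) a (-a) a H
  have hx : ∀ i, i ≠ c → (EuclideanSpace.single c (a / 4) : Pos3) i = (0 : Pos3) i := by
    intro i hi
    simp [hi]
  have h1 := Jel_step (a := a) (H := H) c hx
  simp only [hc, PiLp.single_apply, if_true, PiLp.zero_apply, add_zero] at h1
  have hfin : volume (bx (-a) a (-a) a H ∩ {y : Pos3 | a < |a / 4 - y c|}) ≠ ⊤ :=
    ((measure_mono inter_subset_left).trans_lt hK.measure_lt_top).ne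
  have h2 := setIntegral_ge_of_const_le_real (c := 1 / (50 * a))
    (f := fun y => Kn (0 - y) - Kn (EuclideanSpace.single c (a / 4) - y))
    (Jel_meas a H c a (a / 4)) hfin (fun y hy => ?_)
    (((integrableOn_Kn _ hK.isBounded).sub (integrableOn_Kn _ hK.isBounded)).mono_set
      inter_subset_left)
  · have h3 : volume.real S ≤ volume.real (bx (-a) a (-a) a H ∩ {y : Pos3 | a < |a / 4 - y c|}) :=
      measureReal_mono (fun y hy => ⟨hS hy, by
        have := hS' y hy
        show a < |a / 4 - y c|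
        exact lt_abs.2 (Or.inl (by linarith))⟩) hfin
    have h4 : 1 / (50 * a) * (a ^ 2 * H / 2) = 1 / 100 * H * a := by field_simp; ring
    have h5 := mul_le_mul_of_nonneg_left h3 (show 0 ≤ 1 / (50 * a) by positivity)
    rw [hv, h4] at h5
    linarith
  · have hyB := hy.1
    rw [Jel_bx] at hyB
    have hyc := abs_le.1 (hc ▸ hyB c)
    have hy2 : y c < -(3 / 4 * a) := by
      rcases lt_abs.1 (show a < |a / 4 - y c| from hy.2) with h | h <;> linarith [hyc.2]
    have hn := Jel_normsq c hx y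
    simp only [PiLp.single_apply, if_true, PiLp.zero_apply, add_zero, sub_zero] at hn
    have hA2 : ‖(0 : Pos3) - y‖ ^ 2 ≤ 3 * a ^ 2 := by
      rw [zero_sub, norm_neg, norm_sq_eq]
      have h0 : |y 0| ≤ a := hyB 0
      have h1 : |y 1| ≤ a := hyB 1
      have h2 : |y 2| ≤ a := (show |y 2| ≤ H from hyB 2).trans hHa
      have := sq_le_sq' (abs_le.1 h0).1 (abs_le.1 h0).2
      have := sq_le_sq' (abs_le.1 h1).1 (abs_le.1 h1).2
      have := sq_le_sq' (abs_le.1 h2).1 (abs_le.1 h2).2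
      linarith
    have hA0 : 0 < ‖(0 : Pos3) - y‖ := by
      rw [zero_sub, norm_neg]
      exact lt_of_lt_of_le (abs_pos.2 (by linarith)) (abs_le_norm y c)
    simp only [Kn]
    generalize ‖(0 : Pos3) - y‖ = A at hn hA2 hA0
    have hB0 := norm_nonneg (EuclideanSpace.single c (a / 4) - y : Pos3)
    generalize ‖(EuclideanSpace.single c (a / 4) - y : Pos3)‖ = B at hn hB0
    have hA : A ≤ 2 * a := le_of_sq_le_sq (by nlinarith) (by positivity)
    have hB : B ≤ 2 * a := le_of_sq_le_sq (by nlinarith [hyc.1]) (by positivity)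
    have hAB : A ^ 2 + 7 / 16 * a ^ 2 ≤ B ^ 2 := by nlinarith
    have hB1 : A + a / 10 ≤ B := by
      by_contra hlt
      have := not_le.1 hlt
      nlinarith
    have hB2 : 0 < B := by linarith
    rw [div_sub_div _ _ hA0.ne' hB2.ne', div_le_div_iff₀ (by positivity) (by positivity)]
    have := mul_le_mul hA hB hB2.le (by positivity)
    nlinarith

/-- The drop towards the lateral boundary: the difference is `δ⁻³ ∫∫∫ (K (s, ·) - K (s + a/4, ·))`
over `s ∈ [3a/4, a]`; the integrand is at least `c / a` because `‖(s, t, z)‖ ≤ 2 a`. -/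
theorem PhiJ_far : ∃ c, 0 < c ∧ ∀ (δ a H : ℝ) (x : Pos3), 0 < δ → 0 < H → H ≤ a →
    (a / 4 ≤ |x 0| ∨ a / 4 ≤ |x 1|) → PhiJ δ a H x ≤ PhiJ δ a H 0 - c * (δ ^ 3)⁻¹ * H * a := by
  refine ⟨1 / 100, by norm_num, fun δ a H x hδ hH hHa hx => ?_⟩
  have ha : 0 < a := hH.trans_le hHa
  have key : ∀ c : Fin 3, a / 4 ≤ |x c| →
      (∫ y in bx (-a) a (-a) a H, Kn (EuclideanSpace.single c (a / 4) - y)) + 1 / 100 * H * a ≤
        ∫ y in bx (-a) a (-a) a H, Kn (0 - y) →
      PhiJ δ a H x ≤ PhiJ δ a H 0 - 1 / 100 * (δ ^ 3)⁻¹ * H * a := by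
    intro c hc h
    have h1 : PhiJ δ a H x ≤ PhiJ δ a H (EuclideanSpace.single c (a / 4)) :=
      PhiJ_mono hδ ha.le hH.le fun i => by
        simp only [PiLp.single_apply]
        split_ifs with hi
        · rw [hi, abs_of_pos (by positivity)]; exact hc
        · simp
    have h2 := mul_le_mul_of_nonneg_left h (show 0 ≤ (δ ^ 3)⁻¹ by positivity)
    simp only [PhiJ] at h1 ⊢
    linarith
  rcases hx with hx | hx
  · refine key 0 hx (Jel_far1 hH hHa 0 rfl (S := bx (-a) (-(7 / 8 * a)) (-a) a H)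
      (fun y hy => ⟨⟨hy.1.1, by linarith [hy.1.2]⟩, hy.2⟩) (fun y hy => hy.1.2) ?_)
    rw [volume_bx (by linarith) (by linarith) hH.le]
    ring
  · refine key 1 hx (Jel_far1 hH hHa 1 rfl (S := bx (-a) a (-a) (-(7 / 8 * a)) H)
      (fun y hy => ⟨hy.1, ⟨hy.2.1.1, by linarith [hy.2.1.2]⟩, hy.2.2⟩) (fun y hy => hy.2.1.2) ?_)
    rw [volume_bx (by linarith) (by linarith) hH.le]
    ring

theorem Jel_int_Kn (δ : ℝ) (p : Pos3) : IntegrableOn (fun y => Kn (y - p)) (Qc δ) := by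
  have := integrableOn_Kn p (isCompact_Qc δ).isBounded
  simpa only [← neg_sub p, Kn_neg] using this

theorem Jel_int_kk {δ : ℝ} (hδ : 0 < δ) (p : Pos3) :
    IntegrableOn (fun y => kk δ (y - p)) (Qc δ) := by
  have h1 := (locallyIntegrable_kk hδ).integrableOn_isCompact
    ((isCompact_Qc δ).image (continuous_sub_right p))
  exact (((measurePreserving_sub_right volume p).integrableOn_comp_preimage
    (measurableEmbedding_subRight p)).2 h1).mono_set (subset_preimage_image _ _)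

theorem Jel_moment {δ : ℝ} (hδ : 0 < δ) : ∫ y in Qc δ, y 2 ^ 2 = δ ^ 5 / 12 := by
  rw [Qc_eq_bx, integral_bx_012 (by linarith) (by linarith) (by linarith)
    ((show Continuous fun y : Pos3 => y 2 ^ 2 by fun_prop).continuousOn.integrableOn_compact
      (isCompact_bx _ _ _ _ _))]
  simp only [mk3_2, integral_pow, intervalIntegral.integral_const, smul_eq_mul]
  ring

/-- The cell average of the point lattice is the potential of the slab. -/
theorem avg_PhiN {δ : ℝ} (hδ : 0 < δ) (I J : ℕ) :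
    (δ ^ 3)⁻¹ * ∫ y in Qc δ, PhiN δ I J 0 y = PhiC δ I J 0 0 := by
  simp only [PhiN, PhiC]
  rw [integral_finsetSum _ fun β _ => Jel_int_Kn δ _, Finset.mul_sum]
  refine Finset.sum_congr rfl fun β _ => ?_
  rw [← integral_Qc_neg]
  congr 2
  funext y
  congr 1
  abel

/-- Recipe: take `J = m`, `I = m ^ 4`; `ebar` is the cell average of `PhiN - PhiC` up to the tail
(`sum_kk_tail`); `avg_PhiN`, `PhiC_zero`, `PhiJ_formula` with `r = δ / 2`, and
`δ⁻³ ∫ y in Qc δ, y 2 ^ 2 = δ² / 12`. -/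
theorem ebar_val : ∃ C, ∀ (δ : ℝ) (m : ℕ), 0 < δ → 1 ≤ m →
    |ebar δ m - Real.pi / (6 * δ)| ≤ C / (δ * m) := by
  obtain ⟨C₁, hC₁⟩ := PhiJ_formula
  obtain ⟨C₂, hC₂⟩ := sum_kk_tail
  refine ⟨8 * |C₁| + C₂, fun δ m hδ hm => ?_⟩
  have hm' : (1 : ℝ) ≤ m := by exact_mod_cast hm
  have hm4 : m ≤ m ^ 4 := Nat.le_self_pow (by norm_num) m
  have hm4' : (m : ℝ) ≤ m ^ 4 := by exact_mod_cast hm4
  obtain ⟨a, ha⟩ : ∃ a : ℝ, a = (((m ^ 4 : ℕ) : ℝ) + 1 / 2) * δ := ⟨_, rfl⟩
  obtain ⟨H, hH⟩ : ∃ H : ℝ, H = ((m : ℝ) + 1 / 2) * δ := ⟨_, rfl⟩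
  have ha' : a = ((m : ℝ) ^ 4 + 1 / 2) * δ := by rw [ha]; push_cast; ring
  have hH0 : δ ≤ H := by rw [hH]; nlinarith
  have hHa : H ≤ a := by rw [ha', hH]; nlinarith
  have hsub : Lam m m ⊆ Lam (m ^ 4) m := by
    intro β hβ
    rw [mem_Lam] at hβ ⊢
    have : (m : ℤ) ≤ ((m ^ 4 : ℕ) : ℤ) := by exact_mod_cast hm4
    exact ⟨hβ.1.trans this, hβ.2.1.trans this, hβ.2.2⟩
  have herr : C₁ * (δ ^ 3)⁻¹ * H * ((δ / 2) ^ 2 + H ^ 2) / a ≤ 4 * |C₁| / (δ * m) := by
    have ha0 : 0 < a := by linarith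
    have h1 : H * ((δ / 2) ^ 2 + H ^ 2) * m ≤ 4 * δ ^ 2 * a := by
      have h2 : H ≤ 3 / 2 * (m * δ) := by rw [hH]; nlinarith
      have h3 : δ ≤ m * δ := by nlinarith
      have h4 : (δ / 2) ^ 2 + H ^ 2 ≤ 5 / 2 * (m * δ) ^ 2 := by nlinarith
      have h5 : H * ((δ / 2) ^ 2 + H ^ 2) ≤ 3 / 2 * (m * δ) * (5 / 2 * (m * δ) ^ 2) :=
        mul_le_mul h2 h4 (by positivity) (by positivity)
      have h6 := mul_le_mul_of_nonneg_right h5 (show (0 : ℝ) ≤ m by positivity)
      have h7 : 0 ≤ (m : ℝ) ^ 4 * δ ^ 3 := by positivity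
      have h8 : 0 ≤ δ ^ 3 := by positivity
      rw [ha']
      nlinarith
    have hH1 : 0 ≤ H := by linarith
    calc C₁ * (δ ^ 3)⁻¹ * H * ((δ / 2) ^ 2 + H ^ 2) / a
        = C₁ * ((δ ^ 3)⁻¹ * (H * ((δ / 2) ^ 2 + H ^ 2) * m) / (a * m)) := by
          field_simp
      _ ≤ |C₁| * ((δ ^ 3)⁻¹ * (4 * δ ^ 2 * a) / (a * m)) :=
          mul_le_mul (le_abs_self _) (by gcongr) (by positivity) (abs_nonneg _)
      _ = 4 * |C₁| / (δ * m) := by field_simp
  let E : Pos3 → ℝ := fun y => ∑ γ ∈ Lam m m, kk δ (y - lat δ γ) -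
    (PhiN δ (m ^ 4) m 0 y - PhiJ δ a H 0 + (δ ^ 3)⁻¹ * (2 * Real.pi) * y 2 ^ 2)
  have hE : ∀ y ∈ Qc δ, ‖E y‖ ≤ (8 * |C₁| + C₂) / (δ * m) := by
    intro y hy
    have h1 := PhiN_sub_PhiC δ (m ^ 4) m 0 y
    rw [PhiC_zero hδ, ← ha, ← hH, ← Finset.sum_sdiff hsub] at h1
    simp only [Pi.zero_apply, add_zero] at h1
    have h2 := hC₂ δ hδ m hm (Lam (m ^ 4) m \ Lam m m) 0 (fun β hβ => by
      have h3 := (Finset.mem_sdiff.1 hβ).2
      rw [mem_Lam] at h3
      by_contra hc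
      push Not at hc
      simp only [Pi.zero_apply, sub_zero] at hc
      exact h3 ⟨hc 0, hc 1, hc 2⟩) y hy
    have h0 : lat δ 0 = 0 := by ext c; simp
    simp only [h0, zero_add] at h2
    have h3 := (Finset.abs_sum_le_sum_abs _ _).trans h2
    have h4 := (hC₁ δ a H (δ / 2) y hδ (by linarith) hHa (by linarith) (hy 0) (hy 1)
      ((hy 2).trans (by linarith))).trans herr
    have h5 := (hC₁ δ a H (δ / 2) 0 hδ (by linarith) hHa (by linarith) (by simp; linarith)
      (by simp; linarith) (by simp; linarith)).trans herr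
    simp only [PiLp.zero_apply] at h5
    have h6 : (8 * |C₁| + C₂) / (δ * m) =
        4 * |C₁| / (δ * m) + 4 * |C₁| / (δ * m) + C₂ / (δ * m) := by ring
    rw [Real.norm_eq_abs, h6, abs_le]
    obtain ⟨h7, h8⟩ := abs_le.1 h3
    obtain ⟨h9, h10⟩ := abs_le.1 h4
    obtain ⟨h11, h12⟩ := abs_le.1 h5
    simp only [E]
    constructor <;> nlinarith
  have hQ := isCompact_Qc δ
  have i1 : IntegrableOn (fun y => ∑ γ ∈ Lam m m, kk δ (y - lat δ γ)) (Qc δ) :=
    integrable_finsetSum _ fun γ _ => Jel_int_kk hδ _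
  have i2 : IntegrableOn (fun y => PhiN δ (m ^ 4) m 0 y) (Qc δ) :=
    integrable_finsetSum _ fun γ _ => Jel_int_Kn δ _
  have i3 : IntegrableOn (fun _ : Pos3 => PhiJ δ a H 0) (Qc δ) :=
    integrableOn_const hQ.measure_lt_top.ne
  have i4 : IntegrableOn (fun y : Pos3 => (δ ^ 3)⁻¹ * (2 * Real.pi) * y 2 ^ 2) (Qc δ) :=
    (show Continuous fun y : Pos3 => (δ ^ 3)⁻¹ * (2 * Real.pi) * y 2 ^ 2 by
      fun_prop).continuousOn.integrableOn_compact hQ
  have i5 : IntegrableOn (fun y => PhiN δ (m ^ 4) m 0 y - PhiJ δ a H 0) (Qc δ) := i2.sub i3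
  have i6 : IntegrableOn (fun y => PhiN δ (m ^ 4) m 0 y - PhiJ δ a H 0 +
      (δ ^ 3)⁻¹ * (2 * Real.pi) * y 2 ^ 2) (Qc δ) := i5.add i4
  have h1 := norm_setIntegral_le_of_norm_le_const hQ.measure_lt_top hE (μ := volume)
  have h2 := avg_PhiN hδ (m ^ 4) m
  rw [PhiC_zero hδ, ← ha, ← hH] at h2
  simp only [E] at h1
  rw [integral_sub i1 i6, integral_add i5 i4, integral_sub i2 i3, integral_const_mul,
    Jel_moment hδ, setIntegral_const, volume_Qc hδ.le, smul_eq_mul, ← h2, Real.norm_eq_abs] at h1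
  have h3 : ebar δ m - Real.pi / (6 * δ) = (δ ^ 3)⁻¹ *
      ((∫ y in Qc δ, ∑ γ ∈ Lam m m, kk δ (y - lat δ γ)) -
        ((∫ y in Qc δ, PhiN δ (m ^ 4) m 0 y) -
          δ ^ 3 * ((δ ^ 3)⁻¹ * ∫ y in Qc δ, PhiN δ (m ^ 4) m 0 y) +
          (δ ^ 3)⁻¹ * (2 * Real.pi) * (δ ^ 5 / 12))) := by
    rw [ebar]
    field_simp
    ring
  rw [h3, abs_mul, abs_of_pos (show 0 < (δ ^ 3)⁻¹ by positivity)]
  refine (mul_le_mul_of_nonneg_left h1 (by positivity)).trans (le_of_eq ?_)
  field_simp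

end Crest.Agent.R338
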