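/-
R338/Vres: bounds for the residual potential
Skeleton by helper15 (row 338); keep the statements unchanged, add any helper lemmas you like.
-/
import Crest.Agent.R338.GBound
import Crest.Agent.R338.Jel

set_option autoImplicit false
set_option linter.unusedSectionVars false
set_option linter.unusedVariables false
set_option linter.unusedSimpArgs false

noncomputable section

namespace Crest.Agent.R338

open MeasureTheory Set Filter Crest.MathPhysics.ElectronicCoulomb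

theorem Vres_II_del {D : Des} (h : D.Good) : (D.II : ℝ) * D.del ℝ = (D.S : ℝ) ^ 3840 := by
  have h0 := h.pos
  unfold Des.II Des.del
  push_cast
  rw [show (D.S : ℝ) ^ 7680 = (D.S : ℝ) ^ 3840 * (D.S : ℝ) ^ 3840 by rw [← pow_add],
    mul_inv_cancel_right₀ (by positivity)]

theorem Vres_mm_del {D : Des} (h : D.Good) : (D.mm : ℝ) * D.del ℝ = ((D.S : ℝ) ^ 1920)⁻¹ := by
  have h0 := h.pos
  unfold Des.mm Des.del
  push_cast
  rw [show (D.S : ℝ) ^ 3840 = (D.S : ℝ) ^ 1920 * (D.S : ℝ) ^ 1920 by rw [← pow_add], mul_inv,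
    mul_inv_cancel_left₀ (by positivity)]

theorem Vres_del_cube (D : Des) : (D.del ℝ ^ 3)⁻¹ = (D.S : ℝ) ^ 11520 := by
  unfold Des.del
  rw [inv_pow, inv_inv, ← pow_mul]

theorem Vres_ell_sq (D : Des) : (D.ell ℝ ^ 2)⁻¹ = (D.S : ℝ) ^ 4320 := by
  unfold Des.ell
  rw [inv_pow, inv_inv, ← pow_mul]

theorem Vres_eq (D : Des) (x : Pos3) : D.Vres x = (D.PJ 0 - D.PJ x) +
    (D.g x - D.W3 x / D.ell ℝ ^ 2 + D.BB ℝ) - D.phi2 (x 2) / (2 * D.phi (x 2)) - D.om / 2 := by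
  unfold Des.Vres
  ring

theorem Vres_box {D : Des} (h : D.Good) (h2 : (2 : ℝ) ≤ D.S) {x : Pos3} (hx : x ∈ D.box) :
    (∀ c, |x c| ≤ ((D.S : ℝ) ^ 1920)⁻¹) ∧ |x 2| ≤ 2 * D.z1 := by
  obtain ⟨h0, h1, hz⟩ := hx
  have hR : D.RR ≤ ((D.S : ℝ) ^ 1920)⁻¹ := inv_pow_le h.one_le (by norm_num)
  have hZ : 2 * D.z1 ≤ ((D.S : ℝ) ^ 1920)⁻¹ := mul_inv_pow_le h.one_le h2 (by norm_num)
  refine ⟨fun c => ?_, abs_le.2 hz⟩
  fin_cases c
  · exact (abs_le.2 h0).trans hR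
  · exact (abs_le.2 h1).trans hR
  · exact (abs_le.2 hz).trans hZ

theorem slab_sizes {D : Des} (h : D.Good) :
    (D.S : ℝ) ^ 3840 ≤ D.aa ℝ ∧ D.aa ℝ ≤ 2 * (D.S : ℝ) ^ 3840 ∧
      2 * ((D.S : ℝ) ^ 1920)⁻¹ ≤ D.HH ℝ ∧ D.HH ℝ ≤ 3 * ((D.S : ℝ) ^ 1920)⁻¹ := by
  have h1 := Vres_II_del h
  have h2 := Vres_mm_del h
  have h3 := h.del_pos
  have h4 : D.del ℝ ≤ ((D.S : ℝ) ^ 1920)⁻¹ := inv_pow_le h.one_le (by norm_num)
  have h5 : ((D.S : ℝ) ^ 1920)⁻¹ ≤ 1 := inv_le_one_of_one_le₀ (one_le_pow₀ h.one_le)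
  have h6 : 1 ≤ (D.S : ℝ) ^ 3840 := one_le_pow₀ h.one_le
  unfold Des.aa Des.HH
  refine ⟨?_, ?_, ?_, ?_⟩ <;> linarith

/-- `PhiJ_formula` at `x` and at `0` with `r = HH`; `2 π δ⁻³ = ω² / 2`; the error is `O(S¹⁹²⁰)`. -/
theorem PJ_near : ∀ᶠ D : Des in evD, ∀ x : Pos3, (∀ c, |x c| ≤ ((D.S : ℝ) ^ 1920)⁻¹) →
    |D.PJ 0 - D.PJ x - D.om ^ 2 * x 2 ^ 2 / 2| ≤ (D.S : ℝ) ^ 1921 := by
  obtain ⟨C, hC⟩ := PhiJ_formula
  filter_upwards [ev_good, ev_ge 6, ev_ge (108 * |C|)] with D hD h6 hS x hx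
  obtain ⟨a1, a2, a3, a4⟩ := slab_sizes hD
  have h0 := hD.pos
  have h1 := hD.one_le
  set u := ((D.S : ℝ) ^ 1920)⁻¹ with hu
  have u0 : 0 < u := by positivity
  have u1 : u ≤ 1 := inv_le_one_of_one_le₀ (one_le_pow₀ h1)
  have hs : (D.S : ℝ) ≤ (D.S : ℝ) ^ 3840 := le_self_pow₀ h1 (by norm_num)
  have hH : 0 < D.HH ℝ := by linarith
  have ha : 0 < D.aa ℝ := by linarith
  have e1 := hC (D.del ℝ) (D.aa ℝ) (D.HH ℝ) (D.HH ℝ) x hD.del_pos hH (by linarith) (by linarith)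
    (by linarith [hx 0]) (by linarith [hx 1]) (by linarith [hx 2])
  have e0 := hC (D.del ℝ) (D.aa ℝ) (D.HH ℝ) (D.HH ℝ) 0 hD.del_pos hH (by linarith) (by linarith)
    (by simpa using hH.le) (by simpa using hH.le) (by simpa using hH.le)
  rw [Vres_del_cube] at e0 e1
  have hb : C * (D.S : ℝ) ^ 11520 * D.HH ℝ * (D.HH ℝ ^ 2 + D.HH ℝ ^ 2) / D.aa ℝ ≤
      54 * |C| * (D.S : ℝ) ^ 1920 := by
    calc C * (D.S : ℝ) ^ 11520 * D.HH ℝ * (D.HH ℝ ^ 2 + D.HH ℝ ^ 2) / D.aa ℝ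
        ≤ |C| * (D.S : ℝ) ^ 11520 * (3 * u) * ((3 * u) ^ 2 + (3 * u) ^ 2) / (D.S : ℝ) ^ 3840 := by
          gcongr
          exact le_abs_self C
      _ = 54 * |C| * (D.S : ℝ) ^ 1920 := by
          have e2 : (D.S : ℝ) ^ 11520 = ((D.S : ℝ) ^ 1920) ^ 6 := by rw [← pow_mul]
          have e3 : (D.S : ℝ) ^ 3840 = ((D.S : ℝ) ^ 1920) ^ 2 := by rw [← pow_mul]
          have e4 : (0 : ℝ) < (D.S : ℝ) ^ 1920 := by positivity
          rw [e2, e3, hu]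
          generalize (D.S : ℝ) ^ 1920 = v at e4 ⊢
          field_simp
          ring
  have hc := mul_pow_le (a := 1920) (b := 1921) h1 hS le_rfl
  have e0' := abs_le.1 (e0.trans hb)
  have e1' := abs_le.1 (e1.trans hb)
  simp only [PiLp.zero_apply] at e0'
  rw [om_sq, abs_le]
  unfold Des.PJ
  constructor <;> linarith [e0'.1, e0'.2, e1'.1, e1'.2]

/-- `PhiJ_mono` (compare with `mk3 0 z`) and `PJ_near`. -/
theorem PJ_ge : ∀ᶠ D : Des in evD, ∀ (x : Pos3) (z : ℝ), |z| ≤ |x 2| → |z| ≤ D.z1 →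
    D.om ^ 2 * z ^ 2 / 2 - (D.S : ℝ) ^ 1921 ≤ D.PJ 0 - D.PJ x := by
  filter_upwards [ev_good, PJ_near] with D hD hn x z hz hz1
  obtain ⟨a1, -, a3, -⟩ := slab_sizes hD
  have h0 := hD.pos
  have u0 : 0 < ((D.S : ℝ) ^ 1920)⁻¹ := by positivity
  have hZ : D.z1 ≤ ((D.S : ℝ) ^ 1920)⁻¹ := inv_pow_le hD.one_le (by norm_num)
  have h1 : D.PJ x ≤ D.PJ (mk3 (0, 0) z) := by
    refine PhiJ_mono hD.del_pos (le_trans (by positivity) a1) (by linarith) fun c => ?_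
    fin_cases c
    · simp
    · simp
    · exact hz
  have h2 := hn (mk3 (0, 0) z) fun c => by
    fin_cases c
    · simp
    · simp
    · exact hz1.trans hZ
  rw [mk3_2] at h2
  linarith [(abs_le.1 h2).1]

/-- `PhiJ_far`: `δ⁻³ H a ≥ 2 S¹³⁴⁴⁰`. -/
theorem PJ_far : ∀ᶠ D : Des in evD, ∀ x : Pos3,
    (D.II * D.del ℝ / 2 < |x 0| ∨ D.II * D.del ℝ / 2 < |x 1|) →
    (D.S : ℝ) ^ 13439 ≤ D.PJ 0 - D.PJ x := by
  obtain ⟨c, hc, hC⟩ := PhiJ_far
  filter_upwards [ev_good, ev_ge 6, ev_ge c⁻¹] with D hD h6 hS x hx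
  obtain ⟨a1, a2, a3, a4⟩ := slab_sizes hD
  have h0 := hD.pos
  have h1 := hD.one_le
  set u := ((D.S : ℝ) ^ 1920)⁻¹ with hu
  have u0 : 0 < u := by positivity
  have u1 : u ≤ 1 := inv_le_one_of_one_le₀ (one_le_pow₀ h1)
  have hs : (D.S : ℝ) ≤ (D.S : ℝ) ^ 3840 := le_self_pow₀ h1 (by norm_num)
  rw [Vres_II_del hD] at hx
  have e := hC (D.del ℝ) (D.aa ℝ) (D.HH ℝ) x hD.del_pos (by linarith) (by linarith)
    (hx.imp (fun h => by linarith) fun h => by linarith)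
  rw [Vres_del_cube] at e
  have hb : (D.S : ℝ) ^ 13439 ≤ c * (D.S : ℝ) ^ 11520 * D.HH ℝ * D.aa ℝ := by
    have e1 : 1 ≤ c * D.S := by rwa [inv_le_iff_one_le_mul₀' hc] at hS
    calc (D.S : ℝ) ^ 13439 ≤ (c * D.S) * (D.S : ℝ) ^ 13439 :=
          le_mul_of_one_le_left (by positivity) e1
      _ = c * (D.S : ℝ) ^ 11520 * u * (D.S : ℝ) ^ 3840 := by
          have e2 : (D.S : ℝ) ^ 11520 = (D.S : ℝ) ^ 9600 * (D.S : ℝ) ^ 1920 := by rw [← pow_add]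
          have e3 : (D.S : ℝ) * (D.S : ℝ) ^ 13439 = (D.S : ℝ) ^ 9600 * (D.S : ℝ) ^ 3840 := by
            rw [← pow_succ', ← pow_add]
          rw [mul_assoc, e3, e2, hu, ← mul_assoc, ← mul_assoc, mul_inv_cancel_right₀ (by positivity)]
      _ ≤ c * (D.S : ℝ) ^ 11520 * D.HH ℝ * D.aa ℝ := by
          gcongr
          · have : 0 ≤ D.HH ℝ := by linarith
            positivity
          · linarith
  unfold Des.PJ
  linarith

theorem mem_padBox {D : Des} (h : D.Good) {A l : ℕ} {x : Pos3} : x ∈ D.padBox A l ↔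
    x 0 / D.ell ℝ ∈ Icc (D.xA ℝ A) (D.xA ℝ A + 1) ∧ x 1 / D.ell ℝ ∈ Icc (D.yl ℝ l) (D.yl ℝ l + 1) ∧
      |x 2| ≤ D.z1 := by
  have hl := h.ell_pos
  simp only [Des.padBox, bx, mem_ofPred_eq, mem_Icc, le_div_iff₀' hl, div_le_iff₀' hl, abs_le, mul_add,
    mul_one]

theorem mem_rooms {D : Des} {x : Pos3} :
    x ∈ ⋃ A, D.Om A ↔ ∃ A < 3 * D.n, ∃ l ∈ D.pads A, x ∈ D.padBox A l := by
  simp only [Des.Om, mem_iUnion, exists_prop]
  constructor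
  · rintro ⟨A, l, hl, hx⟩
    exact ⟨rid A, Des.rid_lt A, l, hl, hx⟩
  · rintro ⟨A, hA, l, hl, hx⟩
    have e : rid ((⟨A / 3, by omega⟩, ⟨A % 3, by omega⟩) : Room D.n) = A := by
      simp only [rid]
      omega
    exact ⟨_, l, by rw [e]; exact hl, by rw [e]; exact hx⟩

theorem measurableSet_Om (D : Des) (A : Room D.n) : MeasurableSet (D.Om A) := by
  exact Finset.measurableSet_biUnion _ fun l _ => measurableSet_bx _ _ _ _ _

theorem measurableSet_nb (D : Des) : MeasurableSet D.nb := by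
  have h : ∀ (t : ℝ) (c : Fin 3), MeasurableSet {x : Pos3 | t < |x c|} := fun t c =>
    measurableSet_lt measurable_const (by fun_prop)
  exact (h _ 0).union ((h _ 1).union (h _ 2))

/-- Near the plane the cut-off in `g` is one. -/
theorem g_mid : ∀ᶠ D : Des in evD, ∀ x : Pos3, |x 2| ≤ 2 * D.z1 →
    D.g x - D.W3 x / D.ell ℝ ^ 2 + D.BB ℝ = D.BB ℝ * (1 - D.G3 x) := by
  filter_upwards [ev_good, ev_ge 2] with D hD h2 x hx
  have hl := hD.ell_pos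
  have hZ : 2 * D.z1 ≤ D.ell ℝ := mul_inv_pow_le hD.one_le h2 (by norm_num)
  obtain ⟨h3, h4⟩ := abs_le.1 (hx.trans hZ)
  have e := pl_of_mem (σ := 1) (a := -1) (b := 1) (x := x 2 / D.ell ℝ) 0 one_pos
    (by rw [le_div_iff₀ hl]; linarith) (by rw [div_le_iff₀ hl]; linarith)
  unfold Des.g Des.g3 Des.W3 Des.G3
  rw [e, if_pos rfl]
  ring

theorem g_ge : ∀ᶠ D : Des in evD, ∀ x : Pos3,
    -(D.S : ℝ) ^ 4446 ≤ D.g x - D.W3 x / D.ell ℝ ^ 2 + D.BB ℝ := by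
  filter_upwards [ev_good, DB_W3, G_bounds] with D hD hW hG x
  have h0 := hD.pos
  have p0 := pl_nonneg (σ := 1) (a := -1) (b := 1) one_pos (by norm_num) (x 2 / D.ell ℝ)
  have p1 := pl_le_one 1 (-1) 1 (x 2 / D.ell ℝ)
  obtain ⟨g0, g1⟩ := hG (x 0 / D.ell ℝ) (x 1 / D.ell ℝ)
  have hB : 0 ≤ D.BB ℝ := by unfold Des.BB; positivity
  have hw : |D.W3 x / D.ell ℝ ^ 2| ≤ (D.S : ℝ) ^ 4446 := by
    rw [div_eq_mul_inv, Vres_ell_sq, abs_mul, abs_of_nonneg (by positivity : 0 ≤ (D.S : ℝ) ^ 4320),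
      show (D.S : ℝ) ^ 4446 = (D.S : ℝ) ^ 126 * (D.S : ℝ) ^ 4320 by rw [← pow_add]]
    exact mul_le_mul_of_nonneg_right (hW.abs_le x) (by positivity)
  have e : D.g x = (D.W3 x / D.ell ℝ ^ 2 - D.BB ℝ * D.G (x 0 / D.ell ℝ) (x 1 / D.ell ℝ)) *
      pl 1 (-1) 1 0 (x 2 / D.ell ℝ) := rfl
  rw [e]
  have hT : 0 ≤ (D.S : ℝ) ^ 4446 := by positivity
  generalize (D.S : ℝ) ^ 4446 = T at *
  generalize D.W3 x / D.ell ℝ ^ 2 = w at *
  generalize pl 1 (-1) 1 0 (x 2 / D.ell ℝ) = p at *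
  generalize D.G (x 0 / D.ell ℝ) (x 1 / D.ell ℝ) = G at *
  have h1 : (1 - p) * w ≤ (1 - p) * T := mul_le_mul_of_nonneg_left (le_of_abs_le hw) (by linarith)
  have h2 : 0 ≤ D.BB ℝ * (1 - G * p) := mul_nonneg hB (by nlinarith)
  nlinarith [mul_nonneg p0 hT]

/-- Recipe.  If `z1 ≤ |x 2|`: `PJ_ge` with `z = z1` (`ω z1² ≥ 3 S²`), `phi2_div_tail`, `g_ge` give
`Vres ≥ S⁵⁷⁶⁰`.  Otherwise `g_mid`; in `nb` use `PJ_far`, `phi2_div_le`; off `nb` use `PJ_ge` with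
`z = x 2`, `vert_ge`, and `G_zero` (off the rooms) or `G_bounds`. -/
theorem Vres_ge : ∀ᶠ D : Des in evD, ∀ x : Pos3,
    D.BB ℝ * (⋃ A, D.Om A)ᶜ.indicator 1 x + (D.S : ℝ) ^ 3841 * D.nb.indicator 1 x -
      (D.S : ℝ) ^ 2000 ≤ D.Vres x := by
  filter_upwards [ev_good, ev_ge 100, PJ_ge, PJ_far, g_mid, g_ge, phi2_div_tail, G_bounds, G_zero]
    with D hD hS hge hfar hmid hg htail hG hG0 x
  have h0 := hD.pos
  have h1 := hD.one_le
  obtain ⟨o1, o2⟩ := om_bounds D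
  have hB : 0 ≤ D.BB ℝ := by unfold Des.BB; positivity
  have hB' : D.BB ℝ ≤ (D.S : ℝ) ^ 3841 := pow_le_pow_right₀ h1 (by norm_num)
  have i1 : D.BB ℝ * (⋃ A, D.Om A)ᶜ.indicator 1 x ≤ D.BB ℝ :=
    mul_le_of_le_one_right hB (indicator_le_self' (fun _ _ => zero_le_one) x)
  have i2 : (D.S : ℝ) ^ 3841 * D.nb.indicator 1 x ≤ (D.S : ℝ) ^ 3841 :=
    mul_le_of_le_one_right (by positivity) (indicator_le_self' (fun _ _ => zero_le_one) x)
  have p0 : 0 ≤ (D.S : ℝ) ^ 2000 := by positivity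
  rw [Vres_eq]
  rcases le_or_gt D.z1 |x 2| with hz | hz
  · have hz1 := hD.z1_pos
    have b1 := hge x D.z1 (by rwa [abs_of_pos hz1]) (abs_of_pos hz1).le
    have b2 := htail _ hz
    have b3 := hg x
    have b4 : 3 ≤ D.om * D.z1 ^ 2 := by
      have e : (D.S : ℝ) ^ 5760 * D.z1 ^ 2 = (D.S : ℝ) ^ 2 := by
        unfold Des.z1
        rw [inv_pow, ← pow_mul,
          show (D.S : ℝ) ^ 5760 = (D.S : ℝ) ^ 2 * (D.S : ℝ) ^ (2879 * 2) by rw [← pow_add],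
          mul_inv_cancel_right₀ (by positivity)]
      have e' : 3 * (D.S : ℝ) ^ 5760 * D.z1 ^ 2 ≤ D.om * D.z1 ^ 2 := by gcongr
      have : 1 ≤ (D.S : ℝ) ^ 2 := one_le_pow₀ h1
      rw [mul_assoc, e] at e'
      linarith
    have o0 : 0 ≤ D.om := le_trans (by positivity) o1
    have b5 : D.om * 3 ≤ D.om ^ 2 * D.z1 ^ 2 := by
      rw [sq D.om, mul_assoc]
      exact mul_le_mul_of_nonneg_left b4 o0
    have c1 := mul_pow_le (a := 3841) (b := 5760) h1 hS (by norm_num)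
    have c2 := mul_pow_le (a := 4446) (b := 5760) h1 hS (by norm_num)
    have c3 := mul_pow_le (a := 1921) (b := 5760) h1 hS (by norm_num)
    have c4 : 1 ≤ (D.S : ℝ) ^ 5760 := one_le_pow₀ h1
    linarith
  · have hz1 := hD.z1_pos
    obtain ⟨g0, g1⟩ := hG (x 0 / D.ell ℝ) (x 1 / D.ell ℝ)
    have b0 : 0 ≤ D.BB ℝ * (1 - D.G3 x) := mul_nonneg hB (sub_nonneg.2 g1)
    rw [hmid x (by linarith)]
    by_cases hn : x ∈ D.nb
    · have hZ : D.z1 ≤ D.mm * D.del ℝ := by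
        rw [Vres_mm_del hD]
        exact inv_pow_le h1 (by norm_num)
      have b1 := hfar x (by
        rcases hn with hn | hn | hn
        · exact Or.inl hn
        · exact Or.inr hn
        · exact absurd (hz.trans_le hZ) (not_lt.2 hn.le))
      have b2 := phi2_div_le hD hz.le
      have c1 := mul_pow_le (a := 3841) (b := 13439) h1 hS (by norm_num)
      have c2 := mul_pow_le (a := 5762) (b := 13439) h1 hS (by norm_num)
      have c3 := mul_pow_le (a := 5760) (b := 13439) h1 hS (by norm_num)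
      have c4 : 0 ≤ (D.S : ℝ) ^ 13439 := by positivity
      linarith
    · have b1 := hge x (x 2) le_rfl hz.le
      have b2 := vert_ge hD (x 2)
      have b3 : D.BB ℝ * (⋃ A, D.Om A)ᶜ.indicator 1 x ≤ D.BB ℝ * (1 - D.G3 x) := by
        by_cases hx : x ∈ ⋃ A, D.Om A
        · rw [indicator_of_notMem (not_not.2 hx), mul_zero]
          exact b0
        · rcases hG0 (x 0 / D.ell ℝ) (x 1 / D.ell ℝ) with e | ⟨A, hA, l, hl, e1, e2⟩
          · rw [show D.G3 x = 0 from e, sub_zero, mul_one]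
            exact i1
          · exact absurd (mem_rooms.2 ⟨A, hA, l, hl, (mem_padBox hD).2 ⟨e1, e2, hz.le⟩⟩) hx
      have c1 := mul_pow_le (a := 1921) (b := 2000) h1 hS (by norm_num)
      have c2 := mul_pow_le (a := 1920) (b := 2000) h1 hS (by norm_num)
      rw [indicator_of_notMem hn, mul_zero]
      linarith

/-- `PJ_near`, `vert_le`, `g_mid`. -/
theorem Vres_le : ∀ᶠ D : Des in evD, ∀ x ∈ D.box, D.Vres x * D.rho x ≤
    ((D.S : ℝ) ^ 2000 + D.BB ℝ * (1 - D.G3 x)) * D.rho x +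
      (D.S : ℝ) ^ 1923 * D.F3 0 0 x ^ 1072 := by
  filter_upwards [ev_good, ev_ge 2, ev_ge 64, PJ_near, g_mid] with D hD h2 hS hn hmid x hx
  have h1 := hD.one_le
  obtain ⟨x1, x2⟩ := Vres_box hD h2 hx
  have b1 := (abs_le.1 (hn x x1)).2
  have b2 := vert_le hD x2
  have c1 : (D.S : ℝ) ^ 1921 ≤ (D.S : ℝ) ^ 2000 := pow_le_pow_right₀ h1 (by norm_num)
  have c2 := mul_pow_le (a := 1922) (b := 1923) h1 hS le_rfl
  have hF : 0 ≤ D.F3 0 0 x ^ 1072 := Even.pow_nonneg (by decide) _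
  have hρ : 0 ≤ D.rho x := sq_nonneg _
  have b3 : D.Vres x ≤ ((D.S : ℝ) ^ 2000 + D.BB ℝ * (1 - D.G3 x)) +
      (D.om ^ 2 * x 2 ^ 2 / 2 - D.phi2 (x 2) / (2 * D.phi (x 2)) - D.om / 2) := by
    rw [Vres_eq, hmid x x2]
    linarith
  refine (mul_le_mul_of_nonneg_right b3 hρ).trans ?_
  rw [add_mul]
  refine add_le_add le_rfl ?_
  rw [rho_eq, mul_comm (D.F3 0 0 x ^ 1072), ← mul_assoc]
  exact mul_le_mul_of_nonneg_right (b2.trans c2) hF

theorem box_nb : ∀ᶠ D : Des in evD, ∀ x ∈ D.box, x ∉ D.nb := by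
  filter_upwards [ev_good, ev_ge 2] with D hD h2 x hx hn
  have h1 := hD.one_le
  obtain ⟨x1, -⟩ := Vres_box hD h2 hx
  have u1 : ((D.S : ℝ) ^ 1920)⁻¹ ≤ 1 := inv_le_one_of_one_le₀ (one_le_pow₀ h1)
  have hs : (D.S : ℝ) ≤ (D.S : ℝ) ^ 3840 := le_self_pow₀ h1 (by norm_num)
  have e1 := Vres_II_del hD
  have e2 := Vres_mm_del hD
  rcases hn with hn | hn | hn
  · linarith [x1 0]
  · linarith [x1 1]
  · linarith [x1 2]

/-- `PhiJ_meas_bdd`, `DB.abs_le`, `phi2_div_bdd`. -/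
theorem Vres_meas_bdd : ∀ᶠ D : Des in evD, Measurable D.Vres ∧ ∃ C, ∀ x, |D.Vres x| ≤ C := by
  filter_upwards [ev_good, DB_g, DB_W3] with D hD hg hW
  obtain ⟨m1, C1, hC1⟩ := PhiJ_meas_bdd (D.del ℝ) (D.aa ℝ) (D.HH ℝ)
  obtain ⟨C2, hC2⟩ := phi2_div_bdd hD
  have m2 := hg.diff.continuous.measurable
  have m3 := hW.diff.continuous.measurable
  have m4 : Measurable fun x : Pos3 => D.phi2 (x 2) / (2 * D.phi (x 2)) :=
    ((continuous_phi2 D).measurable.comp (by fun_prop)).div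
      (((continuous_phi D).measurable.comp (by fun_prop)).const_mul 2)
  refine ⟨((((measurable_const.sub m1).add m2).sub ((m3.div_const _).add m4)).sub_const _).add_const _,
    |D.PJ 0| + C1 + (D.S : ℝ) ^ 4450 + ((D.S : ℝ) ^ 126 / |D.ell ℝ ^ 2| + C2) + |D.om / 2| + |D.BB ℝ|,
    fun x => ?_⟩
  have b1 : |D.W3 x / D.ell ℝ ^ 2| ≤ (D.S : ℝ) ^ 126 / |D.ell ℝ ^ 2| := by
    rw [abs_div]
    exact div_le_div_of_nonneg_right (hW.abs_le x) (abs_nonneg _)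
  unfold Des.Vres
  refine (abs_add_le _ _).trans (add_le_add ((abs_sub _ _).trans (add_le_add ((abs_sub _ _).trans
    (add_le_add ((abs_add_le _ _).trans (add_le_add ((abs_sub _ _).trans (add_le_add le_rfl (hC1 x)))
      (hg.abs_le x))) ((abs_add_le _ _).trans (add_le_add b1 (hC2 _))))) le_rfl)) le_rfl)

end Crest.Agent.R338
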