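/-
R338/Const: the rational approximations of the design
Skeleton by helper15 (row 338); keep the statements unchanged, add any helper lemmas you like.
-/
import Crest.Agent.R338.Riem
import Crest.Agent.R338.Vres

set_option autoImplicit false
set_option linter.unusedSectionVars false
set_option linter.unusedVariables false
set_option linter.unusedSimpArgs false

noncomputable section

namespace Crest.Agent.R338

open MeasureTheory Set Filter Crest.MathPhysics.ElectronicCoulomb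

/-- `Real.tendsto_sum_pi_div_four` and the error bound for alternating series. -/
theorem piHat_close {Y : ℕ} (hY : 1 ≤ Y) : |(piHat Y : ℝ) - Real.pi| ≤ 4 / Y := by
  have hl : Tendsto (fun n => ∑ i ∈ Finset.range n, (-1 : ℝ) ^ i * (1 / (2 * (i : ℝ) + 1))) atTop
      (nhds (Real.pi / 4)) := by
    simpa only [mul_one_div] using Real.tendsto_sum_pi_div_four
  have ha : Antitone fun i : ℕ => 1 / (2 * (i : ℝ) + 1) := fun i j hij => by
    have : (i : ℝ) ≤ j := by exact_mod_cast hij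
    exact one_div_le_one_div_of_le (by positivity) (by linarith)
  have lo := ha.alternating_series_le_tendsto hl
  have up := ha.tendsto_le_alternating_series hl
  have e : (piHat Y : ℝ) = 4 * ∑ i ∈ Finset.range Y, (-1 : ℝ) ^ i * (1 / (2 * (i : ℝ) + 1)) := by
    unfold piHat
    push_cast
    simp only [mul_one_div]
  have hY' : (0 : ℝ) < Y := by exact_mod_cast hY
  have h1 : 1 / (2 * (Y : ℝ) + 1) ≤ 1 / Y := one_div_le_one_div_of_le hY' (by linarith)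
  have h2 : 0 ≤ 1 / (2 * (Y : ℝ) + 1) := by positivity
  have h3 : (4 : ℝ) / Y = 4 * (1 / Y) := by ring
  rw [e, h3, abs_le]
  rcases Nat.even_or_odd' Y with ⟨k, rfl | rfl⟩
  · have a1 := lo k
    have a2 := up k
    rw [Finset.sum_range_succ, pow_mul, neg_one_sq, one_pow, one_mul] at a2
    constructor <;> linarith
  · have a1 := lo (k + 1)
    have a2 := up k
    rw [show 2 * (k + 1) = 2 * k + 1 + 1 by ring, Finset.sum_range_succ _ (2 * k + 1), pow_succ,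
      pow_mul, neg_one_sq, one_pow, one_mul, neg_one_mul] at a1
    constructor <;> linarith

theorem const_YY {D : Des} (hD : D.Good) : 1 ≤ D.YY := Nat.one_le_pow _ _ (hD.n1.trans hD.nS)

theorem const_YY_cast (D : Des) : (D.YY : ℝ) = (D.S : ℝ) ^ 14400 := by
  unfold Des.YY; exact Nat.cast_pow _ _

theorem const_sqrt_le {a b : ℝ} (hb : 0 ≤ b) (h : a ≤ b + 16) : √a ≤ √b + 4 := by
  have h1 := Real.sqrt_nonneg b
  have h2 := Real.sq_sqrt hb
  exact Real.sqrt_le_iff.2 ⟨by linarith, by nlinarith⟩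

theorem const_nat_sqrt {q : ℚ} (hq : 0 ≤ q) :
    (Nat.sqrt ⌊q⌋.toNat : ℝ) ≤ √(q : ℝ) ∧ √(q : ℝ) ≤ Nat.sqrt ⌊q⌋.toNat + 1 := by
  have h0 : ((⌊q⌋.toNat : ℕ) : ℤ) = ⌊q⌋ := Int.toNat_of_nonneg (Int.floor_nonneg.2 hq)
  have h1 : ((⌊q⌋.toNat : ℕ) : ℚ) ≤ q := by
    have := Int.floor_le q
    rw [← h0] at this
    exact_mod_cast this
  have h2 : q ≤ ((⌊q⌋.toNat : ℕ) : ℚ) + 1 := by
    have := (Int.lt_floor_add_one q).le
    rw [← h0] at this
    exact_mod_cast this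
  generalize ⌊q⌋.toNat = N at h1 h2
  have h1' : (N : ℝ) ≤ q := by exact_mod_cast h1
  have h2' : (q : ℝ) ≤ N + 1 := by exact_mod_cast h2
  have h3 : ((Nat.sqrt N : ℝ)) ^ 2 ≤ N := by exact_mod_cast Nat.sqrt_le' N
  have h4 : (N : ℝ) + 1 ≤ ((Nat.sqrt N : ℝ) + 1) ^ 2 := by exact_mod_cast Nat.succ_le_succ_sqrt' N
  exact ⟨Real.le_sqrt_of_sq_le (by linarith), Real.sqrt_le_iff.2 ⟨by positivity, by linarith⟩⟩

theorem const_main {t a H C C' PJ eb p c om om' B : ℝ} (ht : 1 ≤ t) (a1 : t ^ 4 ≤ a)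
    (a2 : a ≤ 2 * t ^ 4) (hH : 0 < H) (b2 : H ≤ 3 * (t ^ 2)⁻¹)
    (hJ : |PJ - ((t ^ 4)⁻¹ ^ 3)⁻¹ * (2 * H * a * c1 - 2 * Real.pi * (H ^ 2 + 0 ^ 2))| ≤
      C * ((t ^ 4)⁻¹ ^ 3)⁻¹ * H * (0 ^ 2 + H ^ 2) / a)
    (he : |eb - Real.pi / (6 * (t ^ 4)⁻¹)| ≤ C' / ((t ^ 4)⁻¹ * t ^ 2))
    (hp : |p - Real.pi| ≤ 4 / t ^ 15) (hc : |c - c1| ≤ 38 / t ^ 15) (hom : |om' - om| ≤ 6) :
    |-(t ^ 12 * (2 * H * a * c - 2 * p * H ^ 2)) - p / (6 * (t ^ 4)⁻¹) + om' / 2 - B -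
      (-PJ - eb + om / 2 - B)| ≤ (27 * |C| + |C'| + 600) * t ^ 2 := by
  have ht0 : 0 < t := by linarith
  have ha : 0 < a := lt_of_lt_of_le (by positivity) a1
  have e1 : ((t ^ 4)⁻¹ ^ 3)⁻¹ = t ^ 12 := by rw [inv_pow, inv_inv, ← pow_mul]
  have e2 : ∀ x : ℝ, x / (6 * (t ^ 4)⁻¹) = t ^ 4 / 6 * x := fun x => by field_simp
  have e3 : C' / ((t ^ 4)⁻¹ * t ^ 2) = C' * t ^ 2 := by field_simp
  rw [e1] at hJ
  rw [e2, e3] at he
  rw [e2]
  have t2 : 1 ≤ t ^ 2 := one_le_pow₀ ht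
  have k1 : C * t ^ 12 * H * (0 ^ 2 + H ^ 2) / a ≤ 27 * |C| * t ^ 2 := by
    calc _ = C * (t ^ 12 * H ^ 3 / a) := by ring
      _ ≤ |C| * (t ^ 12 * H ^ 3 / a) := mul_le_mul_of_nonneg_right (le_abs_self C) (by positivity)
      _ ≤ |C| * (t ^ 12 * (3 * (t ^ 2)⁻¹) ^ 3 / t ^ 4) := by gcongr
      _ = _ := by field_simp; ring
  have k2 : |t ^ 12 * (2 * H * a) * (c - c1)| ≤ 456 := by
    rw [abs_mul, abs_of_nonneg (by positivity)]
    calc _ ≤ t ^ 12 * (2 * (3 * (t ^ 2)⁻¹) * (2 * t ^ 4)) * (38 / t ^ 15) := by gcongr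
      _ = 456 / t := by field_simp; ring
      _ ≤ 456 := div_le_self (by norm_num) ht
  have k3 : |t ^ 12 * (2 * H ^ 2) * (p - Real.pi)| ≤ 72 := by
    rw [abs_mul, abs_of_nonneg (by positivity)]
    calc _ ≤ t ^ 12 * (2 * (3 * (t ^ 2)⁻¹) ^ 2) * (4 / t ^ 15) := by gcongr
      _ = 72 / t ^ 7 := by field_simp; ring
      _ ≤ 72 := div_le_self (by norm_num) (one_le_pow₀ ht)
  have k4 : |t ^ 4 / 6 * (p - Real.pi)| ≤ 1 := by
    rw [abs_mul, abs_of_nonneg (by positivity)]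
    calc _ ≤ t ^ 4 / 6 * (4 / t ^ 15) := by gcongr
      _ = (2 / 3) / t ^ 11 := by field_simp; ring
      _ ≤ 2 / 3 := div_le_self (by norm_num) (one_le_pow₀ ht)
      _ ≤ 1 := by norm_num
  have k5 : C' * t ^ 2 ≤ |C'| * t ^ 2 := mul_le_mul_of_nonneg_right (le_abs_self _) (by positivity)
  have j1 := abs_le.1 (hJ.trans k1)
  have j2 := abs_le.1 k2
  have j3 := abs_le.1 k3
  have j4 := abs_le.1 k4
  have j5 := abs_le.1 (he.trans k5)
  have j6 := abs_le.1 hom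
  rw [abs_le]
  constructor <;> nlinarith [j1.1, j1.2, j2.1, j2.2, j3.1, j3.2, j4.1, j4.2, j5.1, j5.2, j6.1, j6.2]

theorem three_le_piHat : ∀ᶠ D : Des in evD, (3 : ℝ) ≤ piHat D.YY := by
  filter_upwards [ev_good, ev_ge 100] with D hD h
  have h1 := abs_le.1 (piHat_close (const_YY hD))
  have h2 : (100 : ℝ) ≤ D.YY := by
    rw [const_YY_cast]
    exact h.trans (le_self_pow₀ hD.one_le (by norm_num))
  have h3 : (4 : ℝ) / D.YY ≤ 4 / 100 := div_le_div_of_nonneg_left (by norm_num) (by norm_num) h2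
  have := Real.pi_gt_d2
  linarith [h1.1]

theorem omHat_close : ∀ᶠ D : Des in evD, |(D.omHat : ℝ) - D.om| ≤ 6 := by
  filter_upwards [ev_good, three_le_piHat] with D hD h3
  have h1 := piHat_close (const_YY hD)
  rw [const_YY_cast] at h1
  have hP : (D.S : ℝ) ^ 11520 ≤ (D.S : ℝ) ^ 14400 := pow_le_pow_right₀ hD.one_le (by norm_num)
  have hP0 : 0 < (D.S : ℝ) ^ 11520 := pow_pos hD.pos _
  have hq : ((4 * piHat D.YY * (D.S : ℚ) ^ 11520 : ℚ) : ℝ) = 4 * piHat D.YY * (D.S : ℝ) ^ 11520 := by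
    push_cast; rfl
  have h4 := const_nat_sqrt (q := 4 * piHat D.YY * (D.S : ℚ) ^ 11520) (by
    have : (0 : ℝ) ≤ ((4 * piHat D.YY * (D.S : ℚ) ^ 11520 : ℚ) : ℝ) := by
      rw [hq]; exact mul_nonneg (by linarith) hP0.le
    exact_mod_cast this)
  rw [hq] at h4
  unfold Des.omHat Des.om
  generalize (D.S : ℝ) ^ 11520 = P at *
  generalize (D.S : ℝ) ^ 14400 = Y at *
  have h5 : 4 / Y * P ≤ 4 := by
    rw [div_mul_eq_mul_div, div_le_iff₀ (by linarith)]; linarith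
  have h6 := abs_le.1 h1
  have h7 := mul_le_mul_of_nonneg_right h6.1 hP0.le
  have h8 := mul_le_mul_of_nonneg_right h6.2 hP0.le
  have h9 := const_sqrt_le (a := 4 * piHat D.YY * P) (b := 4 * Real.pi * P) (by positivity)
    (by linarith)
  have h10 := const_sqrt_le (b := 4 * piHat D.YY * P) (a := 4 * Real.pi * P) (by positivity)
    (by linarith)
  rw [abs_le]
  constructor <;> linarith [h4.1, h4.2]

/-- `PhiJ_formula` at `0` with `r = 0`, `ebar_val`, `slab_sizes`. -/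
theorem C1Hat_close : ∀ᶠ D : Des in evD, |(D.C1Hat : ℝ) - D.C1| ≤ (D.S : ℝ) ^ 2000 := by
  obtain ⟨C, hC⟩ := PhiJ_formula
  obtain ⟨C', hC'⟩ := ebar_val
  filter_upwards [ev_good, omHat_close, ev_ge (27 * |C| + |C'| + 600), ev_ge 3] with D hD hom hS h3
  obtain ⟨a1, a2, b1, b2⟩ := slab_sizes hD
  have hs := hD.pos
  have hs1 := hD.one_le
  have hδ := hD.del_pos
  have hpi := piHat_close (const_YY hD)
  have hc := c1Hat_close (const_YY hD)
  rw [const_YY_cast] at hpi hc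
  have hm : 1 ≤ D.mm := Nat.one_le_pow _ _ (hD.n1.trans hD.nS)
  have he := hC' (D.del ℝ) D.mm hδ hm
  have hmm : (D.mm : ℝ) = (D.S : ℝ) ^ 1920 := by unfold Des.mm; exact Nat.cast_pow _ _
  rw [hmm] at he
  have e0 : (D.C1Hat : ℝ) = -((D.S : ℝ) ^ 11520 * (2 * D.HH ℝ * D.aa ℝ * c1Hat D.YY -
      2 * piHat D.YY * D.HH ℝ ^ 2)) - piHat D.YY / (6 * D.del ℝ) + D.omHat / 2 - D.BB ℝ := by
    unfold Des.C1Hat Des.HH Des.aa Des.del Des.BB
    push_cast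
    rfl
  have hfin : (27 * |C| + |C'| + 600) * (D.S : ℝ) ^ 1920 ≤ (D.S : ℝ) ^ 2000 :=
    mul_pow_le hs1 hS (by norm_num)
  refine le_trans ?_ hfin
  obtain ⟨t, ht⟩ : ∃ t : ℝ, t = (D.S : ℝ) ^ 960 := ⟨_, rfl⟩
  have ht3 : 3 ≤ t := ht ▸ h3.trans (le_self_pow₀ hs1 (by norm_num))
  have p2 : (D.S : ℝ) ^ 1920 = t ^ 2 := by rw [ht, ← pow_mul]
  have p4 : (D.S : ℝ) ^ 3840 = t ^ 4 := by rw [ht, ← pow_mul]
  have p12 : (D.S : ℝ) ^ 11520 = t ^ 12 := by rw [ht, ← pow_mul]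
  have p15 : (D.S : ℝ) ^ 14400 = t ^ 15 := by rw [ht, ← pow_mul]
  have pd : D.del ℝ = (t ^ 4)⁻¹ := by rw [← p4]; rfl
  rw [p4] at a1 a2
  rw [p2] at b1 b2 he ⊢
  rw [p15] at hpi hc
  have hH : 0 < D.HH ℝ := lt_of_lt_of_le (by positivity) b1
  have ht1 : 1 ≤ t := by linarith
  have hHa : D.HH ℝ ≤ D.aa ℝ := by
    have q1 : (t ^ 2)⁻¹ ≤ 1 := inv_le_one_of_one_le₀ (one_le_pow₀ ht1)
    have q2 : t ≤ t ^ 4 := le_self_pow₀ ht1 (by norm_num)
    linarith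
  have hJ := hC (D.del ℝ) (D.aa ℝ) (D.HH ℝ) 0 0 hδ hH hHa (by linarith) (by simp) (by simp)
    (by simpa using hH.le)
  have hz : (0 : Pos3) 2 = 0 := rfl
  rw [hz] at hJ
  rw [e0, p12]
  unfold Des.C1 Des.PJ
  rw [pd] at hJ he ⊢
  exact const_main ht1 a1 a2 hH b2 hJ he hpi hc hom

theorem UHat_close : ∀ᶠ D : Des in evD, D.n * |(D.UHat : ℝ) - D.UU| ≤ 1 := by
  filter_upwards [ev_good, ev_ge 21] with D hD h
  have hs := hD.pos
  have hc := c0Hat_close (const_YY hD)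
  rw [const_YY_cast] at hc
  have e : (D.UHat : ℝ) - D.UU = (c0Hat D.YY - c0) * (D.M * (D.S : ℝ) ^ 6) := by
    unfold Des.UHat Des.UU
    push_cast
    ring
  rw [e, abs_mul, abs_of_nonneg (a := (D.M : ℝ) * _) (by positivity)]
  have h1 : 21 * (D.S : ℝ) ^ 8 ≤ (D.S : ℝ) ^ 14400 := mul_pow_le hD.one_le h (by norm_num)
  have hY : 0 < (D.S : ℝ) ^ 14400 := pow_pos hs _
  generalize (D.S : ℝ) ^ 14400 = Y at *
  calc _ ≤ (D.S : ℝ) * (21 / Y * (D.S * (D.S : ℝ) ^ 6)) := by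
        gcongr
        · exact hD.nS
        · exact hD.MS
    _ = 21 * (D.S : ℝ) ^ 8 / Y := by ring
    _ ≤ 1 := (div_le_one hY).2 h1

end Crest.Agent.R338
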