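/-
R338/Cast: the rational design is the real design
Skeleton by helper15 (row 338); keep the statements unchanged, add any helper lemmas you like.
-/
import Crest.Agent.R338.Const

set_option autoImplicit false
set_option linter.unusedSectionVars false
set_option linter.unusedVariables false
set_option linter.unusedSimpArgs false

noncomputable section

namespace Crest.Agent.R338

open MeasureTheory Set Filter Crest.MathPhysics.ElectronicCoulomb

open Crest.MathPhysics.CoulombProblem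

theorem st_cast (j : ℕ) (t : ℚ) : ((st j t : ℚ) : ℝ) = st j (t : ℝ) := by
  unfold st sp
  split_ifs <;> push_cast <;> rfl

theorem pl_cast (σ a b : ℚ) (j : ℕ) (x : ℚ) :
    ((pl σ a b j x : ℚ) : ℝ) = pl (σ : ℝ) a b j x := by
  unfold pl
  push_cast [st_cast]
  rfl

variable (D : Des)

theorem del_cast : ((D.del ℚ : ℚ) : ℝ) = D.del ℝ := by
  unfold Des.del; push_cast; rfl

theorem tt_cast : ((D.tt ℚ : ℚ) : ℝ) = D.tt ℝ := by
  unfold Des.tt Des.wP Des.FP
  simp only [Rat.cast_div, Rat.cast_mul, Rat.cast_pow, Rat.cast_natCast, Rat.cast_ofNat,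
    Rat.cast_add, Rat.cast_inv, Rat.cast_one]

theorem v0_cast : ((D.v0 ℚ : ℚ) : ℝ) = D.v0 ℝ := by
  unfold Des.v0
  simp only [Rat.cast_div, Rat.cast_pow, Rat.cast_natCast]

theorem Cast_sg : ((D.sg ℚ : ℚ) : ℝ) = D.sg ℝ := by
  unfold Des.sg
  simp only [Rat.cast_inv, Rat.cast_pow, Rat.cast_natCast]

theorem Cast_ell : ((D.ell ℚ : ℚ) : ℝ) = D.ell ℝ := by
  unfold Des.ell
  simp only [Rat.cast_inv, Rat.cast_pow, Rat.cast_natCast]

theorem Cast_BB : ((D.BB ℚ : ℚ) : ℝ) = D.BB ℝ := by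
  unfold Des.BB
  simp only [Rat.cast_pow, Rat.cast_natCast]

theorem Cast_fE : ((D.fE ℚ : ℚ) : ℝ) = D.fE ℝ := by
  unfold Des.fE
  simp only [Rat.cast_inv, Rat.cast_pow, Rat.cast_natCast]

theorem Cast_fB : ((D.fB ℚ : ℚ) : ℝ) = D.fB ℝ := by
  unfold Des.fB
  simp only [Rat.cast_sub, Rat.cast_inv, Rat.cast_pow, Rat.cast_natCast]

theorem Cast_fT : ((D.fT ℚ : ℚ) : ℝ) = D.fT ℝ := by
  unfold Des.fT
  simp only [Rat.cast_inv, Rat.cast_natCast]

theorem Cast_xA (A : ℕ) : ((D.xA ℚ A : ℚ) : ℝ) = D.xA ℝ A := by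
  unfold Des.xA
  simp only [Rat.cast_mul, Rat.cast_pow, Rat.cast_natCast]

theorem Cast_yl (l : ℕ) : ((D.yl ℚ l : ℚ) : ℝ) = D.yl ℝ l := by
  unfold Des.yl
  simp only [Rat.cast_mul, Rat.cast_pow, Rat.cast_natCast, Rat.cast_add, Rat.cast_one]

theorem Cast_ytop : ((D.ytop ℚ : ℚ) : ℝ) = D.ytop ℝ := Cast_yl D _

theorem Cast_col (A i : ℕ) (x : ℚ) : ((D.col A i x : ℚ) : ℝ) = D.col A i (x : ℝ) := by
  unfold Des.col
  simp only [pl_cast, Cast_sg, Cast_xA, Rat.cast_add, Rat.cast_one]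

theorem Cast_bus (q i : ℕ) (x : ℚ) : ((D.bus q i x : ℚ) : ℝ) = D.bus q i (x : ℝ) := by
  unfold Des.bus
  simp only [pl_cast, Cast_sg, Cast_xA, Rat.cast_add, Rat.cast_one]

theorem Cast_row (A j : ℕ) (y : ℚ) : ((D.row A j y : ℚ) : ℝ) = D.row A j (y : ℝ) := by
  unfold Des.row
  simp only [pl_cast, Cast_sg, Cast_yl, Cast_ytop, Cast_fB, Cast_fT, Rat.cast_add, Rat.cast_one,
    Rat.cast_mul, Rat.cast_sum, apply_ite (Rat.cast : ℚ → ℝ), Rat.cast_zero, Rat.cast_neg,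
    Rat.cast_ofNat]

theorem Cast_G (x y : ℚ) : ((D.G x y : ℚ) : ℝ) = D.G (x : ℝ) y := by
  unfold Des.G
  simp only [pl_cast, Cast_sg, Cast_yl, Cast_xA, Rat.cast_add, Rat.cast_one, Rat.cast_sub,
    Rat.cast_mul, Rat.cast_sum, apply_ite (Rat.cast : ℚ → ℝ), Rat.cast_zero]

theorem F_cast (i j : ℕ) (x y : ℚ) : ((D.F i j x y : ℚ) : ℝ) = D.F i j (x : ℝ) y := by
  unfold Des.F
  simp only [pl_cast, Cast_sg, Cast_col, Cast_row, Cast_bus, Cast_fE, Cast_fT, Rat.cast_add,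
    Rat.cast_one, Rat.cast_mul, Rat.cast_sum, apply_ite (Rat.cast : ℚ → ℝ), Rat.cast_zero,
    Rat.cast_neg]

theorem g3_cast (x y z : ℚ) : ((D.g3 x y z : ℚ) : ℝ) = D.g3 (x : ℝ) y z := by
  unfold Des.g3 Des.W
  simp only [pl_cast, F_cast, Cast_G, Cast_ell, Cast_BB, Rat.cast_add, Rat.cast_sub, Rat.cast_one,
    Rat.cast_mul, Rat.cast_div, Rat.cast_pow, Rat.cast_neg, Rat.cast_ofNat]

theorem realPos_pos (β : ℤ × ℤ × ℤ) : realPos (D.pos β) =
    lat (D.del ℝ) ![β.1, β.2.1, β.2.2] +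
      dispR (D.del ℝ) (piHat D.YY) D.g ![β.1, β.2.1, β.2.2] := by
  ext c
  fin_cases c <;>
    simp [realPos, Des.pos, dispR, Des.g, g3_cast, del_cast, lat]

theorem mem_rng {I : ℕ} {a : ℤ} : a ∈ rng I ↔ |a| ≤ I := by
  simp only [rng, List.mem_map, List.mem_range, abs_le]
  constructor
  · rintro ⟨i, hi, rfl⟩; omega
  · intro h; exact ⟨(a + I).toNat, by omega, by omega⟩

theorem Cast_nodup_rng (I : ℕ) : (rng I).Nodup :=
  List.nodup_range.map fun a b h => by simpa using h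

theorem Cast_mem_tri {I J : ℕ} {β : ℤ × ℤ × ℤ} :
    β ∈ tri I J ↔ |β.1| ≤ I ∧ |β.2.1| ≤ I ∧ |β.2.2| ≤ J := by
  obtain ⟨a, b, c⟩ := β
  simp only [tri, List.mem_flatMap, List.mem_map, mem_rng, Prod.mk.injEq]
  constructor
  · rintro ⟨a', ha, b', hb, c', hc, rfl, rfl, rfl⟩; exact ⟨ha, hb, hc⟩
  · rintro ⟨ha, hb, hc⟩; exact ⟨a, ha, b, hb, c, hc, rfl, rfl, rfl⟩

theorem nodup_tri (I J : ℕ) : (tri I J).Nodup := by
  have e : tri I J = (rng I) ×ˢ ((rng I) ×ˢ (rng J)) := by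
    simp only [tri, SProd.sprod, List.product, List.map_flatMap, List.map_map, Function.comp_def]
  rw [e]
  exact (Cast_nodup_rng I).product ((Cast_nodup_rng I).product (Cast_nodup_rng J))

theorem sum_tri (I J : ℕ) (f : (Fin 3 → ℤ) → ℝ) :
    ((tri I J).map fun β => f ![β.1, β.2.1, β.2.2]).sum = ∑ β ∈ Lam I J, f β := by
  rw [← List.sum_toFinset _ (nodup_tri I J)]
  refine Finset.sum_bij' (fun β _ => ![β.1, β.2.1, β.2.2]) (fun β _ => (β 0, β 1, β 2))
    (fun β hβ => ?_) (fun β hβ => ?_) (fun β _ => rfl) (fun β _ => ?_) fun β _ => rfl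
  · exact mem_Lam.2 (Cast_mem_tri.1 (List.mem_toFinset.1 hβ))
  · exact List.mem_toFinset.2 (Cast_mem_tri.2 (mem_Lam.1 hβ))
  · ext c; fin_cases c <;> rfl

theorem potential_inst (kc a b : ℕ) :
    (D.inst kc a b).potential = (Wpot D.Phi : Config (3 * D.n) → ℝ) := by
  funext x
  have key : ∀ y : Pos3, ∑ α : Fin (D.inst kc a b).nuclei.length,
      1 / ‖y - realPos ((D.inst kc a b).nuclei.get α)‖ = D.Phi y := fun y => by
    rw [Des.Phi, PhiN, ← sum_tri, ← List.sum_ofFn]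
    congr 1
    rw [show (fun α : Fin (D.inst kc a b).nuclei.length =>
      1 / ‖y - realPos ((D.inst kc a b).nuclei.get α)‖) =
      (fun q => 1 / ‖y - realPos q‖) ∘ (D.inst kc a b).nuclei.get from rfl, ← List.map_ofFn,
      List.ofFn_get]
    simp only [Des.inst, List.map_map, Function.comp_def, realPos_pos, Kn]
  unfold Instance.potential unitNucleiPotential Wpot
  simp only [Finset.sum_neg_distrib, key]
  rfl

/-- The displacements have norm at most `δ / 4` (`norm_dispR_le`, `DB_g`, `three_le_piHat`). -/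
theorem pos_injective : ∀ᶠ D : Des in evD, Function.Injective D.pos := by
  filter_upwards [ev_good, DB_g, three_le_piHat] with D hD hg hp
  intro β β' e
  have hδ := hD.del_pos
  have h1 : ∀ γ, ‖dispR (D.del ℝ) (piHat D.YY) D.g γ‖ ≤ D.del ℝ / 4 := fun γ => by
    refine (norm_dispR_le hδ hp hg γ).trans ?_
    have h2 : D.del ℝ ^ 2 * (D.S : ℝ) ^ 4450 * (D.S : ℝ) ^ 2225 ≤ 1 := by
      have hs := hD.pos
      rw [Des.del, inv_pow, ← pow_mul, mul_assoc, ← pow_add, inv_mul_le_iff₀ (pow_pos hs _),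
        mul_one]
      exact pow_le_pow_right₀ hD.one_le (by norm_num)
    generalize (D.S : ℝ) ^ 4450 = A at h2 ⊢
    generalize (D.S : ℝ) ^ 2225 = B at h2 ⊢
    nlinarith
  have h3 := congrArg realPos e
  rw [realPos_pos, realPos_pos] at h3
  have h4 : ∀ c : Fin 3, (![β.1, β.2.1, β.2.2] : Fin 3 → ℤ) c = ![β'.1, β'.2.1, β'.2.2] c := by
    intro c
    have h5 := congrArg (fun x : Pos3 => x c) h3
    simp only [PiLp.add_apply, lat_apply] at h5
    have h6 := abs_le.1 ((abs_le_norm _ c).trans (h1 ![β.1, β.2.1, β.2.2]))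
    have h7 := abs_le.1 ((abs_le_norm _ c).trans (h1 ![β'.1, β'.2.1, β'.2.2]))
    generalize (![β.1, β.2.1, β.2.2] : Fin 3 → ℤ) c = u at h5 ⊢
    generalize (![β'.1, β'.2.1, β'.2.2] : Fin 3 → ℤ) c = v at h5 ⊢
    have h8 : (u : ℝ) < v + 1 := by
      by_contra hlt
      nlinarith [not_lt.1 hlt]
    have h9 : (v : ℝ) < u + 1 := by
      by_contra hlt
      nlinarith [not_lt.1 hlt]
    have h8' : u < v + 1 := by exact_mod_cast h8
    have h9' : v < u + 1 := by exact_mod_cast h9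
    omega
  exact Prod.ext (h4 0) (Prod.ext (h4 1) (h4 2))

theorem valid_inst : ∀ᶠ D : Des in evD, ∀ kc a b : ℕ, a + 10 ≤ b → (D.inst kc a b).Valid := by
  filter_upwards [ev_good, pos_injective] with D hD hinj kc a b hab
  refine ⟨?_, (nodup_tri _ _).map hinj, ?_, ?_⟩
  · have : ((0, 0, 0) : ℤ × ℤ × ℤ) ∈ tri D.II (2 * D.mm) := Cast_mem_tri.2 (by simp)
    exact List.ne_nil_of_mem (List.mem_map_of_mem this)
  · have := hD.n1
    show 0 < 3 * D.n
    omega
  · have h1 : (1 : ℝ) ≤ D.v0 ℝ := by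
      have hM := hD.one_le_M
      rw [Des.v0, one_le_div (by positivity)]
      exact (pow_le_pow_left₀ (by linarith) hD.M_le 2).trans
        (pow_le_pow_right₀ hD.one_le (by norm_num))
    rw [← v0_cast] at h1
    have h2 : (1 : ℚ) ≤ D.v0 ℚ := by exact_mod_cast h1
    have h3 : (a : ℚ) + 10 ≤ b := by exact_mod_cast hab
    show D.thr kc (a + 3) + 1 ≤ D.thr kc (b - 3)
    unfold Des.thr
    generalize D.v0 ℚ = v at h2 ⊢
    generalize D.tt ℚ = t
    generalize D.C1Hat = C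
    generalize D.UHat = U
    nlinarith

end Crest.Agent.R338
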