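/-
R338/Arith: the final numerical estimates
Skeleton by helper15 (row 338); keep the statements unchanged, add any helper lemmas you like.
-/
import Crest.Agent.R338.Cast

set_option autoImplicit false
set_option linter.unusedSectionVars false
set_option linter.unusedVariables false
set_option linter.unusedSimpArgs false

noncomputable section

namespace Crest.Agent.R338

open MeasureTheory Set Filter Crest.MathPhysics.ElectronicCoulomb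

/-- The constant part of the lattice energy. -/
def Des.E0 (D : Des) (kc : ℕ) : ℝ := 3 * D.n * kc + 2 * D.n / 3 * (D.UU - kc)

/-- The lower hopping energy in the unit `v0`. -/
def Des.tL (D : Des) : ℝ := D.tt ℝ * (1 - ((D.S : ℝ) ^ 27)⁻¹) / D.v0 ℝ

/-- The lower bound of the lattice energy. -/
def Des.bL (D : Des) (kc b : ℕ) : ℝ :=
  D.v0 ℝ * (D.tL * D.n + D.E0 kc + b - 2 * (((3 * D.n : ℕ) : ℝ) ^ 2 * D.UU) ^ 2 / D.tL)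

theorem Arith_v0 {D : Des} (h : D.Good) : D.v0 ℝ * (D.M : ℝ) ^ 2 = (D.S : ℝ) ^ 2154 := by
  have hM := h.one_le_M
  exact div_mul_cancel₀ _ (pow_pos (by linarith) 2).ne'

theorem Arith_v0_pos {D : Des} (h : D.Good) : 0 < D.v0 ℝ := by
  have hM := h.one_le_M
  exact div_pos (pow_pos h.pos _) (pow_pos (by linarith) 2)

theorem Arith_tt_pos {D : Des} (h : D.Good) : 0 < D.tt ℝ := by
  have hM := h.one_le_M
  have hw := h.one_le_wP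
  exact div_pos (pow_pos h.pos _) (mul_pos (by linarith) (pow_pos (by linarith) 2))

theorem Arith_inv {s : ℝ} (hs : 2 ≤ s) : 0 < (s ^ 27)⁻¹ ∧ (s ^ 27)⁻¹ ≤ 1 / 2 := by
  refine ⟨by positivity, ?_⟩
  have := mul_inv_pow_le (a := 0) (b := 27) (by linarith : 1 ≤ s) hs (by norm_num)
  simp only [pow_zero, inv_one] at this
  linarith

theorem v0_bounds {D : Des} (h : D.Good) :
    (D.S : ℝ) ^ 2152 ≤ D.v0 ℝ ∧ D.v0 ℝ * D.M ≤ (D.S : ℝ) ^ 2154 := by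
  have hs := h.pos
  have hM := h.one_le_M
  have h1 := Arith_v0 h
  have h2 : (D.S : ℝ) ^ 2154 = (D.S : ℝ) ^ 2152 * (D.S : ℝ) ^ 2 := pow_add _ 2152 2
  have h3 : (D.M : ℝ) ^ 2 ≤ (D.S : ℝ) ^ 2 := pow_le_pow_left₀ (by linarith) h.M_le 2
  have h4 := Arith_v0_pos h
  have h5 : 0 < (D.S : ℝ) ^ 2152 := pow_pos hs _
  constructor
  · rw [h2] at h1
    generalize (D.S : ℝ) ^ 2152 = T at h1 h5 ⊢
    refine le_of_mul_le_mul_right (a := (D.M : ℝ) ^ 2) ?_ (by positivity)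
    rw [h1]
    exact mul_le_mul_of_nonneg_left h3 h5.le
  · rw [← h1]
    exact mul_le_mul_of_nonneg_left (by nlinarith) h4.le

theorem tt_bounds : ∀ᶠ D : Des in evD,
    (D.S : ℝ) ^ 2176 ≤ 8 * D.M * D.tt ℝ ∧ D.tt ℝ ≤ (D.S : ℝ) ^ 2176 := by
  filter_upwards [ev_good, ev_wP] with D hD hw
  have hM := hD.one_le_M
  have hw1 := hD.one_le_wP
  have ht := Arith_tt_pos hD
  have h1 : D.tt ℝ * (2 * D.M * D.wP ℝ ^ 2) = (D.S : ℝ) ^ 2176 :=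
    div_mul_cancel₀ _ (mul_pos (by linarith) (pow_pos (by linarith) 2)).ne'
  rw [← h1]
  generalize D.tt ℝ = t at ht ⊢
  generalize D.wP ℝ = w at hw hw1 ⊢
  generalize (D.M : ℝ) = m at hM ⊢
  have h2 : w ^ 2 ≤ 4 := by nlinarith
  have h3 : 1 ≤ w ^ 2 := by nlinarith
  have h4 : 0 < t * m := by positivity
  constructor
  · nlinarith
  · exact le_mul_of_one_le_right ht.le (by nlinarith)

theorem UU_bounds : ∀ᶠ D : Des in evD, (D.M : ℝ) ≤ D.UU ∧ D.UU ≤ 16 * D.M * (D.S : ℝ) ^ 6 := by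
  filter_upwards [ev_good, ev_ge 2] with D hD h2
  have hM := hD.one_le_M
  obtain ⟨c1, c2⟩ := c0_bounds
  have h3 : 2 ≤ (D.S : ℝ) ^ 6 := h2.trans (le_self_pow₀ hD.one_le (by norm_num))
  unfold Des.UU
  generalize (D.S : ℝ) ^ 6 = P at h3 ⊢
  have h4 : 1 ≤ c0 * P := by nlinarith
  have h5 : 0 ≤ (D.M : ℝ) * P := by positivity
  constructor <;> nlinarith

theorem E0_bounds : ∀ᶠ D : Des in evD, ∀ kc : ℕ, kc ≤ D.M →
    0 ≤ D.E0 kc ∧ D.E0 kc ≤ 19 * D.M * (D.S : ℝ) ^ 7 := by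
  filter_upwards [ev_good, UU_bounds] with D hD hU kc hk
  have hM := hD.one_le_M
  have hn := hD.one_le_n
  have hnS := hD.n_le
  have hk' : (kc : ℝ) ≤ D.M := by exact_mod_cast hk
  have hk0 : (0 : ℝ) ≤ kc := Nat.cast_nonneg _
  have h6 : 1 ≤ (D.S : ℝ) ^ 6 := one_le_pow₀ hD.one_le
  have h7 : (D.S : ℝ) ^ 7 = (D.S : ℝ) ^ 6 * D.S := pow_succ _ 6
  unfold Des.E0
  rw [h7]
  generalize (D.S : ℝ) ^ 6 = P at h6 hU ⊢
  obtain ⟨h1, h2⟩ := hU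
  constructor
  · have : 0 ≤ D.UU - kc := by linarith
    positivity
  · have h3 : (kc : ℝ) ≤ D.M * P := by nlinarith
    have h4 : 3 * (kc : ℝ) + 2 / 3 * (D.UU - kc) ≤ 19 * (D.M * P) := by nlinarith
    have h5 : 0 ≤ 19 * ((D.M : ℝ) * P) := by positivity
    calc _ = D.n * (3 * (kc : ℝ) + 2 / 3 * (D.UU - kc)) := by ring
      _ ≤ D.n * (19 * (D.M * P)) := by gcongr
      _ ≤ D.S * (19 * (D.M * P)) := by gcongr
      _ = _ := by ring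

theorem thr_close : ∀ᶠ D : Des in evD, ∀ (kc : ℕ) (e : ℚ),
    |(D.thr kc e : ℝ) - (3 * D.n * D.C1 + D.tt ℝ * D.n + D.v0 ℝ * (D.E0 kc + e))| ≤ D.v0 ℝ := by
  filter_upwards [ev_good, C1Hat_close, UHat_close, ev_ge 9] with D hD hC hU h9 kc e
  have hn := hD.one_le_n
  have hv := Arith_v0_pos hD
  have h1 : 9 * (D.S : ℝ) ^ 2001 ≤ D.v0 ℝ :=
    (mul_pow_le hD.one_le h9 (by norm_num)).trans (v0_bounds hD).1
  have h2 : (D.S : ℝ) ^ 2001 = (D.S : ℝ) ^ 2000 * D.S := pow_succ _ 2000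
  rw [h2] at h1
  have h3 : 0 < (D.S : ℝ) ^ 2000 := pow_pos hD.pos _
  have e1 : (D.thr kc e : ℝ) - (3 * D.n * D.C1 + D.tt ℝ * D.n + D.v0 ℝ * (D.E0 kc + e)) =
      3 * D.n * ((D.C1Hat : ℝ) - D.C1) + 2 / 3 * D.v0 ℝ * (D.n * ((D.UHat : ℝ) - D.UU)) := by
    unfold Des.thr Des.E0
    simp only [Rat.cast_add, Rat.cast_mul, Rat.cast_sub, Rat.cast_div, Rat.cast_natCast,
      Rat.cast_ofNat, tt_cast, v0_cast]
    ring
  rw [e1]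
  generalize (D.S : ℝ) ^ 2000 = T at hC h1 h3
  have h4 : |3 * D.n * ((D.C1Hat : ℝ) - D.C1)| ≤ 3 * D.S * T := by
    rw [abs_mul, abs_of_nonneg (by positivity)]
    have := hD.n_le
    gcongr
  have h5 : |2 / 3 * D.v0 ℝ * (D.n * ((D.UHat : ℝ) - D.UU))| ≤ 2 / 3 * D.v0 ℝ := by
    rw [abs_mul, abs_of_nonneg (by positivity), abs_mul, abs_of_nonneg (by positivity)]
    exact mul_le_of_le_one_right (by positivity) hU
  refine (abs_add_le _ _).trans ?_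
  linarith

theorem Arith_pow {s : ℝ} {N : ℕ} (hs : 6 ≤ s) (hN : (N : ℝ) ≤ 3 * s) :
    0 ≤ (1 + (s ^ 40)⁻¹) ^ N - 1 ∧ ((1 + (s ^ 40)⁻¹) ^ N - 1) * s ^ 28 ≤ 1 := by
  have h0 : 0 < s := by linarith
  have hx : 0 < (s ^ 40)⁻¹ := by positivity
  have h1 : 6 * s ^ 29 * (s ^ 40)⁻¹ ≤ 1 := by
    rw [mul_inv_le_iff₀ (by positivity), one_mul]
    exact mul_pow_le (by linarith) hs (by norm_num)
  have h28 : 1 ≤ s ^ 28 := one_le_pow₀ (by linarith)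
  have h29 : s ^ 29 = s ^ 28 * s := pow_succ _ 28
  rw [h29] at h1
  generalize (s ^ 40)⁻¹ = x at hx h1 ⊢
  generalize s ^ 28 = P at h1 h28 ⊢
  have hNx : (N : ℝ) * x ≤ 3 * s * x := by gcongr
  have hsx : 0 < s * x := by positivity
  have h2 : (N : ℝ) * x ≤ 1 := by nlinarith
  have h3 : (1 + x) ^ N ≤ Real.exp (N * x) := by
    rw [Real.exp_nat_mul]
    exact pow_le_pow_left₀ (by linarith) (by have := Real.add_one_le_exp x; linarith) _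
  have h4 : 0 ≤ (N : ℝ) * x := by positivity
  have h5 := (abs_le.1 (Real.abs_exp_sub_one_le (x := N * x) (by rwa [abs_of_nonneg h4]))).2
  rw [abs_of_nonneg h4] at h5
  refine ⟨sub_nonneg.2 (one_le_pow₀ (by linarith)), ?_⟩
  calc _ ≤ 6 * s * x * P := by gcongr; linarith
    _ = 6 * (P * s) * x := by ring
    _ ≤ 1 := h1

theorem Arith_main {s n m T t v E a : ℝ} (hs : 30 ≤ s) (n1 : 1 ≤ n) (n2 : n ≤ s) (m1 : 1 ≤ m)
    (hT : 0 < T) (t0 : 0 < t) (t1 : t ≤ T * s ^ 27) (v0 : 0 < v)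
    (v2 : v * m ≤ T * s ^ 5) (E2 : E ≤ 19 * m * s ^ 7) (a1 : a ≤ m) :
    t * n + v * (E + a) ≤ 2 * (T * s ^ 28) ∧ t * (s ^ 27)⁻¹ * n ≤ T * s ^ 2 := by
  have h0 : 0 < s := by linarith
  have h1 : 1 ≤ s := by linarith
  constructor
  · have h2 : t * n ≤ T * s ^ 28 := by
      calc t * n ≤ T * s ^ 27 * s := by gcongr
        _ = _ := by ring
    have h7 : 1 ≤ s ^ 7 := one_le_pow₀ h1
    have h3 : E + a ≤ m * (20 * s ^ 7) := by nlinarith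
    have h4 : 20 * s ^ 12 ≤ s ^ 28 := mul_pow_le h1 (by linarith) (by norm_num)
    have h5 : v * (E + a) ≤ T * s ^ 28 := by
      calc v * (E + a) ≤ v * (m * (20 * s ^ 7)) := by gcongr
        _ = v * m * (20 * s ^ 7) := by ring
        _ ≤ T * s ^ 5 * (20 * s ^ 7) := by gcongr
        _ = T * (20 * s ^ 12) := by ring
        _ ≤ _ := by gcongr
    linarith
  · have h2 : t * (s ^ 27)⁻¹ ≤ T := by rwa [mul_inv_le_iff₀ (by positivity)]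
    calc t * (s ^ 27)⁻¹ * n ≤ T * s := by gcongr
      _ ≤ T * s ^ 2 := by gcongr; nlinarith

theorem Arith_yes {s n m T t v E a q : ℝ} (hs : 30 ≤ s) (n1 : 1 ≤ n) (n2 : n ≤ s) (m1 : 1 ≤ m)
    (hT : 0 < T) (t0 : 0 < t) (t1 : t ≤ T * s ^ 27) (v0 : 0 < v) (v1 : T * s ^ 3 ≤ v)
    (v2 : v * m ≤ T * s ^ 5) (E1 : 0 ≤ E) (E2 : E ≤ 19 * m * s ^ 7) (a0 : 0 ≤ a) (a1 : a ≤ m)
    (q0 : 0 ≤ q - 1) (q1 : (q - 1) * s ^ 28 ≤ 1) :
    q * (t * (1 + (s ^ 27)⁻¹) * n + v * (E + a) + 3 * n * (T * s ^ 1) + (3 * n) ^ 2 * T) ≤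
      t * n + v * (E + a) + 2 * v := by
  have h0 : 0 < s := by linarith
  have h1 : 1 ≤ s := by linarith
  obtain ⟨h2, h3⟩ := Arith_main hs n1 n2 m1 hT t0 t1 v0 v2 E2 a1
  have h4 : 3 * n * (T * s ^ 1) ≤ 3 * (T * s ^ 2) := by
    calc 3 * n * (T * s ^ 1) ≤ 3 * s * (T * s ^ 1) := by gcongr
      _ = _ := by ring
  have h5 : (3 * n) ^ 2 * T ≤ 9 * (T * s ^ 2) := by
    calc (3 * n) ^ 2 * T ≤ (3 * s) ^ 2 * T := by gcongr
      _ = _ := by ring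
  have h6 : q ≤ 2 := by
    have : 1 ≤ s ^ 28 := one_le_pow₀ h1
    nlinarith
  have h7 : 30 * (T * s ^ 2) ≤ v := by
    calc 30 * (T * s ^ 2) ≤ s * (T * s ^ 2) := by gcongr
      _ = T * s ^ 3 := by ring
      _ ≤ v := v1
  have h8 : T ≤ T * s ^ 2 := le_mul_of_one_le_right hT.le (one_le_pow₀ h1)
  have h9 : (q - 1) * (t * n + v * (E + a)) ≤ 2 * T := by
    calc (q - 1) * (t * n + v * (E + a)) ≤ (q - 1) * (2 * (T * s ^ 28)) := by gcongr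
      _ = 2 * T * ((q - 1) * s ^ 28) := by ring
      _ ≤ 2 * T * 1 := by gcongr
      _ = _ := by ring
  have h10 : q * (t * (s ^ 27)⁻¹ * n + 3 * n * (T * s ^ 1) + (3 * n) ^ 2 * T) ≤
      2 * (13 * (T * s ^ 2)) := by
    gcongr
    linarith
  calc _ = t * n + v * (E + a) + (q - 1) * (t * n + v * (E + a)) +
        q * (t * (s ^ 27)⁻¹ * n + 3 * n * (T * s ^ 1) + (3 * n) ^ 2 * T) := by ring
    _ ≤ _ := by linarith

/-- `(1 + x) ^ N ≤ exp (N x) ≤ 1 + 2 N x`; all errors are `O(S²¹⁵¹)`. -/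
theorem yes_arith : ∀ᶠ D : Des in evD, ∀ kc a : ℕ, a ≤ kc → kc ≤ D.M →
    ((3 * D.n : ℕ) : ℝ) * D.C1 + (1 + ((D.S : ℝ) ^ 40)⁻¹) ^ (3 * D.n) *
      (D.tt ℝ * (1 + ((D.S : ℝ) ^ 27)⁻¹) * D.n + D.v0 ℝ * (D.E0 kc + a) +
        ((3 * D.n : ℕ) : ℝ) * (D.S : ℝ) ^ 2150 + ((3 * D.n : ℕ) : ℝ) ^ 2 * (D.S : ℝ) ^ 2149) ≤
      (D.thr kc (a + 3) : ℝ) := by
  filter_upwards [ev_good, tt_bounds, E0_bounds, thr_close, ev_ge 30] with D hD ht hE hthr h30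
    kc a ha hk
  obtain ⟨v1, v2⟩ := v0_bounds hD
  obtain ⟨E1, E2⟩ := hE kc hk
  have h1 := (abs_le.1 (hthr kc (a + 3))).1
  have hv := Arith_v0_pos hD
  have ht0 := Arith_tt_pos hD
  have ha' : (a : ℝ) ≤ D.M := by exact_mod_cast ha.trans hk
  have hp := Arith_pow (s := D.S) (N := 3 * D.n) (by linarith)
    (by have := hD.n_le; push_cast; linarith)
  have p1 : (D.S : ℝ) ^ 2150 = (D.S : ℝ) ^ 2149 * (D.S : ℝ) ^ 1 := pow_add _ 2149 1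
  have p2 : (D.S : ℝ) ^ 2152 = (D.S : ℝ) ^ 2149 * (D.S : ℝ) ^ 3 := pow_add _ 2149 3
  have p3 : (D.S : ℝ) ^ 2154 = (D.S : ℝ) ^ 2149 * (D.S : ℝ) ^ 5 := pow_add _ 2149 5
  have p4 : (D.S : ℝ) ^ 2176 = (D.S : ℝ) ^ 2149 * (D.S : ℝ) ^ 27 := pow_add _ 2149 27
  have hT : 0 < (D.S : ℝ) ^ 2149 := pow_pos hD.pos _
  rw [p1]
  rw [p2] at v1
  rw [p3] at v2
  rw [p4] at ht
  generalize (D.S : ℝ) ^ 2149 = T at hT v1 v2 ht ⊢
  have h2 := Arith_yes h30 hD.one_le_n hD.n_le hD.one_le_M hT ht0 ht.2 hv v1 v2 E1 E2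
    (Nat.cast_nonneg a) ha' hp.1 hp.2
  push_cast at h1 h2 ⊢
  linarith

theorem tL_ge : ∀ᶠ D : Des in evD, D.M * (D.S : ℝ) ^ 21 ≤ D.tL := by
  filter_upwards [ev_good, tt_bounds, ev_ge 16] with D hD ht h16
  have hv := Arith_v0_pos hD
  have ht0 := Arith_tt_pos hD
  have hM := hD.one_le_M
  have h1 := Arith_v0 hD
  obtain ⟨i1, i2⟩ := Arith_inv (s := D.S) (by linarith)
  have p1 : (D.S : ℝ) ^ 2176 = (D.S : ℝ) ^ 2154 * ((D.S : ℝ) ^ 21 * D.S) := by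
    rw [← pow_succ, ← pow_add]
  have h2 := ht.1
  rw [p1, ← h1] at h2
  have h21 : 0 < (D.S : ℝ) ^ 21 := pow_pos hD.pos _
  rw [Des.tL, le_div_iff₀ hv]
  clear ht h1 p1
  generalize (D.S : ℝ) ^ 21 = P at h2 h21 ⊢
  generalize ((D.S : ℝ) ^ 27)⁻¹ = x at i1 i2 ⊢
  generalize D.tt ℝ = t at ht0 h2 ⊢
  generalize D.v0 ℝ = v at hv h2 ⊢
  generalize (D.M : ℝ) = m at hM h2 ⊢
  have h3 : m * P * v * D.S ≤ 8 * t := by
    refine le_of_mul_le_mul_left (a := m) ?_ (by linarith)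
    nlinarith
  have h4 : 0 < m * P * v := by positivity
  nlinarith

theorem no_side : ∀ᶠ D : Des in evD, ∀ kc b : ℕ, b ≤ kc → kc ≤ D.M →
    0 < D.tL ∧ 2 * (D.E0 kc + b) ≤ D.tL ∧ 2 * D.bL kc b ≤ D.BB ℝ := by
  filter_upwards [ev_good, tt_bounds, E0_bounds, tL_ge, ev_ge 40] with D hD ht hE hL h40
    kc b hb hk
  obtain ⟨v1, v2⟩ := v0_bounds hD
  obtain ⟨E1, E2⟩ := hE kc hk
  have hv := Arith_v0_pos hD
  have ht0 := Arith_tt_pos hD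
  have hM := hD.one_le_M
  have hn := hD.one_le_n
  have hb' : (b : ℝ) ≤ D.M := by exact_mod_cast hb.trans hk
  have hL0 : 0 < D.tL := lt_of_lt_of_le (mul_pos (by linarith) (pow_pos hD.pos _)) hL
  have h7 : 1 ≤ (D.S : ℝ) ^ 7 := one_le_pow₀ hD.one_le
  have h8 : 40 * (D.S : ℝ) ^ 7 ≤ (D.S : ℝ) ^ 21 := mul_pow_le hD.one_le h40 (by norm_num)
  refine ⟨hL0, by nlinarith, ?_⟩
  obtain ⟨i1, i2⟩ := Arith_inv (s := D.S) (by linarith)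
  have p3 : (D.S : ℝ) ^ 2154 = (D.S : ℝ) ^ 2149 * (D.S : ℝ) ^ 5 := pow_add _ 2149 5
  have p4 : (D.S : ℝ) ^ 2176 = (D.S : ℝ) ^ 2149 * (D.S : ℝ) ^ 27 := pow_add _ 2149 27
  have p5 : D.BB ℝ = (D.S : ℝ) ^ 2149 * (D.S : ℝ) ^ 50 := pow_add _ 2149 50
  have hT : 0 < (D.S : ℝ) ^ 2149 := pow_pos hD.pos _
  rw [p5]
  rw [p3] at v2
  rw [p4] at ht
  clear v1 p3 p4 p5
  generalize (D.S : ℝ) ^ 2149 = T at hT v2 ht ⊢
  have h2 := (Arith_main (by linarith) hn hD.n_le hM hT ht0 ht.2 hv v2 E2 hb').1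
  have h3 : D.v0 ℝ * D.tL = D.tt ℝ * (1 - ((D.S : ℝ) ^ 27)⁻¹) := mul_div_cancel₀ _ hv.ne'
  have h4 : 0 ≤ D.v0 ℝ * (2 * (((3 * D.n : ℕ) : ℝ) ^ 2 * D.UU) ^ 2 / D.tL) :=
    mul_nonneg hv.le (div_nonneg (mul_nonneg zero_le_two (sq_nonneg _)) hL0.le)
  have h5 : 0 ≤ D.tt ℝ * ((D.S : ℝ) ^ 27)⁻¹ * D.n :=
    mul_nonneg (mul_pos ht0 i1).le (Nat.cast_nonneg _)
  have h6 : D.bL kc b = D.v0 ℝ * D.tL * D.n + D.v0 ℝ * (D.E0 kc + b) -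
      D.v0 ℝ * (2 * (((3 * D.n : ℕ) : ℝ) ^ 2 * D.UU) ^ 2 / D.tL) := by unfold Des.bL; ring
  have h9 : T * (4 * (D.S : ℝ) ^ 28) ≤ T * (D.S : ℝ) ^ 50 :=
    mul_le_mul_of_nonneg_left (mul_pow_le hD.one_le (by linarith) (by norm_num)) hT.le
  rw [h6, h3]
  linarith

theorem no_arith : ∀ᶠ D : Des in evD, ∀ kc b : ℕ,
    (D.thr kc (b - 3) : ℝ) ≤ ((3 * D.n : ℕ) : ℝ) * (D.C1 - (D.S : ℝ) ^ 2150) + D.bL kc b -
      ((3 * D.n : ℕ) : ℝ) ^ 2 * (D.S : ℝ) ^ 2149 -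
      2 * (((3 * D.n : ℕ) : ℝ) ^ 2 * (D.S : ℝ) ^ 2172) ^ 2 / D.BB ℝ := by
  filter_upwards [ev_good, tt_bounds, UU_bounds, thr_close, tL_ge, ev_ge 50000] with D hD ht hU hthr
    hL hS kc b
  obtain ⟨v1, v2⟩ := v0_bounds hD
  have h1 := (abs_le.1 (hthr kc (b - 3))).2
  have hv := Arith_v0_pos hD
  have ht0 := Arith_tt_pos hD
  have hM := hD.one_le_M
  have hn := hD.one_le_n
  have hnS := hD.n_le
  have hs := hD.pos
  have hL0 : 0 < D.tL := lt_of_lt_of_le (mul_pos (by linarith) (pow_pos hD.pos _)) hL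
  have p1 : (D.S : ℝ) ^ 2150 = (D.S : ℝ) ^ 2149 * D.S := pow_succ _ 2149
  have p2 : (D.S : ℝ) ^ 2152 = (D.S : ℝ) ^ 2149 * (D.S : ℝ) ^ 3 := pow_add _ 2149 3
  have p3 : (D.S : ℝ) ^ 2172 = (D.S : ℝ) ^ 2149 * (D.S : ℝ) ^ 23 := pow_add _ 2149 23
  have p4 : (D.S : ℝ) ^ 2176 = (D.S : ℝ) ^ 2149 * (D.S : ℝ) ^ 27 := pow_add _ 2149 27
  have p5 : D.BB ℝ = (D.S : ℝ) ^ 2149 * (D.S : ℝ) ^ 50 := pow_add _ 2149 50
  have p6 : (D.S : ℝ) ^ 2149 * (D.S : ℝ) ^ 50 = D.BB ℝ := p5.symm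
  have hT : 0 < (D.S : ℝ) ^ 2149 := pow_pos hD.pos _
  rw [p1, p3, p5]
  rw [p2] at v1
  rw [p4] at ht
  clear v2 p1 p2 p3 p4 p5 p6
  generalize (D.S : ℝ) ^ 2149 = T at hT v1 ht ⊢
  have h3 : D.v0 ℝ * D.tL = D.tt ℝ * (1 - ((D.S : ℝ) ^ 27)⁻¹) := mul_div_cancel₀ _ hv.ne'
  have h6 : D.bL kc b = D.v0 ℝ * D.tL * D.n + D.v0 ℝ * (D.E0 kc + b) -
      D.v0 ℝ * (2 * (((3 * D.n : ℕ) : ℝ) ^ 2 * D.UU) ^ 2 / D.tL) := by unfold Des.bL; ring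
  have hN : ((3 * D.n : ℕ) : ℝ) ≤ 3 * D.S := by push_cast; linarith
  have hU0 : 0 ≤ D.UU := by linarith [hU.1]
  have h7 : 2 * (((3 * D.n : ℕ) : ℝ) ^ 2 * D.UU) ^ 2 / D.tL ≤ 1 := by
    rw [div_le_one hL0]
    have hMS := hD.M_le
    calc _ ≤ 2 * ((3 * (D.S : ℝ)) ^ 2 * (16 * D.M * (D.S : ℝ) ^ 6)) ^ 2 := by gcongr; exact hU.2
      _ = D.M * (41472 * (D.M * (D.S : ℝ) ^ 16)) := by ring
      _ ≤ D.M * (41472 * (D.S * (D.S : ℝ) ^ 16)) := by gcongr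
      _ = D.M * (41472 * (D.S : ℝ) ^ 17) := by ring
      _ ≤ D.M * (D.S : ℝ) ^ 21 := by
        gcongr; exact mul_pow_le hD.one_le (by linarith) (by norm_num)
      _ ≤ _ := hL
  have h8 := mul_le_of_le_one_right hv.le h7
  have h9 : D.tt ℝ * ((D.S : ℝ) ^ 27)⁻¹ * D.n ≤ T * (D.S : ℝ) ^ 2 := by
    have h2 : D.tt ℝ * ((D.S : ℝ) ^ 27)⁻¹ ≤ T := by
      rw [mul_inv_le_iff₀ (by positivity)]; exact ht.2
    calc _ ≤ T * D.S := by gcongr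
      _ ≤ _ := by gcongr; nlinarith
  have h10 : ((3 * D.n : ℕ) : ℝ) * (T * D.S) ≤ 3 * (T * (D.S : ℝ) ^ 2) := by
    calc _ ≤ 3 * D.S * (T * D.S) := by gcongr
      _ = _ := by ring
  have h11 : ((3 * D.n : ℕ) : ℝ) ^ 2 * T ≤ 9 * (T * (D.S : ℝ) ^ 2) := by
    calc _ ≤ (3 * (D.S : ℝ)) ^ 2 * T := by gcongr
      _ = _ := by ring
  have h12 : 2 * (((3 * D.n : ℕ) : ℝ) ^ 2 * (T * (D.S : ℝ) ^ 23)) ^ 2 / (T * (D.S : ℝ) ^ 50) ≤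
      162 * T := by
    rw [div_le_iff₀ (by positivity)]
    calc _ ≤ 2 * ((3 * (D.S : ℝ)) ^ 2 * (T * (D.S : ℝ) ^ 23)) ^ 2 := by gcongr
      _ = _ := by ring
  have h13 : 50000 * (T * (D.S : ℝ) ^ 2) ≤ D.v0 ℝ := by
    calc _ ≤ D.S * (T * (D.S : ℝ) ^ 2) := by gcongr
      _ = T * (D.S : ℝ) ^ 3 := by ring
      _ ≤ _ := v1
  have h14 : T ≤ T * (D.S : ℝ) ^ 2 := le_mul_of_one_le_right hT.le (one_le_pow₀ hD.one_le)
  rw [h6, h3]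
  push_cast at h1 h8 h10 h11 h12 ⊢
  linarith

end Crest.Agent.R338
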