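/-
R338/Layout: the table of pads
Skeleton by helper15 (row 338); keep the statements unchanged, add any helper lemmas you like.
-/
import Crest.Agent.R338.DBasic

set_option autoImplicit false
set_option linter.unusedSectionVars false
set_option linter.unusedVariables false
set_option linter.unusedSimpArgs false

noncomputable section

namespace Crest.Agent.R338

open Finset

variable {R M : ℕ} {c : ℕ → ℕ → ℕ}

theorem Layout_sum_range_mul (a M : ℕ) (f : ℕ → ℕ → ℕ) :
    ∑ l ∈ Finset.range (a * M), f (l / M) (l % M) =
      ∑ q ∈ Finset.range a, ∑ i ∈ Finset.range M, f q i := by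
  induction a with
  | zero => simp
  | succ a ih =>
    rw [Nat.succ_mul, Finset.sum_range_add, ih, Finset.sum_range_succ]
    congr 1
    refine Finset.sum_congr rfl fun i hi => ?_
    have hi' : i < M := Finset.mem_range.1 hi
    have hM : 0 < M := by omega
    have h1 : (a * M + i) / M = a := by
      rw [Nat.add_comm, Nat.add_mul_div_right _ _ hM, Nat.div_eq_of_lt hi', Nat.zero_add]
    have h2 : (a * M + i) % M = i := by
      rw [Nat.add_comm, Nat.add_mul_mod_self_right, Nat.mod_eq_of_lt hi']
    rw [h1, h2]

/-- Levels are triples `(P, P', i)`, `l = (P * R + P') * M + i`. -/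
theorem card_levels (R M : ℕ) (p : ℕ → ℕ → ℕ → Prop) [∀ a b i, Decidable (p a b i)] :
    ((Finset.range (R * R * M)).filter fun l => p (l / M / R) (l / M % R) (l % M)).card =
      ∑ P ∈ Finset.range R, ∑ P' ∈ Finset.range R, ((Finset.range M).filter (p P P')).card := by
  simp only [Finset.card_filter]
  rw [Layout_sum_range_mul (R * R) M (fun q i => if p (q / R) (q % R) i then 1 else 0)]
  exact Layout_sum_range_mul R R (fun P P' => ∑ i ∈ Finset.range M, if p P P' i then 1 else 0)

/-- The predicate behind `padOf`. -/
def Layout_pp (R M : ℕ) (c : ℕ → ℕ → ℕ) (A P P' i : ℕ) : Prop :=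
  (P = P' ∧ A = P ∧ i + ∑ B ∈ Finset.range R, c A B < M) ∨
    (P < P' ∧ (A = P ∨ A = P') ∧ i < c P P')

instance (R M : ℕ) (c : ℕ → ℕ → ℕ) (A P P' i : ℕ) : Decidable (Layout_pp R M c A P P' i) := by
  unfold Layout_pp; infer_instance

theorem Layout_padOf_iff (A l : ℕ) :
    padOf R M c A l = true ↔ Layout_pp R M c A (l / M / R) (l / M % R) (l % M) := by
  unfold padOf Layout_pp
  split_ifs with h
  · simp only [decide_eq_true_eq]
    constructor
    · intro h'; exact Or.inl ⟨h, h'⟩
    · rintro (h' | h')
      · exact h'.2
      · omega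
  · simp only [decide_eq_true_eq]
    constructor
    · intro h'; exact Or.inr h'
    · rintro (h' | h')
      · exact absurd h'.1 h
      · exact h'

theorem Layout_card_lt {M k : ℕ} (hk : k ≤ M) :
    ((Finset.range M).filter fun i => i < k).card = k := by
  have : ((Finset.range M).filter fun i => i < k) = Finset.range k := by
    ext i; simp only [Finset.mem_filter, Finset.mem_range]; omega
  rw [this, Finset.card_range]

theorem Layout_c_le (hM : ∀ A < R, ∑ B ∈ Finset.range R, c A B ≤ M) {P P' : ℕ} (hP : P < R)
    (hP' : P' < R) : c P P' ≤ M :=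
  (Finset.single_le_sum (f := fun B => c P B) (fun _ _ => Nat.zero_le _)
    (Finset.mem_range.2 hP')).trans (hM P hP)

theorem card_padOf (hs : ∀ A B, c A B = c B A) (h0 : ∀ A, c A A = 0)
    (hM : ∀ A < R, ∑ B ∈ Finset.range R, c A B ≤ M) {A : ℕ} (hA : A < R) :
    ((Finset.range (R * R * M)).filter fun l => padOf R M c A l = true).card = M := by
  simp only [Layout_padOf_iff]
  rw [card_levels R M (Layout_pp R M c A)]
  set T := ∑ B ∈ Finset.range R, c A B with hT
  have hTM : T ≤ M := hM A hA
  have key : ∀ P ∈ Finset.range R, ∀ P' ∈ Finset.range R,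
      ((Finset.range M).filter (Layout_pp R M c A P P')).card =
        (if P = A then (if P' = A then M - T else 0) + (if A < P' then c A P' else 0) else 0) +
          (if P' = A then (if P < A then c A P else 0) else 0) := by
    intro P hP P' hP'
    have hP := Finset.mem_range.1 hP
    have hP' := Finset.mem_range.1 hP'
    have hc : c P P' ≤ M := Layout_c_le hM hP hP'
    rcases lt_trichotomy P P' with h | h | h
    · by_cases hA' : A = P ∨ A = P'
      · have : (Finset.range M).filter (Layout_pp R M c A P P') =
            (Finset.range M).filter fun i => i < c P P' := by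
          refine Finset.filter_congr fun i _ => ?_
          unfold Layout_pp
          constructor
          · rintro (h' | h')
            · omega
            · exact h'.2.2
          · intro h'; exact Or.inr ⟨h, hA', h'⟩
        rw [this, Layout_card_lt hc]
        rcases hA' with rfl | rfl
        · simp [h, h.ne']
        · simp [h, h.ne, hs P A]
      · have : (Finset.range M).filter (Layout_pp R M c A P P') = ∅ := by
          refine Finset.filter_eq_empty_iff.2 fun i _ => ?_
          unfold Layout_pp
          rintro (h' | h')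
          · omega
          · exact hA' h'.2.1
        rw [this]
        have h1 : P ≠ A := fun e => hA' (Or.inl e.symm)
        have h2 : P' ≠ A := fun e => hA' (Or.inr e.symm)
        simp [h1, h2]
    · subst h
      by_cases hA' : P = A
      · subst hA'
        have : (Finset.range M).filter (Layout_pp R M c P P P) =
            (Finset.range M).filter fun i => i < M - T := by
          refine Finset.filter_congr fun i _ => ?_
          unfold Layout_pp
          rw [← hT]
          constructor
          · rintro (h' | h') <;> omega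
          · intro h'; exact Or.inl ⟨rfl, rfl, by omega⟩
        rw [this, Layout_card_lt (Nat.sub_le _ _)]
        simp
      · have : (Finset.range M).filter (Layout_pp R M c A P P) = ∅ := by
          refine Finset.filter_eq_empty_iff.2 fun i _ => ?_
          unfold Layout_pp
          rintro (h' | h') <;> omega
        rw [this]
        simp [hA']
    · have : (Finset.range M).filter (Layout_pp R M c A P P') = ∅ := by
        refine Finset.filter_eq_empty_iff.2 fun i _ => ?_
        unfold Layout_pp
        rintro (h' | h') <;> omega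
      rw [this]
      by_cases h1 : P = A
      · subst h1
        simp [h.ne, h.le, not_lt.2 h.le]
      · by_cases h2 : P' = A
        · subst h2
          simp [h1, not_lt.2 h.le]
        · simp [h1, h2]
  rw [Finset.sum_congr rfl fun P hP => Finset.sum_congr rfl fun P' hP' => key P hP P' hP']
  have hAm : A ∈ Finset.range R := Finset.mem_range.2 hA
  simp only [Finset.sum_add_distrib, Finset.sum_ite_irrel, Finset.sum_const_zero,
    Finset.sum_ite_eq', hAm, if_true]
  have : (∑ P' ∈ Finset.range R, if A < P' then c A P' else 0) +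
      (∑ P ∈ Finset.range R, if P < A then c A P else 0) = T := by
    rw [← Finset.sum_add_distrib, hT]
    refine Finset.sum_congr rfl fun B _ => ?_
    rcases lt_trichotomy A B with h | h | h
    · simp [h, not_lt.2 h.le]
    · subst h; simp [h0]
    · simp [h, not_lt.2 h.le]
  omega

theorem card_padOf_inter (hs : ∀ A B, c A B = c B A)
    (hM : ∀ A < R, ∑ B ∈ Finset.range R, c A B ≤ M) {A B : ℕ} (hA : A < R) (hB : B < R)
    (hAB : A ≠ B) :
    (((Finset.range (R * R * M)).filter fun l => padOf R M c A l = true) ∩
      ((Finset.range (R * R * M)).filter fun l => padOf R M c B l = true)).card = c A B := by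
  wlog hlt : A < B generalizing A B
  · rw [Finset.inter_comm, hs A B]
    exact this hB hA hAB.symm (by omega)
  rw [← Finset.filter_and]
  simp only [Layout_padOf_iff]
  rw [card_levels R M (fun P P' i => Layout_pp R M c A P P' i ∧ Layout_pp R M c B P P' i)]
  have key : ∀ P ∈ Finset.range R, ∀ P' ∈ Finset.range R,
      ((Finset.range M).filter fun i =>
        Layout_pp R M c A P P' i ∧ Layout_pp R M c B P P' i).card =
        if P = A then (if P' = B then c A B else 0) else 0 := by
    intro P hP P' hP'
    by_cases h : P = A ∧ P' = B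
    · obtain ⟨rfl, rfl⟩ := h
      have : ((Finset.range M).filter fun i =>
          Layout_pp R M c P P P' i ∧ Layout_pp R M c P' P P' i) =
          (Finset.range M).filter fun i => i < c P P' := by
        refine Finset.filter_congr fun i _ => ?_
        unfold Layout_pp
        constructor
        · rintro ⟨h' | h', -⟩
          · omega
          · exact h'.2.2
        · intro h'
          exact ⟨Or.inr ⟨hlt, Or.inl rfl, h'⟩, Or.inr ⟨hlt, Or.inr rfl, h'⟩⟩
      rw [this, Layout_card_lt (Layout_c_le hM hA hB)]
      simp
    · have : ((Finset.range M).filter fun i =>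
          Layout_pp R M c A P P' i ∧ Layout_pp R M c B P P' i) = ∅ := by
        refine Finset.filter_eq_empty_iff.2 fun i _ => ?_
        unfold Layout_pp
        rintro ⟨h1 | h1, h2 | h2⟩ <;> omega
      rw [this]
      by_cases h1 : P = A
      · have h2 : P' ≠ B := fun e => h ⟨h1, e⟩
        simp [h1, h2]
      · simp [h1]
  rw [Finset.sum_congr rfl fun P hP => Finset.sum_congr rfl fun P' hP' => key P hP P' hP']
  have hAm : A ∈ Finset.range R := Finset.mem_range.2 hA
  have hBm : B ∈ Finset.range R := Finset.mem_range.2 hB
  simp only [Finset.sum_ite_irrel, Finset.sum_const_zero, Finset.sum_ite_eq', hAm, hBm, if_true]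

theorem desOf_good (S₀ : ℕ) {Q n : ℕ} {k : ℕ → ℕ → ℕ} (h1 : 1 ≤ n) (hn : n ≤ Q)
    (hs : ∀ A B, k A B = k B A) (hk : ∀ A B, k A B ≤ 100 * Q ^ 6) :
    (desOf S₀ Q n k).Good ∧ (desOf S₀ Q n k).Lay (100 * Q ^ 6) k := by
  have hQ : 1 ≤ Q := h1.trans hn
  have hsym : ∀ A B, cmn (100 * Q ^ 6) k A B = cmn (100 * Q ^ 6) k B A := by
    intro A B
    unfold cmn
    rw [Nat.dist_comm A B, hs A B]
    simp only [eq_comm (a := A / 3)]
  have hzero : ∀ A, cmn (100 * Q ^ 6) k A A = 0 := by
    intro A; simp [cmn, Nat.dist_self]
  have hM : ∀ A < 3 * n, ∑ B ∈ Finset.range (3 * n), cmn (100 * Q ^ 6) k A B ≤ 1000 * Q ^ 8 := by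
    intro A hA
    have : ∀ B ∈ Finset.range (3 * n), cmn (100 * Q ^ 6) k A B ≤ 100 * Q ^ 6 * (3 * Q) := by
      intro B hB
      have hB := Finset.mem_range.1 hB
      unfold cmn
      refine Nat.mul_le_mul ?_ ?_
      · split_ifs
        · exact le_rfl
        · exact hk A B
      · unfold Nat.dist; omega
    refine (Finset.sum_le_card_nsmul _ _ _ this).trans ?_
    rw [Finset.card_range, smul_eq_mul]
    calc 3 * n * (100 * Q ^ 6 * (3 * Q)) ≤ 3 * Q * (100 * Q ^ 6 * (3 * Q)) := by gcongr
      _ = 900 * Q ^ 8 := by ring
      _ ≤ 1000 * Q ^ 8 := by gcongr; norm_num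
  have hp : ∀ a b : ℕ, a ≤ b → Q ^ a ≤ Q ^ b := fun a b h => Nat.pow_le_pow_right hQ h
  refine ⟨⟨h1, ?_, ?_, ?_, ?_, ?_⟩, ?_⟩
  · show n ≤ S₀ + 9000 * Q ^ 10
    have := hp 1 10 (by norm_num)
    rw [pow_one] at this
    omega
  · show 3 * n * (3 * n) * (1000 * Q ^ 8) ≤ S₀ + 9000 * Q ^ 10
    calc 3 * n * (3 * n) * (1000 * Q ^ 8) ≤ 3 * Q * (3 * Q) * (1000 * Q ^ 8) := by gcongr
      _ = 9000 * Q ^ 10 := by ring
      _ ≤ _ := Nat.le_add_left _ _
  · show 1 ≤ 1000 * Q ^ 8
    have := hp 0 8 (by norm_num)
    rw [pow_zero] at this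
    omega
  · show 1000 * Q ^ 8 ≤ S₀ + 9000 * Q ^ 10
    have := hp 8 10 (by norm_num)
    omega
  · intro A hA
    exact card_padOf hsym hzero hM hA
  · intro A hA B hB hAB
    exact card_padOf_inter hsym hM hA hB hAB

end Crest.Agent.R338
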