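/-
R338/Pauli: elementary algebra of Pauli strings, slicing along extra wires
Skeleton by helper15 (row 338); keep the statements unchanged, add any helper lemmas you like.
-/
import Crest.Agent.R338.ADefs

set_option autoImplicit false
set_option linter.unusedSectionVars false
set_option linter.unusedVariables false
set_option linter.unusedSimpArgs false

noncomputable section

namespace Crest.Agent.R338

open scoped Matrix

section basic
variable {ι : Type} [Fintype ι]

theorem nsq_eq (ψ : ι → ℝ) : nsq ψ = ∑ x, ψ x ^ 2 := by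
  simp only [nsq, dotProduct, sq]

theorem nsq_nonneg (ψ : ι → ℝ) : 0 ≤ nsq ψ := by
  rw [nsq_eq]; positivity

theorem nsq_pos {ψ : ι → ℝ} (h : ψ ≠ 0) : 0 < nsq ψ := by
  obtain ⟨x, hx⟩ := Function.ne_iff.1 h
  rw [nsq_eq]
  exact Finset.sum_pos' (fun _ _ => sq_nonneg _) ⟨x, Finset.mem_univ _, sq_pos_of_ne_zero hx⟩

theorem nsq_smul (c : ℝ) (ψ : ι → ℝ) : nsq (c • ψ) = c ^ 2 * nsq ψ := by
  simp only [nsq, smul_dotProduct, dotProduct_smul, smul_eq_mul]; ring

theorem nsq_add (φ ψ : ι → ℝ) : nsq (φ + ψ) = nsq φ + 2 * (φ ⬝ᵥ ψ) + nsq ψ := by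
  simp only [nsq, add_dotProduct, dotProduct_add, dotProduct_comm ψ φ]; ring

theorem nsq_sub (φ ψ : ι → ℝ) : nsq (φ - ψ) = nsq φ - 2 * (φ ⬝ᵥ ψ) + nsq ψ := by
  simp only [nsq, sub_dotProduct, dotProduct_sub, dotProduct_comm ψ φ]; ring

/-- Cauchy-Schwarz. -/
theorem dot_sq_le (φ ψ : ι → ℝ) : (φ ⬝ᵥ ψ) ^ 2 ≤ nsq φ * nsq ψ := by
  rw [nsq_eq, nsq_eq]
  exact Finset.sum_mul_sq_le_sq_mul_sq _ _ _

theorem abs_dot_le (φ ψ : ι → ℝ) : |φ ⬝ᵥ ψ| ≤ √(nsq φ) * √(nsq ψ) := by
  rw [← Real.sqrt_mul (nsq_nonneg φ)]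
  exact Real.abs_le_sqrt (dot_sq_le φ ψ)

/-- Triangle inequality. -/
theorem sqrt_nsq_add_le (φ ψ : ι → ℝ) : √(nsq (φ + ψ)) ≤ √(nsq φ) + √(nsq ψ) := by
  refine Real.sqrt_le_iff.2 ⟨by positivity, ?_⟩
  rw [nsq_add, add_sq, Real.sq_sqrt (nsq_nonneg φ), Real.sq_sqrt (nsq_nonneg ψ)]
  linarith [abs_dot_le φ ψ, le_abs_self (φ ⬝ᵥ ψ)]

theorem abs_dot_le_of_nsq_le {φ ψ : ι → ℝ} {c : ℝ} (hc : 0 ≤ c) (h : nsq ψ ≤ c ^ 2 * nsq φ) :
    |φ ⬝ᵥ ψ| ≤ c * nsq φ := by
  have h0 := nsq_nonneg φ
  refine abs_le_of_sq_le_sq' ?_ (mul_nonneg hc h0) |> abs_le.2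
  refine (dot_sq_le φ ψ).trans ((mul_le_mul_of_nonneg_left h h0).trans_eq (by ring))

theorem SA.one : SA (1 : Module.End ℝ (ι → ℝ)) := by
  intro φ ψ; rfl

theorem SA.add {S T : Module.End ℝ (ι → ℝ)} (hS : SA S) (hT : SA T) : SA (S + T) := by
  intro φ ψ
  simp only [LinearMap.add_apply, add_dotProduct, dotProduct_add, hS φ ψ, hT φ ψ]

theorem SA.sub {S T : Module.End ℝ (ι → ℝ)} (hS : SA S) (hT : SA T) : SA (S - T) := by
  intro φ ψ
  simp only [LinearMap.sub_apply, sub_dotProduct, dotProduct_sub, hS φ ψ, hT φ ψ]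

theorem SA.smul {S : Module.End ℝ (ι → ℝ)} (hS : SA S) (c : ℝ) : SA (c • S) := by
  intro φ ψ
  simp only [LinearMap.smul_apply, smul_dotProduct, dotProduct_smul, hS φ ψ]

theorem SA.mul {S T : Module.End ℝ (ι → ℝ)} (hS : SA S) (hT : SA T) (h : Commute S T) :
    SA (S * T) := by
  intro φ ψ
  rw [Module.End.mul_apply, hS, hT, h.eq, Module.End.mul_apply]

theorem SA_diagOp (d : ι → ℝ) : SA (diagOp d) := by
  intro φ ψ
  refine Finset.sum_congr rfl fun x _ => ?_
  change d x * φ x * ψ x = φ x * (d x * ψ x)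
  ring

theorem SA.nsq_of_mul_self {S : Module.End ℝ (ι → ℝ)} (hS : SA S) (h : S * S = 1) (ψ : ι → ℝ) :
    nsq (S ψ) = nsq ψ := by
  rw [nsq, hS, ← Module.End.mul_apply, h]; rfl

@[simp] theorem diagOp_apply (d ψ : ι → ℝ) (x : ι) : diagOp d ψ x = d x * ψ x := rfl

theorem diagOp_mul (d e : ι → ℝ) : diagOp d * diagOp e = diagOp fun x => d x * e x := by
  refine LinearMap.ext fun ψ => funext fun x => ?_
  simp only [Module.End.mul_apply, diagOp_apply, mul_assoc]

end basic

variable {n m : ℕ}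

theorem bit_val (x : Fin n → Bool) (i : Fin n) : bit x i = x i := by
  simp [bit, i.2]

theorem bit_flp_self (x : Fin n → Bool) {i : ℕ} (h : i < n) : bit (flp x i) i = !bit x i := by
  simp [bit, h, flp]

theorem bit_flp_ne (x : Fin n → Bool) {i j : ℕ} (h : i ≠ j) : bit (flp x i) j = bit x j := by
  unfold bit
  split_ifs with hj
  · simp [flp, h.symm]
  · rfl

@[simp] theorem flp_flp (x : Fin n → Bool) (i : ℕ) : flp (flp x i) i = x := by
  funext j
  simp only [flp]
  split_ifs <;> simp

theorem flp_comm (x : Fin n → Bool) (i j : ℕ) : flp (flp x i) j = flp (flp x j) i := by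
  funext k
  simp only [flp]
  split_ifs <;> rfl

theorem sum_flp (i : ℕ) (f : (Fin n → Bool) → ℝ) : ∑ x, f (flp x i) = ∑ x, f x := by
  exact Equiv.sum_comp (Function.Involutive.toPerm (fun x => flp x i) fun x => flp_flp x i) f

@[simp] theorem opX_apply (i : ℕ) (ψ : RV n) (x : Fin n → Bool) : opX i ψ x = ψ (flp x i) := rfl

theorem Pauli_SA_opX (i : ℕ) : SA (opX i : Module.End ℝ (RV n)) := by
  intro φ ψ
  have := sum_flp i fun x => φ x * ψ (flp x i)
  simp only [flp_flp] at this
  exact this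

theorem Pauli_sgnB_mul_self (b : Bool) : sgnB b * sgnB b = 1 := by
  cases b <;> simp [sgnB]

theorem SA_opL (p : Letter) : SA (opL p : Module.End ℝ (RV n)) := by
  unfold opL
  split_ifs
  · exact Pauli_SA_opX _
  · exact SA_diagOp _

theorem opL_mul_self (p : Letter) : (opL p * opL p : Module.End ℝ (RV n)) = 1 := by
  unfold opL
  split_ifs
  · refine LinearMap.ext fun ψ => funext fun x => ?_
    simp only [Module.End.mul_apply, opX_apply, flp_flp, Module.End.one_apply]
  · refine LinearMap.ext fun ψ => funext fun x => ?_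
    simp only [opZ, Module.End.mul_apply, diagOp_apply, Module.End.one_apply, ← mul_assoc,
      Pauli_sgnB_mul_self, one_mul]

theorem commute_opL {p q : Letter} (h : p.1 ≠ q.1) :
    Commute (opL p : Module.End ℝ (RV n)) (opL q) := by
  unfold opL
  split_ifs <;> refine LinearMap.ext fun ψ => funext fun x => ?_ <;>
    simp only [opZ, Module.End.mul_apply, diagOp_apply, opX_apply]
  · rw [flp_comm]
  · rw [bit_flp_ne x h]
  · rw [bit_flp_ne x h.symm]
  · ring

@[simp] theorem pauli_nil : (pauli [] : Module.End ℝ (RV n)) = 1 := rfl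

theorem pauli_cons (p : Letter) (L : List Letter) :
    (pauli (p :: L) : Module.End ℝ (RV n)) = opL p * pauli L := by
  simp only [pauli, List.map_cons, List.prod_cons]

theorem pauli_append (L L' : List Letter) :
    (pauli (L ++ L') : Module.End ℝ (RV n)) = pauli L * pauli L' := by
  simp only [pauli, List.map_append, List.prod_append]

theorem commute_pauli {L L' : List Letter} (h : ∀ p ∈ L, ∀ q ∈ L', p.1 ≠ q.1) :
    Commute (pauli L : Module.End ℝ (RV n)) (pauli L') := by
  refine Commute.list_prod_left _ _ fun a ha => Commute.list_prod_right _ _ fun b hb => ?_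
  obtain ⟨p, hp, rfl⟩ := List.mem_map.1 ha
  obtain ⟨q, hq, rfl⟩ := List.mem_map.1 hb
  exact commute_opL (h p hp q hq)

theorem Pauli_commute_cons {p : Letter} {L : List Letter} (h : p.1 ∉ L.map Prod.fst) :
    Commute (opL p : Module.End ℝ (RV n)) (pauli L) := by
  refine Commute.list_prod_right _ _ fun b hb => ?_
  obtain ⟨q, hq, rfl⟩ := List.mem_map.1 hb
  exact commute_opL fun e => h (e ▸ List.mem_map_of_mem hq)

theorem SA_pauli {L : List Letter} (h : (L.map Prod.fst).Nodup) :
    SA (pauli L : Module.End ℝ (RV n)) := by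
  induction L with
  | nil => exact SA.one
  | cons p L ih =>
    rw [List.map_cons, List.nodup_cons] at h
    rw [pauli_cons]
    exact (SA_opL p).mul (ih h.2) (Pauli_commute_cons h.1)

theorem pauli_mul_self {L : List Letter} (h : (L.map Prod.fst).Nodup) :
    (pauli L * pauli L : Module.End ℝ (RV n)) = 1 := by
  induction L with
  | nil => exact one_mul _
  | cons p L ih =>
    rw [List.map_cons, List.nodup_cons] at h
    rw [pauli_cons, (Pauli_commute_cons h.1).symm.mul_mul_mul_comm, opL_mul_self, ih h.2, one_mul]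

theorem nsq_pauli (L : List Letter) (ψ : RV n) : nsq (pauli L ψ) = nsq ψ := by
  induction L with
  | nil => rfl
  | cons p L ih =>
    rw [pauli_cons, Module.End.mul_apply, (SA_opL p).nsq_of_mul_self (opL_mul_self p), ih]

@[simp] theorem opH_nil : (opH [] : Module.End ℝ (RV n)) = 0 := rfl

theorem opH_cons (τ : Term) (H : Ham) :
    (opH (τ :: H) : Module.End ℝ (RV n)) = (τ.1 : ℝ) • pauli τ.2 + opH H := by
  simp only [opH, List.map_cons, List.sum_cons]

theorem opH_append (H H' : Ham) : (opH (H ++ H') : Module.End ℝ (RV n)) = opH H + opH H' := by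
  simp only [opH, List.map_append, List.sum_append]

theorem opH_flatMap {α : Type} (l : List α) (f : α → Ham) :
    (opH (l.flatMap f) : Module.End ℝ (RV n)) = (l.map fun a => opH (f a)).sum := by
  induction l with
  | nil => rfl
  | cons a l ih => rw [List.flatMap_cons, opH_append, ih, List.map_cons, List.sum_cons]

theorem opH_mulH (H H' : Ham) : (opH (mulH H H') : Module.End ℝ (RV n)) = opH H * opH H' := by
  induction H with
  | nil => exact (zero_mul _).symm
  | cons τ H ih =>
    have h1 : (opH (H'.map fun τ' => (τ.1 * τ'.1, τ.2 ++ τ'.2)) : Module.End ℝ (RV n)) =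
        ((τ.1 : ℝ) • pauli τ.2) * opH H' := by
      clear ih
      induction H' with
      | nil => exact (mul_zero _).symm
      | cons τ' H' ih' =>
        rw [List.map_cons, opH_cons, ih', opH_cons, mul_add, pauli_append, Rat.cast_mul,
          smul_mul_smul_comm]
    rw [mulH, List.flatMap_cons, opH_append, h1, opH_cons, add_mul, ← ih, mulH]

theorem opH_smulH (q : ℚ) (H : Ham) :
    (opH (smulH q H) : Module.End ℝ (RV n)) = (q : ℝ) • opH H := by
  induction H with
  | nil => exact (smul_zero _).symm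
  | cons τ H ih =>
    rw [smulH, List.map_cons, opH_cons, opH_cons, smul_add, ← ih, smulH, Rat.cast_mul, mul_smul]

theorem opH_prH (i : ℕ) (b : Bool) : (opH (prH i b) : Module.End ℝ (RV n)) = opP i b := by
  refine LinearMap.ext fun ψ => funext fun x => ?_
  simp only [prH, opH_cons, opH_nil, pauli_cons, pauli_nil, opL, opZ, opP, add_zero, mul_one,
    LinearMap.add_apply, LinearMap.smul_apply, Module.End.one_apply, Pi.add_apply, Pi.smul_apply,
    smul_eq_mul, Bool.false_eq_true, if_false, diagOp_apply, sgnB]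
  cases b <;> cases bit x i <;> simp <;> ring

theorem form_eq_sum (H : Ham) (ψ : RV n) :
    form H ψ = (H.map fun τ => (τ.1 : ℝ) * (ψ ⬝ᵥ pauli τ.2 ψ)).sum := by
  induction H with
  | nil => simp [form]
  | cons τ H ih =>
    rw [List.map_cons, List.sum_cons, ← ih, form, form, opH_cons, LinearMap.add_apply,
      dotProduct_add, LinearMap.smul_apply, dotProduct_smul, smul_eq_mul]

theorem abs_form_le {H : Ham} {Q : ℝ} (h : ∀ τ ∈ H, |(τ.1 : ℝ)| ≤ Q) (ψ : RV n) :
    |form H ψ| ≤ H.length * Q * nsq ψ := by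
  rw [form_eq_sum]
  induction H with
  | nil => simp
  | cons τ H ih =>
    have h1 := ih fun τ' hτ' => h τ' (List.mem_cons_of_mem _ hτ')
    have h2 := h τ List.mem_cons_self
    have h3 : |ψ ⬝ᵥ pauli τ.2 ψ| ≤ 1 * nsq ψ :=
      abs_dot_le_of_nsq_le zero_le_one (by rw [nsq_pauli]; simp)
    have h4 : |(τ.1 : ℝ) * (ψ ⬝ᵥ pauli τ.2 ψ)| ≤ Q * nsq ψ := by
      rw [abs_mul]
      exact mul_le_mul h2 (by simpa using h3) (abs_nonneg _) ((abs_nonneg _).trans h2)
    rw [List.map_cons, List.sum_cons, List.length_cons]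
    refine (abs_add_le _ _).trans ?_
    push_cast
    linarith

/-! ### Gates -/

theorem cs_cast (r : ℚ) (θ : ℕ) :
    cs (r : ℝ) θ = (((cs r θ).1 : ℝ), ((cs r θ).2 : ℝ)) := by
  unfold cs
  split_ifs <;> simp

theorem cs_r0 (θ : ℕ) : (cs r0 θ).1 ^ 2 + (cs r0 θ).2 ^ 2 = 1 := by
  have h : r0 ^ 2 = 1 / 2 := by
    rw [r0, inv_pow, Real.sq_sqrt (by norm_num)]; norm_num
  unfold cs
  split_ifs <;> simp only [neg_sq, h] <;> norm_num

theorem Pauli_rgate_apply (r : ℝ) (g : RG) (ψ : RV n) (x : Fin n → Bool) :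
    rgate r g ψ x = if bit x g.1 = true ∧ bit x g.2.1 = true then
      (cs r g.2.2.2).1 * (sgnB (bit x g.2.2.1) * ψ x) + (cs r g.2.2.2).2 * ψ (flp x g.2.2.1)
    else ψ x := rfl

theorem Pauli_rrun_cons (g : RG) (gs : List RG) (ψ : RV n) :
    rrun (g :: gs) ψ = rrun gs (rgate r0 g ψ) := rfl

theorem SA_rgate (r : ℝ) {g : RG} (h : WFG n g) : SA (rgate r g : Module.End ℝ (RV n)) := by
  obtain ⟨-, -, -, -, h1, h2⟩ := h
  have e : (rgate r g : Module.End ℝ (RV n)) =
      diagOp (fun x => if bit x g.1 = true ∧ bit x g.2.1 = true then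
        (cs r g.2.2.2).1 * sgnB (bit x g.2.2.1) else 1) +
      diagOp (fun x => if bit x g.1 = true ∧ bit x g.2.1 = true then (cs r g.2.2.2).2 else 0) *
        opX g.2.2.1 := by
    refine LinearMap.ext fun ψ => funext fun x => ?_
    simp only [Pauli_rgate_apply, LinearMap.add_apply, Pi.add_apply, Module.End.mul_apply,
      diagOp_apply, opX_apply]
    split_ifs <;> ring
  rw [e]
  refine (SA_diagOp _).add ((SA_diagOp _).mul (Pauli_SA_opX _) ?_)
  refine LinearMap.ext fun ψ => funext fun x => ?_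
  simp only [Module.End.mul_apply, diagOp_apply, opX_apply, bit_flp_ne x h1.symm,
    bit_flp_ne x h2.symm]

theorem rgate_mul_self {g : RG} (h : WFG n g) :
    (rgate r0 g * rgate r0 g : Module.End ℝ (RV n)) = 1 := by
  obtain ⟨-, -, h0, -, h1, h2⟩ := h
  have hc := cs_r0 g.2.2.2
  refine LinearMap.ext fun ψ => funext fun x => ?_
  simp only [Module.End.mul_apply, Pauli_rgate_apply, bit_flp_ne x h1.symm, bit_flp_ne x h2.symm,
    bit_flp_self x h0, flp_flp, Module.End.one_apply]
  split_ifs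
  · cases bit x g.2.2.1 <;> simp only [sgnB, Bool.not_true, Bool.not_false, Bool.false_eq_true,
      if_true, if_false] <;> linear_combination ψ x * hc
  · rfl

theorem nsq_rrun {gs : List RG} (h : ∀ g ∈ gs, WFG n g) (ψ : RV n) : nsq (rrun gs ψ) = nsq ψ := by
  induction gs generalizing ψ with
  | nil => rfl
  | cons g gs ih =>
    have h1 := h g List.mem_cons_self
    rw [Pauli_rrun_cons, ih fun g' hg' => h g' (List.mem_cons_of_mem _ hg'),
      (SA_rgate r0 h1).nsq_of_mul_self (rgate_mul_self h1)]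

theorem rrun_append (gs gs' : List RG) (ψ : RV n) : rrun (gs ++ gs') ψ = rrun gs' (rrun gs ψ) := by
  simp only [rrun, List.foldl_append]

theorem rrun_add (gs : List RG) (φ ψ : RV n) : rrun gs (φ + ψ) = rrun gs φ + rrun gs ψ := by
  induction gs generalizing φ ψ with
  | nil => rfl
  | cons g gs ih => rw [Pauli_rrun_cons, Pauli_rrun_cons, Pauli_rrun_cons, map_add, ih]

theorem rrun_smul (gs : List RG) (c : ℝ) (ψ : RV n) : rrun gs (c • ψ) = c • rrun gs ψ := by
  induction gs generalizing ψ with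
  | nil => rfl
  | cons g gs ih => rw [Pauli_rrun_cons, Pauli_rrun_cons, map_smul, ih]

theorem rej_eq (out : ℕ) (ψ : RV n) : rej out ψ = nsq (opP out false ψ) := by
  rw [nsq_eq, rej]
  refine Finset.sum_congr rfl fun x _ => ?_
  simp only [opP, diagOp_apply]
  cases bit x out <;> simp

/-! ### Slices -/

/-- The component of `ψ` with the extra wires in the state `S`. -/
def slice (ψ : RV (n + m)) (S : Fin m → Bool) : RV n := fun x => ψ (Fin.append x S)

theorem bit_append_left (x : Fin n → Bool) (S : Fin m → Bool) {i : ℕ} (h : i < n) :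
    bit (Fin.append x S) i = bit x i := by
  rw [bit, bit, dif_pos h, dif_pos (Nat.lt_add_right m h)]
  exact Fin.append_left x S ⟨i, h⟩

theorem bit_append_right (x : Fin n → Bool) (S : Fin m → Bool) (w : ℕ) :
    bit (Fin.append x S) (n + w) = bit S w := by
  unfold bit
  by_cases h : w < m
  · rw [dif_pos h, dif_pos (Nat.add_lt_add_left h n)]
    exact Fin.append_right x S ⟨w, h⟩
  · rw [dif_neg h, dif_neg (by omega)]

theorem flp_append_left (x : Fin n → Bool) (S : Fin m → Bool) {i : ℕ} (h : i < n) :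
    flp (Fin.append x S) i = Fin.append (flp x i) S := by
  funext j
  refine Fin.addCases (fun j => ?_) (fun j => ?_) j
  · simp only [flp, Fin.append_left, Fin.val_castAdd]
  · simp only [flp, Fin.append_right, Fin.val_natAdd]
    rw [if_neg (by omega)]

theorem flp_append_right (x : Fin n → Bool) (S : Fin m → Bool) (w : ℕ) :
    flp (Fin.append x S) (n + w) = Fin.append x (flp S w) := by
  funext j
  refine Fin.addCases (fun j => ?_) (fun j => ?_) j
  · simp only [flp, Fin.append_left, Fin.val_castAdd]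
    rw [if_neg (by have := j.2; omega)]
  · simp only [flp, Fin.append_right, Fin.val_natAdd, Nat.add_left_cancel_iff]

theorem sum_append (f : (Fin (n + m) → Bool) → ℝ) :
    ∑ y, f y = ∑ S : Fin m → Bool, ∑ x : Fin n → Bool, f (Fin.append x S) := by
  rw [← Equiv.sum_comp (Fin.appendEquiv n m) f, Fintype.sum_prod_type, Finset.sum_comm]
  rfl

theorem dot_slice (φ ψ : RV (n + m)) : φ ⬝ᵥ ψ = ∑ S, slice φ S ⬝ᵥ slice ψ S := by
  exact sum_append fun y => φ y * ψ y

theorem nsq_slice (ψ : RV (n + m)) : nsq ψ = ∑ S, nsq (slice ψ S) := dot_slice ψ ψ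

theorem exists_glue (f : (Fin m → Bool) → RV n) : ∃ ψ : RV (n + m), ∀ S, slice ψ S = f S := by
  refine ⟨fun y => f (fun j => y (Fin.natAdd n j)) fun i => y (Fin.castAdd m i), fun S => ?_⟩
  funext x
  simp only [slice, Fin.append_left, Fin.append_right]

theorem slice_pauli {L : List Letter} (h : ∀ p ∈ L, p.1 < n) (ψ : RV (n + m)) (S : Fin m → Bool) :
    slice (pauli L ψ) S = pauli L (slice ψ S) := by
  induction L with
  | nil => rfl
  | cons p L ih =>
    have h1 := h p List.mem_cons_self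
    rw [pauli_cons, pauli_cons, Module.End.mul_apply, Module.End.mul_apply,
      ← ih fun q hq => h q (List.mem_cons_of_mem _ hq)]
    funext x
    unfold opL
    split_ifs
    · simp only [slice, opX_apply, flp_append_left x S h1]
    · simp only [slice, opZ, diagOp_apply, bit_append_left x S h1]

theorem slice_opX_right (w : ℕ) (ψ : RV (n + m)) (S : Fin m → Bool) :
    slice (opX (n + w) ψ) S = slice ψ (flp S w) := by
  funext x
  simp only [slice, opX_apply, flp_append_right]

theorem slice_opZ_right (w : ℕ) (ψ : RV (n + m)) (S : Fin m → Bool) :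
    slice (opZ (n + w) ψ) S = sgnB (bit S w) • slice ψ S := by
  funext x
  simp only [slice, opZ, diagOp_apply, bit_append_right, Pi.smul_apply, smul_eq_mul]

theorem slice_opP_right (w : ℕ) (b : Bool) (ψ : RV (n + m)) (S : Fin m → Bool) :
    slice (opP (n + w) b ψ) S = if bit S w = b then slice ψ S else 0 := by
  funext x
  simp only [slice, opP, diagOp_apply, bit_append_right]
  split_ifs <;> simp [slice]

theorem slice_opP_left {i : ℕ} (h : i < n) (b : Bool) (ψ : RV (n + m)) (S : Fin m → Bool) :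
    slice (opP i b ψ) S = opP i b (slice ψ S) := by
  funext x
  simp only [slice, opP, diagOp_apply, bit_append_left x S h]

theorem slice_rgate (r : ℝ) {g : RG} (h : WFG n g) (ψ : RV (n + m)) (S : Fin m → Bool) :
    slice (rgate r g ψ) S = rgate r g (slice ψ S) := by
  obtain ⟨h1, h2, h3, -⟩ := h
  funext x
  simp only [slice, Pauli_rgate_apply, bit_append_left x S h1, bit_append_left x S h2,
    bit_append_left x S h3, flp_append_left x S h3]

end Crest.Agent.R338
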