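/-
R338/Compile: the real circuit simulates the verifier
Skeleton by helper15 (row 338); keep the statements unchanged, add any helper lemmas you like.
-/
import Crest.Agent.R338.Pauli

set_option autoImplicit false
set_option linter.unusedSectionVars false
set_option linter.unusedVariables false
set_option linter.unusedSimpArgs false

noncomputable section

namespace Crest.Agent.R338

open Crest.Quantum.GateCircuit Crest.Quantum.QMA
open scoped Matrix

/-- The real state of a complex state: rebit `N` (`false` = real part), wires `N + 1`, `N + 2` true,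
ancillas false. -/
def emb {N : ℕ} (s : ℕ) (ψ : QVec N) : RV (N + 3 + s) := fun x =>
  if bit x (N + 1) = true ∧ bit x (N + 2) = true ∧ ∀ l < s, bit x (N + 3 + l) = false then
    (if bit x N = true then (ψ fun i => bit x i).im else (ψ fun i => bit x i).re)
  else 0

/-- The action of a Toffoli gate on the strings. -/
def compileTof {n : ℕ} (g : RG) (x : Fin n → Bool) : Fin n → Bool :=
  if bit x g.1 = true ∧ bit x g.2.1 = true then flp x g.2.2.1 else x

/-- The forward action of a list of Toffoli gates on the strings. -/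
def compileE {n : ℕ} (gs : List RG) (x : Fin n → Bool) : Fin n → Bool :=
  gs.foldl (fun y g => compileTof g y) x

theorem compile_rrun_nil {n : ℕ} (ψ : RV n) : rrun [] ψ = ψ := rfl

theorem compile_rrun_cons {n : ℕ} (g : RG) (gs : List RG) (ψ : RV n) :
    rrun (g :: gs) ψ = rrun gs (rgate r0 g ψ) := rfl

theorem compile_rgate_apply {n : ℕ} (r : ℝ) (g : RG) (ψ : RV n) (x : Fin n → Bool) :
    rgate r g ψ x = if bit x g.1 = true ∧ bit x g.2.1 = true then
      (cs r g.2.2.2).1 * (sgnB (bit x g.2.2.1) * ψ x) + (cs r g.2.2.2).2 * ψ (flp x g.2.2.1)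
      else ψ x := rfl

theorem compile_rgate_tof {n : ℕ} {g : RG} (hg : g.2.2.2 = 1) (ψ : RV n) (x : Fin n → Bool) :
    rgate r0 g ψ x = ψ (compileTof g x) := by
  rw [compile_rgate_apply, compileTof, hg]
  split_ifs <;> simp [cs]

theorem compileE_nil {n : ℕ} (x : Fin n → Bool) : compileE [] x = x := rfl

theorem compileE_cons {n : ℕ} (g : RG) (gs : List RG) (x : Fin n → Bool) :
    compileE (g :: gs) x = compileE gs (compileTof g x) := rfl

theorem compileE_append {n : ℕ} (gs gs' : List RG) (x : Fin n → Bool) :
    compileE (gs ++ gs') x = compileE gs' (compileE gs x) := by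
  simp [compileE, List.foldl_append]

theorem compile_rrun_tof {n : ℕ} (gs : List RG) (h : ∀ g ∈ gs, g.2.2.2 = 1) (ψ : RV n)
    (x : Fin n → Bool) : rrun gs ψ x = ψ (compileE gs.reverse x) := by
  induction gs generalizing ψ with
  | nil => rfl
  | cons g gs ih =>
    rw [compile_rrun_cons, ih (fun g' hg' => h g' (List.mem_cons_of_mem _ hg')),
      compile_rgate_tof (h g List.mem_cons_self), List.reverse_cons, compileE_append]
    rfl

theorem compileTof_tof {n : ℕ} {g : RG} (h1 : g.2.2.1 ≠ g.1) (h2 : g.2.2.1 ≠ g.2.1)
    (x : Fin n → Bool) : compileTof g (compileTof g x) = x := by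
  by_cases h : bit x g.1 = true ∧ bit x g.2.1 = true
  · have e : compileTof g x = flp x g.2.2.1 := by rw [compileTof, if_pos h]
    rw [e, compileTof, bit_flp_ne _ h1, bit_flp_ne _ h2, if_pos h, flp_flp]
  · have e : compileTof g x = x := by rw [compileTof, if_neg h]
    rw [e, e]

theorem compileE_reverse {n : ℕ} (gs : List RG)
    (h : ∀ g ∈ gs, g.2.2.1 ≠ g.1 ∧ g.2.2.1 ≠ g.2.1) (x : Fin n → Bool) :
    compileE gs.reverse (compileE gs x) = x := by
  induction gs generalizing x with
  | nil => rfl
  | cons g gs ih =>
    rw [List.reverse_cons, compileE_append, compileE_cons g gs,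
      ih (fun g' hg' => h g' (List.mem_cons_of_mem _ hg')), compileE_cons, compileE_nil,
      compileTof_tof (h g List.mem_cons_self).1 (h g List.mem_cons_self).2]

theorem compileE_flp {n : ℕ} (gs : List RG) {u : ℕ} (h : ∀ g ∈ gs, u ≠ g.1 ∧ u ≠ g.2.1)
    (x : Fin n → Bool) : compileE gs (flp x u) = flp (compileE gs x) u := by
  induction gs generalizing x with
  | nil => rfl
  | cons g gs ih =>
    have hg := h g List.mem_cons_self
    rw [compileE_cons, compileE_cons, ← ih (fun g' hg' => h g' (List.mem_cons_of_mem _ hg'))]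
    congr 1
    rw [compileTof, compileTof, bit_flp_ne _ hg.1, bit_flp_ne _ hg.2]
    split_ifs
    · exact flp_comm _ _ _
    · rfl

theorem compileTof_bit {n : ℕ} {g : RG} {u : ℕ} (h : g.2.2.1 ≠ u) (x : Fin n → Bool) :
    bit (compileTof g x) u = bit x u := by
  rw [compileTof]
  split_ifs
  · exact bit_flp_ne _ h
  · rfl

theorem compileE_bit {n : ℕ} (gs : List RG) {u : ℕ} (h : ∀ g ∈ gs, g.2.2.1 ≠ u)
    (x : Fin n → Bool) : bit (compileE gs x) u = bit x u := by
  induction gs generalizing x with
  | nil => rfl
  | cons g gs ih =>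
    rw [compileE_cons, ih (fun g' hg' => h g' (List.mem_cons_of_mem _ hg')),
      compileTof_bit (h g List.mem_cons_self)]

theorem compile_top {n : ℕ} (N : ℕ) (l : List ℕ) (k : ℕ) (hl : ∀ c ∈ l, c < N)
    (hn : N + 3 + k + l.length ≤ n) (x : Fin n → Bool)
    (hx : ∀ j, k ≤ j → j < k + l.length → bit x (N + 3 + j) = false) :
    bit (compileE ((l.zipIdx k).map fun p => ((N + 2 + p.2, p.1, N + 3 + p.2, 1) : RG)) x)
      (N + 2 + k + l.length) = true ↔ bit x (N + 2 + k) = true ∧ ∀ c ∈ l, bit x c = true := by
  induction l generalizing k x with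
  | nil => simp [compileE_nil]
  | cons c l ih =>
    have hc := hl c List.mem_cons_self
    simp only [List.length_cons] at hn hx
    rw [List.zipIdx_cons, List.map_cons, compileE_cons, List.length_cons,
      show N + 2 + k + (l.length + 1) = N + 2 + (k + 1) + l.length by omega,
      ih (k + 1) (fun c' hc' => hl c' (List.mem_cons_of_mem _ hc')) (by omega)]
    · have h0 : bit x (N + 3 + k) = false := hx k le_rfl (by omega)
      have e1 : bit (compileTof ((N + 2 + k, c, N + 3 + k, 1) : RG) x) (N + 2 + (k + 1)) = true ↔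
          bit x (N + 2 + k) = true ∧ bit x c = true := by
        rw [show N + 2 + (k + 1) = N + 3 + k by omega, compileTof]
        split_ifs with h
        · simp only at h ⊢
          rw [bit_flp_self _ (by omega), h0]
          simpa using h
        · simp only at h ⊢
          rw [h0]
          simpa using h
      have e2 : ∀ c' ∈ l, bit (compileTof ((N + 2 + k, c, N + 3 + k, 1) : RG) x) c' = bit x c' :=
        fun c' hc' => compileTof_bit (by
          have := hl c' (List.mem_cons_of_mem _ hc')
          simp only; omega) x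
      simp only [e1, List.forall_mem_cons]
      constructor
      · rintro ⟨⟨h1, h2⟩, h3⟩
        exact ⟨h1, h2, fun c' hc' => by rw [← e2 c' hc']; exact h3 c' hc'⟩
      · rintro ⟨h1, h2, h3⟩
        exact ⟨⟨h1, h2⟩, fun c' hc' => by rw [e2 c' hc']; exact h3 c' hc'⟩
    · intro j hj hj'
      rw [compileTof_bit (by simp only; omega)]
      exact hx j (by omega) (by omega)

theorem compile_mem_ladder {N : ℕ} {l : List ℕ} {g : RG} (hg : g ∈ ladder N l) :
    ∃ c ∈ l, ∃ j < l.length, g = (N + 2 + j, c, N + 3 + j, 1) := by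
  rw [ladder, List.mem_map] at hg
  obtain ⟨⟨c, j⟩, hp, rfl⟩ := hg
  rw [List.mem_zipIdx_iff_getElem?] at hp
  simp only at hp
  obtain ⟨hj, rfl⟩ := List.getElem?_eq_some_iff.1 hp
  exact ⟨_, List.getElem_mem hj, j, hj, rfl⟩

/-- The strings in the support of `emb`. -/
def compileGood {n : ℕ} (N s : ℕ) (x : Fin n → Bool) : Prop :=
  bit x (N + 1) = true ∧ bit x (N + 2) = true ∧ ∀ l < s, bit x (N + 3 + l) = false

theorem compileGood_flp {n N s u : ℕ} (hu : u ≤ N) (x : Fin n → Bool) :
    compileGood N s (flp x u) ↔ compileGood N s x := by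
  unfold compileGood
  rw [bit_flp_ne _ (by omega), bit_flp_ne _ (by omega)]
  refine and_congr_right fun _ => and_congr_right fun _ => forall_congr' fun l => ?_
  rw [bit_flp_ne _ (by omega)]

theorem compile_emb_bad {N s : ℕ} (ψ : QVec N) {x : Fin (N + 3 + s) → Bool}
    (h : ¬ compileGood N s x) : emb s ψ x = 0 := if_neg h

theorem compile_emb_good {N s : ℕ} (ψ : QVec N) {x : Fin (N + 3 + s) → Bool}
    (h : compileGood N s x) : emb s ψ x =
      if bit x N = true then (ψ fun i => bit x i).im else (ψ fun i => bit x i).re := if_pos h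

theorem compile_top_good {N s : ℕ} {l : List ℕ} (hl : ∀ c ∈ l, c < N) (hs : l.length ≤ s)
    {x : Fin (N + 3 + s) → Bool} (h : compileGood N s x) :
    bit (compileE (ladder N l) x) (N + 2 + l.length) = true ↔ ∀ c ∈ l, bit x c = true := by
  have := compile_top N l 0 hl (by omega : N + 3 + 0 + l.length ≤ N + 3 + s) x
    (fun j _ hj => h.2.2 j (by omega))
  simp only [Nat.add_zero] at this
  rw [ladder, this]
  simp [h.2.1]

theorem compile_gate_E {n N : ℕ} {l : List ℕ} {u : ℕ} (top θ : ℕ)
    (hu : u ≤ N) (hul : u ∉ l) (χ : RV n) (x : Fin n → Bool) :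
    rgate r0 (top, N + 1, u, θ) χ (compileE (ladder N l) x) =
      if bit (compileE (ladder N l) x) top = true ∧ bit x (N + 1) = true then
        (cs r0 θ).1 * (sgnB (bit x u) * χ (compileE (ladder N l) x)) +
          (cs r0 θ).2 * χ (compileE (ladder N l) (flp x u))
      else χ (compileE (ladder N l) x) := by
  have h1 : ∀ v ≤ N + 1, bit (compileE (ladder N l) x) v = bit x v := fun v hv =>
    compileE_bit _ (fun g hg => by
      obtain ⟨c, -, j, -, rfl⟩ := compile_mem_ladder hg
      simp only; omega) x
  have h2 : compileE (ladder N l) (flp x u) = flp (compileE (ladder N l) x) u :=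
    compileE_flp _ (fun g hg => by
      obtain ⟨c, hc, j, -, rfl⟩ := compile_mem_ladder hg
      refine ⟨by simp only; omega, ?_⟩
      rintro rfl
      exact hul hc) x
  rw [compile_rgate_apply, h2]
  simp only [h1 _ le_rfl, h1 u (by omega)]

theorem compile_sandwich {n N : ℕ} (l : List ℕ) (core : List RG) (φ : RV n) (x : Fin n → Bool) :
    rrun (ladder N l ++ core ++ (ladder N l).reverse) φ x =
      rrun core (rrun (ladder N l) φ) (compileE (ladder N l) x) := by
  rw [rrun_append, rrun_append, compile_rrun_tof, List.reverse_reverse]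
  intro g hg
  obtain ⟨c, -, j, -, rfl⟩ := compile_mem_ladder (List.mem_reverse.1 hg)
  rfl

theorem compile_ladder_E {n N : ℕ} {l : List ℕ} (hl : ∀ c ∈ l, c < N) (φ : RV n)
    (x : Fin n → Bool) : rrun (ladder N l) φ (compileE (ladder N l) x) = φ x := by
  rw [compile_rrun_tof, compileE_reverse]
  · intro g hg
    obtain ⟨c, hc, j, -, rfl⟩ := compile_mem_ladder hg
    have := hl c hc
    exact ⟨by simp only; omega, by simp only; omega⟩
  · intro g hg
    obtain ⟨c, -, j, -, rfl⟩ := compile_mem_ladder hg
    rfl

theorem compile_res_flp {n N : ℕ} (hn : N ≤ n) (x : Fin n → Bool) (t : Fin N) :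
    (fun i : Fin N => bit (flp x t) i) = Function.update (fun i : Fin N => bit x i) t (!bit x t) := by
  funext i
  by_cases h : i = t
  · subst h
    rw [Function.update_self, bit_flp_self _ (by have := i.2; omega)]
  · rw [Function.update_of_ne h, bit_flp_ne _ (fun e => h (Fin.ext e.symm))]

theorem compile_res_flp_N {n N : ℕ} (x : Fin n → Bool) :
    (fun i : Fin N => bit (flp x N) i) = fun i : Fin N => bit x i := by
  funext i
  exact bit_flp_ne _ (by have := i.2; omega)

/-- One reflection on a register wire. -/
theorem compile_one {N s : ℕ} (l : List (Fin N)) (t : Fin N) (ht : t ∉ l)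
    (hs : l.length + 1 ≤ s) (θ : ℕ) (M : Matrix Bool Bool ℂ)
    (hM : ∀ a, M a a = (((cs r0 θ).1 * sgnB a : ℝ) : ℂ) ∧ M a (!a) = (((cs r0 θ).2 : ℝ) : ℂ))
    (ψ : QVec N) :
    rrun (ladder N (l.map Fin.val) ++ [(N + 2 + (l.map Fin.val).length, N + 1, (t : ℕ), θ)] ++
      (ladder N (l.map Fin.val)).reverse) (emb s ψ) =
      emb s (fun σ => if ∀ c ∈ l, σ c = true then ∑ b : Bool, M (σ t) b * ψ (Function.update σ t b)
        else ψ σ) := by
  funext x
  have hl : ∀ c ∈ l.map Fin.val, c < N := by
    intro c hc
    obtain ⟨c, -, rfl⟩ := List.mem_map.1 hc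
    exact c.2
  have htl : (t : ℕ) ∉ l.map Fin.val := by
    intro hc
    obtain ⟨c, hc, e⟩ := List.mem_map.1 hc
    exact ht (Fin.ext e ▸ hc)
  rw [compile_sandwich, compile_rrun_cons, compile_rrun_nil, compile_gate_E _ _ t.2.le htl,
    compile_ladder_E hl, compile_ladder_E hl]
  by_cases hx : compileGood N s x
  · have hx' := (compileGood_flp t.2.le x).2 hx
    simp only [compile_top_good hl (by rw [List.length_map]; omega) hx]
    rw [compile_emb_good _ hx,
      compile_emb_good _ hx, compile_emb_good _ hx', compile_res_flp (by omega),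
      bit_flp_ne _ t.2.ne]
    simp only [hx.1, and_true, List.forall_mem_map]
    by_cases hc : ∀ c ∈ l, bit x c = true
    · rw [if_pos hc, if_pos hc]
      have key : ∑ b : Bool, M (bit x t) b * ψ (Function.update (fun i : Fin N => bit x i) t b) =
          (((cs r0 θ).1 * sgnB (bit x t) : ℝ) : ℂ) * ψ (fun i : Fin N => bit x i) +
          (((cs r0 θ).2 : ℝ) : ℂ) * ψ (Function.update (fun i : Fin N => bit x i) t (!bit x t)) := by
        have e : Function.update (fun i : Fin N => bit x i) t (bit x t) = fun i : Fin N => bit x i :=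
          Function.update_eq_self t (fun i : Fin N => bit x i)
        rw [← (hM (bit x t)).1, ← (hM (bit x t)).2, Fintype.sum_bool]
        conv_rhs => rw [← e]
        cases bit x t <;> simp [add_comm]
      rw [key]
      split_ifs
      · simp only [Complex.add_im, Complex.im_ofReal_mul]; ring
      · simp only [Complex.add_re, Complex.re_ofReal_mul]; ring
    · rw [if_neg hc, if_neg hc]
  · have hx' := fun h => hx ((compileGood_flp t.2.le x).1 h)
    rw [compile_emb_bad _ hx, compile_emb_bad _ hx, compile_emb_bad _ hx']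
    simp

/-- A phase gate. -/
theorem compile_phase {N s : ℕ} (l : List (Fin N)) (t : Fin N)
    (hs : l.length + 1 ≤ s) (θ : ℕ) (M : Matrix Bool Bool ℂ)
    (hM : M = Matrix.of fun a b => if a = b then
      (if a = true then (((cs r0 θ).1 : ℝ) : ℂ) + (((cs r0 θ).2 : ℝ) : ℂ) * Complex.I else 1) else 0)
    (ψ : QVec N) :
    rrun (ladder N ((t : ℕ) :: l.map Fin.val) ++
      [(N + 2 + ((t : ℕ) :: l.map Fin.val).length, N + 1, N, 0),
        (N + 2 + ((t : ℕ) :: l.map Fin.val).length, N + 1, N, θ)] ++
      (ladder N ((t : ℕ) :: l.map Fin.val)).reverse) (emb s ψ) =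
      emb s (fun σ => if ∀ c ∈ l, σ c = true then ∑ b : Bool, M (σ t) b * ψ (Function.update σ t b)
        else ψ σ) := by
  funext x
  have hl : ∀ c ∈ (t : ℕ) :: l.map Fin.val, c < N := by
    intro c hc
    rcases List.mem_cons.1 hc with rfl | hc
    · exact t.2
    · obtain ⟨c, -, rfl⟩ := List.mem_map.1 hc
      exact c.2
  have hN : N ∉ (t : ℕ) :: l.map Fin.val := fun h => lt_irrefl _ (hl N h)
  have hlen : ((t : ℕ) :: l.map Fin.val).length ≤ s := by
    rw [List.length_cons, List.length_map]; omega
  rw [compile_sandwich, compile_rrun_cons, compile_rrun_cons, compile_rrun_nil,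
    compile_gate_E _ _ le_rfl hN, compile_gate_E _ _ le_rfl hN, compile_gate_E _ _ le_rfl hN]
  simp only [compile_ladder_E hl]
  by_cases hx : compileGood N s x
  · have hx' := (compileGood_flp le_rfl x).2 hx
    have e : Function.update (fun i : Fin N => bit x i) t (bit x t) = fun i : Fin N => bit x i :=
      Function.update_eq_self t (fun i : Fin N => bit x i)
    have hb : ∀ c : Fin N, bit (flp x N) c = bit x c := fun c => bit_flp_ne _ c.2.ne'
    simp only [compile_top_good hl hlen hx, compile_top_good hl hlen hx']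
    rw [flp_flp, compile_emb_good _ hx,
      compile_emb_good _ hx, compile_emb_good _ hx', compile_res_flp_N,
      bit_flp_self _ (by omega : N < N + 3 + s)]
    simp only [hx.1, hx'.1, and_true, List.forall_mem_cons, List.forall_mem_map, hb]
    by_cases hc : ∀ c ∈ l, bit x c = true
    · have key : ∑ b : Bool, M (bit x t) b * ψ (Function.update (fun i : Fin N => bit x i) t b) =
          (if bit x t = true then (((cs r0 θ).1 : ℝ) : ℂ) + (((cs r0 θ).2 : ℝ) : ℂ) * Complex.I
            else 1) * ψ (fun i : Fin N => bit x i) := by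
        rw [hM, Fintype.sum_bool]
        conv_rhs => rw [← e]
        cases bit x t <;> simp
      rw [if_pos hc, key]
      have hc' : (∀ c ∈ l, bit x c = true) = True := eq_true hc
      simp only [hc', and_true]
      have c0 : cs r0 0 = (1, 0) := by simp [cs]
      rw [c0]
      cases bit x t <;> cases bit x N <;> simp [sgnB] <;> ring
    · rw [if_neg hc]
      have hc' : (∀ c ∈ l, bit x c = true) = False := eq_false hc
      simp only [hc', and_false, if_false]
  · have hx' := fun h => hx ((compileGood_flp le_rfl x).1 h)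
    rw [flp_flp, compile_emb_bad _ hx, compile_emb_bad _ hx, compile_emb_bad _ hx']
    simp

theorem compile_sqrt : Real.sqrt 2 / 2 = r0 := by
  have h : Real.sqrt 2 * Real.sqrt 2 = 2 := Real.mul_self_sqrt (by norm_num)
  have h0 : Real.sqrt 2 ≠ 0 := by positivity
  rw [r0]
  field_simp
  linarith

theorem compile_exp :
    Complex.exp (Real.pi / 4 * Complex.I) = ((r0 : ℝ) : ℂ) + ((r0 : ℝ) : ℂ) * Complex.I := by
  rw [Complex.exp_mul_I, show ((Real.pi : ℂ) / 4) = ((Real.pi / 4 : ℝ) : ℂ) by push_cast; ring,
    ← Complex.ofReal_cos, ← Complex.ofReal_sin, Real.cos_pi_div_four, Real.sin_pi_div_four,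
    compile_sqrt]

theorem compile_exp_neg :
    Complex.exp (-(Real.pi / 4) * Complex.I) = ((r0 : ℝ) : ℂ) + ((-r0 : ℝ) : ℂ) * Complex.I := by
  rw [Complex.exp_mul_I, Complex.cos_neg, Complex.sin_neg,
    show ((Real.pi : ℂ) / 4) = ((Real.pi / 4 : ℝ) : ℂ) by push_cast; ring,
    ← Complex.ofReal_cos, ← Complex.ofReal_sin, Real.cos_pi_div_four, Real.sin_pi_div_four,
    compile_sqrt]
  push_cast; ring

/-- Recipe.  A Toffoli gate `(c₁, c₂, t, 1)` acts by `ψ ↦ ψ ∘ e` for the involution `e` of the strings
that flips `t` when both controls are true.  So `rrun (ladder N l) ψ = ψ ∘ E⁻¹`,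
`rrun (ladder N l).reverse ψ = ψ ∘ E` for the composite permutation `E` of the strings; `E` changes
only ancilla wires `N + 3 + j`, `j < l.length`, commutes with flipping a wire that is neither an
ancilla, nor `N + 2`, nor in `l`, and on a string with wire `N + 2` true and ancillas false the bit
of `E x` on the wire `N + 2 + l.length` is the conjunction of the bits on `l` (induction on `l`,
generalising the offset of `zipIdx`).  Then compute the middle part for the six primitives
(`Refl θ ∘ Z` is the rotation by `θ` of `(re, im)`; `exp (π/4 I) = r0 + r0 I`). -/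
theorem rrun_compG {N s : ℕ} (p : Prim) (l : List (Fin N)) (t : Fin N) (ht : t ∉ l)
    (hs : l.length + 1 ≤ s) (ψ : QVec N) :
    rrun (compG N (rawOf (Gate.ctrl p l t : Gate N 0))) (emb s ψ) =
      emb s ((Gate.ctrl p l t : Gate N 0).apply (fun _ => false) ψ) := by
  cases p
  · exact compile_one l t ht hs 1 Prim.x.mat (fun a => by cases a <;> simp [Prim.mat, cs]) ψ
  · exact compile_one l t ht hs 3 Prim.h.mat
      (fun a => by cases a <;> simp [Prim.mat, cs, sgnB, r0]) ψ
  · exact compile_phase l t hs 1 Prim.s.mat (by simp [Prim.mat, cs]) ψ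
  · exact compile_phase l t hs 2 Prim.sdg.mat (by simp [Prim.mat, cs]) ψ
  · exact compile_phase l t hs 3 Prim.t.mat (by rw [Prim.mat, compile_exp]; simp [cs]) ψ
  · exact compile_phase l t hs 4 Prim.tdg.mat (by rw [Prim.mat, compile_exp_neg]; simp [cs]) ψ

theorem rrun_compGates {N s : ℕ} (gs : List (Gate N 0)) (h : ∀ g ∈ gs, IsCtrlGate g)
    (hs : ∀ g ∈ gs, (rawOf g).2.1.length + 1 ≤ s) (ψ : QVec N) :
    rrun (compGates N (gs.map rawOf)) (emb s ψ) = emb s (runGates (fun _ => false) gs ψ) := by
  induction gs generalizing ψ with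
  | nil => rfl
  | cons g gs ih =>
    have hg := h g List.mem_cons_self
    have hsg := hs g List.mem_cons_self
    rw [List.map_cons, compGates, List.flatMap_cons, rrun_append]
    cases g with
    | oracle q t => exact hg.elim
    | ctrl p l t =>
      rw [rrun_compG p l t hg (by simpa [rawOf] using hsg)]
      exact ih (fun g' hg' => h g' (List.mem_cons_of_mem _ hg'))
        (fun g' hg' => hs g' (List.mem_cons_of_mem _ hg')) _

theorem compile_ctl_length (g : Raw) : (ctl g).length ≤ g.2.1.length + 1 := by
  unfold ctl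
  split_ifs <;> simp

theorem compile_compG_wf {N s : ℕ} {g : Raw} (h1 : ∀ c ∈ g.2.1, c < N) (h2 : g.2.2 < N)
    (hs : g.2.1.length + 1 ≤ s) : ∀ e ∈ compG N g, WFG (N + 3 + s) e := by
  have hlen := compile_ctl_length g
  have hl : ∀ c ∈ ctl g, c < N := by
    intro c hc
    unfold ctl at hc
    split_ifs at hc
    · exact h1 c hc
    · rcases List.mem_cons.1 hc with rfl | hc
      · exact h2
      · exact h1 c hc
  have hlad : ∀ e ∈ ladder N (ctl g), WFG (N + 3 + s) e := by
    intro e he
    obtain ⟨c, hc, j, hj, rfl⟩ := compile_mem_ladder he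
    have := hl c hc
    unfold WFG
    simp only
    omega
  intro e he
  rw [compG, List.mem_append, List.mem_append, List.mem_reverse] at he
  rcases he with (he | he) | he
  · exact hlad e he
  · unfold coreG at he
    split_ifs at he <;> simp only [List.mem_cons, List.not_mem_nil, or_false] at he
    · subst he; unfold WFG; simp only; omega
    · subst he; unfold WFG; simp only; omega
    · rcases he with rfl | rfl <;> unfold WFG <;> simp only <;> omega
  · exact hlad e he

theorem comp_wf {s : ℕ} {V : VCirc} (hV : V.WellFormed) (hs : Fits s V) :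
    WFC (V.N + 3 + s) (compGates V.N (V.gates.map rawOf)) (compInit s V.N V.w) V.out := by
  refine ⟨?_, ?_, by have := V.out.2; omega⟩
  · intro e he
    rw [compGates, List.mem_flatMap] at he
    obtain ⟨g, hg, he⟩ := he
    obtain ⟨g, hg', rfl⟩ := List.mem_map.1 hg
    have hc := hV.2 g hg'
    have hsg := hs.ctrl g hg'
    cases g with
    | oracle q t => exact hc.elim
    | ctrl p l t =>
      refine compile_compG_wf ?_ t.2 hsg e he
      intro c hc
      obtain ⟨c, -, rfl⟩ := List.mem_map.1 hc
      exact c.2
  · intro p hp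
    simp only [compInit, List.mem_append, List.mem_map, List.mem_filter, List.mem_range,
      List.mem_cons, List.not_mem_nil, or_false, decide_eq_true_eq] at hp
    rcases hp with (⟨i, ⟨-, -, hi⟩, rfl⟩ | rfl | rfl) | ⟨l, hl, rfl⟩ <;> simp only <;> omega

theorem compile_length_compG (N : ℕ) (g : Raw) :
    (compG N g).length ≤ 2 * (g.2.1.length + 1) + 2 := by
  have h1 := compile_ctl_length g
  have h2 : (ladder N (ctl g)).length = (ctl g).length := by simp [ladder]
  have h3 : (coreG N (N + 2 + (ctl g).length) g).length ≤ 2 := by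
    unfold coreG
    split_ifs <;> simp
  rw [compG, List.length_append, List.length_append, List.length_reverse]
  omega

theorem compile_length_compGates {s : ℕ} (N : ℕ) (l : List Raw)
    (h : ∀ g ∈ l, g.2.1.length + 1 ≤ s) : (compGates N l).length ≤ l.length * (2 * s + 2) := by
  induction l with
  | nil => simp [compGates]
  | cons g l ih =>
    have h1 := compile_length_compG N g
    have h2 := h g List.mem_cons_self
    have h3 := ih fun g' hg' => h g' (List.mem_cons_of_mem _ hg')
    rw [compGates] at h3
    rw [compGates, List.flatMap_cons, List.length_append, List.length_cons, Nat.succ_mul]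
    omega

theorem length_compGates {s : ℕ} {V : VCirc} (hs : Fits s V) :
    (compGates V.N (V.gates.map rawOf)).length ≤ s * (2 * s + 2) := by
  refine (compile_length_compGates (s := s) _ _ ?_).trans ?_
  · intro g hg
    obtain ⟨g, hg', rfl⟩ := List.mem_map.1 hg
    exact hs.ctrl g hg'
  · rw [List.length_map]
    exact Nat.mul_le_mul_right _ hs.gates

theorem length_compInit (s N w : ℕ) : (compInit s N w).length ≤ 2 * s + 2 := by
  have h := List.length_filter_le (fun i => decide (w ≤ i ∧ i < N)) (List.range s)
  simp only [compInit, List.length_append, List.length_map, List.length_range, List.length_cons,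
    List.length_nil] at h ⊢
  omega

end Crest.Agent.R338
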