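/-
R338/CompileB: completeness and soundness of the real circuit
Skeleton by helper15 (row 338); keep the statements unchanged, add any helper lemmas you like.
-/
import Crest.Agent.R338.Compile

set_option autoImplicit false
set_option linter.unusedSectionVars false
set_option linter.unusedVariables false
set_option linter.unusedSimpArgs false

noncomputable section

namespace Crest.Agent.R338

open Crest.Quantum.GateCircuit Crest.Quantum.QMA
open scoped Matrix

/-- The string of the real circuit with data `σ`, rebit `b`. -/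
def compileBExt {N : ℕ} (s : ℕ) (σ : Fin N → Bool) (b : Bool) : Fin (N + 3 + s) → Bool :=
  fun j => if h : (j : ℕ) < N then σ ⟨j, h⟩ else if (j : ℕ) = N then b else decide ((j : ℕ) ≤ N + 2)

theorem compileB_bit_lt {N s : ℕ} (σ : Fin N → Bool) (b : Bool) (i : Fin N) :
    bit (compileBExt s σ b) i = σ i := by
  have h : (i : ℕ) < N + 3 + s := by have := i.2; omega
  simp [bit, h, compileBExt, i.2]

theorem compileB_bit_fun {N s : ℕ} (σ : Fin N → Bool) (b : Bool) :
    (fun i : Fin N => bit (compileBExt s σ b) i) = σ := funext fun i => compileB_bit_lt σ b i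

theorem compileB_bit_N {N s : ℕ} (σ : Fin N → Bool) (b : Bool) :
    bit (compileBExt s σ b) N = b := by
  have h : N < N + 3 + s := by omega
  simp [bit, h, compileBExt]

theorem compileB_bit_one {N s : ℕ} (σ : Fin N → Bool) (b : Bool) :
    bit (compileBExt s σ b) (N + 1) = true := by
  have h : N + 1 < N + 3 + s := by omega
  simp [bit, h, compileBExt]

theorem compileB_bit_two {N s : ℕ} (σ : Fin N → Bool) (b : Bool) :
    bit (compileBExt s σ b) (N + 2) = true := by
  have h : N + 2 < N + 3 + s := by omega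
  simp [bit, h, compileBExt]

theorem compileB_bit_anc {N s : ℕ} (σ : Fin N → Bool) (b : Bool) (l : ℕ) :
    bit (compileBExt s σ b) (N + 3 + l) = false := by
  unfold bit
  split_ifs with h
  · have h1 : ¬ N + 3 + l < N := by omega
    have h2 : N + 3 + l ≠ N := by omega
    have h3 : ¬ N + 3 + l ≤ N + 2 := by omega
    simp [compileBExt, h1, h2, h3]
  · rfl

theorem compileB_eq_ext {N s : ℕ} {x : Fin (N + 3 + s) → Bool}
    (h : bit x (N + 1) = true ∧ bit x (N + 2) = true ∧ ∀ l < s, bit x (N + 3 + l) = false) :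
    compileBExt s (fun i : Fin N => bit x i) (bit x N) = x := by
  funext j
  have hj := j.2
  have hx : bit x j = x j := by simp [bit, hj]
  unfold compileBExt
  split_ifs with h1 h2
  · exact hx
  · rw [← hx, h2]
  · rw [← hx]
    by_cases h3 : (j : ℕ) = N + 1
    · rw [h3, h.1]; simp
    by_cases h4 : (j : ℕ) = N + 2
    · rw [h4, h.2.1]; simp
    have h5 : (j : ℕ) = N + 3 + (j - (N + 3)) := by omega
    have h6 : ¬ (j : ℕ) ≤ N + 2 := by omega
    rw [decide_eq_false h6, h5, h.2.2 _ (by omega)]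

theorem compileB_emb_ext {N s : ℕ} (ψ : QVec N) (σ : Fin N → Bool) (b : Bool) :
    emb s ψ (compileBExt s σ b) = if b = true then (ψ σ).im else (ψ σ).re := by
  unfold emb
  rw [if_pos ⟨compileB_bit_one σ b, compileB_bit_two σ b, fun l _ => compileB_bit_anc σ b l⟩,
    compileB_bit_fun, compileB_bit_N]

/-- Sums over the strings of the real circuit. -/
theorem sum_emb_sq {N s : ℕ} (ψ : QVec N) (P : (Fin N → Bool) → Prop) [DecidablePred P] :
    ∑ x : Fin (N + 3 + s) → Bool, (if P (fun i => bit x i) then emb s ψ x ^ 2 else 0) =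
      ∑ σ : Fin N → Bool, if P σ then ‖ψ σ‖ ^ 2 else 0 := by
  rw [← Fintype.sum_of_injective
    (fun q : (Fin N → Bool) × Bool => compileBExt s q.1 q.2) ?_
    (fun q => if P q.1 then (if q.2 = true then (ψ q.1).im else (ψ q.1).re) ^ 2 else 0) _ ?_ ?_]
  · rw [Fintype.sum_prod_type]
    refine Finset.sum_congr rfl fun σ _ => ?_
    rw [Fintype.sum_bool]
    split_ifs with h h1 h2 h2
    · simp at h2
    · rw [Complex.sq_norm, Complex.normSq_apply]; ring
    · simp at h2
    · simp at h1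
    · simp
  · rintro ⟨σ, b⟩ ⟨σ', b'⟩ h
    simp only at h
    have h1 := compileB_bit_fun (s := s) σ b
    have h2 := compileB_bit_N (s := s) σ b
    rw [h, compileB_bit_fun] at h1
    rw [h, compileB_bit_N] at h2
    rw [h1, h2]
  · intro x hx
    split_ifs with h
    · unfold emb
      rw [if_neg]
      · simp
      · intro hg
        exact hx ⟨(_, _), compileB_eq_ext hg⟩
    · rfl
  · rintro ⟨σ, b⟩
    simp only [compileB_bit_fun, compileB_emb_ext]

theorem compileB_pad_castLE {N w : ℕ} (h : w ≤ N) (τ : Fin w → Bool) :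
    (fun j => (padInput w τ : Fin N → Bool) (Fin.castLE h j)) = τ := by
  funext j
  simp [padInput]

theorem compileB_pad_eq {N w : ℕ} (h : w ≤ N) {σ : Fin N → Bool}
    (hσ : ∀ i : Fin N, w ≤ (i : ℕ) → σ i = false) :
    padInput w (fun j => σ (Fin.castLE h j)) = σ := by
  funext i
  unfold padInput
  split_ifs with h1
  · rfl
  · exact (hσ i (by omega)).symm

theorem compileB_start_pad (V : VCirc) (h : V.w ≤ V.N) (ψ : QVec V.w) (τ : Fin V.w → Bool) :
    startState V h ψ (padInput V.w τ) = ψ τ := by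
  unfold startState
  rw [if_pos, compileB_pad_castLE]
  intro i hi
  have : ¬ (i : ℕ) < V.w := by omega
  simp [padInput, this]

theorem normSq_startState (V : VCirc) (h : V.w ≤ V.N) (ψ : QVec V.w) :
    ∑ σ, ‖startState V h ψ σ‖ ^ 2 = ∑ τ, ‖ψ τ‖ ^ 2 := by
  symm
  refine Fintype.sum_of_injective (fun τ : Fin V.w → Bool => (padInput V.w τ : Fin V.N → Bool))
    ?_ _ _ ?_ ?_
  · intro τ τ' hτ
    simp only at hτ
    rw [← compileB_pad_castLE h τ, hτ, compileB_pad_castLE]
  · intro σ hσ
    unfold startState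
    rw [if_neg]
    · simp
    · intro hg
      exact hσ ⟨_, compileB_pad_eq h hg⟩
  · intro τ
    rw [compileB_start_pad]

theorem compileB_mem_init {s N w : ℕ} {p : ℕ × Bool} :
    p ∈ compInit s N w ↔ (∃ i, i < s ∧ w ≤ i ∧ i < N ∧ p = (i, false)) ∨ p = (N + 1, true) ∨
      p = (N + 2, true) ∨ ∃ l, l < s ∧ p = (N + 3 + l, false) := by
  unfold compInit
  simp only [List.mem_append, List.mem_map, List.mem_filter, List.mem_range, decide_eq_true_eq,
    List.mem_cons, List.not_mem_nil, or_false]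
  constructor
  · rintro ((⟨i, ⟨h1, h2, h3⟩, rfl⟩ | rfl | rfl) | ⟨l, hl, rfl⟩)
    · exact Or.inl ⟨i, h1, h2, h3, rfl⟩
    · exact Or.inr (Or.inl rfl)
    · exact Or.inr (Or.inr (Or.inl rfl))
    · exact Or.inr (Or.inr (Or.inr ⟨l, hl, rfl⟩))
  · rintro (⟨i, h1, h2, h3, rfl⟩ | rfl | rfl | ⟨l, hl, rfl⟩)
    · exact Or.inl (Or.inl ⟨i, ⟨h1, h2, h3⟩, rfl⟩)
    · exact Or.inl (Or.inr (Or.inl rfl))
    · exact Or.inl (Or.inr (Or.inr rfl))
    · exact Or.inr ⟨l, hl, rfl⟩

theorem validIn_emb {s : ℕ} {V : VCirc} (h : V.w ≤ V.N) (ψ : QVec V.w) :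
    ValidIn (compInit s V.N V.w) (emb s (startState V h ψ)) := by
  intro x hx p hp
  have hg : bit x (V.N + 1) = true ∧ bit x (V.N + 2) = true ∧
      ∀ l < s, bit x (V.N + 3 + l) = false := by
    by_contra hg
    exact hx (by unfold emb; rw [if_neg hg])
  have hz : ∀ i : Fin V.N, V.w ≤ (i : ℕ) → bit x i = false := by
    by_contra hz
    apply hx
    unfold emb startState
    rw [if_pos hg, if_neg hz]
    simp
  rcases compileB_mem_init.1 hp with ⟨i, h1, h2, h3, rfl⟩ | rfl | rfl | ⟨l, hl, rfl⟩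
  · exact hz ⟨i, h3⟩ h2
  · exact hg.1
  · exact hg.2.1
  · exact hg.2.2 l hl

/-- Every valid real input comes from a complex witness vector. -/
theorem exists_emb_of_validIn {s : ℕ} {V : VCirc} (h : V.w ≤ V.N) (hs : V.N ≤ s)
    {φ : RV (V.N + 3 + s)} (hφ : ValidIn (compInit s V.N V.w) φ) :
    ∃ ψ : QVec V.w, φ = emb s (startState V h ψ) := by
  refine ⟨fun τ => ⟨φ (compileBExt s (padInput V.w τ) false),
    φ (compileBExt s (padInput V.w τ) true)⟩, ?_⟩
  funext x
  by_cases hg : bit x (V.N + 1) = true ∧ bit x (V.N + 2) = true ∧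
      ∀ l < s, bit x (V.N + 3 + l) = false
  · by_cases hz : ∀ i : Fin V.N, V.w ≤ (i : ℕ) → bit x i = false
    · have h1 := compileB_eq_ext hg
      have h2 := compileB_pad_eq h (σ := fun i : Fin V.N => bit x i) hz
      conv_rhs => rw [← h1, compileB_emb_ext, ← h2, compileB_start_pad]
      simp only [h2]
      conv_lhs => rw [← h1]
      cases bit x V.N <;> simp
    · have h0 : φ x = 0 := by
        by_contra h0
        apply hz
        intro i hi
        exact hφ x h0 (i, false) (compileB_mem_init.2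
          (Or.inl ⟨i, lt_of_lt_of_le i.2 hs, hi, i.2, rfl⟩))
      unfold emb startState
      rw [h0, if_pos hg, if_neg hz]
      simp
  · have h0 : φ x = 0 := by
      by_contra h0
      apply hg
      refine ⟨hφ x h0 (_, true) (compileB_mem_init.2 (Or.inr (Or.inl rfl))),
        hφ x h0 (_, true) (compileB_mem_init.2 (Or.inr (Or.inr (Or.inl rfl)))), fun l hl => ?_⟩
      exact hφ x h0 (_, false) (compileB_mem_init.2 (Or.inr (Or.inr (Or.inr ⟨l, hl, rfl⟩))))
    unfold emb
    rw [h0, if_neg hg]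

theorem compileB_nsq_emb {s : ℕ} {V : VCirc} (h : V.w ≤ V.N) (ψ : QVec V.w) :
    nsq (emb s (startState V h ψ)) = ∑ τ, ‖ψ τ‖ ^ 2 := by
  have h1 := sum_emb_sq (s := s) (startState V h ψ) (fun _ => True)
  simp only [if_true] at h1
  rw [nsq_eq, h1, normSq_startState]

theorem compileB_rej {s : ℕ} {V : VCirc} (hV : V.WellFormed) (hs : Fits s V) (ψ : QVec V.w) :
    rej V.out (rrun (compGates V.N (V.gates.map rawOf)) (emb s (startState V hV.1 ψ))) =
      ∑ τ, ‖ψ τ‖ ^ 2 - acceptProb V hV.1 ψ := by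
  have h1 := nsq_rrun (comp_wf hV hs).gates (emb s (startState V hV.1 ψ))
  rw [compileB_nsq_emb] at h1
  rw [← h1, rrun_compGates V.gates hV.2 hs.ctrl, nsq_eq, acceptProb,
    ← sum_emb_sq (s := s) _ (fun σ => σ V.out = true), rej, ← Finset.sum_sub_distrib]
  refine Finset.sum_congr rfl fun x _ => ?_
  split_ifs <;> simp

theorem compileB_rej_smul {n : ℕ} (out : ℕ) (c : ℝ) (φ : RV n) :
    rej out (c • φ) = c ^ 2 * rej out φ := by
  unfold rej
  rw [Finset.mul_sum]
  refine Finset.sum_congr rfl fun x _ => ?_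
  split_ifs
  · simp
  · simp [mul_pow]

/-- Recipe: `rej = nsq - acc` by `nsq_rrun`, `rrun_compGates`, `sum_emb_sq`. -/
theorem comp_yes {s : ℕ} {V : VCirc} (hV : V.WellFormed) (hs : Fits s V)
    (h : ∃ ψ : QVec V.w, IsWitness ψ ∧ 2 / 3 ≤ acceptProb V hV.1 ψ) :
    RYes (V.N + 3 + s) (compGates V.N (V.gates.map rawOf)) (compInit s V.N V.w) V.out := by
  obtain ⟨ψ, hψ, hacc⟩ := h
  unfold IsWitness at hψ
  have h1 : nsq (emb s (startState V hV.1 ψ)) = 1 := by rw [compileB_nsq_emb, hψ]
  refine ⟨emb s (startState V hV.1 ψ), ?_, validIn_emb hV.1 ψ, ?_⟩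
  · intro h0
    rw [h0] at h1
    simp [nsq] at h1
  · rw [compileB_rej hV hs, h1, hψ]
    linarith

/-- Recipe: normalise a nonzero valid input (`rrun_smul`), then as in `comp_yes`. -/
theorem comp_no {s : ℕ} {V : VCirc} (hV : V.WellFormed) (hs : Fits s V)
    (h : ∀ ψ : QVec V.w, IsWitness ψ → acceptProb V hV.1 ψ ≤ 1 / 3) :
    RNo (V.N + 3 + s) (compGates V.N (V.gates.map rawOf)) (compInit s V.N V.w) V.out := by
  intro φ hφ
  by_cases h0 : φ = 0
  · have : 0 ≤ rej V.out (rrun (compGates V.N (V.gates.map rawOf)) φ) :=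
      Finset.sum_nonneg fun x _ => by split_ifs <;> positivity
    rw [h0] at this ⊢
    simpa [nsq] using this
  have hpos := nsq_pos h0
  set c : ℝ := (√(nsq φ))⁻¹ with hc
  have hc2 : c ^ 2 * nsq φ = 1 := by
    rw [hc, inv_pow, Real.sq_sqrt hpos.le, inv_mul_cancel₀ hpos.ne']
  have hv : ValidIn (compInit s V.N V.w) (c • φ) := by
    intro x hx
    apply hφ x
    intro hx0
    apply hx
    simp [hx0]
  obtain ⟨ψ, hψ⟩ := exists_emb_of_validIn hV.1 hs.wires hv
  have h1 : ∑ τ, ‖ψ τ‖ ^ 2 = 1 := by rw [← compileB_nsq_emb (s := s) hV.1, ← hψ, nsq_smul, hc2]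
  have h2 := compileB_rej hV hs ψ
  rw [← hψ, rrun_smul, compileB_rej_smul, h1] at h2
  have h3 := h ψ h1
  have h4 : rej V.out (rrun (compGates V.N (V.gates.map rawOf)) φ) =
      nsq φ * (1 - acceptProb V hV.1 ψ) := by
    rw [← h2, ← mul_assoc, mul_comm (nsq φ), hc2, one_mul]
  rw [h4]
  nlinarith

end Crest.Agent.R338
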