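/-
R338/GadAbs: the abstract parallel gadget (exact lower bound)
Skeleton by helper15 (row 338); keep the statements unchanged, add any helper lemmas you like.
-/
import Crest.Agent.R338.Pauli

set_option autoImplicit false
set_option linter.unusedSectionVars false
set_option linter.unusedVariables false
set_option linter.unusedSimpArgs false

noncomputable section

namespace Crest.Agent.R338

open scoped Matrix

variable {ι : Type} [Fintype ι] {m : ℕ}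

/-- The form of `H' + ∑ w, (D³ n_w - D² C_w n_w + D² K_w X_w)`. -/
def gForm (D : ℝ) (H' : Module.End ℝ (ι → ℝ)) (K C : Fin m → Module.End ℝ (ι → ℝ))
    (ψ : (Fin m → Bool) → ι → ℝ) : ℝ :=
  ∑ S, ψ S ⬝ᵥ H' (ψ S) + ∑ w : Fin m, ∑ S,
    ((if S w = true then D ^ 3 * nsq (ψ S) - D ^ 2 * (ψ S ⬝ᵥ C w (ψ S)) else 0) +
      D ^ 2 * (ψ S ⬝ᵥ K w (ψ (flp S w))))

/-- The effective form. -/
def gEff (D : ℝ) (H' : Module.End ℝ (ι → ℝ)) (K C : Fin m → Module.End ℝ (ι → ℝ))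
    (φ : ι → ℝ) : ℝ :=
  φ ⬝ᵥ H' φ - ∑ w : Fin m,
    (D ^ 3 * nsq (K w φ) + D ^ 2 * (K w φ ⬝ᵥ C w (K w φ))) / (D ^ 2 - 1)

theorem gadAbs_abs_le {C : Module.End ℝ (ι → ℝ)} (hC : SA C) (hC2 : C * C = 1) (η : ι → ℝ) :
    |η ⬝ᵥ C η| ≤ nsq η := by
  have := abs_dot_le_of_nsq_le (φ := η) (ψ := C η) zero_le_one (by
    rw [hC.nsq_of_mul_self hC2, one_pow, one_mul])
  rwa [one_mul] at this

theorem gadAbs_id {D : ℝ} (hD : 2 ≤ D) {C : Module.End ℝ (ι → ℝ)} (hC : SA C) (hC2 : C * C = 1)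
    (χ κ : ι → ℝ) :
    D ^ 3 * nsq (χ + (D ^ 2 - 1)⁻¹ • (D • κ + C κ)) -
        D ^ 2 * ((χ + (D ^ 2 - 1)⁻¹ • (D • κ + C κ)) ⬝ᵥ C (χ + (D ^ 2 - 1)⁻¹ • (D • κ + C κ))) =
      D ^ 3 * nsq χ - D ^ 2 * (χ ⬝ᵥ C χ) + 2 * D ^ 2 * (χ ⬝ᵥ κ) +
        (D ^ 3 * nsq κ + D ^ 2 * (κ ⬝ᵥ C κ)) / (D ^ 2 - 1) := by
  have h0 : D ^ 2 - 1 ≠ 0 := by nlinarith
  have hCC : C (C κ) = κ := by
    have := LinearMap.congr_fun hC2 κ
    simpa using this
  have e1 : κ ⬝ᵥ χ = χ ⬝ᵥ κ := dotProduct_comm _ _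
  have e2 : C κ ⬝ᵥ χ = χ ⬝ᵥ C κ := dotProduct_comm _ _
  have e3 : κ ⬝ᵥ C χ = χ ⬝ᵥ C κ := by rw [← hC, e2]
  have e4 : C κ ⬝ᵥ C χ = χ ⬝ᵥ κ := by rw [dotProduct_comm, hC, hCC]
  have e5 : C κ ⬝ᵥ κ = κ ⬝ᵥ C κ := dotProduct_comm _ _
  have e6 : C κ ⬝ᵥ C κ = κ ⬝ᵥ κ := by rw [hC, hCC]
  simp only [nsq, map_add, map_smul, add_dotProduct, dotProduct_add, smul_dotProduct,
    dotProduct_smul, smul_eq_mul, hCC, e1, e2, e3, e4, e5, e6]
  field_simp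
  ring

theorem gadAbs_nonneg {D : ℝ} (hD : 2 ≤ D) {C : Module.End ℝ (ι → ℝ)} (hC : SA C)
    (hC2 : C * C = 1) (η : ι → ℝ) :
    0 ≤ D ^ 3 * nsq η - D ^ 2 * (η ⬝ᵥ C η) ∧ 0 ≤ D ^ 3 * nsq η + D ^ 2 * (η ⬝ᵥ C η) := by
  have h1 := abs_le.mp (gadAbs_abs_le hC hC2 η)
  have h2 := nsq_nonneg η
  have h3 : 0 ≤ D ^ 2 := by positivity
  have h4 : D ^ 2 * nsq η ≤ D ^ 3 * nsq η :=
    mul_le_mul_of_nonneg_right (pow_le_pow_right₀ (by linarith) (by norm_num)) h2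
  have h5 := mul_le_mul_of_nonneg_left h1.1 h3
  have h6 := mul_le_mul_of_nonneg_left h1.2 h3
  constructor <;> linarith

theorem gadAbs_flp (S : Fin m → Bool) (w : Fin m) : flp S w w = !S w := by simp [flp]

/-- the empty set and the singletons -/
def gadAbsE (m : ℕ) : Option (Fin m) → Fin m → Bool
  | none => fun _ => false
  | some w => flp (fun _ => false) w

theorem gadAbsE_some (w j : Fin m) : gadAbsE m (some w) j = decide (j = w) := by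
  by_cases h : j = w
  · simp [gadAbsE, flp, h]
  · simp [gadAbsE, flp, h, Fin.val_inj]

theorem gadAbsE_inj : Function.Injective (gadAbsE m) := by
  rintro (_ | w) (_ | w') h
  · rfl
  · have := congrFun h w'
    rw [gadAbsE_some] at this
    simp [gadAbsE] at this
  · have := congrFun h w
    rw [gadAbsE_some] at this
    simp [gadAbsE] at this
  · have := congrFun h w
    rw [gadAbsE_some, gadAbsE_some] at this
    simpa using this

theorem gadAbsE_not {w w' : Fin m} (h : w' ≠ w) :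
    ¬ ∃ i, gadAbsE m i = flp (gadAbsE m (some w')) w := by
  have h1 : flp (gadAbsE m (some w')) w w = true := by
    rw [gadAbs_flp, gadAbsE_some]; simp [h.symm]
  have h2 : flp (gadAbsE m (some w')) w w' = true := by
    simp [flp, Fin.val_inj, h, gadAbsE_some]
  rintro ⟨_ | j, hj⟩
  · rw [← hj] at h1; simp [gadAbsE] at h1
  · rw [← hj, gadAbsE_some] at h1 h2
    simp only [decide_eq_true_eq] at h1 h2
    exact h (h2.trans h1.symm)

theorem gadAbs_sum (F : (Fin m → Bool) → ℝ) (hF : ∀ S, (¬ ∃ i, gadAbsE m i = S) → F S = 0) :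
    ∑ S, F S = F (gadAbsE m none) + ∑ w, F (gadAbsE m (some w)) := by
  rw [← Fintype.sum_option fun i => F (gadAbsE m i)]
  exact (Fintype.sum_of_injective _ gadAbsE_inj _ _ hF fun _ => rfl).symm

/-- Completing the square: with `R = (D³ + D² C) / (D⁶ - D⁴)` the inverse of `D³ - D² C ≥ 0`,
expand `⟨χ + D² R κ, (D³ - D² C)(χ + D² R κ)⟩ ≥ 0`; equality for `χ = - D² R κ`. -/
theorem gad_square {D : ℝ} (hD : 2 ≤ D) {C : Module.End ℝ (ι → ℝ)} (hC : SA C) (hC2 : C * C = 1)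
    (χ κ : ι → ℝ) :
    -((D ^ 3 * nsq κ + D ^ 2 * (κ ⬝ᵥ C κ)) / (D ^ 2 - 1)) ≤
      D ^ 3 * nsq χ - D ^ 2 * (χ ⬝ᵥ C χ) + 2 * D ^ 2 * (χ ⬝ᵥ κ) := by
  have h1 := (gadAbs_nonneg hD hC hC2 (χ + (D ^ 2 - 1)⁻¹ • (D • κ + C κ))).1
  rw [gadAbs_id hD hC hC2] at h1
  linarith

/-- Recipe: for fixed `w` pair each `S` with `S w = false` with `flp S w` (`sum_flp`), apply
`gad_square` to `χ = ψ (flp S w)`, `κ = K w (ψ S)`; for `S w = true` the term subtracted in `gEff`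
is nonnegative. -/
theorem gad_lower {D : ℝ} (hD : 2 ≤ D) {H' : Module.End ℝ (ι → ℝ)}
    {K C : Fin m → Module.End ℝ (ι → ℝ)} (hK : ∀ w, SA (K w)) (hC : ∀ w, SA (C w))
    (hC2 : ∀ w, C w * C w = 1) (ψ : (Fin m → Bool) → ι → ℝ) :
    ∑ S, gEff D H' K C (ψ S) ≤ gForm D H' K C ψ := by
  have hD1 : 0 < D ^ 2 - 1 := by nlinarith
  unfold gEff gForm
  rw [Finset.sum_sub_distrib, sub_eq_add_neg, Finset.sum_comm, ← Finset.sum_neg_distrib]
  refine add_le_add le_rfl (Finset.sum_le_sum fun w _ => ?_)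
  set E : (Fin m → Bool) → ℝ := fun S =>
    (D ^ 3 * nsq (K w (ψ S)) + D ^ 2 * (K w (ψ S) ⬝ᵥ C w (K w (ψ S)))) / (D ^ 2 - 1) with hE
  set f : (Fin m → Bool) → ℝ := fun S =>
    (if S w = true then D ^ 3 * nsq (ψ S) - D ^ 2 * (ψ S ⬝ᵥ C w (ψ S)) else 0) +
      D ^ 2 * (ψ S ⬝ᵥ K w (ψ (flp S w))) with hf
  have hE0 : ∀ S, 0 ≤ E S := fun S => div_nonneg (gadAbs_nonneg hD (hC w) (hC2 w) _).2 hD1.le
  have key : ∀ S : Fin m → Bool, S w = true →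
      -(E S + E (flp S w)) ≤ f S + f (flp S w) := fun S hS => by
    have a1 := gad_square hD (hC w) (hC2 w) (ψ S) (K w (ψ (flp S w)))
    have a2 := hE0 S
    have a3 : ψ (flp S w) ⬝ᵥ K w (ψ S) = ψ S ⬝ᵥ K w (ψ (flp S w)) := by
      rw [← hK w, dotProduct_comm]
    have a4 : ¬ flp S w w = true := by rw [gadAbs_flp, hS]; simp
    simp only [hf, if_pos hS, if_neg a4, flp_flp, a3]
    have a5 : E (flp S w) = (D ^ 3 * nsq (K w (ψ (flp S w))) +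
      D ^ 2 * (K w (ψ (flp S w)) ⬝ᵥ C w (K w (ψ (flp S w))))) / (D ^ 2 - 1) := rfl
    linarith
  have key2 : ∀ S : Fin m → Bool, -(E S + E (flp S w)) ≤ f S + f (flp S w) := fun S => by
    by_cases hS : S w = true
    · exact key S hS
    · have := key (flp S w) (by rw [gadAbs_flp]; simpa using hS)
      rw [flp_flp] at this
      linarith
  have h1 := Finset.sum_le_sum fun S (_ : S ∈ Finset.univ) => key2 S
  rw [Finset.sum_neg_distrib, Finset.sum_add_distrib, Finset.sum_add_distrib, sum_flp w E,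
    sum_flp w f] at h1
  linarith

/-- Recipe: `ψ ∅ = φ`, `ψ {w} = -(D + C w) (K w φ) / (D² - 1)`, zero for the other `S`;
`nsq (ψ {w}) ≤ (κ / (D - 1))² nsq φ` and `gForm ψ = gEff φ + ∑ w, ψ {w} ⬝ᵥ H' (ψ {w})`. -/
theorem gad_upper {D : ℝ} (hD : 2 ≤ D) {H' : Module.End ℝ (ι → ℝ)}
    {K C : Fin m → Module.End ℝ (ι → ℝ)} (hK : ∀ w, SA (K w)) (hC : ∀ w, SA (C w))
    (hC2 : ∀ w, C w * C w = 1) {κ h q a : ℝ} (hκ : ∀ w φ, nsq (K w φ) ≤ κ ^ 2 * nsq φ)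
    (hh : ∀ φ, φ ⬝ᵥ H' φ ≤ h * nsq φ) (hq : -q ≤ a) (hhq : 0 ≤ h + q) {φ : ι → ℝ} (h0 : φ ≠ 0)
    (hφ : gEff D H' K C φ ≤ a * nsq φ) :
    ∃ ψ : (Fin m → Bool) → ι → ℝ, ψ ≠ 0 ∧
      gForm D H' K C ψ ≤ (a + m * (κ / (D - 1)) ^ 2 * (h + q)) * ∑ S, nsq (ψ S) := by
  classical
  have hD1 : 0 < D ^ 2 - 1 := by nlinarith
  set χ : Fin m → ι → ℝ := fun w => -((D ^ 2 - 1)⁻¹ • (D • K w φ + C w (K w φ))) with hχ
  set ψ : (Fin m → Bool) → ι → ℝ :=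
    Function.extend (gadAbsE m) (fun i => i.elim φ χ) 0 with hψ
  have p0 : ψ (gadAbsE m none) = φ := gadAbsE_inj.extend_apply _ _ none
  have p1 : ∀ w, ψ (gadAbsE m (some w)) = χ w := fun w => gadAbsE_inj.extend_apply _ _ (some w)
  have p2 : ∀ S, (¬ ∃ i, gadAbsE m i = S) → ψ S = 0 := fun S hS =>
    Function.extend_apply' _ _ _ hS
  have hn : ∑ S, nsq (ψ S) = nsq φ + ∑ w, nsq (χ w) := by
    rw [gadAbs_sum _ fun S hS => by rw [p2 S hS]; simp [nsq], p0]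
    simp only [p1]
  have hH : ∑ S, ψ S ⬝ᵥ H' (ψ S) = φ ⬝ᵥ H' φ + ∑ w, χ w ⬝ᵥ H' (χ w) := by
    rw [gadAbs_sum _ fun S hS => by rw [p2 S hS]; simp, p0]
    simp only [p1]
  have hw : ∀ w : Fin m, ∑ S,
      ((if S w = true then D ^ 3 * nsq (ψ S) - D ^ 2 * (ψ S ⬝ᵥ C w (ψ S)) else 0) +
        D ^ 2 * (ψ S ⬝ᵥ K w (ψ (flp S w)))) =
      -((D ^ 3 * nsq (K w φ) + D ^ 2 * (K w φ ⬝ᵥ C w (K w φ))) / (D ^ 2 - 1)) := fun w => by
    rw [gadAbs_sum _ fun S hS => by rw [p2 S hS]; simp [nsq], Finset.sum_eq_single w]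
    · have a1 : flp (gadAbsE m none) w = gadAbsE m (some w) := rfl
      have a2 : flp (gadAbsE m (some w)) w = gadAbsE m none := flp_flp _ _
      have a3 : ¬ gadAbsE m none w = true := by simp [gadAbsE]
      have a4 : gadAbsE m (some w) w = true := by simp [gadAbsE_some]
      have a5 : φ ⬝ᵥ K w (χ w) = χ w ⬝ᵥ K w φ := by rw [← hK w, dotProduct_comm]
      have a6 := gadAbs_id hD (hC w) (hC2 w) (χ w) (K w φ)
      have a7 : χ w + (D ^ 2 - 1)⁻¹ • (D • K w φ + C w (K w φ)) = 0 := neg_add_cancel _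
      rw [a7] at a6
      simp only [nsq, zero_dotProduct, mul_zero, sub_zero] at a6
      rw [a1, a2, if_neg a3, if_pos a4, p0, p1, a5]
      simp only [nsq]
      linarith
    · intro w' _ hne
      have a4 : ¬ gadAbsE m (some w') w = true := by simp [gadAbsE_some, hne.symm]
      rw [if_neg a4, p2 _ (gadAbsE_not hne)]
      simp
    · simp
  have hG : gForm D H' K C ψ = gEff D H' K C φ + ∑ w, χ w ⬝ᵥ H' (χ w) := by
    unfold gForm gEff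
    rw [hH]
    simp only [hw, Finset.sum_neg_distrib]
    ring
  have hX : ∀ w, nsq (χ w) ≤ (κ / (D - 1)) ^ 2 * nsq φ := fun w => by
    have a1 : χ w = (-(D ^ 2 - 1)⁻¹) • (D • K w φ + C w (K w φ)) := (neg_smul _ _).symm
    have a2 := (abs_le.mp (gadAbs_abs_le (hC w) (hC2 w) (K w φ))).2
    have a3 : nsq (D • K w φ + C w (K w φ)) ≤ (D + 1) ^ 2 * nsq (K w φ) := by
      rw [nsq_add, nsq_smul, (hC w).nsq_of_mul_self (hC2 w), smul_dotProduct, smul_eq_mul]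
      have := mul_le_mul_of_nonneg_left a2 (by linarith : 0 ≤ D)
      linarith
    have a4 : D - 1 ≠ 0 := by linarith
    have a5 : D + 1 ≠ 0 := by linarith
    calc nsq (χ w) = (-(D ^ 2 - 1)⁻¹) ^ 2 * nsq (D • K w φ + C w (K w φ)) := by rw [a1, nsq_smul]
      _ ≤ (-(D ^ 2 - 1)⁻¹) ^ 2 * ((D + 1) ^ 2 * (κ ^ 2 * nsq φ)) :=
          mul_le_mul_of_nonneg_left (a3.trans (mul_le_mul_of_nonneg_left (hκ w φ) (by positivity)))
            (by positivity)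
      _ = (κ / (D - 1)) ^ 2 * nsq φ := by
          rw [(by ring : D ^ 2 - 1 = (D - 1) * (D + 1))]
          field_simp
  refine ⟨ψ, fun h => h0 (by rw [← p0, h]; rfl), ?_⟩
  rw [hG, hn]
  have b1 : ∑ w, χ w ⬝ᵥ H' (χ w) ≤ h * ∑ w, nsq (χ w) := by
    rw [Finset.mul_sum]
    exact Finset.sum_le_sum fun w _ => hh _
  have b2 : ∑ w, nsq (χ w) ≤ m * (κ / (D - 1)) ^ 2 * nsq φ := by
    have := Finset.sum_le_card_nsmul Finset.univ _ _ fun w _ => hX w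
    rwa [Finset.card_univ, Fintype.card_fin, nsmul_eq_mul, ← mul_assoc] at this
  have b3 : 0 ≤ ∑ w, nsq (χ w) := Finset.sum_nonneg fun w _ => nsq_nonneg _
  set X := ∑ w, nsq (χ w)
  set ε := m * (κ / (D - 1)) ^ 2 with hε
  have hε0 : 0 ≤ ε := by positivity
  have b4 := mul_le_mul_of_nonneg_left b2 hhq
  have b5 := mul_le_mul_of_nonneg_right hq b3
  have b6 := mul_nonneg (mul_nonneg hε0 hhq) b3
  nlinarith

end Crest.Agent.R338
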