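/-
R338/Gadget: one round of gadgets
Skeleton by helper15 (row 338); keep the statements unchanged, add any helper lemmas you like.
-/
import Crest.Agent.R338.GadAbs

set_option autoImplicit false
set_option linter.unusedSectionVars false
set_option linter.unusedVariables false
set_option linter.unusedSimpArgs false

noncomputable section

namespace Crest.Agent.R338

open scoped Matrix

variable {k Q n p : ℕ} {H : Ham}

theorem Gadget_num {F : Type} [Field F] [LinearOrder F] [IsStrictOrderedRing F] {D J q : F}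
    (hD : 2 ≤ D) (hJ : |J| ≤ q) :
    1 ≤ D ^ 2 / (D ^ 2 - 1) ∧ D ^ 2 / (D ^ 2 - 1) ≤ 2 ∧ |J / (2 * (D ^ 2 / (D ^ 2 - 1)))| ≤ q / 2 := by
  have h0 : 0 < D ^ 2 - 1 := by nlinarith
  have h1 : 1 ≤ D ^ 2 / (D ^ 2 - 1) := by rw [le_div_iff₀ h0]; linarith
  refine ⟨h1, by rw [div_le_iff₀ h0]; nlinarith, ?_⟩
  rw [abs_div, abs_of_pos (by positivity : 0 < 2 * (D ^ 2 / (D ^ 2 - 1)))]
  exact div_le_div₀ ((abs_nonneg _).trans hJ) hJ two_pos (by linarith)

theorem Gadget_D {F : Type} [Field F] [LinearOrder F] [IsStrictOrderedRing F] {q : F} (hq : 2 ≤ q) :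
    2 ≤ 100 * q ^ 6 ∧ 2 * q ^ 2 ≤ 100 * q ^ 6 ∧ q ≤ q ^ 2 := by
  have h1 : q ^ 2 ≤ q ^ 6 := pow_le_pow_right₀ (by linarith) (by norm_num)
  refine ⟨?_, ?_, ?_⟩ <;> nlinarith

theorem Gadget_sum_zipIdx {α M : Type} [AddCommMonoid M] (l : List α) (g : α × ℕ → M) :
    (l.zipIdx.map g).sum = ∑ w : Fin l.length, g (l[w.1], w.1) := by
  rw [← List.sum_ofFn]
  congr 1
  exact List.ext_getElem (by simp) fun i _ _ => by simp

theorem Gadget_split (p : ℕ) (L : List Letter) :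
    L.take p ++ (L.drop p).take p ++ L.drop (2 * p) = L := by
  rw [two_mul, ← List.drop_drop, List.append_assoc, List.take_append_drop, List.take_append_drop]

/-- The three pieces of a string. -/
theorem Gadget_pieces {L : List Letter} (p : ℕ) (h : (L.map Prod.fst).Nodup) :
    ((L.take p ++ (L.drop p).take p).map Prod.fst).Nodup ∧ ((L.take p).map Prod.fst).Nodup ∧
      (((L.drop p).take p).map Prod.fst).Nodup ∧ ((L.drop (2 * p)).map Prod.fst).Nodup ∧
      (∀ x ∈ L.take p, ∀ y ∈ (L.drop p).take p, x.1 ≠ y.1) ∧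
      ∀ x ∈ L.take p ++ (L.drop p).take p, ∀ y ∈ L.drop (2 * p), x.1 ≠ y.1 := by
  rw [← Gadget_split p L, List.map_append, List.nodup_append] at h
  obtain ⟨h1, h2, h3⟩ := h
  have h4 := h1
  rw [List.map_append, List.nodup_append] at h4
  exact ⟨h1, h4.1, h4.2.1, h2,
    fun x hx y hy => h4.2.2 _ (List.mem_map_of_mem hx) _ (List.mem_map_of_mem hy),
    fun x hx y hy => h3 _ (List.mem_map_of_mem hx) _ (List.mem_map_of_mem hy)⟩

section alg
variable {ι : Type} [Fintype ι] {A B C : Module.End ℝ (ι → ℝ)}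

theorem Gadget_abs {T : Module.End ℝ (ι → ℝ)} {φ : ι → ℝ} (h : nsq (T φ) = nsq φ) :
    |φ ⬝ᵥ T φ| ≤ nsq φ := by
  simpa using abs_dot_le_of_nsq_le (φ := φ) (ψ := T φ) zero_le_one (by rw [h]; simp)

theorem Gadget_KK (sA : SA A) (sB : SA B) (iA : A * A = 1) (iB : B * B = 1) (iC : C * C = 1)
    (cAB : Commute A B) (cAC : Commute A C) (cBC : Commute B C) (a : ℝ) (φ : ι → ℝ) :
    nsq ((B - a • A) φ) = (1 + a ^ 2) * nsq φ - 2 * a * (φ ⬝ᵥ (A * B) φ) ∧
      (B - a • A) φ ⬝ᵥ C ((B - a • A) φ) =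
        (1 + a ^ 2) * (φ ⬝ᵥ C φ) - 2 * a * (φ ⬝ᵥ (A * B * C) φ) := by
  have sK : SA (B - a • A) := sB.sub (sA.smul a)
  have e1 : (B - a • A) * (B - a • A) = (1 + a ^ 2) • 1 - (2 * a) • (A * B) := by
    simp only [sub_mul, mul_sub, smul_mul_assoc, mul_smul_comm, iA, iB, ← cAB.eq]
    module
  have e2 : (B - a • A) * (C * (B - a • A)) = (1 + a ^ 2) • C - (2 * a) • (A * B * C) := by
    rw [← (cBC.sub_left (cAC.smul_left a)).eq, ← mul_assoc, e1, sub_mul, smul_mul_assoc,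
      smul_mul_assoc, one_mul]
  constructor
  · rw [nsq, sK, ← Module.End.mul_apply, e1]
    simp [nsq]
  · rw [sK, ← Module.End.mul_apply C, ← Module.End.mul_apply, e2]
    simp

end alg

section slices
variable {m : ℕ} (ψ : RV (n + m)) (w : Fin m) {L : List Letter} (hL : ∀ x ∈ L, x.1 < n)
include hL

theorem Gadget_s1 : ψ ⬝ᵥ pauli L ψ = ∑ S, slice ψ S ⬝ᵥ pauli L (slice ψ S) := by
  simp only [dot_slice, slice_pauli hL]

theorem Gadget_s2 : ψ ⬝ᵥ pauli ((n + w, false) :: L) ψ =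
    ∑ S, sgnB (S w) * (slice ψ S ⬝ᵥ pauli L (slice ψ S)) := by
  simp only [dot_slice, pauli_cons, Module.End.mul_apply, opL, Bool.false_eq_true, if_false,
    slice_opZ_right, slice_pauli hL, bit_val, dotProduct_smul, smul_eq_mul]

theorem Gadget_s3 : ψ ⬝ᵥ pauli ((n + w, true) :: L) ψ =
    ∑ S, slice ψ S ⬝ᵥ pauli L (slice ψ (flp S w)) := by
  simp only [dot_slice, pauli_cons, Module.End.mul_apply, opL, if_true,
    slice_opX_right, slice_pauli hL]

end slices

/-- Recipe.  For the term number `w`, `τ = H[w]`, put `A, B, C` = `pauli` of the three pieces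
(commuting self-adjoint involutions with `A * B * C = pauli τ.2`, `List.take_append_drop`),
`K w = B - a • A`, and let `H'` be the sum of the operators of the last three terms of all gadgets.
(1) `form (roundH Q p n H) ψ = gForm D H' K C (slice ψ)` (`dot_slice`, `slice_pauli`,
`slice_opX_right`, `slice_opZ_right`); (2) `gEff D H' K C φ = form H φ`
(`K * K = 1 + a² - 2 a A B`, `K C K = K K C`, `2 γ a = τ.1`); (3) the bounds below
(`|a| ≤ Q / 2`, `1 ≤ γ ≤ 2`). -/
theorem round_data (h : WFH k Q n H) (hQ : 2 ≤ Q) :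
    ∃ (H' : Module.End ℝ (RV n)) (K C : Fin H.length → Module.End ℝ (RV n)),
      (∀ w, SA (K w)) ∧ (∀ w, SA (C w)) ∧ (∀ w, C w * C w = 1) ∧
      (∀ w φ, nsq (K w φ) ≤ (Q : ℝ) ^ 2 * nsq φ) ∧
      (∀ φ, φ ⬝ᵥ H' φ ≤ 4 * (100 * (Q : ℝ) ^ 6) * Q ^ 3 * nsq φ) ∧
      (∀ φ, gEff (100 * (Q : ℝ) ^ 6) H' K C φ = form H φ) ∧
      ∀ ψ : RV (n + H.length), form (roundH Q p n H) ψ = gForm (100 * (Q : ℝ) ^ 6) H' K C (slice ψ) := by
  have hq : (2 : ℝ) ≤ Q := by exact_mod_cast hQ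
  obtain ⟨hD, hD2, hq2⟩ := Gadget_D hq
  set D : ℝ := 100 * (Q : ℝ) ^ 6 with hDdef
  set γ : ℝ := D ^ 2 / (D ^ 2 - 1) with hγ
  let L : Fin H.length → List Letter := fun w => H[w.1].2
  let a : Fin H.length → ℝ := fun w => (H[w.1].1 : ℝ) / (2 * γ)
  let A : Fin H.length → Module.End ℝ (RV n) := fun w => pauli ((L w).take p)
  let B : Fin H.length → Module.End ℝ (RV n) := fun w => pauli (((L w).drop p).take p)
  let C : Fin H.length → Module.End ℝ (RV n) := fun w => pauli ((L w).drop (2 * p))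
  have hm : ∀ w : Fin H.length, H[w.1] ∈ H := fun w => List.getElem_mem _
  have hP := fun w : Fin H.length => Gadget_pieces p (h.nodup _ (hm w))
  have hnum := fun w : Fin H.length => Gadget_num (J := (H[w.1].1 : ℝ)) (q := Q) hD
    (by exact_mod_cast h.coef _ (hm w))
  have hKK := fun w φ => Gadget_KK (A := A w) (B := B w) (C := C w) (SA_pauli (hP w).2.1)
    (SA_pauli (hP w).2.2.1) (pauli_mul_self (hP w).2.1) (pauli_mul_self (hP w).2.2.1)
    (pauli_mul_self (hP w).2.2.2.1) (commute_pauli (hP w).2.2.2.2.1)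
    (commute_pauli fun x hx => (hP w).2.2.2.2.2 x (List.mem_append_left _ hx))
    (commute_pauli fun x hx => (hP w).2.2.2.2.2 x (List.mem_append_right _ hx)) (a w) φ
  have hAB : ∀ w φ, -(2 * a w * (φ ⬝ᵥ (A w * B w) φ)) ≤ Q * nsq φ := fun w φ => by
    have h1 : |φ ⬝ᵥ (A w * B w) φ| ≤ nsq φ :=
      Gadget_abs (by rw [Module.End.mul_apply, nsq_pauli, nsq_pauli])
    have h2 := mul_le_mul (hnum w).2.2 h1 (abs_nonneg _) (by positivity)
    rw [← abs_mul] at h2
    linarith [neg_abs_le (a w * (φ ⬝ᵥ (A w * B w) φ))]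
  have ha2 : ∀ w, 1 + a w ^ 2 + Q ≤ (Q : ℝ) ^ 2 := fun w => by
    have := pow_le_pow_left₀ (abs_nonneg _) (hnum w).2.2 2
    rw [sq_abs] at this
    nlinarith
  have hdot : ∀ φ ψ : RV n, φ ⬝ᵥ (∑ w, ((D * γ * (1 + a w ^ 2)) • (1 : Module.End ℝ (RV n)) +
      (-2 * D * γ * a w) • (A w * B w) + (γ * (1 + a w ^ 2)) • C w)) φ =
      ∑ w, (D * γ * (1 + a w ^ 2) * nsq φ + -2 * D * γ * a w * (φ ⬝ᵥ (A w * B w) φ) +
        γ * (1 + a w ^ 2) * (φ ⬝ᵥ C w φ)) := fun φ _ => by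
    simp only [LinearMap.sum_apply, dotProduct_sum, LinearMap.add_apply, LinearMap.smul_apply,
      dotProduct_add, dotProduct_smul, smul_eq_mul, Module.End.one_apply, nsq]
  refine ⟨∑ w, ((D * γ * (1 + a w ^ 2)) • 1 + (-2 * D * γ * a w) • (A w * B w) +
    (γ * (1 + a w ^ 2)) • C w), fun w => B w - a w • A w, C,
    fun w => (SA_pauli (hP w).2.2.1).sub ((SA_pauli (hP w).2.1).smul _),
    fun w => SA_pauli (hP w).2.2.2.1, fun w => pauli_mul_self (hP w).2.2.2.1,
    fun w φ => ?_, fun φ => ?_, fun φ => ?_, fun ψ => ?_⟩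
  · rw [(hKK w φ).1]
    nlinarith [hAB w φ, mul_le_mul_of_nonneg_right (ha2 w) (nsq_nonneg φ)]
  · rw [hdot φ φ]
    have h0 := nsq_nonneg φ
    refine (Finset.sum_le_card_nsmul _ _ (4 * D * Q ^ 2 * nsq φ) fun w _ => ?_).trans ?_
    · obtain ⟨g1, g2, -⟩ := hnum w
      have h1 : φ ⬝ᵥ C w φ ≤ nsq φ := (le_abs_self _).trans (Gadget_abs (nsq_pauli _ _))
      have h2 : (1 + a w ^ 2) * nsq φ - 2 * a w * (φ ⬝ᵥ (A w * B w) φ) ≤ Q ^ 2 * nsq φ := by
        nlinarith [hAB w φ, mul_le_mul_of_nonneg_right (ha2 w) h0]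
      have h3 : (1 + a w ^ 2) * (φ ⬝ᵥ C w φ) ≤ Q ^ 2 * nsq φ :=
        (mul_le_mul_of_nonneg_left h1 (by positivity)).trans
          (mul_le_mul_of_nonneg_right (by linarith [ha2 w]) h0)
      have h4 : 0 ≤ (Q : ℝ) ^ 2 * nsq φ := by positivity
      have h5 := mul_le_mul_of_nonneg_left h2 (show 0 ≤ D * γ by positivity)
      have h6 := mul_le_mul_of_nonneg_left h3 (show 0 ≤ γ by positivity)
      have h7 : D * γ + γ ≤ 4 * D := by nlinarith
      nlinarith [mul_le_mul_of_nonneg_right h7 h4]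
    · rw [Finset.card_univ, Fintype.card_fin, nsmul_eq_mul]
      have : (H.length : ℝ) ≤ Q := by exact_mod_cast h.len
      nlinarith [mul_le_mul_of_nonneg_right this (show 0 ≤ 4 * D * Q ^ 2 * nsq φ by positivity)]
  · rw [gEff, hdot φ φ, ← Finset.sum_sub_distrib, form_eq_sum, ← Fin.sum_univ_fun_getElem]
    refine Finset.sum_congr rfl fun w _ => ?_
    have e : A w * B w * C w = pauli H[w.1].2 := by
      rw [← pauli_append, ← pauli_append, Gadget_split]
    have h0 : D ^ 2 - 1 ≠ 0 := by nlinarith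
    have h1 : (H[w.1].1 : ℝ) = 2 * γ * a w := (mul_div_cancel₀ _ (by linarith [(hnum w).1])).symm
    rw [(hKK w φ).1, (hKK w φ).2, e, h1, hγ]
    field_simp
    ring
  · rw [gForm, form, roundH, opH_flatMap, Gadget_sum_zipIdx, LinearMap.sum_apply, dotProduct_sum,
      Finset.sum_congr rfl fun S _ => hdot (slice ψ S) (slice ψ S), Finset.sum_comm,
      ← Finset.sum_add_distrib]
    refine Finset.sum_congr rfl fun w _ => ?_
    have l0 : ∀ x ∈ ([] : List Letter), x.1 < n := by simp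
    have lA : ∀ x ∈ (L w).take p, x.1 < n := fun x hx => h.lt _ (hm w) x (List.mem_of_mem_take hx)
    have lB : ∀ x ∈ ((L w).drop p).take p, x.1 < n := fun x hx =>
      h.lt _ (hm w) x (List.mem_of_mem_drop (List.mem_of_mem_take hx))
    have lC : ∀ x ∈ (L w).drop (2 * p), x.1 < n := fun x hx =>
      h.lt _ (hm w) x (List.mem_of_mem_drop hx)
    have lAB : ∀ x ∈ (L w).take p ++ ((L w).drop p).take p, x.1 < n := fun x hx =>
      (List.mem_append.1 hx).elim (lA x) (lB x)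
    refine (form_eq_sum _ ψ).trans ?_
    simp only [gadT, List.map_cons, List.map_nil, List.sum_cons, List.sum_nil]
    rw [Gadget_s1 ψ l0, Gadget_s2 ψ w l0, Gadget_s1 ψ lC, Gadget_s2 ψ w lC, Gadget_s3 ψ w lB,
      Gadget_s3 ψ w lA, Gadget_s1 ψ lAB]
    simp only [Finset.mul_sum, add_zero, ← Finset.sum_add_distrib]
    refine Finset.sum_congr rfl fun S _ => ?_
    push_cast
    simp only [← hDdef, ← hγ, pauli_append, pauli_nil, Module.End.one_apply, LinearMap.sub_apply,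
      LinearMap.smul_apply, dotProduct_sub, dotProduct_smul, smul_eq_mul, nsq, sgnB, A, B, C, a]
    split_ifs <;> ring

theorem round_no (h : WFH k Q n H) (hQ : 2 ≤ Q) {b : ℝ} (hN : No n H b) :
    No (n + H.length) (roundH Q p n H) b := by
  obtain ⟨H', K, C, sK, sC, iC, -, -, he, hf⟩ := round_data (p := p) h hQ
  intro ψ
  rw [hf, nsq_slice, Finset.mul_sum]
  refine le_trans (Finset.sum_le_sum fun S _ => ?_)
    (gad_lower (Gadget_D (show (2 : ℝ) ≤ Q by exact_mod_cast hQ)).1 sK sC iC (slice ψ))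
  rw [he]
  exact hN _

/-- Recipe: `gad_upper` with `q = Q²` (`abs_form_le`), `exists_glue`. -/
theorem round_yes (h : WFH k Q n H) (hQ : 2 ≤ Q) {a : ℝ} (hY : Yes n H a) :
    Yes (n + H.length) (roundH Q p n H) (a + 1) := by
  obtain ⟨H', K, C, sK, sC, iC, hK, hH, he, hf⟩ := round_data (p := p) h hQ
  have hq : (2 : ℝ) ≤ Q := by exact_mod_cast hQ
  have hl : (H.length : ℝ) ≤ Q := by exact_mod_cast h.len
  obtain ⟨hD, hD2, hq2⟩ := Gadget_D hq
  obtain ⟨φ, h0, hφ⟩ := hY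
  have ha : -(Q : ℝ) ^ 2 ≤ a := by
    have h1 := abs_form_le (Q := Q) (fun τ hτ => by exact_mod_cast h.coef τ hτ) φ
    have h2 := mul_le_mul_of_nonneg_right hl (show 0 ≤ Q * nsq φ from mul_nonneg (by linarith) (nsq_nonneg φ))
    refine le_of_mul_le_mul_right ?_ (nsq_pos h0)
    linarith [neg_abs_le (form H φ)]
  obtain ⟨f, f0, hg⟩ := gad_upper hD sK sC iC hK hH ha (by positivity) h0 (by rw [he]; exact hφ)
  obtain ⟨ψ, hψ⟩ := exists_glue f
  obtain rfl : slice ψ = f := funext hψ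
  refine ⟨ψ, fun e => f0 (by rw [e]; rfl), ?_⟩
  rw [hf, nsq_slice]
  refine hg.trans (mul_le_mul_of_nonneg_right (add_le_add le_rfl ?_)
    (Finset.sum_nonneg fun S _ => nsq_nonneg _))
  set D : ℝ := 100 * (Q : ℝ) ^ 6 with hDdef
  have h3 : (Q : ℝ) ^ 2 ≤ D * Q ^ 3 := by
    have : (Q : ℝ) ^ 2 ≤ Q ^ 3 := pow_le_pow_right₀ (by linarith) (by norm_num)
    nlinarith [pow_nonneg (show (0 : ℝ) ≤ Q by linarith) 3]
  calc (H.length : ℝ) * (Q / (D - 1)) ^ 2 * (4 * D * Q ^ 3 + Q ^ 2)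
      ≤ Q * (Q / (D - 1)) ^ 2 * (5 * D * Q ^ 3) := by gcongr; linarith
    _ = D ^ 2 / 20 / (D - 1) ^ 2 := by rw [div_pow, hDdef]; ring
    _ ≤ 1 := by
      rw [div_le_one (pow_pos (by linarith) 2)]
      nlinarith

theorem round_wf (h : WFH k Q n H) (hQ : 2 ≤ Q) {k' : ℕ} (h1 : 2 * p ≤ k') (h2 : p + 1 ≤ k')
    (h3 : k - 2 * p + 1 ≤ k') : WFH k' (nextQ Q) (n + H.length) (roundH Q p n H) := by
  have hq : (2 : ℚ) ≤ Q := by exact_mod_cast hQ
  obtain ⟨hD, hD2, hq2⟩ := Gadget_D hq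
  have hN : 9 * Q ≤ nextQ Q := by
    have h4 : Q ≤ Q ^ 6 := Nat.le_self_pow (by norm_num) Q
    have h5 : 100 * Q ^ 6 ≤ (100 * Q ^ 6) ^ 3 := Nat.le_self_pow (by norm_num) _
    unfold nextQ
    omega
  have hmem : ∀ τ' ∈ roundH Q p n H, ∃ τ ∈ H, ∃ w < H.length, τ' ∈ gadT (100 * Q ^ 6) p (n + w) τ :=
    fun τ' hτ => by
      obtain ⟨q, hq, h'⟩ := List.mem_flatMap.1 hτ
      exact ⟨q.1, List.fst_mem_of_mem_zipIdx hq, q.2, by simpa using List.snd_lt_of_mem_zipIdx hq, h'⟩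
  have := h.two
  have := h.nQ
  have := h.len
  refine ⟨by omega, by omega, ?_, fun τ' hτ' => ?_, fun τ' hτ' => ?_, fun τ' hτ' => ?_,
    fun τ' hτ' => ?_⟩
  · rw [roundH, List.length_flatMap]
    simp only [gadT, List.length_cons, List.length_nil, List.map_const', List.sum_replicate,
      List.length_zipIdx, smul_eq_mul]
    omega
  · obtain ⟨τ, hτ, w, hw, h'⟩ := hmem τ' hτ'
    obtain ⟨g1, g2, g3⟩ := Gadget_num hD (h.coef τ hτ)
    rw [nextQ]
    push_cast
    simp only [gadT, List.mem_cons, List.not_mem_nil, or_false] at h'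
    set D : ℚ := 100 * (Q : ℚ) ^ 6
    set γ : ℚ := D ^ 2 / (D ^ 2 - 1)
    set a : ℚ := τ.1 / (2 * γ)
    have a2 : 1 + a ^ 2 ≤ (Q : ℚ) ^ 2 := by
      have := pow_le_pow_left₀ (abs_nonneg _) g3 2
      rw [sq_abs] at this
      nlinarith
    have a1 : |a| ≤ (Q : ℚ) ^ 2 := by linarith
    have d1 : D ≤ D ^ 2 := by nlinarith
    have d2 : D ^ 2 ≤ D ^ 3 := by nlinarith
    have d0 : 0 < D := by linarith
    have g0 : 0 < γ := by linarith
    have b1 : γ * (1 + a ^ 2) ≤ D := by nlinarith [mul_le_mul g2 a2 (by positivity) zero_le_two]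
    have b2 : γ * |a| ≤ D := by nlinarith [mul_le_mul g2 a1 (by positivity) zero_le_two]
    rcases h' with rfl | rfl | rfl | rfl | rfl | rfl | rfl | rfl | rfl <;>
      simp only [abs_mul, abs_div, abs_neg, abs_pow, abs_two, abs_of_pos d0, abs_of_pos g0,
        abs_of_pos (show 0 < 1 + a ^ 2 by positivity)]
    · nlinarith
    · nlinarith
    · nlinarith
    · nlinarith
    · exact d2
    · nlinarith [mul_le_mul_of_nonneg_left (show |a| ≤ D by linarith) (sq_nonneg D)]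
    · nlinarith [mul_le_mul_of_nonneg_left b1 d0.le]
    · nlinarith [mul_le_mul_of_nonneg_left b2 d0.le]
    · linarith
  · obtain ⟨τ, hτ, w, hw, h'⟩ := hmem τ' hτ'
    have := h.loc τ hτ
    simp only [gadT, List.mem_cons, List.not_mem_nil, or_false] at h'
    rcases h' with rfl | rfl | rfl | rfl | rfl | rfl | rfl | rfl | rfl <;>
      simp only [List.length_cons, List.length_nil, List.length_append, List.length_take,
        List.length_drop] <;> omega
  · obtain ⟨τ, hτ, w, hw, h'⟩ := hmem τ' hτ'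
    obtain ⟨nAB, nA, nB, nC, -⟩ := Gadget_pieces p (h.nodup τ hτ)
    have hc : ∀ (b : Bool) (L : List Letter), L ⊆ τ.2 → (L.map Prod.fst).Nodup →
        (((n + w, b) :: L).map Prod.fst).Nodup := fun b L hL hn => by
      refine List.nodup_cons.2 ⟨fun hx => ?_, hn⟩
      obtain ⟨x, hx, e⟩ := List.mem_map.1 hx
      have := h.lt τ hτ x (hL hx)
      simp only at e
      omega
    simp only [gadT, List.mem_cons, List.not_mem_nil, or_false] at h'
    rcases h' with rfl | rfl | rfl | rfl | rfl | rfl | rfl | rfl | rfl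
    exacts [List.nodup_nil, List.nodup_singleton _, nC, hc _ _ (List.drop_subset _ _) nC,
      hc _ _ (List.Subset.trans (List.take_subset _ _) (List.drop_subset _ _)) nB,
      hc _ _ (List.take_subset _ _) nA, List.nodup_nil, nAB, nC]
  · obtain ⟨τ, hτ, w, hw, h'⟩ := hmem τ' hτ'
    have hs : ∀ L : List Letter, L ⊆ τ.2 → ∀ x ∈ L, x.1 < n + H.length := fun L hL x hx =>
      (h.lt τ hτ x (hL hx)).trans_le (Nat.le_add_right _ _)
    have hc : ∀ (b : Bool) (L : List Letter), L ⊆ τ.2 → ∀ x ∈ (n + w, b) :: L, x.1 < n + H.length :=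
      fun b L hL => List.forall_mem_cons.2 ⟨Nat.add_lt_add_left hw n, hs L hL⟩
    have sB := List.Subset.trans (List.take_subset p _) (List.drop_subset p τ.2)
    simp only [gadT, List.mem_cons, List.not_mem_nil, or_false] at h'
    rcases h' with rfl | rfl | rfl | rfl | rfl | rfl | rfl | rfl | rfl
    exacts [hs _ (List.nil_subset _), hc _ _ (List.nil_subset _), hs _ (List.drop_subset _ _),
      hc _ _ (List.drop_subset _ _), hc _ _ sB, hc _ _ (List.take_subset _ _),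
      hs _ (List.nil_subset _), hs _ (List.append_subset.2 ⟨List.take_subset _ _, sB⟩),
      hs _ (List.drop_subset _ _)]

end Crest.Agent.R338
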