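/-
R338/KitForm: the Kitaev form in terms of clock slices
Skeleton by helper15 (row 338); keep the statements unchanged, add any helper lemmas you like.
-/
import Crest.Agent.R338.Pauli

set_option autoImplicit false
set_option linter.unusedSectionVars false
set_option linter.unusedVariables false
set_option linter.unusedSimpArgs false

noncomputable section

namespace Crest.Agent.R338

open scoped Matrix

variable {n : ℕ} {gs : List RG} {init : List (ℕ × Bool)} {out : ℕ}

/-- The legal clock state of time `t`. -/
def clk (T t : ℕ) : Fin (T + 2) → Bool := fun j => decide ((j : ℕ) ≤ t)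

/-- The input penalty. -/
def pen (init : List (ℕ × Bool)) (φ : RV n) : ℝ := (init.map fun p => nsq (opP p.1 (!p.2) φ)).sum

theorem clk_injOn (T : ℕ) : Set.InjOn (clk T) (Set.Iic T) := by
  intro a ha b hb h
  have ha' : a ≤ T := ha
  have hb' : b ≤ T := hb
  have h1 := congrFun h ⟨a, by omega⟩
  have h2 := congrFun h ⟨b, by omega⟩
  simp only [clk, le_refl, decide_true, decide_eq_true_eq, true_eq_decide_iff] at h1 h2
  omega

/-- A clock state without penalty is legal. -/
theorem exists_clk {T : ℕ} {S : Fin (T + 2) → Bool} (h0 : bit S 0 = true)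
    (h1 : bit S (T + 1) = false) (h : ∀ t ≤ T, ¬(bit S t = false ∧ bit S (t + 1) = true)) :
    ∃ t ≤ T, S = clk T t := by
  have hex : ∃ t, bit S (t + 1) = false := ⟨T, h1⟩
  have ht : Nat.find hex ≤ T := Nat.find_min' hex h1
  have hlo : ∀ i ≤ Nat.find hex, bit S i = true := by
    intro i hi
    rcases i with _ | i
    · exact h0
    · simpa using Nat.find_min hex (show i < Nat.find hex by omega)
  have hhi : ∀ i, Nat.find hex ≤ i → i ≤ T → bit S (i + 1) = false := by
    intro i hi
    induction i, hi using Nat.le_induction with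
    | base => exact fun _ => Nat.find_spec hex
    | succ i _ ih =>
      intro hi
      have := h (i + 1) hi
      rw [ih (by omega)] at this
      simpa using this
  refine ⟨_, ht, funext fun j => ?_⟩
  rw [← bit_val S j, clk]
  by_cases hj : (j : ℕ) ≤ Nat.find hex
  · rw [hlo j hj, decide_eq_true hj]
  · have := hhi (j - 1) (by omega) (by have := j.2; omega)
    rw [show (j : ℕ) - 1 + 1 = j by omega] at this
    rw [this, decide_eq_false hj]

/-- One propagation term: `U = rgate r0 g` is a self-adjoint involution, so the summands of the two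
clock states `S`, `flp S (j + 1)` add up to a square. -/
theorem dot_propOp {T : ℕ} {g : RG} (hg : WFG n g) {j : ℕ} (hj : j < T) (ψ : RV (n + (T + 2))) :
    ψ ⬝ᵥ propOp r0 n g j ψ = ∑ S : Fin (T + 2) → Bool,
      if bit S j = true ∧ bit S (j + 1) = false ∧ bit S (j + 2) = false then
        1 / 2 * nsq (slice ψ (flp S (j + 1)) - rgate r0 g (slice ψ S)) else 0 := by
  set f : (Fin (T + 2) → Bool) → ℝ := fun S =>
    1 / 2 * (nsq (slice ψ S) - slice ψ S ⬝ᵥ rgate r0 g (slice ψ (flp S (j + 1)))) with hf
  have h1 : ψ ⬝ᵥ propOp r0 n g j ψ =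
      ∑ S : Fin (T + 2) → Bool, if bit S j = true ∧ bit S (j + 2) = false then f S else 0 := by
    rw [dot_slice]
    refine Finset.sum_congr rfl fun S _ => ?_
    have e : slice (((1 / 2 : ℝ) • (1 - opX (n + j + 1) * rgate r0 g) :
        Module.End ℝ (RV (n + (T + 2)))) ψ) S =
        (1 / 2 : ℝ) • (slice ψ S - rgate r0 g (slice ψ (flp S (j + 1)))) := by
      rw [← slice_rgate r0 hg, ← slice_opX_right]
      rfl
    rw [propOp, Module.End.mul_apply, Module.End.mul_apply, slice_opP_right, Nat.add_assoc,
      slice_opP_right, e]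
    by_cases a : bit S j = true
    · by_cases b : bit S (j + 2) = false
      · simp only [a, b, if_true, and_self, hf, dotProduct_smul, dotProduct_sub, smul_eq_mul, nsq]
      · simp [a, b]
    · simp [a]
  have h2 : ∑ S : Fin (T + 2) → Bool,
        (if bit S j = true ∧ bit S (j + 1) = true ∧ bit S (j + 2) = false then f S else 0) =
      ∑ S : Fin (T + 2) → Bool, if bit S j = true ∧ bit S (j + 1) = false ∧ bit S (j + 2) = false
        then f (flp S (j + 1)) else 0 := by
    rw [← sum_flp (j + 1)]
    refine Finset.sum_congr rfl fun S _ => ?_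
    rw [bit_flp_ne S (by omega : j + 1 ≠ j), bit_flp_ne S (by omega : j + 1 ≠ j + 2),
      bit_flp_self S (by omega : j + 1 < T + 2)]
    simp only [Bool.not_eq_true']
  have h3 : ∀ S : Fin (T + 2) → Bool,
      1 / 2 * nsq (slice ψ (flp S (j + 1)) - rgate r0 g (slice ψ S)) =
        f S + f (flp S (j + 1)) := fun S => by
    rw [nsq_sub, (SA_rgate r0 hg).nsq_of_mul_self (rgate_mul_self hg)]
    simp only [hf, flp_flp]
    rw [← SA_rgate r0 hg (slice ψ S), dotProduct_comm (rgate r0 g (slice ψ S))]
    ring
  rw [h1]
  simp only [h3]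
  calc _ = ∑ S : Fin (T + 2) → Bool,
        ((if bit S j = true ∧ bit S (j + 1) = false ∧ bit S (j + 2) = false then f S else 0) +
        (if bit S j = true ∧ bit S (j + 1) = true ∧ bit S (j + 2) = false then f S else 0)) := by
        refine Finset.sum_congr rfl fun S _ => ?_
        cases bit S j <;> cases bit S (j + 1) <;> cases bit S (j + 2) <;> simp
    _ = _ := by
        rw [Finset.sum_add_distrib, h2, ← Finset.sum_add_distrib]
        refine Finset.sum_congr rfl fun S _ => ?_
        split_ifs <;> simp

theorem kitForm_bit_clk {T : ℕ} (t : ℕ) {i : ℕ} (hi : i < T + 2) :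
    bit (clk T t) i = decide (i ≤ t) := by
  simp [bit, hi, clk]

theorem kitForm_flp_clk (T j : ℕ) : flp (clk T j) (j + 1) = clk T (j + 1) := by
  funext i
  simp only [flp, clk]
  split_ifs with h
  · rw [h]; simp
  · exact decide_eq_decide.2 (by omega)

theorem kitForm_dot_opP {m : ℕ} (i : ℕ) (b : Bool) (φ : RV m) :
    φ ⬝ᵥ opP i b φ = nsq (opP i b φ) := by
  refine Finset.sum_congr rfl fun x _ => ?_
  simp only [opP, diagOp_apply]
  split_ifs <;> simp

theorem kitForm_left_right {m i : ℕ} (hi : i < n) (b : Bool) (w : ℕ) (b' : Bool) (ψ : RV (n + m)) :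
    ψ ⬝ᵥ (opP i b * opP (n + w) b' : Module.End ℝ (RV (n + m))) ψ =
      ∑ S : Fin m → Bool, if bit S w = b' then nsq (opP i b (slice ψ S)) else 0 := by
  rw [dot_slice]
  refine Finset.sum_congr rfl fun S _ => ?_
  rw [Module.End.mul_apply, slice_opP_left hi, slice_opP_right]
  split_ifs
  · exact kitForm_dot_opP _ _ _
  · simp

theorem kitForm_right {m : ℕ} (w : ℕ) (b : Bool) (ψ : RV (n + m)) :
    ψ ⬝ᵥ (opP (n + w) b : Module.End ℝ (RV (n + m))) ψ =
      ∑ S : Fin m → Bool, (if bit S w = b then 1 else 0) * nsq (slice ψ S) := by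
  rw [dot_slice]
  refine Finset.sum_congr rfl fun S _ => ?_
  rw [slice_opP_right]
  split_ifs <;> simp [nsq]

theorem kitForm_right_right {m : ℕ} (w : ℕ) (b : Bool) (w' : ℕ) (b' : Bool) (ψ : RV (n + m)) :
    ψ ⬝ᵥ (opP (n + w) b * opP (n + w') b' : Module.End ℝ (RV (n + m))) ψ =
      ∑ S : Fin m → Bool, (if bit S w = b ∧ bit S w' = b' then 1 else 0) * nsq (slice ψ S) := by
  rw [dot_slice]
  refine Finset.sum_congr rfl fun S _ => ?_
  rw [Module.End.mul_apply, slice_opP_right, slice_opP_right]
  by_cases h1 : bit S w = b <;> by_cases h2 : bit S w' = b' <;> simp [h1, h2, nsq]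

/-- the clock penalty of a clock state -/
def kitFormC (T : ℕ) (S : Fin (T + 2) → Bool) : ℝ :=
  (if bit S 0 = false then 1 else 0) + (if bit S (T + 1) = true then 1 else 0) +
    ∑ t ∈ Finset.range (T + 1), if bit S t = false ∧ bit S (t + 1) = true then 1 else 0

theorem kitForm_clock (T : ℕ) (ψ : RV (n + (T + 2))) :
    ψ ⬝ᵥ (clockOp n T : Module.End ℝ (RV (n + (T + 2)))) ψ =
      ∑ S, kitFormC T S * nsq (slice ψ S) := by
  have h0 := kitForm_right 0 false ψ
  have h1 := kitForm_right (T + 1) true ψ
  have h2 := fun t => kitForm_right_right t false (t + 1) true ψ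
  simp only [← Nat.add_assoc, Nat.add_zero] at h0 h1 h2
  simp only [clockOp, LinearMap.add_apply, LinearMap.sum_apply, dotProduct_add, dotProduct_sum,
    kitFormC, add_mul, Finset.sum_add_distrib, Finset.sum_mul]
  rw [Finset.sum_comm (s := Finset.univ)]
  exact congrArg₂ (· + ·) (congrArg₂ (· + ·) h0 h1) (Finset.sum_congr rfl fun t _ => h2 t)

theorem kitFormC_nonneg (T : ℕ) (S : Fin (T + 2) → Bool) : 0 ≤ kitFormC T S := by
  unfold kitFormC
  positivity

theorem kitFormC_clk {T t : ℕ} (ht : t ≤ T) : kitFormC T (clk T t) = 0 := by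
  unfold kitFormC
  rw [kitForm_bit_clk t (by omega), kitForm_bit_clk t (by omega), Finset.sum_eq_zero]
  · simp; omega
  · intro i hi
    rw [Finset.mem_range] at hi
    rw [kitForm_bit_clk t (by omega), kitForm_bit_clk t (by omega), if_neg]
    simp; omega

theorem kitFormC_ge {T : ℕ} {S : Fin (T + 2) → Bool} (h : ∀ t ≤ T, S ≠ clk T t) :
    1 ≤ kitFormC T S := by
  by_contra hlt
  have a1 : (0 : ℝ) ≤ if bit S 0 = false then 1 else 0 := by positivity
  have a2 : (0 : ℝ) ≤ if bit S (T + 1) = true then 1 else 0 := by positivity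
  have a3 : (0 : ℝ) ≤ ∑ t ∈ Finset.range (T + 1),
      if bit S t = false ∧ bit S (t + 1) = true then 1 else 0 := by positivity
  unfold kitFormC at hlt
  obtain ⟨t, ht, hS⟩ := exists_clk (S := S)
    (by by_contra h0; rw [if_pos (by simpa using h0)] at hlt; linarith)
    (by by_contra h0; rw [if_pos (c := bit S (T + 1) = true) (by simpa using h0)] at hlt; linarith)
    (fun t ht h0 => by
      have := Finset.single_le_sum (s := Finset.range (T + 1))
        (f := fun t => if bit S t = false ∧ bit S (t + 1) = true then (1 : ℝ) else 0)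
        (fun i _ => by positivity) (Finset.mem_range.2 (Nat.lt_succ_of_le ht))
      rw [if_pos h0] at this
      linarith)
  exact h t ht hS

theorem kitForm_dot_list {m : ℕ} {α : Type} (l : List α) (F : α → Module.End ℝ (RV m)) (ψ : RV m) :
    ψ ⬝ᵥ (l.map F).sum ψ = (l.map fun a => ψ ⬝ᵥ F a ψ).sum := by
  induction l with
  | nil => simp
  | cons a l ih => simp [ih]

theorem kitForm_pen_nonneg (init : List (ℕ × Bool)) (φ : RV n) : 0 ≤ pen init φ :=
  List.sum_nonneg fun x hx => by
    obtain ⟨p, -, rfl⟩ := List.mem_map.1 hx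
    exact nsq_nonneg _

theorem kitForm_pen_zero (init : List (ℕ × Bool)) : pen init (0 : RV n) = 0 := by
  simp [pen, nsq]

theorem kitForm_init {m : ℕ} (hi : ∀ p ∈ init, p.1 < n) (ψ : RV (n + m)) :
    ψ ⬝ᵥ (init.map fun p => (opP p.1 (!p.2) * opP (n + 1) false :
      Module.End ℝ (RV (n + m)))).sum ψ =
      ∑ S : Fin m → Bool, if bit S 1 = false then pen init (slice ψ S) else 0 := by
  induction init with
  | nil => simp [pen]
  | cons a l ih =>
    rw [List.map_cons, List.sum_cons, LinearMap.add_apply, dotProduct_add,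
      ih fun p hp => hi p (List.mem_cons_of_mem _ hp), kitForm_left_right (hi a List.mem_cons_self),
      ← Finset.sum_add_distrib]
    refine Finset.sum_congr rfl fun S _ => ?_
    split_ifs <;> simp [pen]

theorem kitForm_zipIdx {α : Type} (l : List α) (F : α × ℕ → ℝ) :
    (l.zipIdx.map F).sum = ∑ j : Fin l.length, F (l[j], j) := by
  rw [← List.sum_ofFn]
  congr 1
  apply List.ext_getElem <;> simp

/-- the exact form -/
theorem kitForm_exact (h : WFC n gs init out) (ψ : RV (n + (gs.length + 2))) :
    ψ ⬝ᵥ kitOp r0 n gs init out ψ = 100 * (gs.length + 1) *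
      ((∑ S, if bit S gs.length = true then rej out (slice ψ S) else 0) +
        ∑ S, kitFormC gs.length S * nsq (slice ψ S) +
        10000 * (gs.length + 1) * ((∑ S, if bit S 1 = false then pen init (slice ψ S) else 0) +
          ∑ j : Fin gs.length, ∑ S : Fin (gs.length + 2) → Bool,
            if bit S j = true ∧ bit S (j + 1) = false ∧ bit S (j + 2) = false then
              1 / 2 * nsq (slice ψ (flp S (j + 1)) - rgate r0 gs[j] (slice ψ S)) else 0)) := by
  simp only [kitOp, LinearMap.smul_apply, LinearMap.add_apply, dotProduct_smul, dotProduct_add,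
    smul_eq_mul]
  rw [kitForm_left_right h.out, kitForm_clock, kitForm_init h.init, kitForm_dot_list,
    kitForm_zipIdx]
  simp only [rej_eq]
  congr 4
  exact Finset.sum_congr rfl fun j _ => dot_propOp (h.gates _ (List.getElem_mem _)) j.2 ψ

/-- Lower bound: keep the legal terms and the clock penalty of the illegal states. -/
theorem kit_form_ge (h : WFC n gs init out) (ψ : RV (n + (gs.length + 2))) :
    100 * (gs.length + 1) * (rej out (slice ψ (clk gs.length gs.length)) +
      (nsq ψ - ∑ t ∈ Finset.range (gs.length + 1), nsq (slice ψ (clk gs.length t))) +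
      10000 * (gs.length + 1) * (pen init (slice ψ (clk gs.length 0)) +
        ∑ j : Fin gs.length, 1 / 2 * nsq (slice ψ (clk gs.length (j + 1)) -
          rgate r0 gs[j] (slice ψ (clk gs.length j))))) ≤ ψ ⬝ᵥ kitOp r0 n gs init out ψ := by
  classical
  rw [kitForm_exact h]
  have h1 : rej out (slice ψ (clk gs.length gs.length)) ≤
      ∑ S, if bit S gs.length = true then rej out (slice ψ S) else 0 := by
    refine le_trans (le_of_eq ?_) (Finset.single_le_sum
      (f := fun S => if bit S gs.length = true then rej out (slice ψ S) else 0)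
      (fun S _ => by split_ifs; exacts [rej_eq out _ ▸ nsq_nonneg _, le_rfl])
      (Finset.mem_univ (clk gs.length gs.length)))
    rw [if_pos (by rw [kitForm_bit_clk gs.length (by omega)]; simp)]
  have h2 : pen init (slice ψ (clk gs.length 0)) ≤
      ∑ S, if bit S 1 = false then pen init (slice ψ S) else 0 := by
    refine le_trans (le_of_eq ?_) (Finset.single_le_sum
      (f := fun S => if bit S 1 = false then pen init (slice ψ S) else 0)
      (fun S _ => by split_ifs; exacts [kitForm_pen_nonneg _ _, le_rfl])
      (Finset.mem_univ (clk gs.length 0)))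
    rw [if_pos (by rw [kitForm_bit_clk 0 (by omega)]; simp)]
  have h3 : ∑ j : Fin gs.length, 1 / 2 * nsq (slice ψ (clk gs.length (j + 1)) - rgate r0 gs[j] (slice ψ (clk gs.length j))) ≤
      ∑ j : Fin gs.length, ∑ S : Fin (gs.length + 2) → Bool,
        if bit S j = true ∧ bit S (j + 1) = false ∧ bit S (j + 2) = false then
          1 / 2 * nsq (slice ψ (flp S (j + 1)) - rgate r0 gs[j] (slice ψ S)) else 0 := by
    refine Finset.sum_le_sum fun j _ => ?_
    have hj := j.2
    refine le_trans (le_of_eq ?_) (Finset.single_le_sum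
      (f := fun S => if bit S j = true ∧ bit S (j + 1) = false ∧ bit S (j + 2) = false then
        1 / 2 * nsq (slice ψ (flp S (j + 1)) - rgate r0 gs[j] (slice ψ S)) else 0)
      (fun S _ => by
        split_ifs
        · exact mul_nonneg (by norm_num) (nsq_nonneg _)
        · exact le_rfl)
      (Finset.mem_univ (clk gs.length j)))
    rw [if_pos, kitForm_flp_clk]
    rw [kitForm_bit_clk j (by omega), kitForm_bit_clk j (by omega), kitForm_bit_clk j (by omega)]
    simp
  have h4 : nsq ψ - ∑ t ∈ Finset.range (gs.length + 1), nsq (slice ψ (clk gs.length t)) ≤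
      ∑ S, kitFormC gs.length S * nsq (slice ψ S) := by
    have hinj : Set.InjOn (clk gs.length) (Finset.range (gs.length + 1) : Set ℕ) := fun a ha b hb =>
      clk_injOn gs.length (Nat.le_of_lt_succ (Finset.mem_range.1 ha))
        (Nat.le_of_lt_succ (Finset.mem_range.1 hb))
    rw [nsq_slice, ← Finset.sum_image (f := fun S => nsq (slice ψ S)) hinj,
      ← Finset.sum_sdiff_eq_sub (Finset.subset_univ _)]
    refine le_trans (Finset.sum_le_sum fun S hS => ?_) (Finset.sum_le_sum_of_subset_of_nonneg
      (Finset.subset_univ _) fun S _ _ => mul_nonneg (kitFormC_nonneg gs.length S) (nsq_nonneg _))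
    refine le_mul_of_one_le_left (nsq_nonneg _) (kitFormC_ge fun t ht hSt => ?_)
    exact (Finset.mem_sdiff.1 hS).2
      (Finset.mem_image.2 ⟨t, Finset.mem_range.2 (Nat.lt_succ_of_le ht), hSt.symm⟩)
  refine mul_le_mul_of_nonneg_left (add_le_add (add_le_add h1 h4)
    (mul_le_mul_of_nonneg_left (add_le_add h2 h3) ?_)) ?_ <;> positivity

/-- Equality for states supported on legal clock states. -/
theorem kit_form_eq (h : WFC n gs init out) (ψ : RV (n + (gs.length + 2)))
    (hψ : ∀ S, (∀ t ≤ gs.length, S ≠ clk gs.length t) → slice ψ S = 0) :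
    ψ ⬝ᵥ kitOp r0 n gs init out ψ =
      100 * (gs.length + 1) * (rej out (slice ψ (clk gs.length gs.length)) +
      10000 * (gs.length + 1) * (pen init (slice ψ (clk gs.length 0)) +
        ∑ j : Fin gs.length, 1 / 2 * nsq (slice ψ (clk gs.length (j + 1)) -
          rgate r0 gs[j] (slice ψ (clk gs.length j))))) := by
  classical
  rw [kitForm_exact h]
  have h1 : (∑ S, if bit S gs.length = true then rej out (slice ψ S) else 0) =
      rej out (slice ψ (clk gs.length gs.length)) := by
    rw [Finset.sum_eq_single (clk gs.length gs.length), if_pos (by rw [kitForm_bit_clk gs.length (by omega)]; simp)]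
    · intro S _ hS
      split_ifs with hb
      · rw [hψ S fun t ht hSt => ?_]
        · simp [rej]
        · rw [hSt, kitForm_bit_clk t (by omega), decide_eq_true_eq] at hb
          exact hS (by rw [hSt, le_antisymm ht hb])
      · rfl
    · simp
  have h2 : (∑ S, if bit S 1 = false then pen init (slice ψ S) else 0) =
      pen init (slice ψ (clk gs.length 0)) := by
    rw [Finset.sum_eq_single (clk gs.length 0), if_pos (by rw [kitForm_bit_clk 0 (by omega)]; simp)]
    · intro S _ hS
      split_ifs with hb
      · rw [hψ S fun t ht hSt => ?_, kitForm_pen_zero]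
        rw [hSt, kitForm_bit_clk t (by omega), decide_eq_false_iff_not] at hb
        exact hS (by rw [hSt, show t = 0 by omega])
      · rfl
    · simp
  have h3 : ∀ j : Fin gs.length, (∑ S : Fin (gs.length + 2) → Bool,
        if bit S j = true ∧ bit S (j + 1) = false ∧ bit S (j + 2) = false then
          1 / 2 * nsq (slice ψ (flp S (j + 1)) - rgate r0 gs[j] (slice ψ S)) else 0) =
      1 / 2 * nsq (slice ψ (clk gs.length (j + 1)) - rgate r0 gs[j] (slice ψ (clk gs.length j))) := by
    intro j
    have hj := j.2
    rw [Finset.sum_eq_single (clk gs.length j), if_pos, kitForm_flp_clk]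
    · rw [kitForm_bit_clk j (by omega), kitForm_bit_clk j (by omega), kitForm_bit_clk j (by omega)]
      simp
    · intro S _ hS
      split_ifs with hb
      · obtain ⟨b1, b2, b3⟩ := hb
        rw [hψ S fun t ht hSt => ?_, hψ (flp S (j + 1)) fun t ht hSt => ?_]
        · simp [nsq]
        · have c2 := bit_flp_self S (show (j : ℕ) + 1 < gs.length + 2 by omega)
          have c3 := bit_flp_ne S (show (j : ℕ) + 1 ≠ j + 2 by omega)
          rw [hSt, kitForm_bit_clk t (by omega)] at c2 c3
          rw [b2, Bool.not_false, decide_eq_true_eq] at c2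
          rw [b3, decide_eq_false_iff_not] at c3
          rw [show t = j + 1 by omega, ← kitForm_flp_clk] at hSt
          exact hS (by rw [← flp_flp S (j + 1), hSt, flp_flp])
        · rw [hSt, kitForm_bit_clk t (by omega)] at b1 b2
          rw [decide_eq_true_eq] at b1
          rw [decide_eq_false_iff_not] at b2
          exact hS (by rw [hSt, show t = j by omega])
      · rfl
    · simp
  have h4 : ∑ S, kitFormC gs.length S * nsq (slice ψ S) = 0 := by
    refine Finset.sum_eq_zero fun S _ => ?_
    by_cases hS : ∀ t ≤ gs.length, S ≠ clk gs.length t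
    · rw [hψ S hS]
      simp [nsq]
    · push Not at hS
      obtain ⟨t, ht, rfl⟩ := hS
      rw [kitFormC_clk ht, zero_mul]
  rw [h1, h2, h4, add_zero, Finset.sum_congr rfl fun j _ => h3 j]

end Crest.Agent.R338
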