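/-
R338/KitOp: the Kitaev Hamiltonian as an operator; rounding; sizes
Skeleton by helper15 (row 338); keep the statements unchanged, add any helper lemmas you like.
-/
import Crest.Agent.R338.Pauli

set_option autoImplicit false
set_option linter.unusedSectionVars false
set_option linter.unusedVariables false
set_option linter.unusedSimpArgs false

noncomputable section

namespace Crest.Agent.R338

open scoped Matrix

variable {n : ℕ} {gs : List RG} {init : List (ℕ × Bool)} {out : ℕ}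

theorem opH_gateH {m : ℕ} (r : ℚ) (g : RG) :
    (opH (gateH r g) : Module.End ℝ (RV m)) = rgate r g := by
  have e : (opH [((cs r g.2.2.2).1, [(g.2.2.1, false)]), ((cs r g.2.2.2).2, [(g.2.2.1, true)]),
      (-1, [])] : Module.End ℝ (RV m)) =
      (cs (r : ℝ) g.2.2.2).1 • opZ g.2.2.1 + (cs (r : ℝ) g.2.2.2).2 • opX g.2.2.1 - 1 := by
    rw [cs_cast]
    simp only [opH_cons, pauli_cons, pauli_nil, opH_nil, opL, mul_one, add_zero, if_true,
      Bool.false_eq_true, if_false, Rat.cast_neg, Rat.cast_one]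
    module
  unfold gateH
  rw [opH_append, opH_mulH, opH_mulH, opH_prH, opH_prH, e, opH_cons, opH_nil]
  refine LinearMap.ext fun ψ => funext fun x => ?_
  simp only [opP, opZ, rgate, pauli_nil, Rat.cast_one, one_smul, add_zero, LinearMap.add_apply,
    Module.End.mul_apply, Module.End.one_apply, Pi.add_apply, diagOp_apply, LinearMap.sub_apply,
    LinearMap.smul_apply, Pi.sub_apply, Pi.smul_apply, smul_eq_mul, opX_apply, LinearMap.coe_mk,
    AddHom.coe_mk]
  by_cases h1 : bit x g.1 = true <;> by_cases h2 : bit x g.2.1 = true <;> simp [h1, h2]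

theorem kitOp_sum_range {M : Type} [AddCommMonoid M] (f : ℕ → M) (k : ℕ) :
    ((List.range k).map f).sum = ∑ t ∈ Finset.range k, f t := by
  induction k with
  | zero => simp
  | succ k ih => rw [List.range_succ, List.map_append, List.sum_append, ih, Finset.sum_range_succ]; simp

theorem kitOp_propH {m : ℕ} (r : ℚ) (n : ℕ) (g : RG) (j : ℕ) :
    (opH (propH r n g j) : Module.End ℝ (RV m)) = propOp r n g j := by
  unfold propH propOp
  rw [opH_mulH, opH_mulH, opH_prH, opH_prH, opH_append, opH_mulH, opH_gateH, mul_assoc]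
  congr 2
  simp only [opH_cons, pauli_cons, pauli_nil, opH_nil, opL, mul_one, add_zero, if_true,
    smul_mul_assoc, smul_sub]
  rw [sub_eq_add_neg, ← neg_smul]
  congr 2 <;> norm_num

theorem kitOp_clockH {m : ℕ} (n T : ℕ) :
    (opH (clockH n T) : Module.End ℝ (RV m)) = clockOp n T := by
  unfold clockH clockOp
  rw [opH_append, opH_append, opH_prH, opH_prH, opH_flatMap, kitOp_sum_range]
  simp only [opH_mulH, opH_prH]

theorem opH_kitH (r : ℚ) : opH (kitH r n gs init out) = kitOp r n gs init out := by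
  unfold kitH kitOp
  rw [opH_smulH, opH_append, opH_append, opH_smulH, opH_append, opH_flatMap, opH_flatMap,
    kitOp_clockH, opH_mulH, opH_prH, opH_prH]
  simp only [opH_mulH, opH_prH, kitOp_propH]
  push_cast
  rfl

theorem kitOp_nsq_opP {m : ℕ} (i : ℕ) (b : Bool) (ψ : RV m) : nsq (opP i b ψ) ≤ nsq ψ := by
  rw [nsq_eq, nsq_eq]
  refine Finset.sum_le_sum fun x _ => ?_
  simp only [opP, diagOp_apply]
  split_ifs
  · simp
  · simpa using sq_nonneg (ψ x)

theorem kitOp_nsq_opX {m : ℕ} (i : ℕ) (ψ : RV m) : nsq (opX i ψ) = nsq ψ := by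
  rw [nsq_eq, nsq_eq]
  exact sum_flp i fun x => ψ x ^ 2

theorem kitOp_cs_sub (r r' : ℝ) (θ : ℕ) :
    ((cs r θ).1 - (cs r' θ).1) ^ 2 ≤ (r - r') ^ 2 ∧ ((cs r θ).2 - (cs r' θ).2) ^ 2 ≤ (r - r') ^ 2 := by
  have := sq_nonneg (r - r')
  unfold cs
  split_ifs <;> constructor <;> simp only [sub_self] <;> nlinarith

theorem kitOp_nsq_rgate {m : ℕ} (r r' : ℝ) (g : RG) (ψ : RV m) :
    nsq (rgate r g ψ - rgate r' g ψ) ≤ 4 * (r - r') ^ 2 * nsq ψ := by
  have h2 : 4 * (r - r') ^ 2 * nsq ψ =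
      ∑ x, 2 * (r - r') ^ 2 * (ψ x ^ 2 + ψ (flp x g.2.2.1) ^ 2) := by
    rw [← Finset.mul_sum, Finset.sum_add_distrib, sum_flp g.2.2.1 fun x => ψ x ^ 2, nsq_eq]
    ring
  rw [h2, nsq_eq]
  refine Finset.sum_le_sum fun x _ => ?_
  obtain ⟨h3, h4⟩ := kitOp_cs_sub r r' g.2.2.2
  simp only [rgate, Pi.sub_apply, LinearMap.coe_mk, AddHom.coe_mk]
  split_ifs
  · have hs : sgnB (bit x g.2.2.1) ^ 2 = 1 := by unfold sgnB; split_ifs <;> norm_num
    set a := (cs r g.2.2.2).1 - (cs r' g.2.2.2).1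
    set b := (cs r g.2.2.2).2 - (cs r' g.2.2.2).2
    set u := sgnB (bit x g.2.2.1) * ψ x with hu
    set v := ψ (flp x g.2.2.1)
    have hu2 : u ^ 2 = ψ x ^ 2 := by rw [hu, mul_pow, hs, one_mul]
    have e : (cs r g.2.2.2).1 * u + (cs r g.2.2.2).2 * v - ((cs r' g.2.2.2).1 * u + (cs r' g.2.2.2).2 * v) =
        a * u + b * v := by ring
    rw [e, ← hu2]
    have i1 := mul_le_mul_of_nonneg_right h3 (sq_nonneg u)
    have i2 := mul_le_mul_of_nonneg_right h4 (sq_nonneg v)
    nlinarith [sq_nonneg (a * u - b * v)]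
  · rw [sub_self, zero_pow two_ne_zero]
    positivity

theorem kitOp_prop_perturb {m : ℕ} (r r' : ℝ) (n : ℕ) (g : RG) (j : ℕ) (ψ : RV m) :
    |ψ ⬝ᵥ propOp r n g j ψ - ψ ⬝ᵥ propOp r' n g j ψ| ≤ |r - r'| * nsq ψ := by
  rw [← dotProduct_sub]
  refine abs_dot_le_of_nsq_le (abs_nonneg _) ?_
  have e : propOp r n g j ψ - propOp r' n g j ψ = opP (n + j) true (opP (n + j + 2) false
      ((1 / 2 : ℝ) • opX (n + j + 1) (rgate r' g ψ - rgate r g ψ))) := by
    simp only [propOp, Module.End.mul_apply, LinearMap.smul_apply, LinearMap.sub_apply,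
      Module.End.one_apply]
    rw [← map_sub, ← map_sub, ← smul_sub, map_sub]
    congr 3
    abel
  rw [e]
  refine (kitOp_nsq_opP _ _ _).trans ((kitOp_nsq_opP _ _ _).trans ?_)
  rw [nsq_smul, kitOp_nsq_opX, sq_abs]
  have := kitOp_nsq_rgate r' r g ψ
  nlinarith

theorem kitOp_list_perturb {m : ℕ} {α : Type} (l : List α) (f f' : α → Module.End ℝ (RV m)) (ψ : RV m)
    (c : ℝ) (h : ∀ a, |ψ ⬝ᵥ f a ψ - ψ ⬝ᵥ f' a ψ| ≤ c) :
    |ψ ⬝ᵥ (l.map f).sum ψ - ψ ⬝ᵥ (l.map f').sum ψ| ≤ l.length * c := by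
  induction l with
  | nil => simp
  | cons a l ih =>
    simp only [List.map_cons, List.sum_cons, LinearMap.add_apply, dotProduct_add, List.length_cons]
    have := h a
    rw [abs_le] at this ih ⊢
    push_cast
    constructor <;> linarith [this.1, this.2, ih.1, ih.2]

/-- Recipe: `nsq ((rgate r g - rgate r' g) ψ) ≤ (2 |r - r'|)² nsq ψ`; projections and `opX` do not
increase `nsq`; `abs_dot_le_of_nsq_le`. -/
theorem kitOp_perturb (r r' : ℝ) (ψ : RV (n + (gs.length + 2))) :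
    |ψ ⬝ᵥ kitOp r n gs init out ψ - ψ ⬝ᵥ kitOp r' n gs init out ψ| ≤
      1000000 * (gs.length + 1) ^ 3 * |r - r'| * nsq ψ := by
  have h := kitOp_list_perturb gs.zipIdx (fun p => propOp r n p.1 p.2) (fun p => propOp r' n p.1 p.2) ψ _
    fun p => kitOp_prop_perturb r r' n p.1 p.2 ψ
  rw [List.length_zipIdx] at h
  have e : ψ ⬝ᵥ kitOp r n gs init out ψ - ψ ⬝ᵥ kitOp r' n gs init out ψ =
      1000000 * (gs.length + 1) ^ 2 * (ψ ⬝ᵥ (gs.zipIdx.map fun p => propOp r n p.1 p.2).sum ψ -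
        ψ ⬝ᵥ (gs.zipIdx.map fun p => propOp r' n p.1 p.2).sum ψ) := by
    simp only [kitOp, LinearMap.smul_apply, LinearMap.add_apply, dotProduct_smul, dotProduct_add,
      smul_eq_mul]
    ring
  rw [e, abs_mul, abs_of_nonneg (by positivity : (0 : ℝ) ≤ 1000000 * (gs.length + 1) ^ 2)]
  have h0 : 0 ≤ |r - r'| * nsq ψ := mul_nonneg (abs_nonneg _) (nsq_nonneg ψ)
  have h1 : (gs.length : ℝ) * (|r - r'| * nsq ψ) ≤ (gs.length + 1) * (|r - r'| * nsq ψ) := by
    linarith
  calc _ ≤ 1000000 * ((gs.length : ℝ) + 1) ^ 2 * ((gs.length + 1) * (|r - r'| * nsq ψ)) :=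
        mul_le_mul_of_nonneg_left (h.trans h1) (by positivity)
    _ = _ := by ring

theorem rhat_close (T : ℕ) : 1000000 * ((T : ℝ) + 1) ^ 3 * |(rhat T : ℝ) - r0| ≤ 1 / 2 := by
  obtain ⟨N, hN⟩ : ∃ N : ℕ, N = 1000000 * (T + 1) ^ 3 := ⟨_, rfl⟩
  have hN' : (N : ℝ) = 1000000 * ((T : ℝ) + 1) ^ 3 := by rw [hN]; push_cast; ring
  have hN0 : (0 : ℝ) < N := by rw [hN']; positivity
  have e1 : (rhat T : ℝ) = (Nat.sqrt (2 * N ^ 2) : ℝ) / (2 * N) := by
    unfold rhat; rw [← hN, hN']; push_cast; rfl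
  have h2 : (0 : ℝ) < Real.sqrt 2 := by positivity
  have e2 : r0 = Real.sqrt ((2 * N ^ 2 : ℕ) : ℝ) / (2 * N) := by
    push_cast
    rw [Real.sqrt_mul (by norm_num), Real.sqrt_sq hN0.le]
    unfold r0
    have := Real.sq_sqrt (show (0 : ℝ) ≤ 2 by norm_num)
    field_simp
    linarith
  have a1 : (Nat.sqrt (2 * N ^ 2) : ℝ) ≤ Real.sqrt ((2 * N ^ 2 : ℕ) : ℝ) := Real.nat_sqrt_le_real_sqrt
  have a2 : Real.sqrt ((2 * N ^ 2 : ℕ) : ℝ) ≤ Nat.sqrt (2 * N ^ 2) + 1 :=
    Real.real_sqrt_le_nat_sqrt_succ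
  rw [← hN', e1, e2, ← sub_div, abs_div, abs_of_pos (by positivity : (0 : ℝ) < 2 * N), ← mul_div_assoc,
    div_le_iff₀ (by positivity)]
  have a3 : |(Nat.sqrt (2 * N ^ 2) : ℝ) - Real.sqrt ((2 * N ^ 2 : ℕ) : ℝ)| ≤ 1 := by
    rw [abs_le]; constructor <;> linarith
  have := mul_le_mul_of_nonneg_left a3 hN0.le
  linarith

theorem abs_rhat_le (T : ℕ) : |rhat T| ≤ 1 := by
  obtain ⟨N, hN⟩ : ∃ N : ℕ, N = 1000000 * (T + 1) ^ 3 := ⟨_, rfl⟩
  have hN' : (N : ℚ) = 1000000 * ((T : ℚ) + 1) ^ 3 := by rw [hN]; push_cast; ring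
  have hN0 : (0 : ℚ) < N := by rw [hN']; positivity
  have e1 : rhat T = (Nat.sqrt (2 * N ^ 2) : ℚ) / (2 * N) := by
    unfold rhat; rw [← hN, ← hN']
  have h1 : Nat.sqrt (2 * N ^ 2) ≤ 2 * N := by
    have : 2 * N ^ 2 ≤ (2 * N) ^ 2 := by nlinarith [Nat.zero_le (N ^ 2)]
    exact (Nat.sqrt_le_sqrt this).trans (Nat.sqrt_eq' _).le
  rw [e1, abs_of_nonneg (by positivity), div_le_one (by positivity)]
  exact_mod_cast h1

/-- all strings have small coefficients, at most `k` distinct wires, all in `S` -/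
def KitGd (c : ℚ) (k : ℕ) (S : Set ℕ) (H : Ham) : Prop :=
  ∀ τ ∈ H, |τ.1| ≤ c ∧ τ.2.length ≤ k ∧ (τ.2.map Prod.fst).Nodup ∧ ∀ p ∈ τ.2, p.1 ∈ S

theorem KitGd.mono {c c' : ℚ} {k k' : ℕ} {S S' : Set ℕ} {H : Ham} (h : KitGd c k S H) (hc : c ≤ c')
    (hk : k ≤ k') (hS : S ⊆ S') : KitGd c' k' S' H := fun τ hτ =>
  ⟨(h τ hτ).1.trans hc, (h τ hτ).2.1.trans hk, (h τ hτ).2.2.1, fun p hp => hS ((h τ hτ).2.2.2 p hp)⟩

theorem KitGd.append {c : ℚ} {k : ℕ} {S : Set ℕ} {H H' : Ham} (h : KitGd c k S H)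
    (h' : KitGd c k S H') : KitGd c k S (H ++ H') := fun τ hτ =>
  (List.mem_append.1 hτ).elim (h τ) (h' τ)

theorem KitGd.flatMap {α : Type} {c : ℚ} {k : ℕ} {S : Set ℕ} {l : List α} {f : α → Ham}
    (h : ∀ a ∈ l, KitGd c k S (f a)) : KitGd c k S (l.flatMap f) := by
  intro τ hτ
  obtain ⟨a, ha, hτ⟩ := List.mem_flatMap.1 hτ
  exact h a ha τ hτ

theorem KitGd.smul {c : ℚ} {k : ℕ} {S : Set ℕ} {H : Ham} (h : KitGd c k S H) {q : ℚ} (hq : 0 ≤ q) :
    KitGd (q * c) k S (smulH q H) := by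
  intro τ hτ
  obtain ⟨τ', hτ', rfl⟩ := List.mem_map.1 hτ
  refine ⟨?_, (h τ' hτ').2⟩
  rw [abs_mul, abs_of_nonneg hq]
  exact mul_le_mul_of_nonneg_left (h τ' hτ').1 hq

theorem KitGd.mul {k k' : ℕ} {S S' : Set ℕ} {H H' : Ham} (h : KitGd 1 k S H) (h' : KitGd 1 k' S' H')
    (hd : ∀ i ∈ S, i ∉ S') : KitGd 1 (k + k') (S ∪ S') (mulH H H') := by
  intro τ hτ
  obtain ⟨a, ha, hτ⟩ := List.mem_flatMap.1 hτ
  obtain ⟨b, hb, rfl⟩ := List.mem_map.1 hτ
  obtain ⟨a1, a2, a3, a4⟩ := h a ha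
  obtain ⟨b1, b2, b3, b4⟩ := h' b hb
  refine ⟨?_, ?_, ?_, ?_⟩
  · rw [abs_mul]
    exact mul_le_one₀ a1 (abs_nonneg _) b1
  · rw [List.length_append]; omega
  · rw [List.map_append, List.nodup_append]
    refine ⟨a3, b3, fun i hi j hj hij => ?_⟩
    obtain ⟨p, hp, rfl⟩ := List.mem_map.1 hi
    obtain ⟨q, hq, rfl⟩ := List.mem_map.1 hj
    exact hd _ (a4 p hp) (hij ▸ b4 q hq)
  · intro p hp
    exact (List.mem_append.1 hp).elim (fun hp => Or.inl (a4 p hp)) fun hp => Or.inr (b4 p hp)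

theorem kitGd_prH (i : ℕ) (b : Bool) : KitGd 1 1 {i} (prH i b) := by
  intro τ hτ
  simp only [prH, List.mem_cons, List.not_mem_nil, or_false] at hτ
  rcases hτ with rfl | rfl
  · refine ⟨?_, by simp, by simp, by simp⟩
    rw [abs_le]; constructor <;> norm_num
  · refine ⟨?_, by simp, by simp, by simp⟩
    cases b <;> rw [abs_le] <;> constructor <;> norm_num

theorem kitGd_cs {r : ℚ} (hr : |r| ≤ 1) (θ : ℕ) : |(cs r θ).1| ≤ 1 ∧ |(cs r θ).2| ≤ 1 := by
  unfold cs
  split_ifs <;> simp [hr]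

theorem kitGd_gateH {r : ℚ} (hr : |r| ≤ 1) {g : RG} (hg : WFG n g) :
    KitGd 1 3 (Set.Iio n) (gateH r g) := by
  obtain ⟨h1, h2, h3, h4, h5, h6⟩ := hg
  have h : KitGd 1 1 {g.2.2.1} [((cs r g.2.2.2).1, [(g.2.2.1, false)]),
      ((cs r g.2.2.2).2, [(g.2.2.1, true)]), (-1, [])] := by
    intro τ hτ
    simp only [List.mem_cons, List.not_mem_nil, or_false] at hτ
    rcases hτ with rfl | rfl | rfl
    · exact ⟨(kitGd_cs hr _).1, by simp, by simp, by simp⟩
    · exact ⟨(kitGd_cs hr _).2, by simp, by simp, by simp⟩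
    · exact ⟨by simp, by simp, by simp, by simp⟩
  refine KitGd.append ?_ (((kitGd_prH g.1 true).mul ((kitGd_prH g.2.1 true).mul h ?_) ?_).mono
    le_rfl le_rfl ?_)
  · intro τ hτ
    simp only [List.mem_cons, List.not_mem_nil, or_false] at hτ
    subst hτ
    exact ⟨by simp, by simp, by simp, by simp⟩
  · simpa using h6
  · intro i hi
    simp only [Set.mem_union, Set.mem_singleton_iff] at hi ⊢
    omega
  · intro i hi
    simp only [Set.mem_union, Set.mem_singleton_iff] at hi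
    rcases hi with rfl | rfl | rfl <;> assumption

theorem kitGd_propH {r : ℚ} (hr : |r| ≤ 1) {g : RG} (hg : WFG n g) (j : ℕ) :
    KitGd 1 6 (Set.Iio (n + j + 3)) (propH r n g j) := by
  have h1 : KitGd 1 1 {n + j + 1} [(-1 / 2, [(n + j + 1, true)])] := by
    intro τ hτ
    simp only [List.mem_cons, List.not_mem_nil, or_false] at hτ
    subst hτ
    refine ⟨?_, by simp, by simp, by simp⟩
    rw [abs_le]; constructor <;> norm_num
  have h2 : KitGd 1 4 ({n + j + 1} ∪ Set.Iio n)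
      ([(1 / 2, [])] ++ mulH [(-1 / 2, [(n + j + 1, true)])] (gateH r g)) := by
    refine KitGd.append ?_ (h1.mul (kitGd_gateH hr hg) ?_)
    · intro τ hτ
      simp only [List.mem_cons, List.not_mem_nil, or_false] at hτ
      subst hτ
      refine ⟨?_, by simp, by simp, by simp⟩
      rw [abs_le]; constructor <;> norm_num
    · intro i hi
      simp only [Set.mem_singleton_iff, Set.mem_Iio] at hi ⊢
      omega
  refine ((kitGd_prH (n + j) true).mul ((kitGd_prH (n + j + 2) false).mul h2 ?_) ?_).mono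
    le_rfl le_rfl ?_
  all_goals
    intro i hi
    simp only [Set.mem_union, Set.mem_singleton_iff, Set.mem_Iio] at hi ⊢
    omega

theorem kitGd_pair {i j k N : ℕ} (b b' : Bool) (hij : i ≠ j) (hi : i < N) (hj : j < N) (hk : 2 ≤ k) :
    KitGd 1 k (Set.Iio N) (mulH (prH i b) (prH j b')) := by
  refine ((kitGd_prH i b).mul (kitGd_prH j b') ?_).mono le_rfl hk ?_
  all_goals
    intro i hi
    simp only [Set.mem_union, Set.mem_singleton_iff, Set.mem_Iio] at hi ⊢
    omega

theorem kitOp_length_flatMap {α β : Type} (l : List α) (f : α → List β) (k : ℕ)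
    (h : ∀ a, (f a).length = k) : (l.flatMap f).length = l.length * k := by
  induction l with
  | nil => simp
  | cons a l ih => rw [List.flatMap_cons, List.length_append, ih, h, List.length_cons]; ring

theorem kitOp_length_mulH (H H' : Ham) : (mulH H H').length = H.length * H'.length :=
  kitOp_length_flatMap _ _ _ fun _ => List.length_map _

theorem kitOp_length_kitH (r : ℚ) :
    (kitH r n gs init out).length = 12 + 60 * gs.length + 4 * init.length := by
  have h1 : ∀ i b, (prH i b).length = 2 := fun _ _ => rfl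
  have h2 : ∀ g j, (propH r n g j).length = 56 := by
    intro g j
    simp only [propH, gateH, kitOp_length_mulH, h1, List.length_append, List.length_cons,
      List.length_nil]
  have h3 : ∀ i b j b', (mulH (prH i b) (prH j b')).length = 4 := by
    intro i b j b'
    rw [kitOp_length_mulH, h1, h1]
  simp only [kitH, clockH, smulH, List.length_map, List.length_append, h1, h3]
  rw [kitOp_length_flatMap _ _ 4 fun _ => h3 _ _ _ _, kitOp_length_flatMap _ _ 4 fun _ => h3 _ _ _ _,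
    kitOp_length_flatMap _ _ 56 fun _ => h2 _ _, List.length_range, List.length_zipIdx]
  ring

/-- Recipe: lemmas on `mulH`, `smulH`, `++`, `flatMap` for the four properties "length",
"coefficients at most `c`", "every string is a `Nodup` list of wires in a given set / of length at
most `k`".  A propagation term has 56 strings with coefficients at most 1. -/
theorem kit_wf {s : ℕ} (hs : 1 ≤ s) (h : WFC n gs init out) (hn : n ≤ 2 * s + 3)
    (hT : gs.length ≤ s * (2 * s + 2)) (hi : init.length ≤ 2 * s + 2) :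
    WFH 6 (Q0 s) (n + (gs.length + 2)) (kitH (rhat gs.length) n gs init out) := by
  have hout := h.out
  have hs2 : s ≤ s ^ 2 := by nlinarith
  have hs4 : s ^ 2 ≤ s ^ 4 := Nat.pow_le_pow_right hs (by norm_num)
  have hT' : gs.length + 1 ≤ 5 * s ^ 2 := by nlinarith
  have hT0 : (0 : ℚ) ≤ gs.length := Nat.cast_nonneg _
  have hG : KitGd (100 * (gs.length + 1) * (10000 * (gs.length + 1) * 1)) 6
      (Set.Iio (n + (gs.length + 2))) (kitH (rhat gs.length) n gs init out) := by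
    refine KitGd.smul (KitGd.append (KitGd.mono (c := 1) (KitGd.append ?_ ?_) (by linarith) le_rfl
      subset_rfl) (KitGd.smul (KitGd.append ?_ ?_) (by positivity))) (by positivity)
    · exact kitGd_pair _ _ (by omega) (by omega) (by omega) (by norm_num)
    · refine KitGd.append (KitGd.append ((kitGd_prH _ _).mono le_rfl (by norm_num) ?_)
        ((kitGd_prH _ _).mono le_rfl (by norm_num) ?_)) (KitGd.flatMap fun t ht => ?_)
      · intro i hi
        simp only [Set.mem_singleton_iff, Set.mem_Iio] at hi ⊢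
        omega
      · intro i hi
        simp only [Set.mem_singleton_iff, Set.mem_Iio] at hi ⊢
        omega
      · have := List.mem_range.1 ht
        exact kitGd_pair _ _ (by omega) (by omega) (by omega) (by norm_num)
    · refine KitGd.flatMap fun p hp => ?_
      have := h.init p hp
      exact kitGd_pair _ _ (by omega) (by omega) (by omega) (by norm_num)
    · refine KitGd.flatMap fun p hp => ?_
      have h1 := List.mem_zipIdx' hp
      refine (kitGd_propH (abs_rhat_le _) (h.gates _ (List.fst_mem_of_mem_zipIdx hp)) p.2).mono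
        le_rfl le_rfl ?_
      intro i hi
      have := h1.1
      simp only [Set.mem_Iio] at hi ⊢
      omega
  have hc : (100 * (gs.length + 1) * (10000 * (gs.length + 1) * 1) : ℚ) ≤ (Q0 s : ℕ) := by
    have : 100 * (gs.length + 1) * (10000 * (gs.length + 1) * 1) ≤ Q0 s := by
      unfold Q0
      have h2 : (gs.length + 1) * (gs.length + 1) ≤ (5 * s ^ 2) * (5 * s ^ 2) := Nat.mul_le_mul hT' hT'
      nlinarith
    exact_mod_cast this
  exact
    { two := by omega
      nQ := by unfold Q0; omega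
      len := by rw [kitOp_length_kitH]; unfold Q0; omega
      coef := fun τ hτ => (hG τ hτ).1.trans hc
      loc := fun τ hτ => (hG τ hτ).2.1
      nodup := fun τ hτ => (hG τ hτ).2.2.1
      lt := fun τ hτ => (hG τ hτ).2.2.2 }

end Crest.Agent.R338
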