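/-
R338/Kit: completeness and soundness of the Kitaev Hamiltonian
Skeleton by helper15 (row 338); keep the statements unchanged, add any helper lemmas you like.
-/
import Crest.Agent.R338.KitOp
import Crest.Agent.R338.KitForm

set_option autoImplicit false
set_option linter.unusedSectionVars false
set_option linter.unusedVariables false
set_option linter.unusedSimpArgs false

noncomputable section

namespace Crest.Agent.R338

open scoped Matrix

variable {n : ℕ} {gs : List RG} {init : List (ℕ × Bool)} {out : ℕ}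

theorem Kit_nsq_opP (i : ℕ) (b : Bool) (φ : RV n) :
    nsq (opP i b φ) = ∑ x, if bit x i = b then φ x ^ 2 else 0 := by
  rw [nsq_eq]
  refine Finset.sum_congr rfl fun x _ => ?_
  simp only [opP, diagOp_apply]
  split_ifs <;> simp

theorem Kit_nsq_opP_le (i : ℕ) (b : Bool) (φ : RV n) : nsq (opP i b φ) ≤ nsq φ := by
  rw [Kit_nsq_opP, nsq_eq]
  refine Finset.sum_le_sum fun x _ => ?_
  split_ifs
  · exact le_rfl
  · positivity

theorem Kit_pen_eq (init : List (ℕ × Bool)) (φ : RV n) :
    pen init φ = ∑ x, (init.map fun p => if bit x p.1 = !p.2 then φ x ^ 2 else 0).sum := by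
  induction init with
  | nil => simp [pen]
  | cons p l ih =>
    have : pen (p :: l) φ = nsq (opP p.1 (!p.2) φ) + pen l φ := by simp [pen]
    rw [this, ih, Kit_nsq_opP, ← Finset.sum_add_distrib]
    simp only [List.map_cons, List.sum_cons]

theorem Kit_pen_nonneg (init : List (ℕ × Bool)) (φ : RV n) : 0 ≤ pen init φ := by
  unfold pen
  refine List.sum_nonneg fun a ha => ?_
  obtain ⟨p, _, rfl⟩ := List.mem_map.1 ha
  exact nsq_nonneg _

/-- Splitting off the valid part of an input. -/
theorem exists_valid_part (φ : RV n) :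
    ∃ v : RV n, ValidIn init v ∧ nsq (φ - v) ≤ pen init φ := by
  classical
  refine ⟨fun x => if ∀ p ∈ init, bit x p.1 = p.2 then φ x else 0, fun x hx => ?_, ?_⟩
  · by_contra hc
    exact hx (by simp only [if_neg hc])
  · rw [Kit_pen_eq, nsq_eq]
    refine Finset.sum_le_sum fun x _ => ?_
    have hnn : ∀ a ∈ init.map fun p => if bit x p.1 = !p.2 then φ x ^ 2 else 0, (0 : ℝ) ≤ a := by
      intro a ha
      obtain ⟨p, _, rfl⟩ := List.mem_map.1 ha
      split_ifs
      · positivity
      · exact le_rfl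
    by_cases hv : ∀ p ∈ init, bit x p.1 = p.2
    · simp only [Pi.sub_apply, if_pos hv, sub_self]
      simpa using List.sum_nonneg hnn
    · simp only [Pi.sub_apply, if_neg hv, sub_zero]
      push Not at hv
      obtain ⟨p, hp, hne⟩ := hv
      refine List.single_le_sum hnn _ (List.mem_map.2 ⟨p, hp, ?_⟩)
      rw [if_pos]
      revert hne
      cases bit x p.1 <;> cases p.2 <;> simp

theorem pen_eq_zero {φ : RV n} (h : ValidIn init φ) : pen init φ = 0 := by
  rw [Kit_pen_eq]
  refine Finset.sum_eq_zero fun x _ => List.sum_eq_zero fun a ha => ?_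
  obtain ⟨p, hp, rfl⟩ := List.mem_map.1 ha
  by_cases hx : φ x = 0
  · simp [hx]
  · rw [h x hx p hp, if_neg]
    cases p.2 <;> simp

theorem Kit_rrun_take_succ (gs : List RG) {t : ℕ} (ht : t < gs.length) (v : RV n) :
    rrun (gs.take (t + 1)) v = rgate r0 gs[t] (rrun (gs.take t) v) := by
  rw [List.take_succ_eq_append_getElem ht, rrun_append]
  rfl

theorem Kit_nsq_rgate {g : RG} (hg : WFG n g) (v : RV n) : nsq (rgate r0 g v) = nsq v :=
  (SA_rgate r0 hg).nsq_of_mul_self (rgate_mul_self hg) v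

theorem Kit_drift (h : ∀ g ∈ gs, WFG n g) (φ : ℕ → RV n) (v : RV n) (d : ℕ → ℝ)
    (hd : ∀ j (hj : j < gs.length), √(nsq (φ (j + 1) - rgate r0 gs[j] (φ j))) ≤ d j) :
    ∀ t ≤ gs.length, √(nsq (φ t - rrun (gs.take t) v)) ≤
      √(nsq (φ 0 - v)) + ∑ j ∈ Finset.range t, d j := by
  intro t
  induction t with
  | zero => intro _; simp [rrun]
  | succ t ih =>
    intro ht
    have ht' : t < gs.length := ht
    have h1 := ih ht'.le
    have h2 : φ (t + 1) - rrun (gs.take (t + 1)) v =
        (φ (t + 1) - rgate r0 gs[t] (φ t)) + rgate r0 gs[t] (φ t - rrun (gs.take t) v) := by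
      rw [Kit_rrun_take_succ gs ht', map_sub]
      abel
    have h3 := sqrt_nsq_add_le (φ (t + 1) - rgate r0 gs[t] (φ t))
      (rgate r0 gs[t] (φ t - rrun (gs.take t) v))
    rw [Kit_nsq_rgate (h _ (List.getElem_mem ht'))] at h3
    rw [h2, Finset.sum_range_succ]
    have h4 := hd t ht'
    linarith

theorem Kit_sum_clk_le (T : ℕ) (ψ : RV (n + (T + 2))) :
    ∑ t ∈ Finset.range (T + 1), nsq (slice ψ (clk T t)) ≤ nsq ψ := by
  classical
  rw [nsq_slice ψ, ← Finset.sum_image (s := Finset.range (T + 1)) (g := clk T)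
    (f := fun S => nsq (slice ψ S))]
  · exact Finset.sum_le_sum_of_subset_of_nonneg (Finset.subset_univ _)
      fun S _ _ => nsq_nonneg _
  · intro a ha b hb hab
    refine clk_injOn T ?_ ?_ hab
    · simpa [Nat.lt_succ_iff] using ha
    · simpa [Nat.lt_succ_iff] using hb

/-- The history estimate.  Recipe (`T = gs.length`, `J = 10⁴ (T + 1)`, `‖·‖ = √nsq`): let `E` be
the right-hand bracket, `φ 0 = v + w` (`exists_valid_part`), `‖w‖ ≤ √(E / J)`.  By induction on `t`
and `nsq_rrun`, `‖φ t - rrun (gs.take t) (φ 0)‖ ≤ ∑ j < t, ‖φ (j+1) - U j (φ j)‖ ≤ √(2 T E / J)`.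
With `η = √(2T/J) + √(1/J) ≤ 1/50`: `√E ≥ ‖P φ_T‖ ≥ √(2/3) ‖v‖ - η √E` and `‖φ t‖ ≤ ‖v‖ + η √E`,
hence `‖φ t‖ ≤ (√(3/2) (1 + η) + η) √E ≤ 1.27 √E` (the cruder `η ≤ 1/40` gives `1.29`, still enough). -/
theorem history_bound (h : WFC n gs init out) (hN : RNo n gs init out) (φ : ℕ → RV n) :
    3 / 5 * ∑ t ∈ Finset.range (gs.length + 1), nsq (φ t) ≤
      (gs.length + 1) * (rej out (φ gs.length) + 10000 * (gs.length + 1) * (pen init (φ 0) +
        ∑ j : Fin gs.length, 1 / 2 * nsq (φ (j + 1) - rgate r0 gs[j] (φ j)))) := by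
  classical
  set T := gs.length with hT
  set D : ℝ := ∑ j : Fin gs.length, 1 / 2 * nsq (φ (j + 1) - rgate r0 gs[j] (φ j)) with hD
  set E : ℝ := rej out (φ T) + 10000 * (T + 1) * (pen init (φ 0) + D) with hE
  have hD0 : 0 ≤ D := Finset.sum_nonneg fun j _ => mul_nonneg (by norm_num) (nsq_nonneg _)
  have hp0 : 0 ≤ pen init (φ 0) := Kit_pen_nonneg _ _
  have hr0 : 0 ≤ rej out (φ T) := by rw [rej_eq]; exact nsq_nonneg _
  have hT0 : (0 : ℝ) ≤ T := Nat.cast_nonneg _
  have hTD : 0 ≤ (T : ℝ) * D := mul_nonneg hT0 hD0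
  have hTp : 0 ≤ (T : ℝ) * pen init (φ 0) := mul_nonneg hT0 hp0
  have hE0 : 0 ≤ E := by positivity
  obtain ⟨e, he0, he⟩ : ∃ e : ℝ, 0 ≤ e ∧ e ^ 2 = E := ⟨√E, Real.sqrt_nonneg _, Real.sq_sqrt hE0⟩
  obtain ⟨v, hv, hw⟩ := exists_valid_part (init := init) (φ 0)
  -- the size of the invalid part
  have hw' : √(nsq (φ 0 - v)) ≤ e / 100 := by
    refine Real.sqrt_le_iff.2 ⟨by positivity, ?_⟩
    nlinarith
  -- the drifts
  let d : ℕ → ℝ := fun j =>
    if hj : j < gs.length then √(nsq (φ (j + 1) - rgate r0 gs[j] (φ j))) else 0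
  have hd0 : ∀ j, 0 ≤ d j := by
    intro j
    simp only [d]
    split_ifs
    · exact Real.sqrt_nonneg _
    · exact le_rfl
  have hdsq : ∑ j ∈ Finset.range T, d j ^ 2 = 2 * D := by
    rw [hD, Finset.mul_sum, Finset.sum_range]
    refine Finset.sum_congr rfl fun j _ => ?_
    have hj : (j : ℕ) < gs.length := j.2
    simp only [d, dif_pos hj]
    rw [Real.sq_sqrt (nsq_nonneg _)]
    simp
  have hdsum : ∑ j ∈ Finset.range T, d j ≤ e / 70 := by
    have h1 : (∑ j ∈ Finset.range T, d j) ^ 2 ≤ T * (2 * D) := by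
      have := sq_sum_le_card_mul_sum_sq (s := Finset.range T) (f := d)
      rwa [Finset.card_range, hdsq] at this
    refine le_of_sq_le_sq ?_ (by positivity)
    nlinarith
  have hdr : ∀ t ≤ T, √(nsq (φ t - rrun (gs.take t) v)) ≤ e / 100 + e / 70 := by
    intro t ht
    have h1 := Kit_drift h.gates φ v d (fun j hj => by simp only [d, dif_pos hj]; exact le_rfl) t ht
    have h2 : ∑ j ∈ Finset.range t, d j ≤ ∑ j ∈ Finset.range T, d j :=
      Finset.sum_le_sum_of_subset_of_nonneg (Finset.range_mono ht) fun j _ _ => hd0 j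
    linarith
  -- the size of the valid part
  have hva : √(nsq v) ≤ 1.26 * e := by
    have h1 := hN v hv
    have h2 := hdr T le_rfl
    rw [hT, List.take_length] at h2
    have h3 : opP out false (rrun gs v) =
        opP out false (φ T) + opP out false (rrun gs v - φ T) := by
      rw [map_sub]; abel
    have h4 := sqrt_nsq_add_le (opP out false (φ T)) (opP out false (rrun gs v - φ T))
    rw [← h3, ← rej_eq, ← rej_eq] at h4
    have h5 : √(nsq (opP out false (rrun gs v - φ T))) ≤ √(nsq (φ T - rrun gs v)) := by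
      refine Real.sqrt_le_sqrt ((Kit_nsq_opP_le _ _ _).trans (le_of_eq ?_))
      have : rrun gs v - φ T = (-1 : ℝ) • (φ T - rrun gs v) := by simp
      rw [this, nsq_smul]; ring
    have h6 : √(rej out (φ T)) ≤ e := by
      refine Real.sqrt_le_iff.2 ⟨he0, ?_⟩
      nlinarith
    have h7 : 0.816 * √(nsq v) ≤ √(rej out (rrun gs v)) := by
      refine Real.le_sqrt_of_sq_le ?_
      rw [mul_pow, Real.sq_sqrt (nsq_nonneg _)]
      have := nsq_nonneg v
      linarith
    rw [← hT] at h2
    linarith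
  have hφ : ∀ t ∈ Finset.range (T + 1), nsq (φ t) ≤ 5 / 3 * E := by
    intro t ht
    have ht' : t ≤ T := by simpa [Nat.lt_succ_iff] using ht
    have h1 := hdr t ht'
    have h2 := sqrt_nsq_add_le (φ t - rrun (gs.take t) v) (rrun (gs.take t) v)
    rw [sub_add_cancel, nsq_rrun (fun g hg => h.gates g (List.mem_of_mem_take hg))] at h2
    have h3 : √(nsq (φ t)) ≤ 1.29 * e := by linarith
    have h4 := (Real.sqrt_le_iff.1 h3).2
    nlinarith
  have hsum := Finset.sum_le_card_nsmul _ _ _ hφ
  rw [Finset.card_range, nsmul_eq_mul] at hsum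
  push_cast at hsum
  linarith

/-- Recipe: history state (`exists_glue` with `rrun (gs.take t) ψ` at `clk T t`, zero elsewhere),
`kit_form_eq`, `opH_kitH`, `kitOp_perturb`, `rhat_close`. -/
theorem kit_yes (h : WFC n gs init out) (hY : RYes n gs init out) :
    Yes (n + (gs.length + 2)) (kitH (rhat gs.length) n gs init out) 35 := by
  classical
  obtain ⟨v, hv0, hv, hr⟩ := hY
  let f : (Fin (gs.length + 2) → Bool) → RV n := fun S =>
    if hS : ∃ t ≤ gs.length, S = clk gs.length t then rrun (gs.take hS.choose) v else 0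
  have hf : ∀ t ≤ gs.length, f (clk gs.length t) = rrun (gs.take t) v := by
    intro t ht
    have hS : ∃ t' ≤ gs.length, clk gs.length t = clk gs.length t' := ⟨t, ht, rfl⟩
    simp only [f, dif_pos hS]
    have := clk_injOn gs.length (x₁ := t) (x₂ := hS.choose) ht hS.choose_spec.1 hS.choose_spec.2
    rw [← this]
  obtain ⟨ψ, hψ⟩ := exists_glue f
  have hle := Kit_sum_clk_le gs.length ψ
  have hsum : ∑ t ∈ Finset.range (gs.length + 1), nsq (slice ψ (clk gs.length t)) =
      (gs.length + 1) * nsq v := by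
    rw [Finset.sum_congr rfl (g := fun _ => nsq v)]
    · simp
    · intro t ht
      have ht' : t ≤ gs.length := by simpa [Nat.lt_succ_iff] using ht
      rw [hψ, hf t ht', nsq_rrun (fun g hg => h.gates g (List.mem_of_mem_take hg))]
  rw [hsum] at hle
  have hvp := nsq_pos hv0
  have hT0 : (0 : ℝ) ≤ gs.length := Nat.cast_nonneg _
  refine ⟨ψ, fun h0 => ?_, ?_⟩
  · have : nsq ψ = 0 := by rw [h0]; simp [nsq]
    nlinarith
  · have h1 := kit_form_eq h ψ (fun S hS => by
      rw [hψ]
      simp only [f]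
      rw [dif_neg]
      rintro ⟨t, ht, hSt⟩
      exact hS t ht hSt)
    have h2 : ∑ j : Fin gs.length, 1 / 2 * nsq (slice ψ (clk gs.length (j + 1)) -
          rgate r0 gs[j] (slice ψ (clk gs.length j))) = 0 := by
      refine Finset.sum_eq_zero fun j _ => ?_
      rw [hψ, hψ, hf _ j.2, hf _ j.2.le, Kit_rrun_take_succ gs j.2]
      simp [nsq]
    have h3 : pen init (slice ψ (clk gs.length 0)) = 0 := by
      rw [hψ, hf 0 (Nat.zero_le _)]
      exact pen_eq_zero hv
    have h4 : slice ψ (clk gs.length gs.length) = rrun gs v := by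
      rw [hψ, hf _ le_rfl, List.take_length]
    rw [h2, h3, h4] at h1
    have h5 := kitOp_perturb (init := init) (out := out) (rhat gs.length) r0 ψ
    have h6 := rhat_close gs.length
    have hn := nsq_nonneg ψ
    have h7 := (abs_le.1 (h5.trans (mul_le_mul_of_nonneg_right h6 hn))).2
    unfold form
    rw [opH_kitH]
    have h8 : (gs.length + 1 : ℝ) * rej out (rrun gs v) ≤ (gs.length + 1) * (1 / 3 * nsq v) :=
      mul_le_mul_of_nonneg_left hr (by positivity)
    nlinarith

/-- Recipe: `kit_form_ge`, `history_bound`, `kitOp_perturb`, `rhat_close`. -/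
theorem kit_no (h : WFC n gs init out) (hN : RNo n gs init out) :
    No (n + (gs.length + 2)) (kitH (rhat gs.length) n gs init out) 59 := by
  intro ψ
  have h1 := kit_form_ge h ψ
  have h2 := history_bound h hN fun t => slice ψ (clk gs.length t)
  have h3 := Kit_sum_clk_le gs.length ψ
  have h5 := kitOp_perturb (init := init) (out := out) (rhat gs.length) r0 ψ
  have h6 := rhat_close gs.length
  have hn := nsq_nonneg ψ
  have h7 := (abs_le.1 (h5.trans (mul_le_mul_of_nonneg_right h6 hn))).1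
  unfold form
  rw [opH_kitH]
  have hT0 : (0 : ℝ) ≤ gs.length := Nat.cast_nonneg _
  have h8 := mul_nonneg hT0 (sub_nonneg.2 h3)
  nlinarith

end Crest.Agent.R338
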