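/-
R338/TrineA: qubits as zero-sum vectors on three points
Skeleton by helper15 (row 338); keep the statements unchanged, add any helper lemmas you like.
-/
import Crest.Agent.R338.Pauli

set_option autoImplicit false
set_option linter.unusedSectionVars false
set_option linter.unusedVariables false
set_option linter.unusedSimpArgs false

noncomputable section

namespace Crest.Agent.R338

open scoped Matrix

variable {n : ℕ}

/-- The orthonormal basis `(2,-1,-1)/√6`, `(0,1,-1)/√2` of the zero-sum vectors. -/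
def xi (b : Bool) (r : Fin 3) : ℝ :=
  if b then ![0, 1, -1] r / √2 else ![2, -1, -1] r / √6

/-- The tensor power of the isometry. -/
def iso (ψ : RV n) : (Fin n → Fin 3) → ℝ := fun y => ∑ x, (∏ j, xi (x j) (y j)) * ψ x

/-- The exact weights of a letter. -/
def lval (p : Letter) (r : Fin 3) : ℝ := if p.2 then ![0, -√3, √3] r else ![2, -1, -1] r

theorem TrineA_sum_xi (b : Bool) : ∑ r, xi b r = 0 := by
  cases b <;> simp [xi, Fin.sum_univ_three] <;> ring

theorem TrineA_sq2 : √2 * √2 = (2 : ℝ) := Real.mul_self_sqrt (by norm_num)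
theorem TrineA_sq3 : √3 * √3 = (3 : ℝ) := Real.mul_self_sqrt (by norm_num)
theorem TrineA_sq6 : √6 * √6 = (6 : ℝ) := Real.mul_self_sqrt (by norm_num)
theorem TrineA_s6 : √6 = √2 * √3 := by
  rw [← Real.sqrt_mul (by norm_num)]; norm_num

theorem TrineA_xi_mul (b b' : Bool) (r r' : Fin 3) : xi b r * xi b' r' =
    (if b then ![0, 1, -1] r else ![2, -1, -1] r) * (if b' then ![0, 1, -1] r' else ![2, -1, -1] r') *
      (if b then (if b' then 1 / 2 else √3 / 6) else (if b' then √3 / 6 else 1 / 6)) := by
  have h2 : (√2 : ℝ) ≠ 0 := by positivity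
  have h3 : (√3 : ℝ) ≠ 0 := by positivity
  have e1 : (√2 * √2 : ℝ)⁻¹ = 1 / 2 := by rw [TrineA_sq2]; norm_num
  have e2 : (√6 * √6 : ℝ)⁻¹ = 1 / 6 := by rw [TrineA_sq6]; norm_num
  have e3 : (√2 * √6 : ℝ)⁻¹ = √3 / 6 := by
    rw [TrineA_s6, ← mul_assoc, TrineA_sq2]
    field_simp
    nlinarith [TrineA_sq3]
  have e4 : (√6 * √2 : ℝ)⁻¹ = √3 / 6 := by rw [mul_comm]; exact e3
  cases b <;> cases b' <;>
    simp only [xi, if_true, if_false, Bool.false_eq_true, div_mul_div_comm]
  · rw [div_eq_mul_inv, e2]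
  · rw [div_eq_mul_inv, e4]
  · rw [div_eq_mul_inv, e3]
  · rw [div_eq_mul_inv, e1]

theorem TrineA_one (b b' : Bool) : ∑ r, (1 : ℝ) * (xi b r * xi b' r) = if b = b' then 1 else 0 := by
  simp only [TrineA_xi_mul]
  cases b <;> cases b' <;> simp [Fin.sum_univ_three] <;> ring

theorem TrineA_Z (i : ℕ) (b b' : Bool) :
    ∑ r, lval (i, false) r * (xi b r * xi b' r) = sgnB b * if b = b' then 1 else 0 := by
  simp only [TrineA_xi_mul]
  cases b <;> cases b' <;> simp [Fin.sum_univ_three, lval, sgnB] <;> ring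

theorem TrineA_X (i : ℕ) (b b' : Bool) :
    ∑ r, lval (i, true) r * (xi b r * xi b' r) = if (!b) = b' then 1 else 0 := by
  simp only [TrineA_xi_mul]
  cases b <;> cases b' <;> simp [Fin.sum_univ_three, lval] <;> nlinarith [TrineA_sq3]

theorem TrineA_proj (r r' : Fin 3) :
    ∑ b, xi b r * xi b r' = (if r = r' then 1 else 0) + (-1 / 3) := by
  simp only [TrineA_xi_mul]
  fin_cases r <;> fin_cases r' <;> simp <;> norm_num

theorem TrineA_prod_delta {α : Type} [DecidableEq α] (x x' : Fin n → α) :
    (∏ j, if x j = x' j then (1 : ℝ) else 0) = if x = x' then 1 else 0 := by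
  rw [Finset.prod_boole]
  simp [funext_iff]

theorem zeroSum_iso (ψ : RV n) : ZeroSum (iso ψ) := by
  intro y i
  simp only [iso]
  rw [Finset.sum_comm]
  refine Finset.sum_eq_zero fun x _ => ?_
  rw [← Finset.sum_mul]
  have : ∀ r, ∏ j, xi (x j) (Function.update y i r j) =
      xi (x i) r * ∏ j ∈ Finset.univ.erase i, xi (x j) (y j) := by
    intro r
    rw [← Finset.mul_prod_erase _ _ (Finset.mem_univ i), Function.update_self]
    congr 1
    refine Finset.prod_congr rfl fun j hj => ?_
    rw [Function.update_of_ne (Finset.ne_of_mem_erase hj)]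
  simp only [this]
  rw [← Finset.sum_mul, TrineA_sum_xi, zero_mul, zero_mul]

/-- The matrix elements of a product of one-site diagonal operators factorise
(`Finset.prod_univ_sum`). -/
theorem sum_iso_mul (d : Fin n → Fin 3 → ℝ) (φ ψ : RV n) :
    ∑ y, (∏ j, d j (y j)) * (iso φ y * iso ψ y) =
      ∑ x, ∑ x', (∏ j, ∑ r, d j r * (xi (x j) r * xi (x' j) r)) * (φ x * ψ x') := by
  have h1 : ∀ x x' : Fin n → Bool, (∏ j, ∑ r, d j r * (xi (x j) r * xi (x' j) r)) =
      ∑ y : Fin n → Fin 3, ∏ j, d j (y j) * (xi (x j) (y j) * xi (x' j) (y j)) := by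
    intro x x'
    rw [Finset.prod_univ_sum, Fintype.piFinset_univ]
  simp only [h1, iso, Finset.sum_mul_sum]
  simp only [Finset.mul_sum, Finset.sum_mul]
  rw [Finset.sum_comm]
  refine Finset.sum_congr rfl fun x _ => ?_
  rw [Finset.sum_comm]
  refine Finset.sum_congr rfl fun x' _ => Finset.sum_congr rfl fun y _ => ?_
  simp only [Finset.prod_mul_distrib]
  ring

theorem nsq_iso (ψ : RV n) : nsq (iso ψ) = nsq ψ := by
  have h := sum_iso_mul (fun _ _ => (1 : ℝ)) ψ ψ
  simp only [TrineA_one, TrineA_prod_delta] at h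
  simp only [Finset.prod_const_one, one_mul, ite_mul, zero_mul, Finset.sum_ite_eq,
    Finset.mem_univ, if_true] at h
  exact h

theorem TrineA_sum_update (g : (Fin n → Fin 3) → ℝ) (i : Fin n) :
    ∑ y, ∑ r, g (Function.update y i r) = 3 * ∑ y, g y := by
  have hinv : Function.Involutive
      (fun p : (Fin n → Fin 3) × Fin 3 => (Function.update p.1 i p.2, p.1 i)) := by
    rintro ⟨y, r⟩
    simp
  have h := Equiv.sum_comp hinv.toPerm (fun p : (Fin n → Fin 3) × Fin 3 => g p.1)
  rw [Fintype.sum_prod_type, Fintype.sum_prod_type] at h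
  simp only [Function.Involutive.coe_toPerm] at h
  rw [h, Finset.mul_sum]
  simp

theorem TrineA_sum_zero {f : (Fin n → Fin 3) → ℝ} (hf : ZeroSum f) (w : (Fin n → Fin 3) → ℝ)
    (i : Fin n) (hw : ∀ y r, w (Function.update y i r) = w y) : ∑ y, w y * f y = 0 := by
  have h := TrineA_sum_update (fun y => w y * f y) i
  simp only [hw, ← Finset.mul_sum, hf _ i, mul_zero, Finset.sum_const_zero] at h
  linarith

/-- Recipe: `ψ x = ∑ y, (∏ j, xi (x j) (y j)) * f y`; `∑ b, xi b r * xi b r' = δ r r' - 1/3`, and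
`∑ y', ∏ j, (δ (y j) (y' j) - 1/3) * f y' = f y` for zero-sum `f` (induction over the set of
coordinates on which `δ` has been replaced by `δ - 1/3`). -/
theorem exists_iso {f : (Fin n → Fin 3) → ℝ} (hf : ZeroSum f) : ∃ ψ : RV n, f = iso ψ := by
  refine ⟨fun x => ∑ y, (∏ j, xi (x j) (y j)) * f y, funext fun y => ?_⟩
  have h1 : ∀ y' : Fin n → Fin 3, ∑ x : Fin n → Bool, (∏ j, xi (x j) (y j)) * ∏ j, xi (x j) (y' j) =
      ∏ j, ((if y j = y' j then (1 : ℝ) else 0) + (-1 / 3)) := by
    intro y'
    simp only [← TrineA_proj]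
    rw [Finset.prod_univ_sum, Fintype.piFinset_univ]
    simp only [Finset.prod_mul_distrib]
  have h2 : iso (fun x => ∑ y, (∏ j, xi (x j) (y j)) * f y) y =
      ∑ y', (∏ j, ((if y j = y' j then (1 : ℝ) else 0) + (-1 / 3))) * f y' := by
    simp only [iso, ← h1, Finset.mul_sum, Finset.sum_mul]
    rw [Finset.sum_comm]
    exact Finset.sum_congr rfl fun _ _ => Finset.sum_congr rfl fun _ _ => by ring
  rw [h2]
  simp only [Finset.prod_add, Finset.sum_mul]
  rw [Finset.sum_comm, Finset.sum_eq_single Finset.univ]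
  · simp [TrineA_prod_delta]
  · intro t _ ht
    obtain ⟨i, hi⟩ : ∃ i, i ∉ t := by
      by_contra h
      push Not at h
      exact ht (Finset.eq_univ_of_forall h)
    refine TrineA_sum_zero hf _ i fun y' r => ?_
    congr 1
    refine Finset.prod_congr rfl fun j hj => ?_
    rw [Function.update_of_ne (by rintro rfl; exact hi hj)]
  · intro h
    exact absurd (Finset.mem_powerset_self _) h

/-- The value of a letter on a configuration. -/
def lvalAt (y : Fin n → Fin 3) (p : Letter) : ℝ := if h : p.1 < n then lval p (y ⟨p.1, h⟩) else 1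

theorem TrineA_kernel {L : List Letter} (hn : (L.map Prod.fst).Nodup) (hl : ∀ p ∈ L, p.1 < n)
    (ψ : RV n) : ∃ d : Fin n → Fin 3 → ℝ,
      (∀ y, (L.map (lvalAt y)).prod = ∏ j, d j (y j)) ∧
      (∀ j : Fin n, (j : ℕ) ∉ L.map Prod.fst → d j = fun _ => 1) ∧
      ∀ x, ∑ x', (∏ j, ∑ r, d j r * (xi (x j) r * xi (x' j) r)) * ψ x' = pauli L ψ x := by
  induction L with
  | nil =>
    refine ⟨fun _ _ => 1, by simp, by simp, fun x => ?_⟩
    simp only [TrineA_one, TrineA_prod_delta]
    simp
  | cons p L ih =>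
    rw [List.map_cons, List.nodup_cons] at hn
    obtain ⟨d, h1, h2, h3⟩ := ih hn.2 fun q hq => hl q (List.mem_cons_of_mem _ hq)
    have hp : p.1 < n := hl p List.mem_cons_self
    set i : Fin n := ⟨p.1, hp⟩ with hi
    have hdi : d i = fun _ => 1 := h2 i hn.1
    have split : ∀ (F : Fin n → (Fin 3 → ℝ) → ℝ) (e : Fin 3 → ℝ),
        ∏ j, F j (Function.update d i e j) = F i e * ∏ j ∈ Finset.univ.erase i, F j (d j) := by
      intro F e
      rw [← Finset.mul_prod_erase _ _ (Finset.mem_univ i), Function.update_self]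
      congr 1
      refine Finset.prod_congr rfl fun j hj => ?_
      rw [Function.update_of_ne (Finset.ne_of_mem_erase hj)]
    have split1 : ∀ (F : Fin n → (Fin 3 → ℝ) → ℝ),
        ∏ j, F j (d j) = F i (fun _ => 1) * ∏ j ∈ Finset.univ.erase i, F j (d j) := by
      intro F
      rw [← Finset.mul_prod_erase _ _ (Finset.mem_univ i), hdi]
    refine ⟨Function.update d i (lval p), fun y => ?_, fun j hj => ?_, fun x => ?_⟩
    · rw [List.map_cons, List.prod_cons, h1, split (fun j e => e (y j)),
        split1 (fun j e => e (y j))]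
      simp [lvalAt, hp, hi]
    · rw [List.map_cons, List.mem_cons, not_or] at hj
      rw [Function.update_of_ne (by rintro rfl; exact hj.1 rfl)]
      exact h2 j hj.2
    · have hc : (pauli (p :: L) : Module.End ℝ (RV n)) = opL p * pauli L := by
        simp [pauli]
      rw [hc, Module.End.mul_apply]
      obtain ⟨a, b⟩ := p
      cases b
      · have : opL (a, false) (pauli L ψ) x = sgnB (x i) * pauli L ψ x := by
          simp [opL, opZ, bit, hi, show a < n from hp]
        rw [this, ← h3, Finset.mul_sum]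
        refine Finset.sum_congr rfl fun x' _ => ?_
        rw [split (fun j e => ∑ r, e r * (xi (x j) r * xi (x' j) r)),
          split1 (fun j e => ∑ r, e r * (xi (x j) r * xi (x' j) r)), TrineA_Z, TrineA_one]
        ring
      · have : opL (a, true) (pauli L ψ) x = pauli L ψ (flp x a) := by
          simp [opL]
        rw [this, ← h3]
        refine Finset.sum_congr rfl fun x' _ => ?_
        rw [split (fun j e => ∑ r, e r * (xi (x j) r * xi (x' j) r)),
          split1 (fun j e => ∑ r, e r * (xi (flp x a j) r * xi (x' j) r)), TrineA_X, TrineA_one]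
        have e1 : flp x a i = !x i := by simp [flp, hi]
        rw [e1]
        congr 2
        refine Finset.prod_congr rfl fun j hj => ?_
        have e2 : flp x a j = x j := by
          have : (j : ℕ) ≠ a := fun h => Finset.ne_of_mem_erase hj (Fin.ext h)
          simp [flp, this]
        rw [e2]

/-- Recipe: `sum_iso_mul` with `d j` the weights of the letter on wire `j` (or `1`); the one-site
matrices are `Z`, `X`, `1`.  It suffices for the sequel to treat strings of length at most two, by
cases. -/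
theorem sum_lval_iso {L : List Letter} (h2 : L.length ≤ 2) (hn : (L.map Prod.fst).Nodup)
    (hl : ∀ p ∈ L, p.1 < n) (ψ : RV n) :
    ∑ y, (L.map (lvalAt y)).prod * iso ψ y ^ 2 = ψ ⬝ᵥ pauli L ψ := by
  obtain ⟨d, h1, -, h3⟩ := TrineA_kernel hn hl ψ
  simp only [h1, sq, sum_iso_mul, dotProduct, ← h3, Finset.mul_sum]
  exact Finset.sum_congr rfl fun _ _ => Finset.sum_congr rfl fun _ _ => by ring

end Crest.Agent.R338
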