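/-
R338/Trine: from 2-local Hamiltonians to the trine problem
Skeleton by helper15 (row 338); keep the statements unchanged, add any helper lemmas you like.
-/
import Crest.Agent.R338.TrineA

set_option autoImplicit false
set_option linter.unusedSectionVars false
set_option linter.unusedVariables false
set_option linter.unusedSimpArgs false

noncomputable section

namespace Crest.Agent.R338

open scoped Matrix

variable {Q n : ℕ} {H : Ham}

theorem vtab_symm (s : ℚ) (H : Ham) (A B : ℕ) : vtab s H A B = vtab s H B A := by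
  unfold vtab
  congr 1
  refine List.map_congr_left fun τ _ => ?_
  rw [add_comm]

theorem ktab_symm (Q : ℕ) (H : Ham) (A B : ℕ) : ktab Q H A B = ktab Q H B A := by
  unfold ktab
  rw [vtab_symm]

theorem shat_close (hQ : 1 ≤ Q) : (shat Q : ℝ) ≤ √3 ∧ √3 - shat Q ≤ 1 / (8 * (Q : ℝ) ^ 4) := by
  have hQ' : (1 : ℝ) ≤ Q := by exact_mod_cast hQ
  have hm : (0 : ℝ) < 8 * (Q : ℝ) ^ 4 := by positivity
  set t := Nat.sqrt (3 * (8 * Q ^ 4) ^ 2) with ht
  have h1 : (t : ℝ) ^ 2 ≤ 3 * (8 * (Q : ℝ) ^ 4) ^ 2 := by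
    have := Nat.sqrt_le' (3 * (8 * Q ^ 4) ^ 2)
    exact_mod_cast this
  have h2 : 3 * (8 * (Q : ℝ) ^ 4) ^ 2 ≤ ((t : ℝ) + 1) ^ 2 := by
    have := (Nat.lt_succ_sqrt' (3 * (8 * Q ^ 4) ^ 2)).le
    exact_mod_cast this
  have hs : (shat Q : ℝ) = t / (8 * (Q : ℝ) ^ 4) := by
    unfold shat
    push_cast
    rfl
  rw [hs]
  constructor
  · apply Real.le_sqrt_of_sq_le
    rw [div_pow, div_le_iff₀ (by positivity)]
    exact h1
  · have h3 : √3 ≤ ((t : ℝ) + 1) / (8 * (Q : ℝ) ^ 4) := by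
      refine Real.sqrt_le_iff.2 ⟨by positivity, ?_⟩
      rw [div_pow, le_div_iff₀ (by positivity)]
      exact h2
    rw [add_div] at h3
    linarith

theorem trine_Q_pos (h : WFH 2 Q n H) : 1 ≤ Q := by
  have := h.two
  have := h.nQ
  omega

theorem trine_shat_nonneg (Q : ℕ) : 0 ≤ shat Q := by
  unfold shat
  positivity

theorem trine_sqrt3_le : √3 ≤ 2 := Real.sqrt_le_iff.2 ⟨by norm_num, by norm_num⟩

theorem trine_shat_le (hQ : 1 ≤ Q) : shat Q ≤ 2 := by
  have h := (shat_close hQ).1.trans trine_sqrt3_le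
  exact_mod_cast h

theorem trine_abs_lv {s : ℚ} (h0 : 0 ≤ s) (h2 : s ≤ 2) (o : Option Letter) (α : ℕ) : |lv s o α| ≤ 2 := by
  rcases o with _ | p
  · simp only [lv, Option.elim]
    rw [abs_le]
    constructor <;> norm_num
  · simp only [lv, Option.elim]
    split_ifs <;> rw [abs_le] <;> constructor <;> linarith

/-- the two wires of a term are distinct wires -/
theorem trine_wires (h : WFH 2 Q n H) {τ : Term} (hτ : τ ∈ H) :
    w1 τ < n ∧ w2 τ < n ∧ w1 τ ≠ w2 τ := by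
  have h2 := h.two
  have hl := h.loc τ hτ
  have hn := h.nodup τ hτ
  have hlt := h.lt τ hτ
  obtain ⟨c, L⟩ := τ
  rcases L with _ | ⟨p, _ | ⟨q, _ | ⟨r, L⟩⟩⟩
  · simp [w1, w2]
    omega
  · have := hlt p (by simp)
    by_cases hp : p.1 = 0
    · simp [w1, w2, hp]
      omega
    · simp [w1, w2, hp]
      omega
  · have h3 := hlt p (by simp)
    have h4 := hlt q (by simp)
    simp at hn
    simp [w1, w2, h3, h4, hn]
  · simp at hl

theorem trine_abs_sum_le {α : Type} (l : List α) (f : α → ℝ) {c : ℝ} (h : ∀ a ∈ l, |f a| ≤ c) :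
    |(l.map f).sum| ≤ l.length * c := by
  induction l with
  | nil => simp
  | cons a l ih =>
    rw [List.map_cons, List.sum_cons, List.length_cons]
    have h1 := h a (by simp)
    have h2 := ih fun b hb => h b (by simp [hb])
    have h3 := abs_add_le (f a) (l.map f).sum
    push_cast
    linarith

theorem trine_abs_sum_leQ {α : Type} (l : List α) (f : α → ℚ) {c : ℚ} (h : ∀ a ∈ l, |f a| ≤ c) :
    |(l.map f).sum| ≤ l.length * c := by
  induction l with
  | nil => simp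
  | cons a l ih =>
    rw [List.map_cons, List.sum_cons, List.length_cons]
    have h1 := h a (by simp)
    have h2 := ih fun b hb => h b (by simp [hb])
    have h3 := abs_add_le (f a) (l.map f).sum
    push_cast
    linarith

theorem abs_vtab_le (h : WFH 2 Q n H) (A B : ℕ) : |vtab (shat Q) H A B| ≤ 4 * (Q : ℚ) ^ 2 := by
  have hQ := trine_Q_pos h
  have hlv := trine_abs_lv (trine_shat_nonneg Q) (trine_shat_le hQ)
  have hmul : ∀ o o' α β, |lv (shat Q) o α * lv (shat Q) o' β| ≤ 4 := fun o o' α β => by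
    rw [abs_mul]
    have := mul_le_mul (hlv o α) (hlv o' β) (abs_nonneg _) (by norm_num)
    linarith
  unfold vtab
  refine (trine_abs_sum_leQ H _ (c := Q * 4) fun τ hτ => ?_).trans ?_
  · rw [abs_mul]
    refine mul_le_mul (h.coef τ hτ) ?_ (abs_nonneg _) (by positivity)
    have hw := (trine_wires h hτ).2.2
    split_ifs with h1 h2 h2
    · exact absurd (h1.1.trans h2.2.symm) hw
    · rw [add_zero]
      exact hmul _ _ _ _
    · rw [zero_add]
      exact hmul _ _ _ _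
    · norm_num
  · have h1 : (H.length : ℚ) ≤ Q := by exact_mod_cast h.len
    have h2 : (H.length : ℚ) * (Q * 4) ≤ Q * (Q * 4) := mul_le_mul_of_nonneg_right h1 (by positivity)
    linarith

theorem trine_floor (h : WFH 2 Q n H) (A B : ℕ) :
    -(4 * (Q : ℤ) ^ 4) ≤ ⌊(Q : ℚ) ^ 2 * vtab (shat Q) H A B⌋ ∧
      ⌊(Q : ℚ) ^ 2 * vtab (shat Q) H A B⌋ ≤ 4 * (Q : ℤ) ^ 4 := by
  have h1 := abs_le.1 (abs_vtab_le h A B)
  have h2 : (0 : ℚ) ≤ (Q : ℚ) ^ 2 := by positivity
  have h3 := mul_le_mul_of_nonneg_left h1.1 h2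
  have h4 := mul_le_mul_of_nonneg_left h1.2 h2
  constructor
  · rw [Int.le_floor]
    push_cast
    linarith
  · have h5 := Int.floor_le ((Q : ℚ) ^ 2 * vtab (shat Q) H A B)
    have h6 : ((⌊(Q : ℚ) ^ 2 * vtab (shat Q) H A B⌋ : ℤ) : ℚ) ≤ ((4 * (Q : ℤ) ^ 4 : ℤ) : ℚ) := by
      push_cast
      linarith
    exact_mod_cast h6

theorem ktab_le (h : WFH 2 Q n H) (A B : ℕ) : ktab Q H A B ≤ 14 * Q ^ 4 := by
  have h1 := (trine_floor h A B).2
  unfold ktab
  rw [Int.toNat_le]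
  push_cast
  linarith

theorem trine_ktab (h : WFH 2 Q n H) (A B : ℕ) :
    (ktab Q H A B : ℝ) ≤ (Q : ℝ) ^ 2 * (vtab (shat Q) H A B : ℝ) + 10 * (Q : ℝ) ^ 4 ∧
      (Q : ℝ) ^ 2 * (vtab (shat Q) H A B : ℝ) + 10 * (Q : ℝ) ^ 4 - 1 ≤ ktab Q H A B := by
  have h1 := (trine_floor h A B).1
  have h0 : (0 : ℤ) ≤ (Q : ℤ) ^ 4 := by positivity
  have h2 : ((ktab Q H A B : ℕ) : ℤ) = ⌊(Q : ℚ) ^ 2 * vtab (shat Q) H A B⌋ + 10 * (Q : ℤ) ^ 4 := by
    unfold ktab
    rw [Int.toNat_of_nonneg (by linarith)]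
  have h3 : ((ktab Q H A B : ℕ) : ℚ) =
      (⌊(Q : ℚ) ^ 2 * vtab (shat Q) H A B⌋ : ℚ) + 10 * (Q : ℚ) ^ 4 := by
    exact_mod_cast h2
  have h4 := Int.floor_le ((Q : ℚ) ^ 2 * vtab (shat Q) H A B)
  have h5 := Int.lt_floor_add_one ((Q : ℚ) ^ 2 * vtab (shat Q) H A B)
  have h6 : ((ktab Q H A B : ℕ) : ℚ) ≤ (Q : ℚ) ^ 2 * vtab (shat Q) H A B + 10 * (Q : ℚ) ^ 4 := by
    linarith
  have h7 : (Q : ℚ) ^ 2 * vtab (shat Q) H A B + 10 * (Q : ℚ) ^ 4 - 1 ≤ ((ktab Q H A B : ℕ) : ℚ) := by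
    linarith
  exact ⟨by exact_mod_cast h6, by exact_mod_cast h7⟩

/-- the weight of a letter against the occupation numbers -/
def trineG (s : ℚ) (o : Option Letter) (a : Fin 3) : ℝ := ∑ α : Fin 3, (lv s o α : ℝ) * occ a α

theorem trineG_none (s : ℚ) (a : Fin 3) : trineG s none a = 1 := by
  fin_cases a <;> simp [trineG, lv, occ, Fin.sum_univ_three] <;> norm_num

theorem trineG_some (s : ℚ) (p : Letter) (a : Fin 3) : trineG s (some p) a = (lv s (some p) a : ℝ) := by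
  obtain ⟨i, b⟩ := p
  cases b <;> fin_cases a <;> simp [trineG, lv, occ, Fin.sum_univ_three] <;> ring

theorem trine_lv_lval (hQ : 1 ≤ Q) (p : Letter) (a : Fin 3) :
    |(lv (shat Q) (some p) a : ℝ) - lval p a| ≤ 1 / (8 * (Q : ℝ) ^ 4) ∧ |lval p a| ≤ 2 := by
  obtain ⟨h1, h2⟩ := shat_close hQ
  have h3 := trine_sqrt3_le
  have h4 : (0 : ℝ) ≤ √3 := Real.sqrt_nonneg 3
  set e : ℝ := 1 / (8 * (Q : ℝ) ^ 4) with he
  have h5 : 0 ≤ e := by positivity
  clear_value e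
  obtain ⟨i, b⟩ := p
  cases b <;> fin_cases a <;> simp [lv, lval, abs_le] <;> (try constructor) <;> (try constructor) <;>
    linarith

theorem trine_pair_sum {a b : Fin n} (hab : a ≠ b) (F : Fin n → Fin n → ℝ) :
    (∑ j : Fin n, ∑ j' : Fin n, if j < j' then
      ((if a = j ∧ b = j' then F j j' else 0) + (if a = j' ∧ b = j then F j' j else 0)) else 0) =
      F a b := by
  have h1 : ∀ j j' : Fin n, (if j < j' then
      ((if a = j ∧ b = j' then F j j' else 0) + (if a = j' ∧ b = j then F j' j else 0)) else 0) =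
      (if a = j then (if b = j' then (if a < b then F a b else 0) else 0) else 0) +
        (if b = j then (if a = j' then (if b < a then F a b else 0) else 0) else 0) := by
    intro j j'
    by_cases h1 : a = j <;> by_cases h2 : b = j' <;> by_cases h3 : b = j <;> by_cases h4 : a = j' <;>
      simp_all
  simp only [h1, Finset.sum_add_distrib, Finset.sum_ite_irrel, Finset.sum_ite_eq, Finset.mem_univ,
    if_true, Finset.sum_const_zero]
  rcases lt_or_gt_of_ne hab with h | h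
  · rw [if_pos h, if_neg h.not_gt, add_zero]
  · rw [if_neg h.not_gt, if_pos h, zero_add]

/-- the value of a term on a configuration -/
def trineV (s : ℚ) (y : Fin n → Fin 3) (τ : Term) : ℝ :=
  if h : w1 τ < n ∧ w2 τ < n then
    trineG s τ.2[0]? (y ⟨w1 τ, h.1⟩) * trineG s τ.2[1]? (y ⟨w2 τ, h.2⟩) else 0

theorem trine_vsum (s : ℚ) (y : Fin n → Fin 3) (H : Ham)
    (hw : ∀ τ ∈ H, w1 τ < n ∧ w2 τ < n ∧ w1 τ ≠ w2 τ) :
    (∑ j : Fin n, ∑ j' : Fin n, if j < j' then ∑ α : Fin 3, ∑ β : Fin 3,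
        (vtab s H (3 * j + α) (3 * j' + β) : ℝ) * (occ (y j) α * occ (y j') β) else 0) =
      (H.map fun τ => (τ.1 : ℝ) * trineV s y τ).sum := by
  induction H with
  | nil => simp [vtab]
  | cons τ H ih =>
    rw [List.map_cons, List.sum_cons, ← ih fun τ' h' => hw τ' (by simp [h'])]
    obtain ⟨h1, h2, h3⟩ := hw τ (by simp)
    have hab : (⟨w1 τ, h1⟩ : Fin n) ≠ ⟨w2 τ, h2⟩ := fun h => h3 (Fin.mk.inj_iff.1 h)
    rw [trineV, dif_pos ⟨h1, h2⟩, ← trine_pair_sum hab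
      (fun j j' => trineG s τ.2[0]? (y j) * trineG s τ.2[1]? (y j')), Finset.mul_sum,
      ← Finset.sum_add_distrib]
    refine Finset.sum_congr rfl fun j _ => ?_
    rw [Finset.mul_sum, ← Finset.sum_add_distrib]
    refine Finset.sum_congr rfl fun j' _ => ?_
    have e1 : ∀ (i : Fin n) (α : Fin 3), (3 * (i : ℕ) + α) / 3 = i := fun i α => by omega
    have e2 : ∀ (i : Fin n) (α : Fin 3), (3 * (i : ℕ) + α) % 3 = α := fun i α => by omega
    have hc : ∀ α β : Fin 3, (vtab s (τ :: H) (3 * j + α) (3 * j' + β) : ℝ) = (τ.1 : ℝ) *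
        ((if w1 τ = j ∧ w2 τ = j' then (lv s τ.2[0]? α : ℝ) * (lv s τ.2[1]? β : ℝ) else 0) +
          (if w1 τ = j' ∧ w2 τ = j then (lv s τ.2[0]? β : ℝ) * (lv s τ.2[1]? α : ℝ) else 0)) +
        (vtab s H (3 * j + α) (3 * j' + β) : ℝ) := by
      intro α β
      have : vtab s (τ :: H) (3 * j + α) (3 * j' + β) = τ.1 *
          ((if w1 τ = j ∧ w2 τ = j' then lv s τ.2[0]? α * lv s τ.2[1]? β else 0) +
            (if w1 τ = j' ∧ w2 τ = j then lv s τ.2[0]? β * lv s τ.2[1]? α else 0)) +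
          vtab s H (3 * j + α) (3 * j' + β) := by
        simp only [vtab, List.map_cons, List.sum_cons, e1, e2]
      rw [this]
      split_ifs <;> push_cast <;> rfl
    simp only [hc, Fin.ext_iff]
    split_ifs
    all_goals
      try simp only [trineG, Fin.sum_univ_three]
      ring

theorem trine_term (h : WFH 2 Q n H) (y : Fin n → Fin 3) {τ : Term} (hτ : τ ∈ H) :
    |trineV (shat Q) y τ - (τ.2.map (lvalAt y)).prod| ≤ 1 / (2 * (Q : ℝ) ^ 4) := by
  have hQ := trine_Q_pos h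
  have hQ' : (1 : ℝ) ≤ Q := by exact_mod_cast hQ
  obtain ⟨h1, h2, -⟩ := trine_wires h hτ
  have hl := h.loc τ hτ
  have hlt := h.lt τ hτ
  rw [trineV, dif_pos ⟨h1, h2⟩]
  have e8 : 1 / (2 * (Q : ℝ) ^ 4) = 4 * (1 / (8 * (Q : ℝ) ^ 4)) := by
    field_simp
    norm_num
  have e0 : 0 ≤ 1 / (8 * (Q : ℝ) ^ 4) := by positivity
  obtain ⟨c, L⟩ := τ
  rcases L with _ | ⟨p, _ | ⟨q, _ | ⟨r, L⟩⟩⟩
  · simp [trineG_none]
  · have h3 := hlt p (by simp)
    have e1 : (⟨w1 (c, [p]), h1⟩ : Fin n) = ⟨p.1, h3⟩ := Fin.ext (by simp [w1])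
    have := (trine_lv_lval hQ p (y ⟨p.1, h3⟩)).1
    rw [e1]
    simp only [List.getElem?_cons_zero, List.getElem?_cons_succ, List.getElem?_nil, trineG_none,
      trineG_some, List.map_cons, List.map_nil, List.prod_cons, List.prod_nil, mul_one, lvalAt,
      dif_pos h3]
    linarith
  · have h3 := hlt p (by simp)
    have h4 := hlt q (by simp)
    have e1 : (⟨w1 (c, [p, q]), h1⟩ : Fin n) = ⟨p.1, h3⟩ := Fin.ext (by simp [w1])
    have e2 : (⟨w2 (c, [p, q]), h2⟩ : Fin n) = ⟨q.1, h4⟩ := Fin.ext (by simp [w2])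
    obtain ⟨a1, a2⟩ := trine_lv_lval hQ p (y ⟨p.1, h3⟩)
    obtain ⟨b1, -⟩ := trine_lv_lval hQ q (y ⟨q.1, h4⟩)
    have b2 : |(lv (shat Q) (some q) (y ⟨q.1, h4⟩) : ℝ)| ≤ 2 := by
      exact_mod_cast trine_abs_lv (trine_shat_nonneg Q) (trine_shat_le hQ) _ _
    rw [e1, e2]
    simp only [List.getElem?_cons_zero, List.getElem?_cons_succ, trineG_some, List.map_cons,
      List.map_nil, List.prod_cons, List.prod_nil, mul_one, lvalAt, dif_pos h3, dif_pos h4]
    set u : ℝ := ((lv (shat Q) (some p) (y ⟨p.1, h3⟩) : ℚ) : ℝ)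
    set v : ℝ := ((lv (shat Q) (some q) (y ⟨q.1, h4⟩) : ℚ) : ℝ)
    set u' := lval p (y ⟨p.1, h3⟩)
    set v' := lval q (y ⟨q.1, h4⟩)
    have e3 : u * v - u' * v' = (u - u') * v + u' * (v - v') := by ring
    rw [e3]
    refine (abs_add_le _ _).trans ?_
    rw [abs_mul, abs_mul]
    have c1 := mul_le_mul a1 b2 (abs_nonneg _) e0
    have c2 := mul_le_mul a2 b1 (abs_nonneg _) (by norm_num)
    linarith
  · simp at hl

theorem trine_list_sub {α : Type} (l : List α) (f g : α → ℝ) :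
    (l.map f).sum - (l.map g).sum = (l.map fun a => f a - g a).sum := by
  induction l with
  | nil => simp
  | cons a l ih =>
    simp only [List.map_cons, List.sum_cons, ← ih]
    ring

/-- Recipe: exchange the sums; for each term exactly one ordered pair `j < j'` contributes
(`w1 τ ≠ w2 τ`, both `< n`); `∑ α, lv s o α * occ a α` is `lv s o a` for a letter and `1` for
`none`; compare with `lvalAt` using `shat_close` (`|lv| ≤ 2`, `|lval| ≤ 2`). -/
theorem vtab_cost (h : WFH 2 Q n H) (y : Fin n → Fin 3) :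
    |(∑ j : Fin n, ∑ j' : Fin n, if j < j' then ∑ α : Fin 3, ∑ β : Fin 3,
        (vtab (shat Q) H (3 * j + α) (3 * j' + β) : ℝ) * (occ (y j) α * occ (y j') β) else 0) -
      (H.map fun τ => (τ.1 : ℝ) * (τ.2.map (lvalAt y)).prod).sum| ≤ 1 / (Q : ℝ) ^ 2 := by
  have hQ' : (1 : ℝ) ≤ Q := by exact_mod_cast trine_Q_pos h
  rw [trine_vsum _ y H fun τ hτ => trine_wires h hτ, trine_list_sub]
  refine (trine_abs_sum_le H _ (c := Q * (1 / (2 * (Q : ℝ) ^ 4))) fun τ hτ => ?_).trans ?_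
  · rw [← mul_sub, abs_mul]
    refine mul_le_mul ?_ (trine_term h y hτ) (abs_nonneg _) (by positivity)
    exact_mod_cast h.coef τ hτ
  · have h1 : (H.length : ℝ) ≤ Q := by exact_mod_cast h.len
    refine (mul_le_mul_of_nonneg_right h1 (by positivity)).trans ?_
    have h2 : (Q : ℝ) * (Q * (1 / (2 * (Q : ℝ) ^ 4))) = 1 / 2 * (1 / (Q : ℝ) ^ 2) := by field_simp
    have h3 : 0 ≤ 1 / (Q : ℝ) ^ 2 := by positivity
    rw [h2]
    linarith

theorem trine_count (n : ℕ) (c : ℝ) :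
    (∑ j : Fin n, ∑ j' : Fin n, if j < j' then c else 0) = c * n.choose 2 := by
  induction n with
  | zero => simp
  | succ n ih =>
    rw [Nat.choose_succ_succ' n 1, Nat.choose_one_right]
    simp only [Fin.sum_univ_succ, lt_self_iff_false, if_false, Fin.succ_pos, if_true, Fin.not_lt_zero,
      Fin.succ_lt_succ_iff, zero_add, ih, Finset.sum_const, Finset.card_univ, Fintype.card_fin,
      nsmul_eq_mul]
    push_cast
    ring

theorem trine_occ_nonneg (a α : Fin 3) : 0 ≤ occ a α := by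
  unfold occ
  split_ifs <;> norm_num

theorem trine_occ_sum (a b : Fin 3) : ∑ α : Fin 3, ∑ β : Fin 3, occ a α * occ b β = 9 := by
  fin_cases a <;> fin_cases b <;> simp [occ, Fin.sum_univ_three] <;> norm_num

theorem trine_affine (y : Fin n → Fin 3) (v : ℕ → ℕ → ℝ) (c d : ℝ) :
    (∑ j : Fin n, ∑ j' : Fin n, if j < j' then ∑ α : Fin 3, ∑ β : Fin 3,
        (c * v (3 * j + α) (3 * j' + β) + d) * (occ (y j) α * occ (y j') β) else 0) =
      c * (∑ j : Fin n, ∑ j' : Fin n, if j < j' then ∑ α : Fin 3, ∑ β : Fin 3,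
        v (3 * j + α) (3 * j' + β) * (occ (y j) α * occ (y j') β) else 0) + 9 * d * n.choose 2 := by
  rw [← trine_count, Finset.mul_sum, ← Finset.sum_add_distrib]
  refine Finset.sum_congr rfl fun j _ => ?_
  rw [Finset.mul_sum, ← Finset.sum_add_distrib]
  refine Finset.sum_congr rfl fun j' _ => ?_
  split_ifs
  · rw [← trine_occ_sum (y j) (y j')]
    simp only [Fin.sum_univ_three]
    ring
  · simp

theorem trine_mono (y : Fin n → Fin 3) {v w : ℕ → ℕ → ℝ} (h : ∀ A B, v A B ≤ w A B) :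
    (∑ j : Fin n, ∑ j' : Fin n, if j < j' then ∑ α : Fin 3, ∑ β : Fin 3,
        v (3 * j + α) (3 * j' + β) * (occ (y j) α * occ (y j') β) else 0) ≤
      ∑ j : Fin n, ∑ j' : Fin n, if j < j' then ∑ α : Fin 3, ∑ β : Fin 3,
        w (3 * j + α) (3 * j' + β) * (occ (y j) α * occ (y j') β) else 0 := by
  refine Finset.sum_le_sum fun j _ => Finset.sum_le_sum fun j' _ => ?_
  split_ifs
  · exact Finset.sum_le_sum fun α _ => Finset.sum_le_sum fun β _ =>
      mul_le_mul_of_nonneg_right (h _ _) (mul_nonneg (trine_occ_nonneg _ _) (trine_occ_nonneg _ _))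
  · exact le_rfl

/-- Rounding: `∑ α, occ a α = 3`, there are `n.choose 2` pairs. -/
theorem tcost_bounds (h : WFH 2 Q n H) (y : Fin n → Fin 3) :
    tcost n (ktab Q H) y ≤ (Q : ℝ) ^ 2 * (H.map fun τ => (τ.1 : ℝ) * (τ.2.map (lvalAt y)).prod).sum +
      90 * (Q : ℝ) ^ 4 * n.choose 2 + 1 ∧
    (Q : ℝ) ^ 2 * (H.map fun τ => (τ.1 : ℝ) * (τ.2.map (lvalAt y)).prod).sum +
      90 * (Q : ℝ) ^ 4 * n.choose 2 - 9 * n.choose 2 - 1 ≤ tcost n (ktab Q H) y := by
  have hQ' : (1 : ℝ) ≤ Q := by exact_mod_cast trine_Q_pos h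
  have h1 := abs_le.1 (vtab_cost h y)
  have h2 := trine_mono y (v := fun A B => (ktab Q H A B : ℝ))
    (w := fun A B => (Q : ℝ) ^ 2 * (vtab (shat Q) H A B : ℝ) + 10 * (Q : ℝ) ^ 4)
    fun A B => (trine_ktab h A B).1
  have h3 := trine_mono y (w := fun A B => (ktab Q H A B : ℝ))
    (v := fun A B => (Q : ℝ) ^ 2 * (vtab (shat Q) H A B : ℝ) + (10 * (Q : ℝ) ^ 4 - 1))
    fun A B => by
      have := (trine_ktab h A B).2
      linarith
  rw [trine_affine y (fun A B => (vtab (shat Q) H A B : ℝ))] at h2 h3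
  have h4 : (0 : ℝ) ≤ (Q : ℝ) ^ 2 := by positivity
  have h5 := mul_le_mul_of_nonneg_left h1.1 h4
  have h6 := mul_le_mul_of_nonneg_left h1.2 h4
  have h7 : (Q : ℝ) ^ 2 * (1 / (Q : ℝ) ^ 2) = 1 := by field_simp
  unfold tcost
  constructor <;> linarith

theorem trine_form (h : WFH 2 Q n H) (ψ : RV n) (c d : ℝ) :
    ∑ y, (c * (H.map fun τ => (τ.1 : ℝ) * (τ.2.map (lvalAt y)).prod).sum + d) * iso ψ y ^ 2 =
      c * form H ψ + d * nsq ψ := by
  have key : ∀ l : Ham, (∀ τ ∈ l, τ ∈ H) →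
      ∑ y, (l.map fun τ => (τ.1 : ℝ) * (τ.2.map (lvalAt y)).prod).sum * iso ψ y ^ 2 =
        (l.map fun τ => (τ.1 : ℝ) * (ψ ⬝ᵥ pauli τ.2 ψ)).sum := by
    intro l hl
    induction l with
    | nil => simp
    | cons τ l ih =>
      have hτ := hl τ (by simp)
      simp only [List.map_cons, List.sum_cons, add_mul, Finset.sum_add_distrib]
      rw [ih fun τ' h' => hl τ' (by simp [h']),
        ← sum_lval_iso (h.loc τ hτ) (h.nodup τ hτ) (h.lt τ hτ), Finset.mul_sum]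
      congr 1
      exact Finset.sum_congr rfl fun y _ => by ring
  rw [form_eq_sum, ← key H fun _ h => h, ← nsq_iso, nsq_eq, Finset.mul_sum, Finset.mul_sum,
    ← Finset.sum_add_distrib]
  exact Finset.sum_congr rfl fun y _ => by ring

theorem trine_choose (h : WFH 2 Q n H) : 2 * n.choose 2 ≤ Q ^ 2 := by
  have h1 : n.choose 2 * 2 ≤ n * (n - 1) := by
    rw [Nat.choose_two_right]
    exact Nat.div_mul_le_self _ _
  have h2 : n * (n - 1) ≤ Q * Q := Nat.mul_le_mul h.nQ (by have := h.nQ; omega)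
  nlinarith

theorem trine_yes (h : WFH 2 Q n H) (hY : Yes n H 38) : TYes n (ktab Q H) (aT Q n) := by
  obtain ⟨ψ, h0, hψ⟩ := hY
  refine ⟨iso ψ, fun h1 => ?_, zeroSum_iso ψ, ?_⟩
  · have h2 := nsq_pos h0
    rw [← nsq_iso, h1, nsq_eq] at h2
    simp at h2
  · have h1 : ∑ y, tcost n (ktab Q H) y * iso ψ y ^ 2 ≤
        ∑ y, ((Q : ℝ) ^ 2 * (H.map fun τ => (τ.1 : ℝ) * (τ.2.map (lvalAt y)).prod).sum +
          (90 * (Q : ℝ) ^ 4 * n.choose 2 + 1)) * iso ψ y ^ 2 := by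
      refine Finset.sum_le_sum fun y _ => mul_le_mul_of_nonneg_right ?_ (sq_nonneg _)
      have := (tcost_bounds h y).1
      linarith
    rw [trine_form h] at h1
    have h2 := mul_le_mul_of_nonneg_left hψ (show (0 : ℝ) ≤ (Q : ℝ) ^ 2 by positivity)
    rw [nsq_iso]
    unfold aT
    push_cast
    linarith

theorem trine_no (h : WFH 2 Q n H) (hN : No n H 59) : TNo n (ktab Q H) (bT Q n) := by
  intro f hf
  obtain ⟨ψ, rfl⟩ := exists_iso hf
  have h1 : ∑ y, ((Q : ℝ) ^ 2 * (H.map fun τ => (τ.1 : ℝ) * (τ.2.map (lvalAt y)).prod).sum +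
        (90 * (Q : ℝ) ^ 4 * n.choose 2 - 9 * n.choose 2 - 1)) * iso ψ y ^ 2 ≤
      ∑ y, tcost n (ktab Q H) y * iso ψ y ^ 2 := by
    refine Finset.sum_le_sum fun y _ => mul_le_mul_of_nonneg_right ?_ (sq_nonneg _)
    have := (tcost_bounds h y).2
    linarith
  rw [trine_form h] at h1
  have h2 := mul_le_mul_of_nonneg_left (hN ψ) (show (0 : ℝ) ≤ (Q : ℝ) ^ 2 by positivity)
  have hQ' : (1 : ℝ) ≤ Q := by exact_mod_cast trine_Q_pos h
  have h3 : 2 * (n.choose 2 : ℝ) ≤ (Q : ℝ) ^ 2 := by exact_mod_cast trine_choose h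
  have h4 : (1 : ℝ) ≤ (Q : ℝ) ^ 2 := one_le_pow₀ hQ'
  have h5 : 0 ≤ (6 * (Q : ℝ) ^ 2 - 9 * n.choose 2 - 1) * nsq ψ :=
    mul_nonneg (by linarith) (nsq_nonneg ψ)
  rw [nsq_iso]
  unfold bT
  push_cast
  linarith

theorem bT_le (h : WFH 2 Q n H) : bT Q n ≤ 100 * Q ^ 6 := by
  have h1 := trine_choose h
  have hQ := trine_Q_pos h
  have h2 : Q ^ 2 ≤ Q ^ 6 := Nat.pow_le_pow_right hQ (by norm_num)
  have h3 : Q ^ 4 * (2 * n.choose 2) ≤ Q ^ 4 * Q ^ 2 := Nat.mul_le_mul_left _ h1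
  unfold bT
  nlinarith

end Crest.Agent.R338
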