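/-
R338/PartA: the finite-dimensional reduction
Skeleton by helper15 (row 338); keep the statements unchanged, add any helper lemmas you like.
-/
import Crest.Agent.R338.CompileB
import Crest.Agent.R338.Kit
import Crest.Agent.R338.Gadget
import Crest.Agent.R338.Trine

set_option autoImplicit false
set_option linter.unusedSectionVars false
set_option linter.unusedVariables false
set_option linter.unusedSimpArgs false

noncomputable section

namespace Crest.Agent.R338

open Crest.Quantum.GateCircuit Crest.Quantum.QMA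
open scoped Matrix

variable {s : ℕ} {V : VCirc}

theorem two_le_Q0 (hs : 1 ≤ s) : 2 ≤ Q0 s := by
  have : 1 ≤ s ^ 4 := Nat.one_le_pow _ _ hs
  unfold Q0; omega

theorem le_nextQ {Q : ℕ} (h : 2 ≤ Q) : 2 ≤ nextQ Q := by
  have h1 : 1 ≤ Q ^ 6 := Nat.one_le_pow _ _ (by omega)
  have h2 : 100 * Q ^ 6 ≤ (100 * Q ^ 6) ^ 3 := Nat.le_self_pow (by norm_num) _
  unfold nextQ; omega

/-- The 2-local Hamiltonian of a verifier. -/
abbrev hamV (s : ℕ) (V : VCirc) : ℕ × Ham := ham3 s V.N V.w (V.gates.map rawOf) V.out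

theorem ham0_wf (hV : V.WellFormed) (hs : Fits s V) :
    WFH 6 (Q0 s) (ham0 s V.N V.w (V.gates.map rawOf) V.out).1
      (ham0 s V.N V.w (V.gates.map rawOf) V.out).2 :=
  kit_wf hs.pos (comp_wf hV hs) (by have := hs.wires; omega) (length_compGates hs)
    (length_compInit _ _ _)

theorem hamV_wf (hV : V.WellFormed) (hs : Fits s V) : WFH 2 (Q3 s) (hamV s V).1 (hamV s V).2 := by
  have q0 := two_le_Q0 hs.pos
  have h1 := round_wf (p := 2) (k' := 4) (ham0_wf hV hs) q0 (by norm_num) (by norm_num) (by norm_num)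
  have h2 := round_wf (p := 1) (k' := 3) h1 (le_nextQ q0) (by norm_num) (by norm_num) (by norm_num)
  exact round_wf (p := 1) (k' := 2) h2 (le_nextQ (le_nextQ q0)) (by norm_num) (by norm_num)
    (by norm_num)

theorem partA_yes (hV : V.WellFormed) (hs : Fits s V)
    (h : ∃ ψ : QVec V.w, IsWitness ψ ∧ 2 / 3 ≤ acceptProb V hV.1 ψ) :
    TYes (hamV s V).1 (ktab (Q3 s) (hamV s V).2) (aT (Q3 s) (hamV s V).1) := by
  have q0 := two_le_Q0 hs.pos
  have h0 := ham0_wf hV hs
  have h1 := round_wf (p := 2) (k' := 4) h0 q0 (by norm_num) (by norm_num) (by norm_num)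
  have h2 := round_wf (p := 1) (k' := 3) h1 (le_nextQ q0) (by norm_num) (by norm_num) (by norm_num)
  have y0 := kit_yes (comp_wf hV hs) (comp_yes hV hs h)
  have y1 := round_yes (p := 2) h0 q0 y0
  have y2 := round_yes (p := 1) h1 (le_nextQ q0) y1
  have y3 := round_yes (p := 1) h2 (le_nextQ (le_nextQ q0)) y2
  refine trine_yes (hamV_wf hV hs) ?_
  rw [show (38 : ℝ) = 35 + 1 + 1 + 1 by norm_num]
  exact y3

theorem partA_no (hV : V.WellFormed) (hs : Fits s V)
    (h : ∀ ψ : QVec V.w, IsWitness ψ → acceptProb V hV.1 ψ ≤ 1 / 3) :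
    TNo (hamV s V).1 (ktab (Q3 s) (hamV s V).2) (bT (Q3 s) (hamV s V).1) := by
  have q0 := two_le_Q0 hs.pos
  have h0 := ham0_wf hV hs
  have h1 := round_wf (p := 2) (k' := 4) h0 q0 (by norm_num) (by norm_num) (by norm_num)
  have h2 := round_wf (p := 1) (k' := 3) h1 (le_nextQ q0) (by norm_num) (by norm_num) (by norm_num)
  have y0 := kit_no (comp_wf hV hs) (comp_no hV hs h)
  have y1 := round_no (p := 2) h0 q0 y0
  have y2 := round_no (p := 1) h1 (le_nextQ q0) y1
  exact trine_no (hamV_wf hV hs) (round_no (p := 1) h2 (le_nextQ (le_nextQ q0)) y2)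

end Crest.Agent.R338
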