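/-
R338/PTA: the finite-dimensional reduction is polynomial-time
Skeleton by helper15 (row 338); keep the statements unchanged, add any helper lemmas you like.
-/
import Crest.Agent.R338.PartA
import Crest.Agent.Lib.PolyTime.Codes
import Crest.Agent.Lib.PolyTime.More

set_option autoImplicit false
set_option linter.unusedSectionVars false
set_option linter.unusedVariables false
set_option linter.unusedSimpArgs false

noncomputable section

namespace Crest.Agent.R338

open Crest.Agent.Lib.PolyTime Crest.Quantum.GateCircuit Crest.Quantum.QMA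

variable {α : Type} [Enc α]

theorem PTA_nat {ι : Type} [Enc ι] : Parses (fun (_ : ι) (n : ℕ) => natCode n) (fun _ _ => True) := by
  refine ⟨fun p => (ofBits (((pairUp p.2).takeWhile fun q => q.1).map Prod.snd),
    p.2.drop (2 * ((pairUp p.2).takeWhile fun q => q.1).length + 1)), by fun_prop,
    fun p => by simp, fun i n r _ => ?_⟩
  have key : ∀ l : List Bool, (pairUp ((l.map fun b => [true, b]).flatten ++ [false] ++ r)).takeWhile
      (fun q => q.1) = l.map fun b => (true, b) := by
    intro l
    induction l with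
    | nil =>
      cases r with
      | nil => simp [pairUp]
      | cons b r => simp [pairUp_cons_cons]
    | cons b l ih =>
      simp only [List.map_cons, List.flatten_cons, List.cons_append, List.nil_append,
        pairUp_cons_cons]
      rw [List.takeWhile_cons_of_pos (by simp), ih]
  have hl : (natCode n).length = 2 * n.bits.length + 1 := by
    simp [natCode, List.length_flatten, Function.comp_def, Nat.mul_comm]
  simp only
  rw [show pairUp (natCode n ++ r) = pairUp ((n.bits.map fun b => [true, b]).flatten ++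
    [false] ++ r) from rfl, key, List.length_map, ← hl]
  simp [Function.comp_def]

theorem PTA_length_le {β : Type} (c : β → List Bool) (l : List β) : l.length + 1 ≤ (listCode c l).length := by
  induction l with
  | nil => simp [listCode]
  | cons a l ih =>
    simp only [listCode, List.map_cons, List.flatten_cons, List.length_append, List.length_cons] at ih ⊢
    omega

theorem PTA_mem_le {β : Type} (c : β → List Bool) {l : List β} {a : β} (h : a ∈ l) :
    (c a).length ≤ (listCode c l).length := by
  induction l with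
  | nil => simp at h
  | cons b l ih =>
    simp only [listCode, List.map_cons, List.flatten_cons, List.length_append, List.length_cons] at ih ⊢
    rcases List.mem_cons.1 h with rfl | h
    · omega
    · have := ih h
      omega

theorem PTA_tagged {ι β : Type} [Enc ι] [Enc β] {c : ι → β → List Bool} {d : ι → β → Prop} (h : Parses c d) :
    Parses (fun i (l : List β) => listCode (c i) l) (fun i l => ∀ a ∈ l, d i a) := by
  obtain ⟨run, h1, h2, h3⟩ := h
  let step : ι → List β × List Bool → List β × List Bool := fun i s =>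
    if s.2.headD false = true then ((run (i, s.2.tail)).1 :: s.1, (run (i, s.2.tail)).2) else s
  have hlen : ∀ i n s, ((step i)^[n] s).2.length ≤ s.2.length := by
    intro i n s
    induction n with
    | zero => simp
    | succ n ih =>
      rw [Function.iterate_succ_apply']
      refine le_trans ?_ ih
      simp only [step]
      split_ifs
      · exact (h2 _).trans (by simp)
      · exact le_rfl
  obtain ⟨G, hG, hGg⟩ := (PB.esize h1.fst (f := fun p => (run p).1)).exists_bound
    (s := fun p : ι × List Bool => esize p.1 + 4 * p.2.length + 2) (by fun_prop)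
  have hsz : ∀ (p : ι × List Bool) n,
      esize ((step p.1)^[n] ([], p.2)).1 ≤ n * (G p + 1) + 1 := by
    intro p n
    induction n with
    | zero => simp
    | succ n ih =>
      rw [Function.iterate_succ_apply']
      have a1 := hlen p.1 n ([], p.2)
      have a2 := hGg p (p.1, ((step p.1)^[n] ([], p.2)).2.tail) (by
        have := esize_boolList_le ((step p.1)^[n] ([], p.2)).2.tail
        simp only [esize_pair, List.length_tail] at *; omega)
      generalize (step p.1)^[n] ([], p.2) = s at *
      simp only [step]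
      split_ifs
      · simp only [esize_cons] at *
        nlinarith
      · nlinarith
  have hpt := PT.iterate (n := fun p : ι × List Bool => p.2.length)
    (x := fun p => (([] : List β), p.2)) (f := fun p => step p.1)
    (fun p => p.2.length * (G p + 1) + 4 * p.2.length + 3) (by fun_prop) (by fun_prop)
    (by fun_prop) (by simp only [step]; fun_prop) (by fun_prop) fun p n hn => by
      have a1 := hlen p.1 n ([], p.2)
      have a2 := hsz p n
      have a3 := esize_boolList_le ((step p.1)^[n] ([], p.2)).2
      have a4 : n * (G p + 1) ≤ p.2.length * (G p + 1) := Nat.mul_le_mul_right _ (by omega)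
      rw [esize_prod]; simp only at *; omega
  refine ⟨fun p => (((step p.1)^[p.2.length] ([], p.2)).1.reverse,
    ((step p.1)^[p.2.length] ([], p.2)).2.tail), hpt.fst.reverse.prodMk hpt.snd.tail,
    fun p => le_trans (by simp) (hlen p.1 p.2.length ([], p.2)), fun i l r hd => ?_⟩
  have key : ∀ (l acc : List β) (n : ℕ), l.length ≤ n → (∀ a ∈ l, d i a) →
      (step i)^[n] (acc, listCode (c i) l ++ r) = (l.reverse ++ acc, false :: r) := by
    intro l
    induction l with
    | nil =>
      intro acc n _ _
      exact Function.iterate_fixed (by simp [step, listCode]) n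
    | cons a l ih =>
      intro acc n hn hl
      obtain ⟨n, rfl⟩ : ∃ m, n = m + 1 := ⟨n - 1, by simp at hn; omega⟩
      rw [Function.iterate_succ_apply]
      have e : listCode (c i) (a :: l) ++ r = true :: (c i a ++ (listCode (c i) l ++ r)) := by
        simp [listCode]
      simp only [step, e, List.headD_cons, if_true, List.tail_cons, h3 i a _ (hl a (by simp))]
      rw [ih _ n (by simpa using hn) fun x hx => hl x (by simp [hx])]
      simp
  have a1 := PTA_length_le (c i) l
  simp only
  rw [key l [] _ (by rw [List.length_append]; omega) hd]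
  simp

/-- the code of a raw gate -/
def PTA_rawCode (g : Raw) : List Bool := true :: (natCode g.1 ++ (listCode natCode g.2.1 ++ natCode g.2.2))

theorem PTA_raw {ι : Type} [Enc ι] : Parses (fun (_ : ι) (g : Raw) => PTA_rawCode g) (fun _ _ => True) :=
  (((Parses.bool (ι := ι)).seq (PTA_nat.seq ((PTA_tagged PTA_nat).seq PTA_nat))).map (fun _ p => p.2)
    (by fun_prop) (fun _ g => (true, g))).congr fun _ _ _ =>
      ⟨⟨⟨trivial, trivial, fun _ _ => trivial, trivial⟩, rfl⟩, rfl⟩

theorem PTA_gateCode {N : ℕ} {g : Gate N 0} (h : IsCtrlGate g) : gateCode g = PTA_rawCode (rawOf g) := by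
  cases g with
  | ctrl p cs t =>
    have : primCode p = natCode (primNum p) := by cases p <;> rfl
    simp [gateCode, PTA_rawCode, rawOf, this, listCode, Function.comp_def]
  | oracle q t => exact absurd h (by simp [IsCtrlGate])

/-- A parser for `vcode`.  The codes `Crest.Quantum.GateCircuit.natCode` and `listCode` differ from
those of `Crest.Enc` (one closing bit; lists are tagged element by element): prove `Parses` lemmas
for them (see `Lib/PolyTime/Codes.lean`: `Parses.nat`, `Parses.many`, `Parses.seq`, `Parses.map`). -/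
theorem exists_vdec : ∃ dec : List Bool → ℕ × ℕ × List Raw × ℕ, PT dec ∧
    ∀ V : VCirc, V.WellFormed → dec (vcode V) = (V.N, V.w, V.gates.map rawOf, (V.out : ℕ)) := by
  obtain ⟨dec, h1, h2⟩ := ((PTA_nat (ι := Unit)).seq (PTA_nat.seq ((PTA_tagged PTA_raw).seq PTA_nat))).exists_decoder
  refine ⟨dec, h1, fun V hV => ?_⟩
  rw [← h2 (V.N, V.w, V.gates.map rawOf, (V.out : ℕ)) ⟨trivial, trivial, fun _ _ => trivial, trivial⟩]
  congr 1
  have : listCode gateCode V.gates = listCode PTA_rawCode (V.gates.map rawOf) := by
    simp only [listCode, List.map_map]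
    rw [List.map_congr_left fun g hg => by rw [PTA_gateCode (hV.2 g hg)]]
    rfl
  simp only [vcode, this, List.append_assoc]

theorem fits_of {V : VCirc} {m : ℕ} (h : V.N + V.gates.length ≤ m) :
    Fits (m + (vcode V).length + 2) V := by
  refine ⟨by omega, by omega, by omega, fun g hg => ?_⟩
  have h1 := PTA_mem_le gateCode hg
  have h2 : (listCode gateCode V.gates).length ≤ (vcode V).length := by
    simp only [vcode, List.length_append]
    omega
  cases g with
  | ctrl p cs t =>
    have h3 := PTA_length_le (fun c : Fin V.N => natCode c) cs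
    simp only [gateCode, List.length_cons, List.length_append] at h1
    simp only [rawOf, List.length_map]
    omega
  | oracle q t => simp [rawOf]

section Aux

variable {H H' : α → Ham} {q r D : α → ℚ} {i j n N T Q w : α → ℕ}

@[fun_prop] theorem PTA_mulH (hH : PT H) (hH' : PT H') : PT fun a => mulH (H a) (H' a) := by
  unfold mulH; fun_prop
@[fun_prop] theorem PTA_smulH (hq : PT q) (hH : PT H) : PT fun a => smulH (q a) (H a) := by
  unfold smulH; fun_prop
@[fun_prop] theorem PTA_prH {b : α → Bool} (hi : PT i) (hb : PT b) : PT fun a => prH (i a) (b a) := by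
  unfold prH; fun_prop
@[fun_prop] theorem PTA_cs (hr : PT r) (hi : PT i) : PT fun a => cs (r a) (i a) := by
  unfold cs; fun_prop
@[fun_prop] theorem PTA_ladder {l : α → List ℕ} (hN : PT N) (hl : PT l) : PT fun a => ladder (N a) (l a) := by
  unfold ladder; fun_prop
@[fun_prop] theorem PTA_ctl {g : α → Raw} (hg : PT g) : PT fun a => ctl (g a) := by
  unfold ctl; fun_prop
@[fun_prop] theorem PTA_coreG {g : α → Raw} (hN : PT N) (hi : PT i) (hg : PT g) :
    PT fun a => coreG (N a) (i a) (g a) := by
  unfold coreG; fun_prop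
@[fun_prop] theorem PTA_compG {g : α → Raw} (hN : PT N) (hg : PT g) : PT fun a => compG (N a) (g a) := by
  unfold compG; fun_prop
@[fun_prop] theorem PTA_compGates {l : α → List Raw} (hN : PT N) (hl : PT l) :
    PT fun a => compGates (N a) (l a) := by
  unfold compGates; fun_prop
@[fun_prop] theorem PTA_compInit {s : α → ℕ} (hs : PT s) (hs' : PB s) (hN : PT N) (hw : PT w) :
    PT fun a => compInit (s a) (N a) (w a) := by
  unfold compInit; fun_prop
@[fun_prop] theorem PTA_gateH {g : α → RG} (hr : PT r) (hg : PT g) : PT fun a => gateH (r a) (g a) := by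
  unfold gateH; fun_prop
@[fun_prop] theorem PTA_propH {g : α → RG} (hr : PT r) (hn : PT n) (hg : PT g) (hj : PT j) :
    PT fun a => propH (r a) (n a) (g a) (j a) := by
  unfold propH; fun_prop
@[fun_prop] theorem PTA_clockH (hn : PT n) (hT : PT T) (hT' : PB T) : PT fun a => clockH (n a) (T a) := by
  unfold clockH; fun_prop
@[fun_prop] theorem PTA_kitH {gs : α → List RG} {init : α → List (ℕ × Bool)} (hr : PT r) (hn : PT n)
    (hgs : PT gs) (hinit : PT init) (hi : PT i) : PT fun a => kitH (r a) (n a) (gs a) (init a) (i a) := by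
  unfold kitH; fun_prop
@[fun_prop] theorem PTA_rhat (hT : PT T) : PT fun a => rhat (T a) := by
  have h1 : PT fun a => 1000000 * (T a + 1) ^ 3 := by fun_prop
  have h2 : PT fun a => (1000000 : ℚ) * ((T a : ℚ) + 1) ^ 3 :=
    (PT.const _).rat_mul ((hT.rat_natCast.rat_add (PT.const 1)).rat_pow (PT.const 3) (by fun_prop))
  exact (((PT.const 2).nat_mul (h1.nat_pow (PT.const 2) (by fun_prop))).sqrt.rat_natCast).rat_div
    ((PT.const 2).rat_mul h2)
@[fun_prop] theorem PTA_gadT {τ : α → Term} (p : ℕ) (hD : PT D) (hw : PT w) (hτ : PT τ) :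
    PT fun a => gadT (D a) p (w a) (τ a) := by
  have aux : ∀ {A B C : α → List Letter} {c1 c2 c3 c4 c5 c6 c7 c8 c9 : α → ℚ}, PT A → PT B → PT C → PT c1 → PT c2 →
      PT c3 → PT c4 → PT c5 → PT c6 → PT c7 → PT c8 → PT c9 → PT fun a =>
      ([(c1 a, []), (c2 a, [(w a, false)]), (c3 a, C a), (c4 a, (w a, false) :: C a), (c5 a, (w a, true) :: B a),
        (c6 a, (w a, true) :: A a), (c7 a, []), (c8 a, A a ++ B a), (c9 a, C a)] : Ham) := by
    intros
    fun_prop
  have h2 : PT fun a => D a ^ 2 := by fun_prop
  have h3 : PT fun a => D a ^ 3 := by fun_prop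
  have hγ : PT fun a => D a ^ 2 / (D a ^ 2 - 1) := h2.rat_div (h2.rat_sub (PT.const 1))
  have ha : PT fun a => (τ a).1 / (2 * (D a ^ 2 / (D a ^ 2 - 1))) := hτ.fst.rat_div ((PT.const 2).rat_mul hγ)
  have hb : PT fun a => 1 + ((τ a).1 / (2 * (D a ^ 2 / (D a ^ 2 - 1)))) ^ 2 :=
    (PT.const 1).rat_add (ha.rat_pow (PT.const 2) (by fun_prop))
  exact aux (by fun_prop) (by fun_prop) (by fun_prop) (h3.rat_div (PT.const 2)) (h3.rat_neg.rat_div (PT.const 2))
    (h2.rat_neg.rat_div (PT.const 2)) (h2.rat_div (PT.const 2)) h2 (h2.rat_neg.rat_mul ha)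
    ((hD.rat_mul hγ).rat_mul hb) ((((PT.const (-2)).rat_mul hD).rat_mul hγ).rat_mul ha) (hγ.rat_mul hb)
@[fun_prop] theorem PTA_roundH (p : ℕ) (hQ : PT Q) (hn : PT n) (hH : PT H) :
    PT fun a => roundH (Q a) p (n a) (H a) := by
  unfold roundH; fun_prop
@[fun_prop] theorem PTA_nextQ (hQ : PT Q) : PT fun a => nextQ (Q a) := by
  unfold nextQ; fun_prop
@[fun_prop] theorem PTA_nextQB (hQ : PB Q) : PB fun a => nextQ (Q a) := by
  unfold nextQ; fun_prop
@[fun_prop] theorem PTA_Q0 (hQ : PT Q) : PT fun a => Q0 (Q a) := by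
  unfold Q0; fun_prop
@[fun_prop] theorem PTA_Q0B (hQ : PB Q) : PB fun a => Q0 (Q a) := by
  unfold Q0; fun_prop
@[fun_prop] theorem PTA_lv {o : α → Option Letter} (hr : PT r) (ho : PT o) (hi : PT i) :
    PT fun a => lv (r a) (o a) (i a) := by
  unfold lv; fun_prop
@[fun_prop] theorem PTA_w1 {τ : α → Term} (hτ : PT τ) : PT fun a => w1 (τ a) := by
  unfold w1; fun_prop
@[fun_prop] theorem PTA_w2 {τ : α → Term} (hτ : PT τ) : PT fun a => w2 (τ a) := by
  unfold w2; fun_prop
@[fun_prop] theorem PTA_vtab (hr : PT r) (hH : PT H) (hi : PT i) (hj : PT j) :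
    PT fun a => vtab (r a) (H a) (i a) (j a) := by
  unfold vtab; fun_prop
@[fun_prop] theorem PTA_shat (hQ : PT Q) : PT fun a => shat (Q a) := by
  unfold shat; fun_prop

end Aux

theorem pt_ham0 {s N w out : α → ℕ} {l : α → List Raw} (hs : PT s) (hs' : PB s) (hN : PT N)
    (hw : PT w) (hl : PT l) (ho : PT out) : PT fun a => ham0 (s a) (N a) (w a) (l a) (out a) := by
  unfold ham0; fun_prop

theorem pt_roundP {Q : α → ℕ} {I : α → ℕ × Ham} (p : ℕ) (hQ : PT Q) (hI : PT I) :
    PT fun a => roundP (Q a) p (I a) := by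
  unfold roundP; fun_prop

theorem pt_ham3 {s N w out : α → ℕ} {l : α → List Raw} (hs : PT s) (hs' : PB s) (hN : PT N)
    (hw : PT w) (hl : PT l) (ho : PT out) : PT fun a => ham3 (s a) (N a) (w a) (l a) (out a) := by
  exact pt_roundP 1 (PTA_nextQ (PTA_nextQ (PTA_Q0 hs))) (pt_roundP 1 (PTA_nextQ (PTA_Q0 hs))
    (pt_roundP 2 (PTA_Q0 hs) (pt_ham0 hs hs' hN hw hl ho)))

theorem pt_Q3 {s : α → ℕ} (hs : PT s) : PT fun a => Q3 (s a) := by
  exact PTA_nextQ (PTA_nextQ (PTA_nextQ (PTA_Q0 hs)))

theorem pb_Q3 {s : α → ℕ} (hs : PB s) : PB fun a => Q3 (s a) := by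
  exact PTA_nextQB (PTA_nextQB (PTA_nextQB (PTA_Q0B hs)))

theorem pt_ktab {Q A B : α → ℕ} {H : α → Ham} (hQ : PT Q) (hH : PT H) (hA : PT A) (hB : PT B) :
    PT fun a => ktab (Q a) (H a) (A a) (B a) := by
  unfold ktab; fun_prop

theorem pt_aT {Q n : α → ℕ} (hQ : PT Q) (hn : PT n) : PT fun a => aT (Q a) (n a) := by
  unfold aT; fun_prop

theorem pt_bT {Q n : α → ℕ} (hQ : PT Q) (hn : PT n) : PT fun a => bT (Q a) (n a) := by
  unfold bT; fun_prop

end Crest.Agent.R338
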