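/-
R338/PTB: the code of the molecule is polynomial-time
Skeleton by helper15 (row 338); keep the statements unchanged, add any helper lemmas you like.
-/
import Crest.Agent.R338.DDefs
import Crest.Agent.Lib.PolyTime.More

set_option autoImplicit false
set_option linter.unusedSectionVars false
set_option linter.unusedVariables false
set_option linter.unusedSimpArgs false

noncomputable section

namespace Crest.Agent.R338

open Crest.Agent.Lib.PolyTime Crest.MathPhysics.CoulombProblem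

variable {α : Type} [Enc α]

/-- A polynomial-time family of designs. -/
structure PTD (D : α → Des) : Prop where
  S : PT fun a => (D a).S
  Sb : PB fun a => (D a).S
  n : PT fun a => (D a).n
  nb : PB fun a => (D a).n
  Lv : PT fun a => (D a).Lv
  Lvb : PB fun a => (D a).Lv
  M : PT fun a => (D a).M
  pad : PT fun p : α × ℕ × ℕ => (D p.1).pad p.2.1 p.2.2

theorem PTD.comp {β : Type} [Enc β] {D : α → Des} (h : PTD D) {f : β → α} (hf : PT f) :
    PTD fun b => D (f b) := by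
  exact ⟨h.S.comp hf, h.Sb.comp hf, h.n.comp hf, h.nb.comp hf, h.Lv.comp hf, h.Lvb.comp hf,
    h.M.comp hf, PT.comp (f := fun p : α × ℕ × ℕ => (D p.1).pad p.2.1 p.2.2)
      (g := fun p : β × ℕ × ℕ => (f p.1, p.2)) h.pad ((hf.comp PT.fst').prodMk PT.snd')⟩

theorem PTB_sp (j : ℕ) {t : α → ℚ} (ht : PT t) : PT fun a => sp j (t a) := by
  unfold sp
  by_cases h0 : j = 0
  · simp only [h0, if_true]; fun_prop
  · by_cases h1 : j = 1
    · simp only [h0, h1, if_true, if_false, one_ne_zero]; fun_prop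
    · simp only [h0, h1, if_false]; fun_prop

theorem PTB_st (j : ℕ) {t : α → ℚ} (ht : PT t) : PT fun a => st j (t a) :=
  PTB_sp j ((PT.const 0).rat_max (ht.rat_min (PT.const 1)))

theorem PTB_cpow {f : α → ℚ} (hf : PT f) (k : ℕ) : PT fun a => f a ^ k :=
  hf.rat_pow (PT.const k) (PB.const k)

theorem PTB_npow {f : α → ℕ} (hf : PT f) (k : ℕ) : PT fun a => f a ^ k :=
  hf.nat_pow (PT.const k) (PB.const k)

theorem pt_pl {σ a b x : α → ℚ} (j : ℕ) (hσ : PT σ) (ha : PT a) (hb : PT b) (hx : PT x) :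
    PT fun c => pl (σ c) (a c) (b c) j (x c) := by
  unfold pl
  exact PT.rat_div (PT.rat_sub (PTB_st j (((hx.rat_sub ha).rat_div hσ).rat_add (PT.const 1)))
    (PTB_st j ((hx.rat_sub hb).rat_div hσ))) (PTB_cpow hσ j)

section
variable {D : α → Des}

theorem PTD.PTB_Sp (h : PTD D) (k : ℕ) : PT fun a => ((D a).S : ℚ) ^ k :=
  PTB_cpow h.S.rat_natCast k

theorem PTD.PTB_sg (h : PTD D) : PT fun a => (D a).sg ℚ := (h.PTB_Sp 56).rat_inv
theorem PTD.PTB_ell (h : PTD D) : PT fun a => (D a).ell ℚ := (h.PTB_Sp 2160).rat_inv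
theorem PTD.PTB_del (h : PTD D) : PT fun a => (D a).del ℚ := (h.PTB_Sp 3840).rat_inv
theorem PTD.PTB_BB (h : PTD D) : PT fun a => (D a).BB ℚ := h.PTB_Sp 2199
theorem PTD.PTB_fE (h : PTD D) : PT fun a => (D a).fE ℚ := (h.PTB_Sp 3).rat_inv
theorem PTD.PTB_fB (h : PTD D) : PT fun a => (D a).fB ℚ :=
  (h.PTB_Sp 2).rat_inv.rat_sub (h.PTB_Sp 3).rat_inv
theorem PTD.PTB_fT (h : PTD D) : PT fun a => (D a).fT ℚ := h.S.rat_natCast.rat_inv
theorem PTD.PTB_FP (h : PTD D) : PT fun a => (D a).FP ℚ :=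
  ((PT.const 1).rat_add h.S.rat_natCast.rat_inv).rat_add (h.PTB_Sp 2).rat_inv
theorem PTD.PTB_wP (h : PTD D) : PT fun a => (D a).wP ℚ := PTB_cpow h.PTB_FP 536
theorem PTD.PTB_xA (h : PTD D) {A : α → ℕ} (hA : PT A) : PT fun a => (D a).xA ℚ (A a) :=
  (h.PTB_Sp 6).rat_mul hA.rat_natCast
theorem PTD.PTB_yl (h : PTD D) {l : α → ℕ} (hl : PT l) : PT fun a => (D a).yl ℚ (l a) :=
  (h.PTB_Sp 12).rat_mul (hl.rat_natCast.rat_add (PT.const 1))
theorem PTD.PTB_ytop (h : PTD D) : PT fun a => (D a).ytop ℚ := h.PTB_yl h.Lv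
theorem PTD.PTB_tt (h : PTD D) : PT fun a => (D a).tt ℚ :=
  (h.PTB_Sp 2176).rat_div (((PT.const 2).rat_mul h.M.rat_natCast).rat_mul (PTB_cpow h.PTB_wP 2))
theorem PTD.PTB_v0 (h : PTD D) : PT fun a => (D a).v0 ℚ :=
  (h.PTB_Sp 2154).rat_div (PTB_cpow h.M.rat_natCast 2)
theorem PTD.PTB_mm (h : PTD D) : PT fun a => (D a).mm := PTB_npow h.S 1920
theorem PTD.PTB_II (h : PTD D) : PT fun a => (D a).II := PTB_npow h.S 7680
theorem PTD.PTB_YY (h : PTD D) : PT fun a => (D a).YY := PTB_npow h.S 14400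
theorem PTD.PTB_mmb (h : PTD D) : PB fun a => (D a).mm := h.Sb.pow 1920
theorem PTD.PTB_IIb (h : PTD D) : PB fun a => (D a).II := h.Sb.pow 7680
theorem PTD.PTB_YYb (h : PTD D) : PB fun a => (D a).YY := h.Sb.pow 14400
theorem PTD.PTB_aa (h : PTD D) : PT fun a => (D a).aa ℚ :=
  (h.PTB_II.rat_natCast.rat_add (PT.const (1 / 2))).rat_mul h.PTB_del
theorem PTD.PTB_HH (h : PTD D) : PT fun a => (D a).HH ℚ :=
  (((PT.const 2).rat_mul h.PTB_mm.rat_natCast).rat_add (PT.const (1 / 2))).rat_mul h.PTB_del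

theorem PTD.PTB_pad (h : PTD D) {A l : α → ℕ} (hA : PT A) (hl : PT l) :
    PT fun a => (D a).pad (A a) (l a) = true :=
  (PT.comp (f := fun p : α × ℕ × ℕ => (D p.1).pad p.2.1 p.2.2) (g := fun a => (a, A a, l a))
    h.pad (PT.id'.prodMk (hA.prodMk hl))).eq_true

theorem PTD.PTB_fst {β : Type} [Enc β] (h : PTD D) : PTD fun p : α × β => D p.1 :=
  h.comp PT.fst'

theorem PTD.PTB_col (h : PTD D) (i : ℕ) {A : α → ℕ} {x : α → ℚ} (hA : PT A) (hx : PT x) :
    PT fun a => (D a).col (A a) i (x a) :=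
  pt_pl i h.PTB_sg (h.PTB_xA hA) ((h.PTB_xA hA).rat_add (PT.const 1)) hx

theorem PTD.PTB_row (h : PTD D) (j : ℕ) {A : α → ℕ} {y : α → ℚ} (hA : PT A) (hy : PT y) :
    PT fun a => (D a).row (A a) j (y a) := by
  unfold Des.row
  refine PT.rat_add (PT.rat_add (h.PTB_fB.rat_mul (pt_pl j h.PTB_sg (PT.const _) h.PTB_ytop hy))
    (h.PTB_fT.rat_mul (pt_pl j h.PTB_sg ((PT.const 1).rat_add ((PT.const 2).rat_mul h.PTB_sg))
      h.PTB_ytop hy))) ?_
  refine PT.sum_range_rat h.Lv h.Lvb ?_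
  have h' : PTD fun p : α × ℕ => D p.1 := h.PTB_fst
  exact PT.ite (h'.PTB_pad (hA.comp PT.fst') PT.snd')
    (pt_pl j h'.PTB_sg (h'.PTB_yl PT.snd') ((h'.PTB_yl PT.snd').rat_add (PT.const 1))
      (hy.comp PT.fst')) (PT.const 0)

theorem PTD.PTB_bus (h : PTD D) (i : ℕ) {q : α → ℕ} {x : α → ℚ} (hq : PT q) (hx : PT x) :
    PT fun a => (D a).bus (q a) i (x a) :=
  pt_pl i h.PTB_sg (h.PTB_xA ((PT.const 3).nat_mul hq))
    ((h.PTB_xA (((PT.const 3).nat_mul hq).nat_add (PT.const 2))).rat_add (PT.const 1)) hx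

theorem PTD.PTB_n3 (h : PTD D) : PT fun a => 3 * (D a).n := (PT.const 3).nat_mul h.n
theorem PTD.PTB_n3b (h : PTD D) : PB fun a => 3 * (D a).n := (PB.const 3).mul h.nb

end

theorem PTD.F {D : α → Des} (h : PTD D) (i j : ℕ) {x y : α → ℚ} (hx : PT x) (hy : PT y) :
    PT fun a => (D a).F i j (x a) (y a) := by
  unfold Des.F
  have h' : PTD fun p : α × ℕ => D p.1 := h.PTB_fst
  refine PT.rat_add (PT.rat_add (PT.ite (PT.const _) h.PTB_fE (PT.const 0)) ?_)
    (h.PTB_fT.rat_mul ?_)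
  · refine PT.sum_range_rat h.PTB_n3 h.PTB_n3b ?_
    exact (h'.PTB_col i PT.snd' (hx.comp PT.fst')).rat_mul (h'.PTB_row j PT.snd' (hy.comp PT.fst'))
  · refine PT.sum_range_rat h.n h.nb ?_
    exact (h'.PTB_bus i PT.snd' (hx.comp PT.fst')).rat_mul
      (pt_pl j h'.PTB_sg (PT.const _) (PT.const _) (hy.comp PT.fst'))

theorem PTD.PTB_G {D : α → Des} (h : PTD D) {x y : α → ℚ} (hx : PT x) (hy : PT y) :
    PT fun a => (D a).G (x a) (y a) := by
  unfold Des.G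
  refine PT.sum_range_rat h.PTB_n3 h.PTB_n3b ?_
  have h' : PTD fun p : α × ℕ => D p.1 := h.PTB_fst
  refine PT.sum_range_rat h'.Lv h'.Lvb ?_
  have h'' : PTD fun p : (α × ℕ) × ℕ => D p.1.1 := h'.PTB_fst
  have hA : PT fun p : (α × ℕ) × ℕ => p.1.2 := PT.fst'.snd
  have hl : PT fun p : (α × ℕ) × ℕ => p.2 := PT.snd'
  exact PT.ite (h''.PTB_pad hA hl)
    (PT.rat_mul (pt_pl 0 h''.PTB_sg ((h''.PTB_xA hA).rat_add h''.PTB_sg)
      (((h''.PTB_xA hA).rat_add (PT.const 1)).rat_sub h''.PTB_sg) (hx.comp PT.fst'.fst))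
      (pt_pl 0 h''.PTB_sg ((h''.PTB_yl hl).rat_add h''.PTB_sg)
      (((h''.PTB_yl hl).rat_add (PT.const 1)).rat_sub h''.PTB_sg) (hy.comp PT.fst'.fst)))
    (PT.const 0)

theorem PTD.PTB_W {D : α → Des} (h : PTD D) {x y : α → ℚ} (hx : PT x) (hy : PT y) :
    PT fun a => (D a).W (x a) (y a) := by
  unfold Des.W
  exact PT.rat_div (PT.rat_add
    (((PT.const 536).rat_mul (h.F 0 0 hx hy)).rat_mul ((h.F 2 0 hx hy).rat_add (h.F 0 2 hx hy)))
    ((PT.const (536 * 535)).rat_mul ((PTB_cpow (h.F 1 0 hx hy) 2).rat_add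
      (PTB_cpow (h.F 0 1 hx hy) 2)))) ((PT.const 2).rat_mul (PTB_cpow (h.F 0 0 hx hy) 2))

theorem PTD.g3 {D : α → Des} (h : PTD D) {x y z : α → ℚ} (hx : PT x) (hy : PT y) (hz : PT z) :
    PT fun a => (D a).g3 (x a) (y a) (z a) := by
  unfold Des.g3
  have hx' := hx.rat_div h.PTB_ell
  have hy' := hy.rat_div h.PTB_ell
  exact PT.rat_mul (PT.rat_sub ((h.PTB_W hx' hy').rat_div (PTB_cpow h.PTB_ell 2))
    (h.PTB_BB.rat_mul (h.PTB_G hx' hy')))
    (pt_pl 0 (PT.const _) (PT.const _) (PT.const _) (hz.rat_div h.PTB_ell))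

theorem pt_piHat {Y : α → ℕ} (h : PT Y) (hb : PB Y) : PT fun a => piHat (Y a) := by
  unfold piHat
  refine (PT.const 4).rat_mul ?_
  have e : ∀ i : ℕ, (-1 : ℚ) ^ i = if Even i then 1 else -1 := fun i => by
    split_ifs with hi
    · exact hi.neg_one_pow
    · exact (Nat.not_even_iff_odd.mp hi).neg_one_pow
  simp only [e]
  refine PT.sum_range_rat h hb ?_
  exact PT.rat_div (PT.ite PT.snd'.nat_even (PT.const _) (PT.const _))
    (((PT.const 2).rat_mul PT.snd'.rat_natCast).rat_add (PT.const 1))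

theorem PTB_kHat {Y : α → ℕ} {x y : α → ℚ} (h : PT Y) (hx : PT x) (hy : PT y) :
    PT fun a => kHat (Y a) (x a) (y a) := by
  unfold kHat
  exact PT.rat_div (PTB_cpow h.rat_natCast 3) (PT.rat_natCast (PT.nat_max
    (PT.sqrt (PT.int_toNat (PT.rat_floor ((PTB_cpow h.rat_natCast 6).rat_mul
      ((PTB_cpow hx 2).rat_add (PTB_cpow hy 2)))))) (PTB_npow h 2)))

theorem PTB_hHat {Y : α → ℕ} {x y : α → ℚ} (h : PT Y) (hb : PB Y) (hx : PT x) (hy : PT y) :
    PT fun a => hHat (Y a) (x a) (y a) := by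
  unfold hHat
  refine PT.rat_div ?_ (PTB_cpow h.rat_natCast 6)
  refine PT.sum_range_rat (PTB_npow h 3) (hb.pow 3) ?_
  refine PT.sum_range_rat (PTB_npow (h.comp PT.fst') 3) ((hb.comp PT.fst').pow 3) ?_
  have hY : PT fun p : (α × ℕ) × ℕ => Y p.1.1 := h.comp PT.fst'.fst
  exact PTB_kHat hY ((hx.comp PT.fst'.fst).rat_sub (PT.fst'.snd.rat_natCast.rat_div
    (PTB_cpow hY.rat_natCast 3))) ((hy.comp PT.fst'.fst).rat_sub (PT.snd'.rat_natCast.rat_div
    (PTB_cpow hY.rat_natCast 3)))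

theorem pt_c1Hat {Y : α → ℕ} (h : PT Y) (hb : PB Y) : PT fun a => c1Hat (Y a) := by
  unfold c1Hat
  exact (PT.const 2).rat_mul (PTB_hHat h hb (PT.const _) (PT.const _))

theorem pt_c0Hat {Y : α → ℕ} (h : PT Y) (hb : PB Y) : PT fun a => c0Hat (Y a) := by
  unfold c0Hat
  refine PT.rat_div ?_ (PTB_cpow h.rat_natCast 6)
  refine PT.sum_range_rat (PTB_npow h 3) (hb.pow 3) ?_
  refine PT.sum_range_rat (PTB_npow (h.comp PT.fst') 3) ((hb.comp PT.fst').pow 3) ?_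
  have hY : PT fun p : (α × ℕ) × ℕ => Y p.1.1 := h.comp PT.fst'.fst
  exact PTB_hHat hY (hb.comp PT.fst'.fst) (PT.fst'.snd.rat_natCast.rat_div
    (PTB_cpow hY.rat_natCast 3)) (PT.snd'.rat_natCast.rat_div (PTB_cpow hY.rat_natCast 3))

theorem PTD.PTB_omHat {D : α → Des} (h : PTD D) : PT fun a => (D a).omHat := by
  unfold Des.omHat
  exact PT.sqrt (PT.int_toNat (PT.rat_floor (((PT.const 4).rat_mul
    (pt_piHat h.PTB_YY h.PTB_YYb)).rat_mul (h.PTB_Sp 11520))))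

theorem PTD.PTB_C1Hat {D : α → Des} (h : PTD D) : PT fun a => (D a).C1Hat := by
  unfold Des.C1Hat
  have hp := pt_piHat h.PTB_YY h.PTB_YYb
  exact PT.rat_sub (PT.rat_add (PT.rat_sub (PT.rat_neg ((h.PTB_Sp 11520).rat_mul
    (PT.rat_sub ((((PT.const 2).rat_mul h.PTB_HH).rat_mul h.PTB_aa).rat_mul
      (pt_c1Hat h.PTB_YY h.PTB_YYb)) (((PT.const 2).rat_mul hp).rat_mul (PTB_cpow h.PTB_HH 2)))))
    (hp.rat_div ((PT.const 6).rat_mul h.PTB_del)))
    (h.PTB_omHat.rat_natCast.rat_div (PT.const 2))) h.PTB_BB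

theorem PTD.PTB_UHat {D : α → Des} (h : PTD D) : PT fun a => (D a).UHat := by
  unfold Des.UHat
  exact ((pt_c0Hat h.PTB_YY h.PTB_YYb).rat_mul h.M.rat_natCast).rat_mul (h.PTB_Sp 6)

theorem PTD.thr {D : α → Des} (h : PTD D) {kc : α → ℕ} {e : α → ℚ} (hk : PT kc) (he : PT e) :
    PT fun a => (D a).thr (kc a) (e a) := by
  unfold Des.thr
  have hn : PT fun a => ((D a).n : ℚ) := h.n.rat_natCast
  have hk' : PT fun a => (kc a : ℚ) := hk.rat_natCast
  exact PT.rat_add (PT.rat_add (((PT.const 3).rat_mul hn).rat_mul h.PTB_C1Hat)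
    (h.PTB_tt.rat_mul hn)) (h.PTB_v0.rat_mul (PT.rat_add (PT.rat_add
      (((PT.const 3).rat_mul hn).rat_mul hk')
      ((((PT.const 2).rat_mul hn).rat_div (PT.const 3)).rat_mul (h.PTB_UHat.rat_sub hk'))) he))

theorem PTB_natCode {n : α → ℕ} (h : PT n) :
    PT fun a => Crest.Quantum.GateCircuit.natCode (n a) := by
  unfold Crest.Quantum.GateCircuit.natCode
  fun_prop

theorem PTB_intCode {z : α → ℤ} (h : PT z) : PT fun a => intCode (z a) := by
  unfold intCode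
  exact PT.cons (PT.decide (h.int_lt (PT.const 0))) (PTB_natCode h.natAbs)

theorem pt_ratCode {q : α → ℚ} (h : PT q) : PT fun a => ratCode (q a) := by
  unfold ratCode
  exact (PTB_intCode h.rat_num).append (PTB_natCode h.rat_den)

theorem PTB_rng {I : α → ℕ} (h : PT I) (hb : PB I) : PT fun a => rng (I a) := by
  unfold rng
  refine PT.map (PT.range (((PT.const 2).nat_mul h).nat_add (PT.const 1))
    (((PB.const 2).mul hb).add (PB.const 1))) ?_
  exact PT.snd'.int_natCast.int_sub (h.comp PT.fst').int_natCast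

theorem PTB_tri {I J : α → ℕ} (h : PT I) (hb : PB I) (hJ : PT J) (hJb : PB J) :
    PT fun a => tri (I a) (J a) := by
  unfold tri
  refine PT.flatMap (PTB_rng h hb) ?_
  refine PT.flatMap (PTB_rng (h.comp PT.fst') (hb.comp PT.fst')) ?_
  refine PT.map (PTB_rng (hJ.comp PT.fst'.fst) (hJb.comp PT.fst'.fst)) ?_
  exact PT.fst'.fst.snd.prodMk (PT.fst'.snd.prodMk PT.snd')

theorem PTD.PTB_pos {D : α → Des} (h : PTD D) {b : α → ℤ × ℤ × ℤ} (hb : PT b) :
    PT fun a => posCode ((D a).pos (b a)) := by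
  have hδ := h.PTB_del
  have hκ : PT fun a => -(D a).del ℚ ^ 2 / (4 * piHat (D a).YY) :=
    (PTB_cpow hδ 2).rat_neg.rat_div ((PT.const 4).rat_mul (pt_piHat h.PTB_YY h.PTB_YYb))
  have hx : PT fun a => (D a).del ℚ * ((b a).1 : ℚ) := hδ.rat_mul hb.fst.rat_intCast
  have hy : PT fun a => (D a).del ℚ * ((b a).2.1 : ℚ) := hδ.rat_mul hb.snd.fst.rat_intCast
  have hz : PT fun a => (D a).del ℚ * ((b a).2.2 : ℚ) := hδ.rat_mul hb.snd.snd.rat_intCast
  have hh : PT fun a => (D a).del ℚ / 2 := hδ.rat_div (PT.const 2)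
  have h0 := pt_ratCode (hx.rat_add (hκ.rat_mul ((h.g3 (hx.rat_add hh) hy hz).rat_sub
    (h.g3 (hx.rat_sub hh) hy hz))))
  have h1 := pt_ratCode (hy.rat_add (hκ.rat_mul ((h.g3 hx (hy.rat_add hh) hz).rat_sub
    (h.g3 hx (hy.rat_sub hh) hz))))
  have h2 := pt_ratCode (hz.rat_add (hκ.rat_mul ((h.g3 hx hy (hz.rat_add hh)).rat_sub
    (h.g3 hx hy (hz.rat_sub hh)))))
  refine ((h0.append h1).append h2).of_eq fun a => ?_
  simp only [posCode, Des.pos, Matrix.cons_val_zero, Matrix.cons_val_one, Matrix.cons_val_two,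
    Matrix.head_cons, Matrix.tail_cons]

theorem PTD.code {D : α → Des} (h : PTD D) {kc a b : α → ℕ} (hk : PT kc) (ha : PT a) (hb : PT b) :
    PT fun c => ((D c).inst (kc c) (a c) (b c)).code := by
  have h1 : PT fun c => Crest.Quantum.GateCircuit.listCode posCode
      ((tri (D c).II (2 * (D c).mm)).map (D c).pos) := by
    unfold Crest.Quantum.GateCircuit.listCode
    simp only [List.map_map]
    refine PT.append (PT.flatten (PT.map (PTB_tri h.PTB_II h.PTB_IIb ((PT.const 2).nat_mul h.PTB_mm)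
      ((PB.const 2).mul h.PTB_mmb)) ?_)) (PT.const _)
    exact PT.cons (PT.const true) (h.PTB_fst.PTB_pos PT.snd')
  have h2 : PT fun c => unaryCode (3 * (D c).n) := by
    unfold unaryCode
    exact (PT.replicate h.PTB_n3 h.PTB_n3b (PT.const true)).append (PT.const _)
  have h3 := pt_ratCode (h.thr hk (ha.rat_natCast.rat_add (PT.const 3)))
  have h4 := pt_ratCode (h.thr hk (hb.rat_natCast.rat_sub (PT.const 3)))
  exact ((h1.append h2).append h3).append h4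

theorem PTB_dist {A B : α → ℕ} (hA : PT A) (hB : PT B) : PT fun a => Nat.dist (A a) (B a) := by
  unfold Nat.dist
  exact (hA.nat_sub hB).nat_add (hB.nat_sub hA)

theorem PTB_cmn {kc A B : α → ℕ} {k : α → ℕ → ℕ → ℕ} (hkc : PT kc)
    (hk : PT fun p : α × ℕ × ℕ => k p.1 p.2.1 p.2.2) (hA : PT A) (hB : PT B) :
    PT fun a => cmn (kc a) (k a) (A a) (B a) := by
  unfold cmn
  exact PT.nat_mul (PT.ite ((hA.nat_div (PT.const 3)).eq (hB.nat_div (PT.const 3))) hkc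
    (PT.comp (f := fun p : α × ℕ × ℕ => k p.1 p.2.1 p.2.2) (g := fun a => (a, A a, B a)) hk
      (PT.id'.prodMk (hA.prodMk hB)))) (PTB_dist hA hB)

theorem PTB_padOf {R M A l : α → ℕ} {c : α → ℕ → ℕ → ℕ} (hR : PT R) (hRb : PB R) (hM : PT M)
    (hc : PT fun p : α × ℕ × ℕ => c p.1 p.2.1 p.2.2) (hA : PT A) (hl : PT l) :
    PT fun a => padOf (R a) (M a) (c a) (A a) (l a) := by
  unfold padOf
  have h1 : PT fun a => l a / M a / R a := (hl.nat_div hM).nat_div hR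
  have h2 : PT fun a => l a / M a % R a := (hl.nat_div hM).nat_mod hR
  have h3 : PT fun a => l a % M a := hl.nat_mod hM
  have h4 : PT fun a => ∑ B ∈ Finset.range (R a), c a (A a) B :=
    PT.sum_range_nat hR hRb (PT.comp (f := fun p : α × ℕ × ℕ => c p.1 p.2.1 p.2.2)
      (g := fun p : α × ℕ => (p.1, A p.1, p.2)) hc
      (PT.fst'.prodMk ((hA.comp PT.fst').prodMk PT.snd')))
  have h5 : PT fun a => c a (l a / M a / R a) (l a / M a % R a) :=
    PT.comp (f := fun p : α × ℕ × ℕ => c p.1 p.2.1 p.2.2)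
      (g := fun a => (a, l a / M a / R a, l a / M a % R a)) hc (PT.id'.prodMk (h1.prodMk h2))
  exact PT.ite (h1.eq h2) (PT.decide ((hA.eq h1).and ((h3.nat_add h4).nat_lt hM)))
    (PT.decide ((h1.nat_lt h2).and (((hA.eq h1).or (hA.eq h2)).and (h3.nat_lt h5))))

theorem ptd_desOf (S₀ : ℕ) {Q n : α → ℕ} {k : α → ℕ → ℕ → ℕ} (hQ : PT Q) (hQ' : PB Q) (hn : PT n)
    (hn' : PB n) (hk : PT fun p : α × ℕ × ℕ => k p.1 p.2.1 p.2.2) :
    PTD fun a => desOf S₀ (Q a) (n a) (k a) := by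
  have h3 : PT fun a => 3 * n a := (PT.const 3).nat_mul hn
  have h3b : PB fun a => 3 * n a := (PB.const 3).mul hn'
  have hM : PT fun a => 1000 * Q a ^ 8 := (PT.const 1000).nat_mul (PTB_npow hQ 8)
  have hMb : PB fun a => 1000 * Q a ^ 8 := (PB.const 1000).mul (hQ'.pow 8)
  refine ⟨(PT.const S₀).nat_add ((PT.const 9000).nat_mul (PTB_npow hQ 10)),
    (PB.const S₀).add ((PB.const 9000).mul (hQ'.pow 10)), hn, hn', (h3.nat_mul h3).nat_mul hM,
    (h3b.mul h3b).mul hMb, hM, ?_⟩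
  refine PTB_padOf (c := fun p : α × ℕ × ℕ => cmn (100 * Q p.1 ^ 6) (k p.1)) (h3.comp PT.fst')
    (h3b.comp PT.fst') (hM.comp PT.fst') ?_ PT.snd'.fst PT.snd'.snd
  refine PTB_cmn (k := fun p : (α × ℕ × ℕ) × ℕ × ℕ => k p.1.1)
    ((PT.const 100).nat_mul (PTB_npow (hQ.comp PT.fst'.fst) 6)) ?_ PT.snd'.fst PT.snd'.snd
  exact PT.comp (f := fun p : α × ℕ × ℕ => k p.1 p.2.1 p.2.2)
    (g := fun p : ((α × ℕ × ℕ) × ℕ × ℕ) × ℕ × ℕ => (p.1.1.1, p.2)) hk
    (PT.fst'.fst.fst.prodMk PT.snd')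

end Crest.Agent.R338
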