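/-
R338/CoulA: Coulomb integrals of thin boxes
Skeleton by helper15 (row 338); keep the statements unchanged, add any helper lemmas you like.
-/
import Crest.Agent.R338.Riem

set_option autoImplicit false
set_option linter.unusedSectionVars false
set_option linter.unusedVariables false
set_option linter.unusedSimpArgs false

noncomputable section

namespace Crest.Agent.R338

open MeasureTheory Set Filter Crest.MathPhysics.ElectronicCoulomb

/-- The pair integral of two sets with the vertical weight `w`. -/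
def Jb (κ : Pos3 → ℝ) (w : ℝ → ℝ) (s t : Set Pos3) : ℝ :=
  ∫ x in s, ∫ y in t, κ (x - y) * (w (x 2) * w (y 2))

variable {w : ℝ → ℝ} {h mz ℓ : ℝ} {κ : Pos3 → ℝ}

theorem CoulA_scale (hℓ : 0 < ℓ) (a b : ℝ) (f : ℝ × ℝ → ℝ) :
    ∫ p in Icc a (a + ℓ) ×ˢ Icc b (b + ℓ), f p =
      ℓ ^ 2 * ∫ p in Icc (0 : ℝ) 1 ×ˢ Icc (0 : ℝ) 1, f ((a, b) + ℓ • p) := by
  have h1 := Measure.integral_comp_smul (volume : Measure (ℝ × ℝ))
    (fun p => (Icc a (a + ℓ) ×ˢ Icc b (b + ℓ)).indicator f ((a, b) + p)) ℓ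
  rw [integral_add_left_eq_self, integral_indicator (measurableSet_Icc.prod measurableSet_Icc)]
    at h1
  have h2 : ∀ p : ℝ × ℝ, (Icc a (a + ℓ) ×ˢ Icc b (b + ℓ)).indicator f ((a, b) + ℓ • p) =
      (Icc (0 : ℝ) 1 ×ˢ Icc (0 : ℝ) 1).indicator (fun p => f ((a, b) + ℓ • p)) p := by
    intro p
    have : ((a, b) + ℓ • p) ∈ Icc a (a + ℓ) ×ˢ Icc b (b + ℓ) ↔
        p ∈ Icc (0 : ℝ) 1 ×ˢ Icc (0 : ℝ) 1 := by
      simp only [mem_prod, mem_Icc, Prod.fst_add, Prod.snd_add, Prod.smul_fst, Prod.smul_snd,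
        smul_eq_mul, le_add_iff_nonneg_right, add_le_add_iff_left,
        mul_nonneg_iff_of_pos_left hℓ, mul_le_iff_le_one_right hℓ]
    by_cases hp : p ∈ Icc (0 : ℝ) 1 ×ˢ Icc (0 : ℝ) 1
    · rw [indicator_of_mem hp, indicator_of_mem (this.mpr hp)]
    · rw [indicator_of_notMem hp, indicator_of_notMem (fun h => hp (this.mp h))]
  simp only [h2] at h1
  rw [integral_indicator (measurableSet_Icc.prod measurableSet_Icc)] at h1
  rw [h1]
  simp only [Module.finrank_prod, Module.finrank_self, smul_eq_mul]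
  rw [abs_of_pos (by positivity)]
  field_simp
  ring

theorem CoulA_K2_smul (hℓ : 0 < ℓ) (p : ℝ × ℝ) : K2 (ℓ • p) = ℓ⁻¹ * K2 p := by
  simp only [K2, Prod.smul_fst, Prod.smul_snd, smul_eq_mul]
  rw [show (ℓ * p.1) ^ 2 + (ℓ * p.2) ^ 2 = ℓ ^ 2 * (p.1 ^ 2 + p.2 ^ 2) by ring,
    Real.sqrt_mul (sq_nonneg ℓ), Real.sqrt_sq hℓ.le, one_div, mul_inv, one_div]

theorem CoulA_bdd (a a' b b' : ℝ) : Bornology.IsBounded (Icc a a' ×ˢ Icc b b') :=
  (isCompact_Icc.prod isCompact_Icc).isBounded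

theorem CoulA_area {a a' b b' : ℝ} (ha : a ≤ a') (hb : b ≤ b') :
    (volume : Measure (ℝ × ℝ)).real (Icc a a' ×ˢ Icc b b') = (a' - a) * (b' - b) := by
  rw [Measure.volume_eq_prod, measureReal_prod_prod, Real.volume_real_Icc_of_le ha,
    Real.volume_real_Icc_of_le hb]

theorem CoulA_pot {L : ℝ} (hL : 0 < L) {a a' b b' : ℝ} (ha : a ≤ a') (hb : b ≤ b') (p : ℝ × ℝ) :
    ∫ q in Icc a a' ×ˢ Icc b b', K2 (p - q) ≤ 8 * L + (a' - a) * (b' - b) / L := by
  have hD := planeD_spec hL.le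
  have hc : IntegrableOn (fun _ : ℝ × ℝ => 1 / L) (Icc a a' ×ˢ Icc b b') :=
    integrableOn_const (isCompact_Icc.prod isCompact_Icc).measure_lt_top.ne
  have h1 : ∀ q, K2 q ≤ planeD L q + 1 / L := by
    intro q
    unfold K2 planeD
    by_cases hq : √(q.1 ^ 2 + q.2 ^ 2) ∈ Iio L
    · rw [indicator_of_mem hq]
      linarith [one_div_pos.mpr hL]
    · rw [indicator_of_notMem hq, zero_add]
      exact one_div_le_one_div_of_le hL (not_lt.mp hq)
  calc ∫ q in Icc a a' ×ˢ Icc b b', K2 (p - q)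
      ≤ ∫ q in Icc a a' ×ˢ Icc b b', (planeD L (p - q) + 1 / L) :=
        integral_mono (integrableOn_K2 p (CoulA_bdd _ _ _ _))
          ((hD.1.comp_sub_left p).integrableOn.add hc) fun q => h1 _
    _ = (∫ q in Icc a a' ×ˢ Icc b b', planeD L (p - q)) + (a' - a) * (b' - b) / L := by
        rw [integral_add (hD.1.comp_sub_left p).integrableOn hc, setIntegral_const,
          CoulA_area ha hb, smul_eq_mul, mul_one_div]
    _ ≤ (∫ q, planeD L (p - q)) + (a' - a) * (b' - b) / L :=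
        add_le_add (setIntegral_le_integral (hD.1.comp_sub_left p)
          (Eventually.of_forall fun q => planeD_nonneg _ _)) le_rfl
    _ ≤ _ := by
        rw [integral_sub_left_eq_self (planeD L), hD.2]
        nlinarith [Real.pi_le_four]

theorem CoulA_sub (x : Pos3) (q : ℝ × ℝ) (z : ℝ) :
    x - mk3 q z = mk3 ((x 0, x 1) - q) (x 2 - z) := by
  ext i
  fin_cases i <;> simp [mk3]

theorem CoulA_mass (hw : ZW w h mz) : ∫ z in Icc (-h) h, w z = mz := by
  rw [hw.mass, intervalIntegral.integral_of_le (by linarith [hw.hpos]),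
    integral_Icc_eq_integral_Ioc]

theorem CoulA_w2 (hw : ZW w h mz) : Continuous fun x : Pos3 => w (x 2) :=
  hw.cont.comp (by fun_prop)

theorem CoulA_intOn (hw : ZW w h mz) (hm : Measurable κ) (h0 : ∀ x, 0 ≤ κ x)
    (h1 : ∀ x, κ x ≤ Kn x) {t : Set Pos3} (ht : IsCompact t) (x : Pos3) :
    IntegrableOn (fun y => κ (x - y) * w (y 2)) t := by
  have h2 : IntegrableOn (fun y => κ (x - y)) t :=
    (integrableOn_Kn x ht.isBounded).mono'
      (hm.comp (measurable_const.sub measurable_id)).aestronglyMeasurable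
      (Eventually.of_forall fun y => by rw [Real.norm_of_nonneg (h0 _)]; exact h1 _)
  exact h2.mul_continuousOn (CoulA_w2 hw).continuousOn ht

theorem CoulA_inner (hw : ZW w h mz) (hm : Measurable κ) (h0 : ∀ x, 0 ≤ κ x)
    (h1 : ∀ x, κ x ≤ Kn x) (a a' b b' : ℝ) (x : Pos3) :
    IntegrableOn (fun z => (∫ q in Icc a a' ×ˢ Icc b b', κ (mk3 ((x 0, x 1) - q) (x 2 - z))) * w z)
      (Icc (-h) h) ∧
    ∫ y in bx a a' b b' h, κ (x - y) * w (y 2) = ∫ z in Icc (-h) h,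
      (∫ q in Icc a a' ×ˢ Icc b b', κ (mk3 ((x 0, x 1) - q) (x 2 - z))) * w z := by
  have hi := CoulA_intOn hw hm h0 h1 (isCompact_bx a a' b b' h) x
  have h2 := (Coord_int hi).integral_prod_right
  have h3 := integral_bx_prod' hi
  simp only [CoulA_sub, mk3_2, integral_mul_const] at h2 h3
  exact ⟨h2, h3⟩

theorem CoulA_ae (p : ℝ × ℝ) (s : Set (ℝ × ℝ)) : ∀ᵐ q ∂(volume.restrict s), p - q ≠ 0 := by
  refine ae_restrict_of_ae ?_
  have : ∀ᵐ q : ℝ × ℝ, q ∉ ({p} : Set (ℝ × ℝ)) :=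
    measure_eq_zero_iff_ae_notMem.mp (measure_singleton p)
  filter_upwards [this] with q hq h
  exact hq (sub_eq_zero.mp h).symm

theorem CoulA_K3_nonneg (z : ℝ) (p : ℝ × ℝ) : 0 ≤ K3 z p := by
  unfold K3
  positivity

theorem CoulA_inner_le (hw : ZW w h mz) (a a' b b' : ℝ) (x : Pos3) :
    ∫ y in bx a a' b b' h, Kn (x - y) * w (y 2) ≤
      (∫ q in Icc a a' ×ˢ Icc b b', K2 ((x 0, x 1) - q)) * mz := by
  obtain ⟨h1, h2⟩ := CoulA_inner hw measurable_Kn Kn_nonneg (fun _ => le_rfl) a a' b b' x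
  rw [h2, ← CoulA_mass hw, ← integral_const_mul]
  refine integral_mono h1 ((hw.cont.integrableOn_Icc).const_mul _) fun z => ?_
  refine mul_le_mul_of_nonneg_right ?_ (hw.pos z).le
  refine integral_mono_of_nonneg (Eventually.of_forall fun q => Kn_nonneg _)
    (integrableOn_K2 _ (CoulA_bdd _ _ _ _)) ?_
  filter_upwards [CoulA_ae (x 0, x 1) (Icc a a' ×ˢ Icc b b')] with q hq
  rw [Kn_mk3]
  exact K3_le_K2 _ hq

theorem CoulA_inner_ge (hw : ZW w h mz) {Λ : ℝ} (hΛ : 0 < Λ) (a a' b b' : ℝ) {x : Pos3}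
    (hx : x 2 ∈ Icc (-h) h) :
    ((∫ q in Icc a a' ×ˢ Icc b b', K2 ((x 0, x 1) - q)) - (16 * h + 16 / Λ)) * mz ≤
      ∫ y in bx a a' b b' h, min (Kn (x - y)) Λ * w (y 2) := by
  obtain ⟨h1, h2⟩ := CoulA_inner (κ := fun x => min (Kn x) Λ) hw
    (measurable_Kn.min measurable_const) (fun x => le_min (Kn_nonneg x) hΛ.le)
    (fun x => min_le_left _ _) a a' b b' x
  rw [h2, ← CoulA_mass hw, ← integral_const_mul]
  refine setIntegral_mono_on ((hw.cont.integrableOn_Icc).const_mul _) h1 measurableSet_Icc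
    fun z hz => ?_
  refine mul_le_mul_of_nonneg_right ?_ (hw.pos z).le
  have hs : MeasurableSet (Icc a a' ×ˢ Icc b b') := measurableSet_Icc.prod measurableSet_Icc
  obtain ⟨i1, i2⟩ := integral_K2_sub_K3 (x 2 - z)
  have i3 := (i1.comp_sub_left (x 0, x 1)).integrableOn (s := Icc a a' ×ˢ Icc b b')
  have i4 := riem_KT_int hΛ (x 0, x 1) (CoulA_bdd a a' b b')
  have e1 := (K2_sub_KT hΛ (x 0, x 1) hs (CoulA_bdd a a' b b')).2
  have e2 : ∫ q in Icc a a' ×ˢ Icc b b', (K2 ((x 0, x 1) - q) - K3 (x 2 - z) ((x 0, x 1) - q)) ≤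
      16 * h := by
    refine (setIntegral_le_integral (i1.comp_sub_left (x 0, x 1)) ?_).trans ?_
    · have := CoulA_ae (x 0, x 1) univ
      rw [Measure.restrict_univ] at this
      filter_upwards [this] with q hq
      exact sub_nonneg.mpr (K3_le_K2 _ hq)
    · rw [integral_sub_left_eq_self (fun p => K2 p - K3 (x 2 - z) p), i2]
      have : |x 2 - z| ≤ 2 * h := abs_le.mpr ⟨by linarith [hx.1, hz.2], by linarith [hx.2, hz.1]⟩
      nlinarith [Real.pi_le_four, Real.pi_pos, abs_nonneg (x 2 - z), hw.hpos]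
  have e3 : ∫ q in Icc a a' ×ˢ Icc b b', (KT Λ ((x 0, x 1) - q) -
      (K2 ((x 0, x 1) - q) - K3 (x 2 - z) ((x 0, x 1) - q))) ≤
      ∫ q in Icc a a' ×ˢ Icc b b', min (Kn (mk3 ((x 0, x 1) - q) (x 2 - z))) Λ := by
    refine integral_mono_ae (i4.sub i3) ?_ ?_
    · refine (integrableOn_const (C := Λ)
        (isCompact_Icc.prod isCompact_Icc).measure_lt_top.ne).mono' ?_ ?_
      · refine Measurable.aestronglyMeasurable ((measurable_Kn.comp ?_).min measurable_const)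
        exact (continuous_mk3.comp ((continuous_const.sub continuous_id).prodMk
          continuous_const)).measurable
      · refine Eventually.of_forall fun q => ?_
        rw [Real.norm_of_nonneg (le_min (Kn_nonneg _) hΛ.le)]
        exact min_le_right _ _
    · filter_upwards [CoulA_ae (x 0, x 1) (Icc a a' ×ˢ Icc b b')] with q hq
      rw [Kn_mk3, KT_eq_min hΛ hq]
      have h3 := K3_le_K2 (x 2 - z) hq
      have h4 := min_le_left (K2 ((x 0, x 1) - q)) Λ
      have h5 := min_le_right (K2 ((x 0, x 1) - q)) Λ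
      exact le_min (by linarith) (by linarith)
  rw [integral_sub i4 i3] at e3
  linarith

theorem CoulA_P_int {a a' b b' : ℝ} (ha : a ≤ a') (hb : b ≤ b') {s : Set (ℝ × ℝ)}
    (hs : IsCompact s) : IntegrableOn (fun p => ∫ q in Icc a a' ×ˢ Icc b b', K2 (p - q)) s := by
  have hm : StronglyMeasurable fun p : ℝ × ℝ => ∫ q in Icc a a' ×ˢ Icc b b', K2 (p - q) :=
    StronglyMeasurable.integral_prod_right (f := fun p q : ℝ × ℝ => K2 (p - q))
      (measurable_K2.comp (measurable_fst.sub measurable_snd)).stronglyMeasurable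
  refine (integrableOn_const (C := 8 * 1 + (a' - a) * (b' - b) / 1) hs.measure_lt_top.ne).mono'
    hm.aestronglyMeasurable (Eventually.of_forall fun p => ?_)
  rw [Real.norm_of_nonneg (integral_nonneg fun q => K2_nonneg _)]
  exact CoulA_pot one_pos ha hb p

theorem CoulA_outer (hw : ZW w h mz) {a a' b b' : ℝ} {P : ℝ × ℝ → ℝ}
    (hP : IntegrableOn P (Icc a a' ×ˢ Icc b b')) :
    IntegrableOn (fun x : Pos3 => P (x 0, x 1) * w (x 2)) (bx a a' b b' h) ∧
      ∫ x in bx a a' b b' h, P (x 0, x 1) * w (x 2) = (∫ p in Icc a a' ×ˢ Icc b b', P p) * mz := by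
  have h1 : IntegrableOn (fun x : Pos3 => P (x 0, x 1) * w (x 2)) (bx a a' b b' h) := by
    rw [← Coord_image_bx, (measurePreserving_mk3.integrableOn_image measurableEmbedding_mk3)]
    have := Integrable.mul_prod hP (hw.cont.integrableOn_Icc (μ := volume) (a := -h) (b := h))
    rw [Measure.prod_restrict] at this
    exact this
  refine ⟨h1, ?_⟩
  rw [integral_bx_prod h1]
  simp only [mk3_0, mk3_1, mk3_2, Prod.mk.eta, integral_const_mul, CoulA_mass hw,
    integral_mul_const]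

theorem CoulA_nice (hw : ZW w h mz) {s : Set Pos3} (hs : IsCompact s) :
    Nice (s.indicator fun x : Pos3 => w (x 2)) := by
  refine ⟨(CoulA_w2 hw).measurable.indicator hs.measurableSet, ?_,
    hs.isBounded.subset support_indicator_subset⟩
  obtain ⟨C, hC⟩ := hs.exists_bound_of_continuousOn (CoulA_w2 hw).continuousOn
  refine ⟨max C 0, fun y => ?_⟩
  by_cases hy : y ∈ s
  · rw [indicator_of_mem hy]
    exact (hC y hy).trans (le_max_left _ _)
  · rw [indicator_of_notMem hy, abs_zero]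
    exact le_max_right _ _

theorem CoulA_Jb (κ : Pos3 → ℝ) (w : ℝ → ℝ) (s t : Set Pos3) :
    Jb κ w s t = ∫ x in s, (∫ y in t, κ (x - y) * w (y 2)) * w (x 2) := by
  unfold Jb
  refine integral_congr_ae (Eventually.of_forall fun x => ?_)
  beta_reduce
  rw [← integral_mul_const]
  refine integral_congr_ae (Eventually.of_forall fun y => ?_)
  ring

/-- Translation and scaling. -/
theorem planar_self (hℓ : 0 < ℓ) (a b : ℝ) :
    ∫ p in Icc a (a + ℓ) ×ˢ Icc b (b + ℓ), ∫ q in Icc a (a + ℓ) ×ˢ Icc b (b + ℓ), K2 (p - q) =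
      c0 * ℓ ^ 3 := by
  rw [CoulA_scale hℓ]
  have e : ∀ p : ℝ × ℝ, ∫ q in Icc a (a + ℓ) ×ˢ Icc b (b + ℓ), K2 ((a, b) + ℓ • p - q) =
      ℓ * ∫ q in Icc (0 : ℝ) 1 ×ˢ Icc (0 : ℝ) 1, K2 (p - q) := by
    intro p
    rw [CoulA_scale hℓ]
    simp only [add_sub_add_left_eq_sub, ← smul_sub, CoulA_K2_smul hℓ, integral_const_mul]
    field_simp
  simp only [e, integral_const_mul]
  unfold c0
  ring

/-- Split the square into the part inside `p + square` (`integral_K2_square`, `c1_bounds`) and the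
rest, where `K2 (p - q) ≤ 1 / L`. -/
theorem planar_pot_le {L : ℝ} (hL : 0 < L) (p : ℝ × ℝ) :
    ∫ q in Icc (-L) L ×ˢ Icc (-L) L, K2 (p - q) ≤ 20 * L := by
  refine (CoulA_pot hL (by linarith) (by linarith) p).trans ?_
  have : (L - -L) * (L - -L) / L = 4 * L := by field_simp; ring
  linarith

/-- `integral_bx_prod'`, `Kn_mk3`, `K3_le_K2`. -/
theorem pot_box_le (hw : ZW w h mz) {L : ℝ} (hL : 0 < L) (x : Pos3) :
    ∫ y in bx (-L) L (-L) L h, Kn (x - y) * w (y 2) ≤ 20 * L * mz := by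
  exact (CoulA_inner_le hw _ _ _ _ x).trans
    (mul_le_mul_of_nonneg_right (planar_pot_le hL _) hw.mz_pos.le)

theorem Jb_nonneg (hw : ZW w h mz) (h0 : ∀ x, 0 ≤ κ x) (s t : Set Pos3) : 0 ≤ Jb κ w s t := by
  exact integral_nonneg fun x => integral_nonneg fun y =>
    mul_nonneg (h0 _) (mul_pos (hw.pos _) (hw.pos _)).le

theorem Jb_integrable (hw : ZW w h mz) (hm : Measurable κ) (h0 : ∀ x, 0 ≤ κ x)
    (h1 : ∀ x, κ x ≤ Kn x) {s t : Set Pos3} (hs : IsCompact s) (ht : IsCompact t) :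
    Integrable (fun p : Pos3 × Pos3 => κ (p.1 - p.2) * (w (p.1 2) * w (p.2 2)))
      ((volume.restrict s).prod (volume.restrict t)) := by
  have h2 := (integrable_Kn_prod (CoulA_nice hw hs) (CoulA_nice hw ht)).integrableOn (s := s ×ˢ t)
  rw [Measure.prod_restrict]
  refine Integrable.mono' h2 ?_ ?_
  · exact ((hm.comp (measurable_fst.sub measurable_snd)).mul
      (((CoulA_w2 hw).measurable.comp measurable_fst).mul
        ((CoulA_w2 hw).measurable.comp measurable_snd))).aestronglyMeasurable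
  · refine (ae_restrict_mem (hs.measurableSet.prod ht.measurableSet)).mono fun p hp => ?_
    have h3 := (mul_pos (hw.pos (p.1 2)) (hw.pos (p.2 2))).le
    rw [indicator_of_mem hp.1, indicator_of_mem hp.2, Real.norm_of_nonneg (mul_nonneg (h0 _) h3)]
    exact mul_le_mul_of_nonneg_right (h1 _) h3

theorem CoulA_const (hw : ZW w h mz) (hℓ : 0 < ℓ) (a b a' b' c : ℝ) :
    Integrable (fun p : Pos3 × Pos3 => c * (w (p.1 2) * w (p.2 2)))
      ((volume.restrict (bx a (a + ℓ) b (b + ℓ) h)).prod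
        (volume.restrict (bx a' (a' + ℓ) b' (b' + ℓ) h))) ∧
    ∫ p : Pos3 × Pos3, c * (w (p.1 2) * w (p.2 2))
      ∂((volume.restrict (bx a (a + ℓ) b (b + ℓ) h)).prod
        (volume.restrict (bx a' (a' + ℓ) b' (b' + ℓ) h))) = c * (ℓ ^ 2 * mz) ^ 2 := by
  refine ⟨(Integrable.mul_prod (box_integrableOn (CoulA_w2 hw) _ _ _ _ _)
    (box_integrableOn (CoulA_w2 hw) _ _ _ _ _)).const_mul c, ?_⟩
  rw [integral_const_mul, integral_prod_mul (fun x : Pos3 => w (x 2)) (fun x : Pos3 => w (x 2)),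
    integral_bx_weight hw (by linarith) (by linarith),
    integral_bx_weight hw (by linarith) (by linarith)]
  ring

theorem Jb_le_of (hw : ZW w h mz) (hℓ : 0 < ℓ) (hm : Measurable κ) (h0 : ∀ x, 0 ≤ κ x)
    (h1 : ∀ x, κ x ≤ Kn x) {a b a' b' c : ℝ}
    (hc : ∀ x ∈ bx a (a + ℓ) b (b + ℓ) h, ∀ y ∈ bx a' (a' + ℓ) b' (b' + ℓ) h, κ (x - y) ≤ c) :
    Jb κ w (bx a (a + ℓ) b (b + ℓ) h) (bx a' (a' + ℓ) b' (b' + ℓ) h) ≤ c * (ℓ ^ 2 * mz) ^ 2 := by
  have hi := Jb_integrable hw hm h0 h1 (isCompact_bx a (a + ℓ) b (b + ℓ) h)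
    (isCompact_bx a' (a' + ℓ) b' (b' + ℓ) h)
  obtain ⟨i1, i2⟩ := CoulA_const hw hℓ a b a' b' c
  rw [← i2, Jb, ← integral_prod _ hi]
  refine integral_mono_ae hi i1 ?_
  rw [Measure.prod_restrict]
  refine (ae_restrict_mem ((measurableSet_bx _ _ _ _ _).prod (measurableSet_bx _ _ _ _ _))).mono
    fun p hp => ?_
  exact mul_le_mul_of_nonneg_right (hc _ hp.1 _ hp.2) (mul_pos (hw.pos _) (hw.pos _)).le

theorem Jb_ge_of (hw : ZW w h mz) (hℓ : 0 < ℓ) (hm : Measurable κ) (h0 : ∀ x, 0 ≤ κ x)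
    (h1 : ∀ x, κ x ≤ Kn x) {a b a' b' c : ℝ}
    (hc : ∀ x ∈ bx a (a + ℓ) b (b + ℓ) h, ∀ y ∈ bx a' (a' + ℓ) b' (b' + ℓ) h, c ≤ κ (x - y)) :
    c * (ℓ ^ 2 * mz) ^ 2 ≤ Jb κ w (bx a (a + ℓ) b (b + ℓ) h) (bx a' (a' + ℓ) b' (b' + ℓ) h) := by
  have hi := Jb_integrable hw hm h0 h1 (isCompact_bx a (a + ℓ) b (b + ℓ) h)
    (isCompact_bx a' (a' + ℓ) b' (b' + ℓ) h)
  obtain ⟨i1, i2⟩ := CoulA_const hw hℓ a b a' b' c
  rw [← i2, Jb, ← integral_prod _ hi]
  refine integral_mono_ae i1 hi ?_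
  rw [Measure.prod_restrict]
  refine (ae_restrict_mem ((measurableSet_bx _ _ _ _ _).prod (measurableSet_bx _ _ _ _ _))).mono
    fun p hp => ?_
  exact mul_le_mul_of_nonneg_right (hc _ hp.1 _ hp.2) (mul_pos (hw.pos _) (hw.pos _)).le

/-- The inner integral is at most `w (x 2) * mz * ∫ q, K2 (p - q)`; `planar_self`. -/
theorem Jb_self_le (hw : ZW w h mz) (hℓ : 0 < ℓ) (a b : ℝ) :
    Jb Kn w (bx a (a + ℓ) b (b + ℓ) h) (bx a (a + ℓ) b (b + ℓ) h) ≤ c0 * ℓ ^ 3 * mz ^ 2 := by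
  have hP := CoulA_P_int (a := a) (a' := a + ℓ) (b := b) (b' := b + ℓ) (by linarith) (by linarith)
    (isCompact_Icc.prod isCompact_Icc (s := Icc a (a + ℓ)) (t := Icc b (b + ℓ)))
  obtain ⟨i1, i2⟩ := CoulA_outer hw (hP.mul_const mz)
  rw [integral_mul_const, planar_self hℓ] at i2
  rw [CoulA_Jb, pow_two mz, ← mul_assoc, ← i2]
  refine integral_mono_of_nonneg (Eventually.of_forall fun x => ?_) i1
    (Eventually.of_forall fun x => ?_)
  · exact mul_nonneg (integral_nonneg fun y => mul_nonneg (Kn_nonneg _) (hw.pos _).le) (hw.pos _).le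
  · exact mul_le_mul_of_nonneg_right (CoulA_inner_le hw _ _ _ _ x) (hw.pos _).le

/-- `min (K3 z) Λ ≥ KT Λ - (K2 - K3 z)` (`KT_eq_min`); `K2_sub_KT`, `integral_K2_sub_K3`. -/
theorem Jb_self_ge (hw : ZW w h mz) (hℓ : 0 < ℓ) {Λ : ℝ} (hΛ : 0 < Λ) (a b : ℝ) :
    (c0 * ℓ ^ 3 - (16 * h + 16 / Λ) * ℓ ^ 2) * mz ^ 2 ≤
      Jb (fun x => min (Kn x) Λ) w (bx a (a + ℓ) b (b + ℓ) h) (bx a (a + ℓ) b (b + ℓ) h) := by
  have hP := CoulA_P_int (a := a) (a' := a + ℓ) (b := b) (b' := b + ℓ) (by linarith) (by linarith)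
    (isCompact_Icc.prod isCompact_Icc (s := Icc a (a + ℓ)) (t := Icc b (b + ℓ)))
  have hc : IntegrableOn (fun _ : ℝ × ℝ => 16 * h + 16 / Λ) (Icc a (a + ℓ) ×ˢ Icc b (b + ℓ)) :=
    integrableOn_const (isCompact_Icc.prod isCompact_Icc).measure_lt_top.ne
  obtain ⟨i1, i2⟩ := CoulA_outer hw ((hP.sub hc).mul_const mz)
  simp only [Pi.sub_apply] at i1 i2
  rw [integral_mul_const, integral_sub hP hc, planar_self hℓ, setIntegral_const,
    CoulA_area (by linarith) (by linarith), smul_eq_mul] at i2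
  have hi := (Jb_integrable (κ := fun x => min (Kn x) Λ) hw (measurable_Kn.min measurable_const)
    (fun x => le_min (Kn_nonneg x) hΛ.le) (fun x => min_le_left _ _)
    (isCompact_bx a (a + ℓ) b (b + ℓ) h) (isCompact_bx a (a + ℓ) b (b + ℓ) h)).integral_prod_left
  calc _ = (c0 * ℓ ^ 3 - (a + ℓ - a) * (b + ℓ - b) * (16 * h + 16 / Λ)) * mz * mz := by ring
    _ ≤ _ := by
      rw [← i2, Jb]
      refine setIntegral_mono_on i1 hi (measurableSet_bx _ _ _ _ _) fun x hx => ?_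
      refine (mul_le_mul_of_nonneg_right (CoulA_inner_ge hw hΛ _ _ _ _ hx.2.2)
        (hw.pos _).le).trans (le_of_eq ?_)
      rw [← integral_mul_const]
      refine integral_congr_ae (Eventually.of_forall fun y => ?_)
      ring

end Crest.Agent.R338
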