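/-
R338/Trial: the trial orbitals
Skeleton by helper15 (row 338); keep the statements unchanged, add any helper lemmas you like.
-/
import Crest.Agent.R338.Vres

set_option autoImplicit false
set_option linter.unusedSectionVars false
set_option linter.unusedVariables false
set_option linter.unusedSimpArgs false

noncomputable section

namespace Crest.Agent.R338

open MeasureTheory Set Filter Crest.MathPhysics.ElectronicCoulomb

theorem Trial_xA_mono (D : Des) {A B : ℕ} (h : A ≤ B) : D.xA ℝ A ≤ D.xA ℝ B := by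
  unfold Des.xA
  gcongr

theorem Trial_xA_lt (D : Des) {A B : ℕ} (h : A < B) : D.xA ℝ A + (D.S : ℝ) ^ 6 ≤ D.xA ℝ B := by
  unfold Des.xA
  have : (A : ℝ) + 1 ≤ B := by exact_mod_cast h
  have h6 : (0 : ℝ) ≤ (D.S : ℝ) ^ 6 := by positivity
  nlinarith [mul_le_mul_of_nonneg_left this h6]

theorem Trial_yl_lt (D : Des) {A B : ℕ} (h : A < B) : D.yl ℝ A + (D.S : ℝ) ^ 12 ≤ D.yl ℝ B := by
  unfold Des.yl
  have : (A : ℝ) + 1 ≤ B := by exact_mod_cast h
  have h6 : (0 : ℝ) ≤ (D.S : ℝ) ^ 12 := by positivity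
  nlinarith [mul_le_mul_of_nonneg_left this h6]

theorem Trial_le_pow {s : ℝ} (h : 1 ≤ s) {k : ℕ} (hk : 1 ≤ k) : s ≤ s ^ k := by
  simpa using pow_le_pow_right₀ h hk

theorem uP_bounds : ∀ᶠ D : Des in evD, ∀ (A : ℕ) (ξ η : ℝ), 0 ≤ D.uP A ξ η ∧ D.uP A ξ η ≤ 1 := by
  filter_upwards [ev_good, ev_sg] with D hD hσ A ξ η
  obtain ⟨r0, r1⟩ := ramp_bounds hD.sg_pos (by linarith) η
  have hq := Trial_xA_mono D (show 3 * (A / 3) ≤ 3 * (A / 3) + 2 by omega)
  have a0 := pl_nonneg (σ := 1) (a := D.xA ℝ A - 1) (b := D.xA ℝ A + 2) one_pos (by linarith) ξ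
  have a1 := pl_le_one 1 (D.xA ℝ A - 1) (D.xA ℝ A + 2) ξ
  have b0 := pl_nonneg (σ := 1) (a := D.xA ℝ (3 * (A / 3)) - 1) (b := D.xA ℝ (3 * (A / 3) + 2) + 2)
    one_pos (by linarith) ξ
  have b1 := pl_le_one 1 (D.xA ℝ (3 * (A / 3)) - 1) (D.xA ℝ (3 * (A / 3) + 2) + 2) ξ
  have c0 := st_nonneg (η - D.ytop ℝ - 1)
  have c1 := st_le_one (η - D.ytop ℝ - 1)
  have d0 := st_nonneg (η + 3)
  have d1 := st_le_one (η + 3)
  unfold Des.uP
  set r := ramp (D.sg ℝ) η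
  set P := pl 1 (D.xA ℝ A - 1) (D.xA ℝ A + 2) 0 ξ * (1 - st 0 (η - D.ytop ℝ - 1))
  set Q := pl 1 (D.xA ℝ (3 * (A / 3)) - 1) (D.xA ℝ (3 * (A / 3) + 2) + 2) 0 ξ * st 0 (η + 3)
  have P0 : 0 ≤ P := mul_nonneg a0 (by linarith)
  have P1 : P ≤ 1 := mul_le_one₀ a1 (by linarith) (by linarith)
  have Q0 : 0 ≤ Q := mul_nonneg b0 d0
  have Q1 : Q ≤ 1 := mul_le_one₀ b1 d0 d1
  constructor
  · exact add_nonneg (mul_nonneg r0 P0) (mul_nonneg (by linarith) Q0)
  · nlinarith [mul_le_mul_of_nonneg_left P1 r0, mul_le_mul_of_nonneg_left Q1 (sub_nonneg.2 r1)]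

/-- On the pads `ramp = 1`. -/
theorem uP_pad : ∀ᶠ D : Des in evD, ∀ A < 3 * D.n, ∀ B < 3 * D.n, ∀ l < D.Lv,
    ∀ ξ ∈ Icc (D.xA ℝ B) (D.xA ℝ B + 1), ∀ η ∈ Icc (D.yl ℝ l) (D.yl ℝ l + 1),
    D.uP A ξ η = if A = B then 1 else 0 := by
  filter_upwards [ev_good, ev_sg, ev_ge 4, extent] with D hD hσ hS hext A hA B hB l hl ξ hξ η hη
  have h6 := Trial_le_pow hD.one_le (show 1 ≤ 6 by norm_num)
  have h12 := Trial_le_pow hD.one_le (show 1 ≤ 12 by norm_num)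
  have h1 := (hext.2.1 l hl.le).1
  have h2 := hext.2.2 l hl
  have hr := (ramp_of_ge hD.sg_pos (by linarith) (η := η) (by linarith [hη.1])).1
  have hs : st 0 (η - D.ytop ℝ - 1) = 0 := st_of_le 0 (by linarith [hη.2])
  unfold Des.uP
  rw [hr, hs]
  simp only [one_mul, sub_zero, mul_one, sub_self, zero_div, zero_mul, add_zero]
  split_ifs with h
  · subst h
    simpa using pl_of_mem 0 one_pos (by linarith [hξ.1]) (by linarith [hξ.2])
  · rcases lt_or_gt_of_ne h with h | h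
    · have := Trial_xA_lt D h
      exact pl_of_ge 0 one_pos (by linarith) (by linarith [hξ.1])
    · have := Trial_xA_lt D h
      exact pl_of_le 0 one_pos (by linarith) (by linarith [hξ.2])

theorem uP_far : ∀ᶠ D : Des in evD, ∀ A < 3 * D.n, ∀ ξ η : ℝ,
    ((D.S : ℝ) ^ 14 / 2 ≤ |ξ| ∨ (D.S : ℝ) ^ 14 / 2 ≤ |η|) → D.uP A ξ η = 0 := by
  filter_upwards [ev_good, ev_sg, ev_ge 100, extent] with D hD hσ hS hext A hA ξ η h
  have h7 := Trial_le_pow hD.one_le (show 1 ≤ 7 by norm_num)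
  have h13 : (D.S : ℝ) ^ 7 ≤ (D.S : ℝ) ^ 13 := pow_le_pow_right₀ hD.one_le (by norm_num)
  have h14 := mul_pow_le (a := 13) (b := 14) hD.one_le hS (by norm_num)
  have hq := Trial_xA_mono D (show 3 * (A / 3) ≤ 3 * (A / 3) + 2 by omega)
  obtain ⟨a0, a1⟩ := hext.1 A hA.le
  obtain ⟨b0, b1⟩ := hext.1 (3 * (A / 3)) (by omega)
  obtain ⟨c0, c1⟩ := hext.1 (3 * (A / 3) + 2) (by omega)
  have d1 : D.ytop ℝ ≤ 2 * (D.S : ℝ) ^ 13 := (hext.2.1 D.Lv le_rfl).2
  unfold Des.uP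
  rcases h with h | h
  · rcases le_abs.1 h with h | h
    · rw [pl_of_ge 0 one_pos (by linarith) (by linarith),
        pl_of_ge 0 one_pos (by linarith) (by linarith)]
      simp
    · rw [pl_of_le 0 one_pos (by linarith) (by linarith),
        pl_of_le 0 one_pos (by linarith) (by linarith)]
      simp
  · rcases le_abs.1 h with h | h
    · rw [(ramp_of_ge hD.sg_pos (by linarith) (η := η) (by linarith)).1,
        st_of_ge 0 (t := η - D.ytop ℝ - 1) (by linarith)]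
      simp
    · rw [(ramp_of_le hD.sg_pos (by linarith) (η := η) (by linarith [hD.sg_pos])).1,
        st_of_le 0 (t := η + 3) (by linarith)]
      simp

theorem Trial_coord (c : Fin 3) : ContDiff ℝ 1 fun x : Pos3 => x c :=
  (EuclideanSpace.proj c : Pos3 →L[ℝ] ℝ).contDiff

theorem Trial_contDiff_cz (D : Des) : ContDiff ℝ 1 fun x : Pos3 => D.cz 0 (x 2) :=
  ((contDiff_pl D.z1 (-D.z1) D.z1 (j := 0) (by norm_num)).of_le (by norm_num)).comp (Trial_coord 2)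

theorem Trial_cz_bounds {D : Des} (hD : D.Good) (z : ℝ) : 0 ≤ D.cz 0 z ∧ D.cz 0 z ≤ 1 :=
  ⟨pl_nonneg hD.z1_pos (by linarith [hD.z1_pos]) z, pl_le_one _ _ _ _⟩

theorem contDiff_uP (D : Des) (A : ℕ) :
    ContDiff ℝ 1 fun x : Pos3 => D.uP A (x 0 / D.ell ℝ) (x 1 / D.ell ℝ) := by
  have h0 : ContDiff ℝ 1 fun x : Pos3 => x 0 / D.ell ℝ := (Trial_coord 0).div_const _
  have h1 : ContDiff ℝ 1 fun x : Pos3 => x 1 / D.ell ℝ := (Trial_coord 1).div_const _
  have hr := (contDiff_ramp (D.sg ℝ)).comp h1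
  have hst : ContDiff ℝ 1 (st 0 : ℝ → ℝ) := (contDiff_st (j := 0) (by norm_num)).of_le (by norm_num)
  have hpl : ∀ a b : ℝ, ContDiff ℝ 1 (pl 1 a b 0) := fun a b =>
    (contDiff_pl 1 a b (j := 0) (by norm_num)).of_le (by norm_num)
  exact (hr.mul (((hpl _ _).comp h0).mul
    (contDiff_const.sub (hst.comp ((h1.sub contDiff_const).sub contDiff_const))))).add
    (((contDiff_const.sub hr).div_const 3).mul
      (((hpl _ _).comp h0).mul (hst.comp (h1.add contDiff_const))))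

theorem contDiff_P3 (D : Des) (a : Room D.n → ℝ) : ContDiff ℝ 1 (D.P3 a) := by
  exact ContDiff.sum fun A _ => contDiff_const.mul (contDiff_uP D (rid A))

theorem measurableSet_box (D : Des) : MeasurableSet D.box := measurableSet_bx _ _ _ _ _

theorem Trial_box : ∀ᶠ D : Des in evD, ∀ (A : Room D.n) (x : Pos3), x ∉ D.box →
    D.uP (rid A) (x 0 / D.ell ℝ) (x 1 / D.ell ℝ) * D.cz 0 (x 2) = 0 := by
  filter_upwards [ev_good, uP_far] with D hD h A x hx
  have hℓ := hD.ell_pos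
  have hz := hD.z1_pos
  have hS : (0 : ℝ) < (D.S : ℝ) ^ 14 := pow_pos hD.pos _
  have key : ∀ t : ℝ, t ∉ Icc (-D.RR) D.RR → (D.S : ℝ) ^ 14 / 2 ≤ |t / D.ell ℝ| := by
    intro t ht
    rw [mem_Icc, ← abs_le, not_le, hD.RR_eq] at ht
    rw [abs_div, abs_of_pos hℓ, le_div_iff₀ hℓ]
    nlinarith [mul_pos hℓ hS]
  by_cases h0 : x 0 ∈ Icc (-D.RR) D.RR
  · by_cases h1 : x 1 ∈ Icc (-D.RR) D.RR
    · have h2 : x 2 ∉ Icc (-(2 * D.z1)) (2 * D.z1) := fun h2 => hx ⟨h0, h1, h2⟩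
      rw [mem_Icc, not_and_or, not_le, not_le] at h2
      unfold Des.cz
      rcases h2 with h2 | h2
      · rw [pl_of_le 0 hz (by linarith) (by linarith), mul_zero]
      · rw [pl_of_ge 0 hz (by linarith) (by linarith), mul_zero]
    · rw [h _ (Des.rid_lt A) _ _ (Or.inr (key _ h1)), zero_mul]
  · rw [h _ (Des.rid_lt A) _ _ (Or.inl (key _ h0)), zero_mul]

theorem phiT_box : ∀ᶠ D : Des in evD, ∀ A x, x ∉ D.box → D.phiT A x = 0 := by
  filter_upwards [Trial_box] with D h A x hx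
  unfold Des.phiT
  rw [h A x hx, mul_zero, mul_zero]

theorem uT_box : ∀ᶠ D : Des in evD, ∀ a x, x ∉ D.box → D.uT a x = 0 := by
  filter_upwards [Trial_box] with D h a x hx
  unfold Des.uT Des.P3
  rw [Finset.sum_mul, Finset.sum_eq_zero fun A _ => by rw [mul_assoc, h A x hx, mul_zero], mul_zero]

theorem test_uT : ∀ᶠ D : Des in evD, ∀ a, Test (D.uT a) := by
  filter_upwards [uT_box] with D h a
  exact ⟨contDiff_const.mul ((contDiff_P3 D a).mul (Trial_contDiff_cz D)),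
    HasCompactSupport.intro (isCompact_bx _ _ _ _ _) (h a)⟩

theorem sum_phiT (D : Des) (a : Room D.n → ℝ) (x : Pos3) :
    ∑ A, a A * D.phiT A x = D.Psi x * D.uT a x := by
  unfold Des.phiT Des.uT Des.P3
  rw [Finset.sum_mul, Finset.mul_sum, Finset.mul_sum]
  exact Finset.sum_congr rfl fun A _ => by ring

/-- Cauchy-Schwarz. -/
theorem P3_sq_le : ∀ᶠ D : Des in evD, ∀ a x, D.P3 a x ^ 2 ≤ 3 * (D.S : ℝ) * ∑ A, a A ^ 2 := by
  filter_upwards [ev_good, uP_bounds] with D hD h a x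
  unfold Des.P3
  refine (Finset.sum_mul_sq_le_sq_mul_sq _ _ _).trans ?_
  rw [mul_comm]
  refine mul_le_mul_of_nonneg_right ?_ (Finset.sum_nonneg fun A _ => sq_nonneg _)
  calc _ ≤ ∑ _A : Room D.n, (1 : ℝ) :=
        Finset.sum_le_sum fun A _ => pow_le_one₀ (h _ _ _).1 (h _ _ _).2
    _ = 3 * D.n := by simp [mul_comm]
    _ ≤ _ := by linarith [hD.n_le]

theorem uT_sq_le : ∀ᶠ D : Des in evD, ∀ a x, D.uT a x ^ 2 ≤ 3 * (D.S : ℝ) / D.mass * ∑ A, a A ^ 2 := by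
  filter_upwards [ev_good, P3_sq_le] with D hD h a x
  have hm := mass_pos hD
  obtain ⟨c0, c1⟩ := Trial_cz_bounds hD (x 2)
  unfold Des.uT
  rw [mul_pow, inv_pow, Real.sq_sqrt hm.le, mul_pow]
  calc _ ≤ D.mass⁻¹ * (3 * (D.S : ℝ) * ∑ A, a A ^ 2) := by
        refine mul_le_mul_of_nonneg_left ?_ (inv_pos.2 hm).le
        exact (mul_le_of_le_one_right (sq_nonneg _) (pow_le_one₀ c0 c1)).trans (h a x)
    _ = _ := by ring

theorem phiT_sq_le : ∀ᶠ D : Des in evD, ∀ A x, D.phiT A x ^ 2 ≤ D.rho x / D.mass := by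
  filter_upwards [ev_good, uP_bounds] with D hD h A x
  have hm := mass_pos hD
  obtain ⟨c0, c1⟩ := Trial_cz_bounds hD (x 2)
  obtain ⟨u0, u1⟩ := h (rid A) (x 0 / D.ell ℝ) (x 1 / D.ell ℝ)
  unfold Des.phiT Des.rho
  rw [mul_pow, mul_pow, inv_pow, Real.sq_sqrt hm.le, div_eq_mul_inv]
  refine mul_le_mul_of_nonneg_left ?_ (sq_nonneg _)
  exact mul_le_of_le_one_right (inv_pos.2 hm).le
    (pow_le_one₀ (mul_nonneg u0 c0) (mul_le_one₀ u1 c0 c1))

theorem padBox_disjoint : ∀ᶠ D : Des in evD, ∀ A B l l' : ℕ, (A ≠ B ∨ l ≠ l') →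
    Disjoint (D.padBox A l) (D.padBox B l') := by
  filter_upwards [ev_good, ev_ge 2] with D hD hS A B l l' h
  have h6 := Trial_le_pow hD.one_le (show 1 ≤ 6 by norm_num)
  have h12 := Trial_le_pow hD.one_le (show 1 ≤ 12 by norm_num)
  rw [Set.disjoint_left]
  intro x hx hx'
  obtain ⟨⟨a0, a1⟩, ⟨b0, b1⟩, -⟩ := (mem_padBox hD).1 hx
  obtain ⟨⟨c0, c1⟩, ⟨d0, d1⟩, -⟩ := (mem_padBox hD).1 hx'
  rcases h with h | h
  · rcases lt_or_gt_of_ne h with h | h <;> linarith [Trial_xA_lt D h]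
  · rcases lt_or_gt_of_ne h with h | h <;> linarith [Trial_yl_lt D h]

theorem padBox_subset : ∀ᶠ D : Des in evD, ∀ A < 3 * D.n, ∀ l < D.Lv, D.padBox A l ⊆ D.box := by
  filter_upwards [ev_good, ev_ge 100, extent] with D hD hS hext A hA l hl x hx
  have hℓ := hD.ell_pos
  have hz := hD.z1_pos
  have h7 := Trial_le_pow hD.one_le (show 1 ≤ 7 by norm_num)
  have h12 : (0 : ℝ) < (D.S : ℝ) ^ 12 := pow_pos hD.pos _
  have h13 : (D.S : ℝ) ^ 7 ≤ (D.S : ℝ) ^ 13 := pow_le_pow_right₀ hD.one_le (by norm_num)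
  have h14 := mul_pow_le (a := 13) (b := 14) hD.one_le hS (by norm_num)
  obtain ⟨⟨a0, a1⟩, ⟨b0, b1⟩, hc⟩ := (mem_padBox hD).1 hx
  obtain ⟨c0, c1⟩ := hext.1 A hA.le
  obtain ⟨d0, d1⟩ := hext.2.1 l hl.le
  have key : ∀ t : ℝ, |t / D.ell ℝ| ≤ (D.S : ℝ) ^ 14 → t ∈ Icc (-D.RR) D.RR := by
    intro t ht
    rw [abs_div, abs_of_pos hℓ, div_le_iff₀ hℓ] at ht
    rw [mem_Icc, ← abs_le, hD.RR_eq, mul_comm]
    exact ht
  refine ⟨key _ (abs_le.2 ⟨by linarith, by linarith⟩), key _ (abs_le.2 ⟨by linarith, by linarith⟩), ?_⟩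
  rw [mem_Icc, ← abs_le]
  linarith

theorem Psi_pad : ∀ᶠ D : Des in evD, ∀ A < 3 * D.n, ∀ l ∈ D.pads A, ∀ x ∈ D.padBox A l,
    D.Psi x = D.wP ℝ * D.phi (x 2) := by
  filter_upwards [ev_good, F_pad] with D hD h A hA l hl x hx
  obtain ⟨a0, b0, -⟩ := (mem_padBox hD).1 hx
  unfold Des.Psi Des.F3 Des.wP
  rw [h A hA l hl _ a0 _ b0]

theorem Trial_mem_Om {D : Des} {A : Room D.n} {x : Pos3} :
    x ∈ D.Om A ↔ ∃ l ∈ D.pads (rid A), x ∈ D.padBox (rid A) l := by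
  simp [Des.Om]

theorem Trial_phiT_Om : ∀ᶠ D : Des in evD, ∀ (A B : Room D.n), ∀ x ∈ D.Om B,
    D.phiT A x = if A = B then (√D.mass)⁻¹ * D.Psi x else 0 := by
  filter_upwards [ev_good, uP_pad] with D hD h A B x hx
  obtain ⟨l, hl, hx⟩ := Trial_mem_Om.1 hx
  obtain ⟨a0, b0, c0⟩ := (mem_padBox hD).1 hx
  have hc : D.cz 0 (x 2) = 1 := by
    simpa [Des.cz] using pl_of_mem 0 hD.z1_pos (abs_le.1 c0).1 (abs_le.1 c0).2
  unfold Des.phiT
  rw [h _ (Des.rid_lt A) _ (Des.rid_lt B) l (Des.mem_pads.1 hl).1 _ a0 _ b0, hc]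
  by_cases hAB : A = B
  · rw [if_pos hAB, if_pos (congrArg rid hAB)]; ring
  · rw [if_neg hAB, if_neg fun h => hAB (rid_injective h)]; ring

theorem orb_eq : ∀ᶠ D : Des in evD, ∀ A x, orb D.phiT D.Om A x =
    (D.Om A).indicator (fun x => (√D.mass)⁻¹ * D.Psi x) x := by
  filter_upwards [Trial_phiT_Om] with D h A x
  unfold orb
  by_cases hx : x ∈ D.Om A
  · rw [indicator_of_mem hx, indicator_of_mem hx, h A A x hx, if_pos rfl]
  · rw [indicator_of_notMem hx, indicator_of_notMem hx]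

theorem orb_sq_eq : ∀ᶠ D : Des in evD, ∀ A x, orb D.phiT D.Om A x ^ 2 =
    ∑ l ∈ D.pads (rid A), (D.padBox (rid A) l).indicator
      (fun x => ((D.M : ℝ) * (D.ell ℝ ^ 2 * D.mz))⁻¹ * D.phi (x 2) ^ 2) x := by
  filter_upwards [ev_good, orb_eq, padBox_disjoint, Psi_pad] with D hD h1 h2 h3 A x
  rw [h1]
  by_cases hx : x ∈ D.Om A
  · rw [indicator_of_mem hx]
    obtain ⟨l, hl, hx⟩ := Trial_mem_Om.1 hx
    rw [Finset.sum_eq_single_of_mem l hl fun l' _ hl' => indicator_of_notMem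
      (fun hx' => Set.disjoint_left.1 (h2 _ _ _ _ (Or.inr hl')) hx' hx) _, indicator_of_mem hx,
      h3 _ (Des.rid_lt A) l hl x hx, mul_pow, inv_pow, Real.sq_sqrt (mass_pos hD).le, mul_pow]
    have hw : D.wP ℝ ≠ 0 := by linarith [hD.one_le_wP]
    have hM : (D.M : ℝ) ≠ 0 := by linarith [hD.one_le_M]
    have hℓ := hD.ell_pos.ne'
    have hz := (mz_pos hD).ne'
    unfold Des.mass
    generalize D.wP ℝ = w at hw ⊢
    generalize D.ell ℝ = ℓ at hℓ ⊢
    field_simp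
  · rw [indicator_of_notMem hx, Finset.sum_eq_zero fun l hl => indicator_of_notMem
      (fun hx' => hx (Trial_mem_Om.2 ⟨l, hl, hx'⟩)) _]
    simp

/-- `integral_biUnion_finset`. -/
theorem integral_Om : ∀ᶠ D : Des in evD, ∀ (A : Room D.n) (f : Pos3 → ℝ), Continuous f →
    ∫ x in D.Om A, f x = ∑ l ∈ D.pads (rid A), ∫ x in D.padBox (rid A) l, f x := by
  filter_upwards [padBox_disjoint] with D h A f hf
  exact integral_biUnion_finset _ (fun l _ => measurableSet_bx _ _ _ _ _)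
    (fun l _ l' _ hl => h _ _ _ _ (Or.inr hl)) fun l _ => box_integrableOn hf _ _ _ _ _

/-- `integral_bx_weight`. -/
theorem orbs_D : ∀ᶠ D : Des in evD, Orbs D.phiT D.Om := by
  filter_upwards [ev_good, padBox_disjoint, phiT_box, Trial_phiT_Om, orb_sq_eq]
    with D hD h1 h2 h3 h4
  refine ⟨measurableSet_Om D, fun A B hAB => ?_, fun A => ⟨?_, ?_⟩, fun A B hAB x hx => ?_,
    fun A => ?_⟩
  · rw [Set.disjoint_left]
    intro x hx hx'
    obtain ⟨l, -, hx⟩ := Trial_mem_Om.1 hx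
    obtain ⟨l', -, hx'⟩ := Trial_mem_Om.1 hx'
    exact Set.disjoint_left.1 (h1 _ _ l l' (Or.inl fun h => hAB (rid_injective h))) hx hx'
  · exact ((contDiff_Psi D).of_le (by norm_num)).mul
      (contDiff_const.mul ((contDiff_uP D _).mul (Trial_contDiff_cz D)))
  · exact HasCompactSupport.intro (isCompact_bx _ _ _ _ _) (h2 A)
  · rw [h3 A B x hx, if_neg hAB]
  · have hM : (D.M : ℝ) ≠ 0 := by linarith [hD.one_le_M]
    have hℓ := hD.ell_pos
    have hz := (mz_pos hD).ne'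
    have hc : Continuous fun x : Pos3 =>
        ((D.M : ℝ) * (D.ell ℝ ^ 2 * D.mz))⁻¹ * D.phi (x 2) ^ 2 :=
      continuous_const.mul (((continuous_phi D).comp (Trial_coord 2).continuous).pow 2)
    simp only [h4, Des.padBox]
    rw [integral_finsetSum _ fun l _ =>
      (box_integrableOn hc _ _ _ _ _).integrable_indicator (measurableSet_bx _ _ _ _ _),
      Finset.sum_congr rfl (g := fun _ => (D.M : ℝ)⁻¹) fun l _ => ?_, Finset.sum_const,
      hD.cnt _ (Des.rid_lt A), nsmul_eq_mul, mul_inv_cancel₀ hM]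
    rw [integral_indicator (measurableSet_bx _ _ _ _ _), integral_const_mul,
      integral_bx_weight (zw_phi hD) (by linarith) (by linarith), add_sub_cancel_left,
      add_sub_cancel_left]
    have hℓ' := hℓ.ne'
    generalize D.ell ℝ = ℓ at hℓ' ⊢
    field_simp

end Crest.Agent.R338
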