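/-
R338/CoulB: Coulomb integrals of the rooms
Skeleton by helper15 (row 338); keep the statements unchanged, add any helper lemmas you like.
-/
import Crest.Agent.R338.CoulA
import Crest.Agent.R338.Trial

set_option autoImplicit false
set_option linter.unusedSectionVars false
set_option linter.unusedVariables false
set_option linter.unusedSimpArgs false

noncomputable section

namespace Crest.Agent.R338

open MeasureTheory Set Filter Crest.MathPhysics.ElectronicCoulomb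

/-- `orb_sq_eq`, `Jb_integrable`. -/
theorem pair_orb : ∀ᶠ D : Des in evD, ∀ κ : Pos3 → ℝ, Measurable κ → (∀ x, 0 ≤ κ x) →
    (∀ x, κ x ≤ Kn x) → ∀ A B,
    ∫ x, ∫ y, κ (x - y) * (orb D.phiT D.Om A x ^ 2 * orb D.phiT D.Om B y ^ 2) =
      (((D.M : ℝ) * (D.ell ℝ ^ 2 * D.mz)) ^ 2)⁻¹ *
        ∑ l ∈ D.pads (rid A), ∑ l' ∈ D.pads (rid B),
          Jb κ (fun z => D.phi z ^ 2) (D.padBox (rid A) l) (D.padBox (rid B) l') := by
  filter_upwards [ev_good, orb_sq_eq] with D hD he κ hm h0 h1 A B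
  have hw := zw_phi hD
  set c : ℝ := ((D.M : ℝ) * (D.ell ℝ ^ 2 * D.mz))⁻¹ with hc
  let T : ℕ → ℕ → Pos3 × Pos3 → ℝ := fun l l' =>
    (D.padBox (rid A) l ×ˢ D.padBox (rid B) l').indicator
      fun p => κ (p.1 - p.2) * (D.phi (p.1 2) ^ 2 * D.phi (p.2 2) ^ 2)
  have hms : ∀ l l', MeasurableSet (D.padBox (rid A) l ×ˢ D.padBox (rid B) l') := fun l l' =>
    (measurableSet_bx _ _ _ _ _).prod (measurableSet_bx _ _ _ _ _)
  have hJ := fun l l' => Jb_integrable hw hm h0 h1 (s := D.padBox (rid A) l)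
    (t := D.padBox (rid B) l') (isCompact_bx _ _ _ _ _) (isCompact_bx _ _ _ _ _)
  have hT : ∀ l l', Integrable (T l l') (volume.prod volume) := fun l l' => by
    have := hJ l l'
    rw [Measure.prod_restrict] at this
    exact (integrable_indicator_iff (hms l l')).mpr this
  have hI : ∀ l l', ∫ p, T l l' p ∂(volume.prod volume) =
      Jb κ (fun z => D.phi z ^ 2) (D.padBox (rid A) l) (D.padBox (rid B) l') := fun l l' => by
    rw [integral_indicator (hms l l'), ← Measure.prod_restrict, integral_prod _ (hJ l l')]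
    rfl
  have e : ∀ x y, κ (x - y) * (orb D.phiT D.Om A x ^ 2 * orb D.phiT D.Om B y ^ 2) =
      c ^ 2 * ∑ l ∈ D.pads (rid A), ∑ l' ∈ D.pads (rid B), T l l' (x, y) := by
    intro x y
    rw [he, he, Finset.sum_mul_sum, Finset.mul_sum, Finset.mul_sum]
    refine Finset.sum_congr rfl fun l _ => ?_
    rw [Finset.mul_sum, Finset.mul_sum]
    refine Finset.sum_congr rfl fun l' _ => ?_
    by_cases hx : x ∈ D.padBox (rid A) l
    · by_cases hy : y ∈ D.padBox (rid B) l'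
      · simp only [T]
        rw [indicator_of_mem hx, indicator_of_mem hy, indicator_of_mem (mk_mem_prod hx hy)]
        ring
      · simp only [T]
        rw [indicator_of_notMem hy, indicator_of_notMem (a := (x, y)) (fun h => hy h.2)]
        ring
    · simp only [T]
      rw [indicator_of_notMem hx, indicator_of_notMem (a := (x, y)) (fun h => hx h.1)]
      ring
  simp only [e]
  have hS : Integrable (fun p => c ^ 2 * ∑ l ∈ D.pads (rid A), ∑ l' ∈ D.pads (rid B), T l l' p)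
      (volume.prod volume) :=
    (integrable_finsetSum _ fun l _ => integrable_finsetSum _ fun l' _ => hT l l').const_mul _
  rw [← integral_prod _ hS, integral_const_mul,
    integral_finsetSum _ fun l _ => integrable_finsetSum _ fun l' _ => hT l l', ← inv_pow]
  congr 1
  refine Finset.sum_congr rfl fun l _ => ?_
  rw [integral_finsetSum _ fun l' _ => hT l l']
  exact Finset.sum_congr rfl fun l' _ => hI l l'

theorem CoulB_sep {ℓ u : ℝ} (hℓ : 0 < ℓ) (hu : 0 ≤ u) {a b : ℕ} {s t : ℝ}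
    (hs : s ∈ Icc (ℓ * (u * a)) (ℓ * (u * a) + ℓ)) (ht : t ∈ Icc (ℓ * (u * b)) (ℓ * (u * b) + ℓ)) :
    ℓ * u * Nat.dist a b - ℓ ≤ |s - t| ∧ |s - t| ≤ ℓ * u * Nat.dist a b + ℓ := by
  have h0 : 0 ≤ ℓ * u * Nat.dist a b := by positivity
  rcases le_total a b with h | h
  · have e : (Nat.dist a b : ℝ) = b - a := by rw [Nat.dist_eq_sub_of_le h, Nat.cast_sub h]
    rw [e] at h0 ⊢
    refine ⟨le_abs.mpr (Or.inr ?_), abs_le.mpr ⟨?_, ?_⟩⟩ <;> nlinarith [hs.1, hs.2, ht.1, ht.2]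
  · have e : (Nat.dist a b : ℝ) = a - b := by rw [Nat.dist_eq_sub_of_le_right h, Nat.cast_sub h]
    rw [e] at h0 ⊢
    refine ⟨le_abs.mpr (Or.inl ?_), abs_le.mpr ⟨?_, ?_⟩⟩ <;> nlinarith [hs.1, hs.2, ht.1, ht.2]

theorem CoulB_dist {a b : ℕ} (h : a ≠ b) : (1 : ℝ) ≤ Nat.dist a b := by
  have : 0 < Nat.dist a b := Nat.dist_pos_of_ne h
  exact_mod_cast this

theorem CoulB_ell {D : Des} (hD : D.Good) {a b : ℕ} (h : a + b = 2160) :
    D.ell ℝ * (D.S : ℝ) ^ a = ((D.S : ℝ) ^ b)⁻¹ := by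
  have := hD.pos
  unfold Des.ell
  rw [← h, pow_add]
  field_simp

theorem Kn_levels : ∀ᶠ D : Des in evD, ∀ A B l l' : ℕ, l ≠ l' → ∀ x ∈ D.padBox A l,
    ∀ y ∈ D.padBox B l', Kn (x - y) ≤ 2 * (D.S : ℝ) ^ 2148 := by
  filter_upwards [ev_good, ev_ge 2] with D hD hS A B l l' hl x hx y hy
  have hℓ := hD.ell_pos
  have h1 := (CoulB_sep (u := (D.S : ℝ) ^ 12) (a := l + 1) (b := l' + 1) (s := x 1) (t := y 1)
    hℓ (by positivity) (by simpa [Des.yl] using hx.2.1) (by simpa [Des.yl] using hy.2.1)).1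
  have h2 := CoulB_dist (a := l + 1) (b := l' + 1) (by omega)
  have h3 : (2 : ℝ) ≤ (D.S : ℝ) ^ 12 := hS.trans (Trial_le_pow hD.one_le (by norm_num))
  have h4 : D.ell ℝ * (D.S : ℝ) ^ 12 / 2 ≤ ‖x - y‖ := by
    have h5 := abs_le_norm (x - y) 1
    rw [PiLp.sub_apply] at h5
    have h6 : D.ell ℝ * (D.S : ℝ) ^ 12 * 1 ≤ D.ell ℝ * (D.S : ℝ) ^ 12 * Nat.dist (l + 1) (l' + 1) :=
      mul_le_mul_of_nonneg_left h2 (by positivity)
    nlinarith [mul_le_mul_of_nonneg_left h3 hℓ.le]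
  have hp := hD.pos
  refine (Kn_le_of_le (by positivity) h4).trans (le_of_eq ?_)
  rw [CoulB_ell hD (a := 12) (b := 2148) rfl, one_div, inv_div, div_inv_eq_mul]

/-- The distance lies between `r - ℓ` and `r + 3 ℓ`, `r = ℓ S⁶ dist A B`. -/
theorem Kn_level : ∀ᶠ D : Des in evD, ∀ A B l : ℕ, A ≠ B → ∀ x ∈ D.padBox A l,
    ∀ y ∈ D.padBox B l, |Kn (x - y) - (D.S : ℝ) ^ 2154 / Nat.dist A B| ≤ 6 * (D.S : ℝ) ^ 2148 := by
  filter_upwards [ev_good, ev_ge 2] with D hD hS A B l hAB x hx y hy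
  have hℓ := hD.ell_pos
  have hp := hD.pos
  obtain ⟨h1, h1'⟩ := CoulB_sep (u := (D.S : ℝ) ^ 6) (a := A) (b := B) (s := x 0) (t := y 0)
    hℓ (by positivity) hx.1 hy.1
  have h2 := CoulB_dist hAB
  have h3 : (2 : ℝ) ≤ (D.S : ℝ) ^ 6 := hS.trans (Trial_le_pow hD.one_le (by norm_num))
  have hz : 2 * D.z1 ≤ D.ell ℝ := mul_inv_pow_le hD.one_le hS (by norm_num)
  have b1 : |x 1 - y 1| ≤ D.ell ℝ :=
    abs_le.mpr ⟨by linarith [hx.2.1.1, hy.2.1.2], by linarith [hx.2.1.2, hy.2.1.1]⟩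
  have b2 : |x 2 - y 2| ≤ D.ell ℝ :=
    abs_le.mpr ⟨by linarith [hx.2.2.1, hy.2.2.2], by linarith [hx.2.2.2, hy.2.2.1]⟩
  have n1 := abs_le_norm (x - y) 0
  have n2 := norm_le_sum (x - y)
  simp only [PiLp.sub_apply] at n1 n2
  set r := D.ell ℝ * (D.S : ℝ) ^ 6 * Nat.dist A B with hr
  set m := D.ell ℝ * (D.S : ℝ) ^ 6 with hm
  have hm0 : 0 < m := by positivity
  have hmr : m ≤ r := le_mul_of_one_le_right hm0.le h2
  have hm2 : 2 * D.ell ℝ ≤ m := by rw [hm]; nlinarith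
  have e1 : (D.S : ℝ) ^ 2154 / Nat.dist A B = 1 / r := by
    rw [hr, hm, CoulB_ell hD (a := 6) (b := 2154) rfl]
    field_simp
  have e2 : (D.S : ℝ) ^ 2148 * m ^ 2 = D.ell ℝ := by
    have := CoulB_ell hD (a := 12) (b := 2148) rfl
    calc (D.S : ℝ) ^ 2148 * m ^ 2 = (D.S : ℝ) ^ 2148 * (D.ell ℝ * (D.S : ℝ) ^ 12) * D.ell ℝ := by
          rw [hm]; ring
      _ = D.ell ℝ := by rw [this, mul_inv_cancel₀ (by positivity), one_mul]
  rw [e1, Kn]
  set n := ‖x - y‖ with hn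
  have hn0 : m / 2 ≤ n := by linarith
  have hnp : 0 < n := by linarith
  have hrp : 0 < r := by linarith
  rw [div_sub_div _ _ hnp.ne' hrp.ne', abs_div, abs_of_pos (mul_pos hnp hrp),
    div_le_iff₀ (mul_pos hnp hrp)]
  have h5 : |1 * r - n * 1| ≤ 3 * D.ell ℝ := abs_le.mpr ⟨by linarith, by linarith⟩
  have h6 : m / 2 * m ≤ n * r := mul_le_mul hn0 hmr hm0.le hnp.le
  have h7 := mul_le_mul_of_nonneg_left h6 (pow_pos hp 2148).le
  generalize (D.S : ℝ) ^ 2148 = u at *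
  nlinarith

theorem lay_Vlat {D : Des} {kc : ℕ} {k : ℕ → ℕ → ℕ} (h : D.Lay kc k) (U : ℝ) {A B : Room D.n}
    (hAB : A ≠ B) :
    ((D.pads (rid A) ∩ D.pads (rid B)).card : ℝ) = Vlat U kc k A B * Nat.dist (rid A) (rid B) := by
  rw [h _ (Des.rid_lt A) _ (Des.rid_lt B) (rid_injective.ne hAB), Vlat, if_neg hAB, rid_div, rid_div]
  simp only [Fin.val_inj]
  split_ifs <;> simp

theorem CoulB_diag (s t : Finset ℕ) (d : ℝ) :
    ∑ l ∈ s, ∑ l' ∈ t, (if l = l' then d else 0) = (s ∩ t).card * d := by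
  simp only [Finset.sum_ite_eq]
  rw [Finset.sum_ite_mem, Finset.sum_const, nsmul_eq_mul]

theorem CoulB_v0 {D : Des} (hD : D.Good) :
    (((D.M : ℝ) * (D.ell ℝ ^ 2 * D.mz)) ^ 2)⁻¹ * (D.M * (c0 * D.ell ℝ ^ 3 * D.mz ^ 2)) =
      D.v0 ℝ * D.UU := by
  have h1 := hD.pos
  have h2 := hD.ell_pos
  have h3 := mz_pos hD
  have h4 := hD.one_le_M
  have h5 : D.ell ℝ * ((D.S : ℝ) ^ 2154 * (D.S : ℝ) ^ 6) = 1 := by
    rw [← pow_add, CoulB_ell hD (a := 2154 + 6) (b := 0) rfl]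
    simp
  unfold Des.v0 Des.UU
  generalize (D.S : ℝ) ^ 2154 = u at *
  generalize (D.S : ℝ) ^ 6 = v at *
  field_simp
  linear_combination (-c0) * h5

theorem CoulB_card {D : Des} (hD : D.Good) (A B : Room D.n) :
    ((D.pads (rid A) ∩ D.pads (rid B)).card : ℝ) ≤ (D.M : ℝ) ^ 2 := by
  have h1 : (D.pads (rid A) ∩ D.pads (rid B)).card ≤ D.M :=
    (Finset.card_le_card Finset.inter_subset_left).trans (hD.cnt _ (Des.rid_lt A)).le
  have h2 : ((D.pads (rid A) ∩ D.pads (rid B)).card : ℝ) ≤ D.M := by exact_mod_cast h1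
  exact h2.trans (Trial_le_pow hD.one_le_M (by norm_num))

theorem CoulB_off {D : Des} (hD : D.Good) {kc : ℕ} {k : ℕ → ℕ → ℕ} (h : D.Lay kc k)
    {A B : Room D.n} (hAB : A ≠ B) (e : ℝ) :
    (((D.M : ℝ) * (D.ell ℝ ^ 2 * D.mz)) ^ 2)⁻¹ * ((D.pads (rid A) ∩ D.pads (rid B)).card *
      (((D.S : ℝ) ^ 2154 / Nat.dist (rid A) (rid B) + e) * (D.ell ℝ ^ 2 * D.mz) ^ 2)) =
      D.v0 ℝ * Vlat D.UU kc k A B +
        (D.pads (rid A) ∩ D.pads (rid B)).card / (D.M : ℝ) ^ 2 * e := by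
  have h2 := hD.ell_pos
  have h3 := mz_pos hD
  have h4 := hD.one_le_M
  have h5 := CoulB_dist (rid_injective.ne hAB)
  rw [lay_Vlat h D.UU hAB]
  unfold Des.v0
  generalize (D.S : ℝ) ^ 2154 = u at *
  field_simp

/-- Keep only the diagonal terms `l = l'` (`Jb_nonneg`); `Jb_self_ge` or `Jb_ge_of`, `Kn_level`. -/
theorem vl_D : ∀ᶠ D : Des in evD, ∀ (kc : ℕ) (k : ℕ → ℕ → ℕ), D.Lay kc k →
    VL D.phiT D.Om ((D.S : ℝ) ^ 2172) (fun A B => D.v0 ℝ * Vlat D.UU kc k A B)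
      ((D.S : ℝ) ^ 2149) := by
  filter_upwards [ev_good, ev_ge 32, pair_orb, Kn_level] with D hD hS hpair hlev kc k hlay A B
  have hw := zw_phi hD
  have hp := hD.pos
  have hℓ := hD.ell_pos
  have hmz := mz_pos hD
  have hM := hD.one_le_M
  have hΛ : 0 < (D.S : ℝ) ^ 2172 := by positivity
  have hm : Measurable fun x => min (Kn x) ((D.S : ℝ) ^ 2172) := measurable_Kn.min measurable_const
  have h0 : ∀ x, 0 ≤ min (Kn x) ((D.S : ℝ) ^ 2172) := fun x => le_min (Kn_nonneg x) hΛ.le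
  have h1 : ∀ x, min (Kn x) ((D.S : ℝ) ^ 2172) ≤ Kn x := fun x => min_le_left _ _
  rw [hpair _ hm h0 h1]
  have key : ∀ d : ℝ, (∀ l, d ≤ Jb (fun x => min (Kn x) ((D.S : ℝ) ^ 2172)) (fun z => D.phi z ^ 2)
      (D.padBox (rid A) l) (D.padBox (rid B) l)) →
      (((D.M : ℝ) * (D.ell ℝ ^ 2 * D.mz)) ^ 2)⁻¹ * ((D.pads (rid A) ∩ D.pads (rid B)).card * d) ≤
      (((D.M : ℝ) * (D.ell ℝ ^ 2 * D.mz)) ^ 2)⁻¹ * ∑ l ∈ D.pads (rid A), ∑ l' ∈ D.pads (rid B),
        Jb (fun x => min (Kn x) ((D.S : ℝ) ^ 2172)) (fun z => D.phi z ^ 2)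
          (D.padBox (rid A) l) (D.padBox (rid B) l') := by
    intro d hd
    refine mul_le_mul_of_nonneg_left ?_ (by positivity)
    rw [← CoulB_diag]
    refine Finset.sum_le_sum fun l _ => Finset.sum_le_sum fun l' _ => ?_
    split_ifs with h
    · rw [← h]; exact hd l
    · exact Jb_nonneg hw h0 _ _
  have hS1 : 32 * (D.S : ℝ) ^ 2148 ≤ (D.S : ℝ) ^ 2149 := mul_pow_le hD.one_le hS le_rfl
  by_cases hAB : A = B
  · subst hAB
    refine le_trans ?_ (key _ fun l => Jb_self_ge hw hℓ hΛ _ _)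
    have hV : Vlat D.UU kc k A A = D.UU := if_pos rfl
    simp only [hV]
    rw [Finset.inter_self, hD.cnt _ (Des.rid_lt A), ← CoulB_v0 hD]
    have e1 : D.ell ℝ ^ 2 * ((D.S : ℝ) ^ 2148 * (D.S : ℝ) ^ 2172) = 1 := by
      have := CoulB_ell hD (a := 2160) (b := 0) rfl
      rw [← pow_add, show 2148 + 2172 = 2160 * 2 from rfl, pow_mul, ← mul_pow, this]
      simp
    have e2 : D.z1 ≤ ((D.S : ℝ) ^ 2172)⁻¹ := inv_pow_le hD.one_le (by norm_num)
    have e3 : 16 * D.z1 + 16 / (D.S : ℝ) ^ 2172 ≤ 32 * (D.ell ℝ ^ 2 * (D.S : ℝ) ^ 2148) := by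
      have : D.ell ℝ ^ 2 * (D.S : ℝ) ^ 2148 = ((D.S : ℝ) ^ 2172)⁻¹ :=
        eq_inv_of_mul_eq_one_left (by rw [mul_assoc]; exact e1)
      rw [this, div_eq_mul_inv]
      linarith
    have hz := hD.z1_pos
    have e4 : (((D.M : ℝ) * (D.ell ℝ ^ 2 * D.mz)) ^ 2)⁻¹ *
        (D.M * ((16 * D.z1 + 16 / (D.S : ℝ) ^ 2172) * D.ell ℝ ^ 2 * D.mz ^ 2)) ≤
        32 * (D.S : ℝ) ^ 2148 := by
      have hu : 0 < (D.S : ℝ) ^ 2148 := by positivity
      generalize 16 * D.z1 + 16 / (D.S : ℝ) ^ 2172 = E at *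
      generalize (D.S : ℝ) ^ 2148 = u at *
      have : (((D.M : ℝ) * (D.ell ℝ ^ 2 * D.mz)) ^ 2)⁻¹ * (D.M * (E * D.ell ℝ ^ 2 * D.mz ^ 2)) =
          E / (D.M * D.ell ℝ ^ 2) := by field_simp
      rw [this, div_le_iff₀ (by positivity)]
      have h5 : 0 ≤ D.ell ℝ ^ 2 * u := by positivity
      nlinarith [mul_le_mul_of_nonneg_right hM h5]
    generalize (((D.M : ℝ) * (D.ell ℝ ^ 2 * D.mz)) ^ 2)⁻¹ = c at *
    generalize 16 * D.z1 + 16 / (D.S : ℝ) ^ 2172 = E at *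
    generalize (D.S : ℝ) ^ 2148 = u at *
    generalize (D.S : ℝ) ^ 2149 = u' at *
    nlinarith
  · have hAB' := rid_injective.ne hAB
    refine le_trans ?_ (key _ fun l => Jb_ge_of hw hℓ hm h0 h1
      (c := (D.S : ℝ) ^ 2154 / Nat.dist (rid A) (rid B) + -(6 * (D.S : ℝ) ^ 2148))
      fun x hx y hy => le_min ?_ ?_)
    · rw [CoulB_off hD hlay hAB]
      have h5 : ((D.pads (rid A) ∩ D.pads (rid B)).card : ℝ) / (D.M : ℝ) ^ 2 ≤ 1 :=
        (div_le_one (by positivity)).mpr (CoulB_card hD A B)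
      have hu : 0 < (D.S : ℝ) ^ 2148 := by positivity
      have h6 := mul_le_mul_of_nonneg_right h5 hu.le
      generalize (D.S : ℝ) ^ 2148 = u at *
      generalize (D.S : ℝ) ^ 2149 = u' at *
      linarith
    · linarith [(abs_le.mp (hlev _ _ l hAB' x hx y hy)).1]
    · have h5 : (D.S : ℝ) ^ 2154 / Nat.dist (rid A) (rid B) ≤ (D.S : ℝ) ^ 2154 :=
        div_le_self (by positivity) (CoulB_dist hAB')
      have h6 : (D.S : ℝ) ^ 2154 ≤ (D.S : ℝ) ^ 2172 := pow_le_pow_right₀ hD.one_le (by norm_num)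
      have hu : 0 < (D.S : ℝ) ^ 2148 := by positivity
      linarith

theorem vu_orb : ∀ᶠ D : Des in evD, ∀ (kc : ℕ) (k : ℕ → ℕ → ℕ), D.Lay kc k → ∀ A B,
    ∫ x, ∫ y, Kn (x - y) * (orb D.phiT D.Om A x ^ 2 * orb D.phiT D.Om B y ^ 2) ≤
      D.v0 ℝ * Vlat D.UU kc k A B + 8 * (D.S : ℝ) ^ 2148 := by
  filter_upwards [ev_good, pair_orb, Kn_level, Kn_levels] with D hD hpair hlev hlevs kc k hlay A B
  have hw := zw_phi hD
  have hp := hD.pos
  have hℓ := hD.ell_pos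
  have hmz := mz_pos hD
  have hM := hD.one_le_M
  have hu : 0 < (D.S : ℝ) ^ 2148 := by positivity
  rw [hpair _ measurable_Kn Kn_nonneg fun _ => le_rfl]
  have key : ∀ d : ℝ, (∀ l, Jb Kn (fun z => D.phi z ^ 2)
      (D.padBox (rid A) l) (D.padBox (rid B) l) ≤ d) →
      (((D.M : ℝ) * (D.ell ℝ ^ 2 * D.mz)) ^ 2)⁻¹ * ∑ l ∈ D.pads (rid A), ∑ l' ∈ D.pads (rid B),
        Jb Kn (fun z => D.phi z ^ 2) (D.padBox (rid A) l) (D.padBox (rid B) l') ≤
      (((D.M : ℝ) * (D.ell ℝ ^ 2 * D.mz)) ^ 2)⁻¹ * ((D.pads (rid A) ∩ D.pads (rid B)).card * d) +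
        2 * (D.S : ℝ) ^ 2148 := by
    intro d hd
    have h1 : ∑ l ∈ D.pads (rid A), ∑ l' ∈ D.pads (rid B),
        Jb Kn (fun z => D.phi z ^ 2) (D.padBox (rid A) l) (D.padBox (rid B) l') ≤
        ∑ l ∈ D.pads (rid A), ∑ l' ∈ D.pads (rid B), ((if l = l' then d else 0) +
          2 * (D.S : ℝ) ^ 2148 * (D.ell ℝ ^ 2 * D.mz) ^ 2) := by
      refine Finset.sum_le_sum fun l _ => Finset.sum_le_sum fun l' _ => ?_
      split_ifs with h
      · rw [← h]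
        exact (hd l).trans (le_add_of_nonneg_right (by positivity))
      · rw [zero_add]
        exact Jb_le_of hw hℓ measurable_Kn Kn_nonneg (fun _ => le_rfl) (hlevs _ _ _ _ h)
    simp only [Finset.sum_add_distrib, CoulB_diag, Finset.sum_const, nsmul_eq_mul,
      hD.cnt _ (Des.rid_lt A), hD.cnt _ (Des.rid_lt B)] at h1
    refine (mul_le_mul_of_nonneg_left h1 (by positivity)).trans (le_of_eq ?_)
    generalize (D.S : ℝ) ^ 2148 = u at *
    field_simp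
  by_cases hAB : A = B
  · subst hAB
    refine (key _ fun l => Jb_self_le hw hℓ _ _).trans ?_
    rw [Finset.inter_self, hD.cnt _ (Des.rid_lt A), Vlat, if_pos rfl, CoulB_v0 hD]
    linarith
  · have hAB' := rid_injective.ne hAB
    refine (key _ fun l => Jb_le_of hw hℓ measurable_Kn Kn_nonneg (fun _ => le_rfl)
      (c := (D.S : ℝ) ^ 2154 / Nat.dist (rid A) (rid B) + 6 * (D.S : ℝ) ^ 2148)
      fun x hx y hy => ?_).trans ?_
    · linarith [(abs_le.mp (hlev _ _ l hAB' x hx y hy)).2]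
    · rw [CoulB_off hD hlay hAB]
      have h5 : ((D.pads (rid A) ∩ D.pads (rid B)).card : ℝ) / (D.M : ℝ) ^ 2 ≤ 1 :=
        (div_le_one (by positivity)).mpr (CoulB_card hD A B)
      have h6 := mul_le_mul_of_nonneg_right h5 hu.le
      generalize (D.S : ℝ) ^ 2148 = u at *
      linarith

end Crest.Agent.R338
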