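/-
R338/Slice: configuration space as a product; one-electron slices
Skeleton by helper15 (row 338); keep the statements unchanged, add any helper lemmas you like.
-/
import Crest.Agent.R338.Kern

set_option autoImplicit false
set_option linter.unusedSectionVars false
set_option linter.unusedVariables false
set_option linter.unusedSimpArgs false

noncomputable section

namespace Crest.Agent.R338

open MeasureTheory Set Crest.MathPhysics.ElectronicCoulomb
open scoped RealInnerProductSpace

variable {N m : ℕ}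

@[simp] theorem elPos_ofP (y : Fin N → Pos3) (i : Fin N) : elPos i (ofP y) = y i := rfl

@[simp] theorem ofP_elPos (x : Config N) : ofP (fun i => elPos i x) = x := rfl

theorem ofP_comp (σ : Equiv.Perm (Fin N)) (y : Fin N → Pos3) :
    ofP (y ∘ σ) = permConfig σ (ofP y) := rfl

theorem exists_ofP_equiv : ∃ e : (Fin N → Pos3) ≃L[ℝ] Config N, ∀ y, e y = ofP y := by
  let L : (Fin N → Pos3) ≃ₗ[ℝ] Config N :=
    { toFun := ofP
      invFun := fun x i => elPos i x
      map_add' := fun _ _ => rfl
      map_smul' := fun _ _ => rfl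
      left_inv := fun _ => rfl
      right_inv := fun _ => rfl }
  exact ⟨L.toContinuousLinearEquiv, fun _ => rfl⟩

/-- `PiLp.volume_preserving_toLp`, `measurePreserving_pi`, currying
(`MeasurableEquiv.piCurry`/`Measure.pi_eq` on boxes). -/
theorem measurePreserving_ofP : MeasurePreserving (ofP : (Fin N → Pos3) → Config N) volume volume := by
  have h1 : MeasurePreserving (fun (y : Fin N → Pos3) (i : Fin N) => WithLp.ofLp (y i))
      volume volume :=
    volume_preserving_pi fun _ => PiLp.volume_preserving_ofLp (Fin 3)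
  have h2 : MeasurePreserving (fun (y : Fin N → Fin 3 → ℝ) (ic : Fin N × Fin 3) => y ic.1 ic.2)
      volume volume := by
    have hm : Measurable (fun (y : Fin N → Fin 3 → ℝ) (ic : Fin N × Fin 3) => y ic.1 ic.2) := by
      fun_prop
    refine ⟨hm, ?_⟩
    rw [volume_pi (α := fun _ : Fin N × Fin 3 => ℝ)]
    refine (Measure.pi_eq fun s hs => ?_).symm
    rw [Measure.map_apply hm (MeasurableSet.univ_pi hs)]
    have : (fun (y : Fin N → Fin 3 → ℝ) (ic : Fin N × Fin 3) => y ic.1 ic.2) ⁻¹' (univ.pi s) =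
        univ.pi fun i => univ.pi fun c => s (i, c) := by
      ext y; simp [Set.mem_pi]
    rw [this, volume_pi_pi, Fintype.prod_prod_type]
    refine Finset.prod_congr rfl fun i _ => ?_
    rw [volume_pi_pi]
  exact (PiLp.volume_preserving_toLp (Fin N × Fin 3)).comp (h2.comp h1)

theorem Slice_emb : MeasurableEmbedding (ofP : (Fin N → Pos3) → Config N) := by
  obtain ⟨e, he⟩ := exists_ofP_equiv (N := N)
  have : (ofP : (Fin N → Pos3) → Config N) = e := funext fun y => (he y).symm
  rw [this]
  exact e.toHomeomorph.measurableEmbedding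

theorem integral_ofP (F : Config N → ℝ) : ∫ x, F x = ∫ y, F (ofP y) := by
  exact (measurePreserving_ofP.integral_comp Slice_emb F).symm

theorem integrable_ofP {F : Config N → ℝ} : (Integrable fun y => F (ofP y)) ↔ Integrable F := by
  exact measurePreserving_ofP.integrable_comp_emb Slice_emb

theorem Nice.comp_ofP {F : Config N → ℝ} (h : Nice F) : Nice fun y => F (ofP y) := by
  obtain ⟨e, he⟩ := exists_ofP_equiv (N := N)
  obtain ⟨C, hC⟩ := h.bdd
  refine ⟨h.meas.comp measurePreserving_ofP.measurable, ⟨C, fun y => hC _⟩, ?_⟩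
  refine (e.symm.lipschitz.isBounded_image h.supp).subset fun y hy => ?_
  exact ⟨ofP y, hy, by rw [← he, e.symm_apply_apply]⟩

theorem integral_comp_perm (σ : Equiv.Perm (Fin N)) (G : (Fin N → Pos3) → ℝ) :
    ∫ y : Fin N → Pos3, G (y ∘ σ) = ∫ y, G y := by
  have := (volume_measurePreserving_piCongrLeft (fun _ : Fin N => Pos3) σ).symm
  rw [← this.integral_comp' G]
  rfl

/-- `measurePreserving_piFinSuccAbove`. -/
theorem integral_insertNth (i : Fin (m + 1)) {G : (Fin (m + 1) → Pos3) → ℝ} (hG : Integrable G) :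
    (Integrable fun z : Fin m → Pos3 => ∫ w, G (i.insertNth w z)) ∧
      ∫ y, G y = ∫ z : Fin m → Pos3, ∫ w, G (i.insertNth w z) := by
  have hp := (volume_preserving_piFinSuccAbove (fun _ : Fin (m + 1) => Pos3) i).symm
  have hI : Integrable (fun p : Pos3 × (Fin m → Pos3) => G (i.insertNth p.1 p.2))
      (volume.prod volume) :=
    (hp.integrable_comp_emb (MeasurableEquiv.measurableEmbedding _)).2 hG
  refine ⟨hI.integral_prod_right, ?_⟩
  rw [← hp.integral_comp' G]
  exact integral_prod_symm _ hI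

theorem Slice_meas (i : Fin (m + 1)) :
    Measurable fun p : Pos3 × (Fin m → Pos3) => (i.insertNth p.1 p.2 : Fin (m + 1) → Pos3) :=
  (MeasurableEquiv.piFinSuccAbove (fun _ : Fin (m + 1) => Pos3) i).symm.measurable

theorem Nice.slice {G : (Fin (m + 1) → Pos3) → ℝ} (h : Nice G) (i : Fin (m + 1))
    (z : Fin m → Pos3) : Nice fun w => G (i.insertNth w z) := by
  obtain ⟨C, hC⟩ := h.bdd
  obtain ⟨R, hR⟩ := h.supp.subset_closedBall 0
  refine ⟨h.meas.comp (Slice_meas i |>.comp (measurable_id.prodMk measurable_const)),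
    ⟨C, fun y => hC _⟩, ?_⟩
  refine (Metric.isBounded_closedBall (x := (0 : Pos3)) (r := R)).subset fun w hw => ?_
  have h1 := mem_closedBall_zero_iff.1 (hR hw)
  have h2 := norm_le_pi_norm (i.insertNth w z : Fin (m + 1) → Pos3) i
  rw [Fin.insertNth_apply_same] at h2
  exact mem_closedBall_zero_iff.2 (h2.trans h1)

theorem Nice.integral_slice {G : (Fin (m + 1) → Pos3) → ℝ} (h : Nice G) (i : Fin (m + 1)) :
    Nice fun z : Fin m → Pos3 => ∫ w, G (i.insertNth w z) := by
  obtain ⟨C, hC⟩ := h.bdd
  obtain ⟨R, hR⟩ := h.supp.subset_closedBall 0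
  refine ⟨?_, ⟨∫ w, (Metric.closedBall (0 : Pos3) R).indicator (fun _ => C) w, fun z => ?_⟩, ?_⟩
  · exact (h.meas.comp (Slice_meas i)).stronglyMeasurable.integral_prod_left'.measurable
  · rw [← Real.norm_eq_abs]
    refine norm_integral_le_of_norm_le ?_ (Filter.Eventually.of_forall fun w => ?_)
    · exact (integrable_indicator_iff Metric.isClosed_closedBall.measurableSet).2
        (integrableOn_const (isCompact_closedBall _ _).measure_lt_top.ne)
    · by_cases hw : w ∈ Metric.closedBall (0 : Pos3) R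
      · rw [indicator_of_mem hw]; exact hC _
      · rw [indicator_of_notMem hw]
        have : G (i.insertNth w z) = 0 := by
          by_contra h0
          apply hw
          have h1 := mem_closedBall_zero_iff.1 (hR h0)
          have h2 := norm_le_pi_norm (i.insertNth w z : Fin (m + 1) → Pos3) i
          rw [Fin.insertNth_apply_same] at h2
          exact mem_closedBall_zero_iff.2 (h2.trans h1)
        simp [this]
  · refine (Metric.isBounded_closedBall (x := (0 : Fin m → Pos3)) (r := max R 0)).subset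
      fun z hz => ?_
    by_contra hz'
    apply hz
    have : ∀ w, G (i.insertNth w z) = 0 := by
      intro w
      by_contra h0
      apply hz'
      have h1 := mem_closedBall_zero_iff.1 (hR h0)
      refine mem_closedBall_zero_iff.2 ((pi_norm_le_iff_of_nonneg (le_max_right _ _)).2 fun l => ?_)
      have h2 := norm_le_pi_norm (i.insertNth w z : Fin (m + 1) → Pos3) (i.succAbove l)
      rw [Fin.insertNth_apply_succAbove] at h2
      exact (h2.trans h1).trans (le_max_left _ _)
    simp [this]

theorem Slice_contDiff (i : Fin (m + 1)) (z : Fin m → Pos3) :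
    ContDiff ℝ 1 fun w : Pos3 => (ofP (i.insertNth w z) : Config (m + 1)) := by
  obtain ⟨e, he⟩ := exists_ofP_equiv (N := m + 1)
  simp_rw [← he]
  refine e.contDiff.comp (contDiff_pi.2 fun l => ?_)
  refine Fin.succAboveCases i ?_ (fun l => ?_) l
  · simp only [Fin.insertNth_apply_same]; exact contDiff_id
  · simp only [Fin.insertNth_apply_succAbove]; exact contDiff_const

theorem Test.slice {F : Config (m + 1) → ℝ} (h : Test F) (i : Fin (m + 1)) (z : Fin m → Pos3) :
    Test fun w : Pos3 => F (ofP (i.insertNth w z)) := by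
  refine ⟨h.diff.comp (Slice_contDiff i z), ?_⟩
  exact (h.nice.comp_ofP.slice i z).supp.isCompact_closure

theorem pd_slice {F : Config (m + 1) → ℝ} (h : Differentiable ℝ F) (i : Fin (m + 1))
    (z : Fin m → Pos3) (c : Fin 3) (w : Pos3) :
    pd c (fun w : Pos3 => F (ofP (i.insertNth w z))) w = pd (i, c) F (ofP (i.insertNth w z)) := by
  have hd : Differentiable ℝ fun w : Pos3 => F (ofP (i.insertNth w z)) :=
    h.comp ((Slice_contDiff i z).differentiable one_ne_zero)
  have h1 := hasDerivAt_pd (f := fun w : Pos3 => F (ofP (i.insertNth w z))) (x := w) c (s := 0)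
    (hd _)
  have h2 := hasDerivAt_pd (f := F) (x := ofP (i.insertNth w z)) (i, c) (s := 0) (h _)
  have e : ∀ t : ℝ, (ofP (i.insertNth (w + EuclideanSpace.single c t) z) : Config (m + 1)) =
      ofP (i.insertNth w z) + EuclideanSpace.single (i, c) t := by
    intro t
    ext ⟨l, c'⟩
    refine Fin.succAboveCases i ?_ (fun l => ?_) l
    · simp [ofP, Pi.single_apply]
    · simp [ofP, Pi.single_apply, Fin.succAbove_ne]
  simp only [e] at h1
  have h3 := h1.unique h2
  have z1 : w + EuclideanSpace.single c (0 : ℝ) = w := by ext; simp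
  have z2 : (ofP (i.insertNth w z) : Config (m + 1)) + EuclideanSpace.single (i, c) (0 : ℝ) =
      ofP (i.insertNth w z) := by ext; simp
  rwa [z1, z2] at h3

/-- The indicator of a ball. -/
def Slice_ind (R : ℝ) : Pos3 → ℝ := (Metric.closedBall (0 : Pos3) R).indicator fun _ => 1

theorem Slice_ind_nice (R : ℝ) : Nice (Slice_ind R) := by
  refine ⟨measurable_const.indicator Metric.isClosed_closedBall.measurableSet, ⟨1, fun y => ?_⟩,
    Metric.isBounded_closedBall.subset support_indicator_subset⟩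
  unfold Slice_ind
  by_cases hy : y ∈ Metric.closedBall (0 : Pos3) R <;> simp [hy]

theorem Slice_bound {G : (Fin N → Pos3) → ℝ} (h : Nice G) :
    ∃ C R : ℝ, 0 ≤ C ∧ ∀ y, |G y| ≤ C * ∏ l, Slice_ind R (y l) := by
  obtain ⟨C, hC⟩ := h.bdd
  obtain ⟨R, hR⟩ := h.supp.subset_closedBall 0
  have hC0 : 0 ≤ C := (abs_nonneg _).trans (hC 0)
  refine ⟨C, R, hC0, fun y => ?_⟩
  by_cases hy : G y = 0
  · rw [hy, abs_zero]
    exact mul_nonneg hC0 (Finset.prod_nonneg fun l _ => indicator_nonneg (fun _ _ => zero_le_one) _)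
  · have h1 := mem_closedBall_zero_iff.1 (hR hy)
    have : ∀ l, Slice_ind R (y l) = 1 := fun l =>
      indicator_of_mem (mem_closedBall_zero_iff.2 ((norm_le_pi_norm y l).trans h1)) _
    simp only [this, Finset.prod_const_one, mul_one]
    exact hC y

/-- Splitting off two coordinates. -/
def Slice_pairEquiv {i j : Fin N} (hij : i ≠ j) :
    ((Pos3 × Pos3) × ({l : Fin N // l ≠ i ∧ l ≠ j} → Pos3)) ≃ᵐ (Fin N → Pos3) where
  toFun p l := if h : l = i then p.1.1 else if h' : l = j then p.1.2 else p.2 ⟨l, h, h'⟩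
  invFun y := ((y i, y j), fun l => y l.1)
  left_inv p := by
    ext1
    · ext1 <;> simp [hij.symm]
    · funext l; simp [l.2.1, l.2.2]
  right_inv y := by
    funext l
    by_cases h : l = i
    · simp [h]
    · by_cases h' : l = j
      · subst h'; simp [h]
      · simp [h, h']
  measurable_toFun := by
    refine measurable_pi_lambda _ fun l => ?_
    simp only [Equiv.coe_fn_mk]
    split_ifs <;> fun_prop
  measurable_invFun := by
    simp only [Equiv.coe_fn_symm_mk]
    fun_prop

theorem Slice_prod_split {M : Type} [CommMonoid M] {i j : Fin N} (hij : i ≠ j) (g : Fin N → M) :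
    ∏ l, g l = g i * g j * ∏ l ∈ (Finset.univ.erase i).erase j, g l := by
  rw [mul_assoc, Finset.mul_prod_erase _ _ (Finset.mem_erase.2 ⟨hij.symm, Finset.mem_univ _⟩),
    Finset.mul_prod_erase _ _ (Finset.mem_univ _)]

theorem Slice_prod_sub {M : Type} [CommMonoid M] (i j : Fin N) (g : Fin N → M) :
    ∏ l ∈ (Finset.univ.erase i).erase j, g l = ∏ l : {l : Fin N // l ≠ i ∧ l ≠ j}, g l.1 :=
  Finset.prod_subtype _ (fun l => by simp [and_comm]) g

theorem Slice_pair_mp {i j : Fin N} (hij : i ≠ j) :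
    MeasurePreserving (Slice_pairEquiv hij) ((volume.prod volume).prod volume) volume := by
  refine ⟨(Slice_pairEquiv hij).measurable, ?_⟩
  rw [volume_pi (α := fun _ : Fin N => Pos3)]
  refine (Measure.pi_eq fun s hs => ?_).symm
  rw [MeasurableEquiv.map_apply]
  have : Slice_pairEquiv hij ⁻¹' (univ.pi s) =
      (s i ×ˢ s j) ×ˢ univ.pi fun l : {l : Fin N // l ≠ i ∧ l ≠ j} => s l.1 := by
    ext p
    obtain ⟨y, rfl⟩ := (Slice_pairEquiv hij).symm.surjective p
    rw [mem_preimage, MeasurableEquiv.apply_symm_apply]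
    change _ ↔ (y i ∈ s i ∧ y j ∈ s j) ∧ ∀ l ∈ (univ : Set {l : Fin N // l ≠ i ∧ l ≠ j}),
      y l.1 ∈ s l.1
    constructor
    · intro h
      exact ⟨⟨h _ trivial, h _ trivial⟩, fun l _ => h _ trivial⟩
    · rintro ⟨⟨h1, h2⟩, h3⟩ l _
      by_cases h : l = i
      · exact h ▸ h1
      · by_cases h' : l = j
        · exact h' ▸ h2
        · exact h3 ⟨l, h, h'⟩ trivial
  rw [this, Measure.prod_prod, Measure.prod_prod, volume_pi_pi, Slice_prod_split hij,
    Slice_prod_sub]

theorem Slice_pair {f : Fin N → Pos3 → ℝ} (hf : ∀ i, Nice (f i)) {V : Pos3 → Pos3 → ℝ}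
    {i j : Fin N} (hij : i ≠ j)
    (hV : Integrable fun p : Pos3 × Pos3 => V p.1 p.2 * (f i p.1 * f j p.2)) :
    (Integrable fun y : Fin N → Pos3 => V (y i) (y j) * ∏ l, f l (y l)) ∧
    ∫ y : Fin N → Pos3, V (y i) (y j) * ∏ l, f l (y l) =
      (∫ x, ∫ x', V x x' * (f i x * f j x')) * ∏ l ∈ (Finset.univ.erase i).erase j, ∫ x, f l x := by
  have hp := (Slice_pair_mp hij).symm
  have hI : Integrable (fun z : {l : Fin N // l ≠ i ∧ l ≠ j} → Pos3 => ∏ l, f l.1 (z l)) :=
    Integrable.fintype_prod (f := fun l : {l : Fin N // l ≠ i ∧ l ≠ j} => f l.1)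
      fun l => (hf _).integrable
  have e : (fun y : Fin N → Pos3 => V (y i) (y j) * ∏ l, f l (y l)) =
      fun y => (fun q : (Pos3 × Pos3) × ({l : Fin N // l ≠ i ∧ l ≠ j} → Pos3) =>
        (V q.1.1 q.1.2 * (f i q.1.1 * f j q.1.2)) * ∏ l, f l.1 (q.2 l))
        ((Slice_pairEquiv hij).symm y) := by
    funext y
    rw [Slice_prod_split hij, Slice_prod_sub, ← mul_assoc]
    rfl
  rw [e]
  refine ⟨(hp.integrable_comp_emb (MeasurableEquiv.measurableEmbedding _)).2 (hV.mul_prod hI), ?_⟩
  refine (hp.integral_comp' (fun q : (Pos3 × Pos3) × ({l : Fin N // l ≠ i ∧ l ≠ j} → Pos3) =>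
        (V q.1.1 q.1.2 * (f i q.1.1 * f j q.1.2)) * ∏ l, f l.1 (q.2 l))).trans ?_
  rw [integral_prod_mul (fun p : Pos3 × Pos3 => V p.1 p.2 * (f i p.1 * f j p.2))
    (fun z : {l : Fin N // l ≠ i ∧ l ≠ j} → Pos3 => ∏ l, f l.1 (z l)), integral_prod _ hV,
    Slice_prod_sub, integral_fintype_prod_volume_eq_prod
      (fun l : {l : Fin N // l ≠ i ∧ l ≠ j} => f l.1)]

/-- Bound the nice function by a constant times the indicator of a product of balls;
`Integrable.fintype_prod`. -/
theorem integrable_one_body {Φ : Pos3 → ℝ} (hΦ : LocallyIntegrable Φ) (hm : Measurable Φ)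
    {G : (Fin N → Pos3) → ℝ} (hG : Nice G) (i : Fin N) : Integrable fun y => Φ (y i) * G y := by
  obtain ⟨C, R, hC0, hC⟩ := Slice_bound hG
  have hI : Integrable (fun y : Fin N → Pos3 =>
      ∏ l, (if l = i then |Φ (y l)| else 1) * Slice_ind R (y l)) := by
    refine Integrable.fintype_prod (f := fun l x => (if l = i then |Φ x| else 1) * Slice_ind R x)
      fun l => ?_
    by_cases hl : l = i
    · simp only [hl, if_true]
      exact (Slice_ind_nice R).integrable_loc_mul (Φ := fun x => |Φ x|)
        fun x => IntegrableAtFilter.norm (hΦ x)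
    · simp only [hl, if_false, one_mul]
      exact (Slice_ind_nice R).integrable
  refine (hI.const_mul C).mono'
    ((hm.comp (measurable_pi_apply i)).mul hG.meas).aestronglyMeasurable
    (Filter.Eventually.of_forall fun y => ?_)
  rw [Finset.prod_mul_distrib, Finset.prod_ite_eq', if_pos (Finset.mem_univ _), Real.norm_eq_abs,
    abs_mul, mul_left_comm]
  exact mul_le_mul_of_nonneg_left (hC y) (abs_nonneg _)

theorem integrable_two_body {G : (Fin N → Pos3) → ℝ} (hG : Nice G) {i j : Fin N} (hij : i ≠ j) :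
    Integrable fun y => Kn (y i - y j) * G y := by
  obtain ⟨C, R, hC0, hC⟩ := Slice_bound hG
  have hI := (Slice_pair (f := fun _ => Slice_ind R) (fun _ => Slice_ind_nice R)
    (V := fun x x' => Kn (x - x')) hij
    (integrable_Kn_prod (Slice_ind_nice R) (Slice_ind_nice R))).1
  refine (hI.const_mul C).mono'
    ((measurable_Kn.comp ((measurable_pi_apply i).sub (measurable_pi_apply j))).mul
      hG.meas).aestronglyMeasurable (Filter.Eventually.of_forall fun y => ?_)
  rw [Real.norm_eq_abs, abs_mul, abs_of_nonneg (Kn_nonneg _), mul_left_comm]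
  exact mul_le_mul_of_nonneg_left (hC y) (Kn_nonneg _)

/-- The one-body part of the energy is the sum of the energies of the slices. -/
theorem energy_slices {Φ : Pos3 → ℝ} (hΦ : Pot Φ) {F : Config (m + 1) → ℝ} (h : Test F) :
    (∀ i : Fin (m + 1), Integrable fun z : Fin m → Pos3 =>
      E1 Φ fun w => F (ofP (i.insertNth w z))) ∧
    1 / 2 * (∫ x, gsq F x) - ∫ x, (∑ i, Φ (elPos i x)) * F x ^ 2 =
      ∑ i : Fin (m + 1), ∫ z : Fin m → Pos3, E1 Φ fun w => F (ofP (i.insertNth w z)) := by
  have hd : Differentiable ℝ F := h.diff.differentiable one_ne_zero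
  have hA0 : ∀ i : Fin (m + 1), Integrable fun x => ∑ c, pd (i, c) F x ^ 2 := fun i =>
    integrable_finsetSum _ fun c _ =>
      Continuous.integrable_of_hasCompactSupport (f := (fun t : ℝ => t ^ 2) ∘ pd (i, c) F)
        ((continuous_pow 2).comp (continuous_pd (i, c) h.diff))
        ((h.supp_pd (i, c)).comp_left (g := fun t : ℝ => t ^ 2) (by simp))
  have hA : ∀ i : Fin (m + 1), Integrable fun y => ∑ c, pd (i, c) F (ofP y) ^ 2 := fun i =>
    integrable_ofP.2 (hA0 i)
  have hB : ∀ i : Fin (m + 1), Integrable fun y : Fin (m + 1) → Pos3 =>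
      Φ (y i) * F (ofP y) ^ 2 := fun i =>
    integrable_one_body hΦ.loc hΦ.meas h.nice.sq.comp_ofP i
  have hE : ∀ (i : Fin (m + 1)) (z : Fin m → Pos3),
      (E1 Φ fun w => F (ofP (i.insertNth w z))) =
        1 / 2 * (∫ w, ∑ c, pd (i, c) F (ofP (i.insertNth w z)) ^ 2) -
          ∫ w, Φ ((i.insertNth w z : Fin (m + 1) → Pos3) i) * F (ofP (i.insertNth w z)) ^ 2 := by
    intro i z
    simp only [E1, gsq, pd_slice hd, Fin.insertNth_apply_same]
  simp only [hE]
  refine ⟨fun i => ((integral_insertNth i (hA i)).1.const_mul _).sub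
    (integral_insertNth i (hB i)).1, ?_⟩
  have h1 : ∫ x, gsq F x = ∑ i : Fin (m + 1), ∫ y, ∑ c, pd (i, c) F (ofP y) ^ 2 := by
    rw [integral_ofP, ← integral_finsetSum _ fun i _ => hA i]
    simp only [gsq, Fintype.sum_prod_type]
  have h2 : ∫ x, (∑ i, Φ (elPos i x)) * F x ^ 2 =
      ∑ i : Fin (m + 1), ∫ y : Fin (m + 1) → Pos3, Φ (y i) * F (ofP y) ^ 2 := by
    rw [integral_ofP, ← integral_finsetSum _ fun i _ => hB i]
    simp only [elPos_ofP, Finset.sum_mul]
  rw [h1, h2, Finset.mul_sum, ← Finset.sum_sub_distrib]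
  refine Finset.sum_congr rfl fun i _ => ?_
  rw [integral_sub ((integral_insertNth i (hA i)).1.const_mul _) (integral_insertNth i (hB i)).1,
    integral_const_mul, ← (integral_insertNth i (hA i)).2, ← (integral_insertNth i (hB i)).2]

/-- A product of one-variable functions with one pair interaction. -/
theorem integral_pair {f : Fin N → Pos3 → ℝ} (hf : ∀ i, Nice (f i)) {V : Pos3 → Pos3 → ℝ}
    {i j : Fin N} (hij : i ≠ j)
    (hV : Integrable fun p : Pos3 × Pos3 => V p.1 p.2 * (f i p.1 * f j p.2)) :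
    (Integrable fun y : Fin N → Pos3 => V (y i) (y j) * ∏ l, f l (y l)) ∧
    ∫ y : Fin N → Pos3, V (y i) (y j) * ∏ l, f l (y l) =
      (∫ x, ∫ x', V x x' * (f i x * f j x')) * ∏ l ∈ (Finset.univ.erase i).erase j, ∫ x, f l x := by
  exact Slice_pair hf hij hV

end Crest.Agent.R338
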