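/-
R338/Proj: projections on the span of product orbitals
Skeleton by helper15 (row 338); keep the statements unchanged, add any helper lemmas you like.
-/
import Crest.Agent.R338.Slice

set_option autoImplicit false
set_option linter.unusedSectionVars false
set_option linter.unusedVariables false
set_option linter.unusedSimpArgs false

noncomputable section

namespace Crest.Agent.R338

open MeasureTheory Set Crest.MathPhysics.ElectronicCoulomb
open scoped RealInnerProductSpace

section general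
variable {Y R : Type} [MeasureSpace Y] [PseudoMetricSpace Y] [ProperSpace Y]
  [OpensMeasurableSpace Y] [IsFiniteMeasureOnCompacts (volume : Measure Y)] [Fintype R]
  [DecidableEq R] {e : R → Y → ℝ} {F : Y → ℝ}

theorem Proj_sq_sum (h : ON e) (a : R → ℝ) (y : Y) :
    (∑ A, a A * e A y) ^ 2 = ∑ A, a A ^ 2 * e A y ^ 2 := by
  rw [sq, Finset.sum_mul_sum]
  refine Finset.sum_congr rfl fun A _ => ?_
  rw [Finset.sum_eq_single A]
  · ring
  · intro B _ hB
    have := h.disj A B (Ne.symm hB) y
    calc a A * e A y * (a B * e B y) = a A * a B * (e A y * e B y) := by ring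
      _ = 0 := by rw [this, mul_zero]
  · intro hA
    exact absurd (Finset.mem_univ A) hA

theorem Proj_nice_sum (h : ON e) (a : R → ℝ) : Nice fun y => ∑ A, a A * e A y :=
  Nice.sum _ fun A _ => (h.nice A).const_mul (a A)

theorem Proj_int_sq_sum (h : ON e) (a : R → ℝ) :
    ∫ y, (∑ A, a A * e A y) ^ 2 = ∑ A, a A ^ 2 := by
  simp_rw [Proj_sq_sum h]
  rw [integral_finsetSum _ fun A _ => ((h.nice A).sq.const_mul _).integrable]
  refine Finset.sum_congr rfl fun A _ => ?_
  rw [integral_const_mul, h.norm, mul_one]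

/-- Pythagoras. -/
theorem ON.defect (h : ON e) (hF : Nice F) :
    ∫ y, (F y - ∑ A, (∫ x, e A x * F x) * e A y) ^ 2 =
      (∫ y, F y ^ 2) - ∑ A, (∫ x, e A x * F x) ^ 2 := by
  set a : R → ℝ := fun A => ∫ x, e A x * F x with ha
  have hP := Proj_nice_sum h a
  have e1 : ∀ y, (F y - ∑ A, a A * e A y) ^ 2 =
      F y ^ 2 - 2 * (∑ A, a A * (e A y * F y)) + (∑ A, a A * e A y) ^ 2 := by
    intro y
    have : ∑ A, a A * (e A y * F y) = (∑ A, a A * e A y) * F y := by
      rw [Finset.sum_mul]
      exact Finset.sum_congr rfl fun A _ => by ring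
    rw [this]
    ring
  have hS : Nice fun y => ∑ A, a A * (e A y * F y) :=
    Nice.sum _ fun A _ => ((h.nice A).mul hF).const_mul _
  have e2 : ∫ y, ∑ A, a A * (e A y * F y) = ∑ A, a A ^ 2 := by
    rw [integral_finsetSum _ fun A _ => (((h.nice A).mul hF).const_mul _).integrable]
    refine Finset.sum_congr rfl fun A _ => ?_
    rw [integral_const_mul, sq]
  change ∫ y, (F y - ∑ A, a A * e A y) ^ 2 = (∫ y, F y ^ 2) - ∑ A, a A ^ 2
  simp_rw [e1]
  rw [integral_add (hF.sq.sub (hS.const_mul 2)).integrable hP.sq.integrable,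
    integral_sub hF.sq.integrable (hS.const_mul 2).integrable, integral_const_mul, e2,
    Proj_int_sq_sum h]
  ring

theorem ON.bessel (h : ON e) (hF : Nice F) : ∑ A, (∫ x, e A x * F x) ^ 2 ≤ ∫ y, F y ^ 2 := by
  have h1 := h.defect hF
  have h2 : 0 ≤ ∫ y, (F y - ∑ A, (∫ x, e A x * F x) * e A y) ^ 2 :=
    integral_nonneg fun y => sq_nonneg _
  linarith

/-- Cross terms of a bounded potential: `F = P + Q`, `V F² ≥ V P² + 2 V P Q`,
`P² = ∑ a_A² e_A²`, `sq_integral_le`. -/
theorem ON.form_ge (h : ON e) (hF : Nice F) {V : Y → ℝ} (hV : Measurable V) {W : ℝ}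
    (h0 : ∀ y, 0 ≤ V y) (hW : ∀ y, V y ≤ W) :
    ∑ A, (∫ x, e A x * F x) ^ 2 * (∫ y, V y * e A y ^ 2) -
      2 * W * (√(∑ A, (∫ x, e A x * F x) ^ 2) *
        √((∫ y, F y ^ 2) - ∑ A, (∫ x, e A x * F x) ^ 2)) ≤ ∫ y, V y * F y ^ 2 := by
  rw [← h.defect hF]
  set a : R → ℝ := fun A => ∫ x, e A x * F x with ha
  change ∑ A, a A ^ 2 * (∫ y, V y * e A y ^ 2) -
      2 * W * (√(∑ A, a A ^ 2) * √(∫ y, (F y - ∑ A, a A * e A y) ^ 2)) ≤ ∫ y, V y * F y ^ 2
  have hVb : ∀ y, |V y| ≤ W := fun y => by rw [abs_of_nonneg (h0 y)]; exact hW y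
  have hP := Proj_nice_sum h a
  have hQ := hF.sub hP
  rw [← Proj_int_sq_sum h a]
  set P : Y → ℝ := fun y => ∑ A, a A * e A y with hPd
  set Q : Y → ℝ := fun y => F y - P y with hQd
  have i1 := (hP.sq.mul_bdd hV hVb).integrable
  have i2 := (hQ.sq.mul_bdd hV hVb).integrable
  have i3 := ((hP.mul hQ).mul_bdd hV hVb).integrable
  have e1 : ∑ A, a A ^ 2 * (∫ y, V y * e A y ^ 2) = ∫ y, V y * P y ^ 2 := by
    have : ∀ y, V y * P y ^ 2 = ∑ A, a A ^ 2 * (V y * e A y ^ 2) := by
      intro y
      rw [hPd]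
      simp only
      rw [Proj_sq_sum h, Finset.mul_sum]
      exact Finset.sum_congr rfl fun A _ => by ring
    simp_rw [this]
    rw [integral_finsetSum _ fun A _ =>
      (((h.nice A).sq.mul_bdd hV hVb).const_mul _).integrable]
    exact Finset.sum_congr rfl fun A _ => (integral_const_mul _ _).symm
  have e2 : ∫ y, V y * F y ^ 2 =
      (∫ y, V y * P y ^ 2) + 2 * (∫ y, V y * (P y * Q y)) + ∫ y, V y * Q y ^ 2 := by
    have i4 : Integrable fun y => V y * P y ^ 2 + 2 * (V y * (P y * Q y)) :=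
      i1.add (i3.const_mul 2)
    rw [← integral_const_mul, ← integral_add i1 (i3.const_mul 2), ← integral_add i4 i2]
    refine integral_congr_ae (Filter.Eventually.of_forall fun y => ?_)
    simp only [hQd, Pi.add_apply]
    ring
  have cs := sq_integral_le (μ := volume) h0 i1 i2 i3
  have b1 : ∫ y, V y * P y ^ 2 ≤ W * ∫ y, P y ^ 2 := by
    rw [← integral_const_mul]
    exact integral_mono i1 (hP.sq.integrable.const_mul W) fun y =>
      mul_le_mul_of_nonneg_right (hW y) (sq_nonneg _)
  have b2 : ∫ y, V y * Q y ^ 2 ≤ W * ∫ y, Q y ^ 2 := by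
    rw [← integral_const_mul]
    exact integral_mono i2 (hQ.sq.integrable.const_mul W) fun y =>
      mul_le_mul_of_nonneg_right (hW y) (sq_nonneg _)
  have n1 : 0 ≤ ∫ y, V y * P y ^ 2 := integral_nonneg fun y => mul_nonneg (h0 y) (sq_nonneg _)
  have n2 : 0 ≤ ∫ y, V y * Q y ^ 2 := integral_nonneg fun y => mul_nonneg (h0 y) (sq_nonneg _)
  have n3 : 0 ≤ ∫ y, P y ^ 2 := integral_nonneg fun y => sq_nonneg _
  have n4 : 0 ≤ ∫ y, Q y ^ 2 := integral_nonneg fun y => sq_nonneg _
  have key : -(∫ y, V y * (P y * Q y)) ≤ W * (√(∫ y, P y ^ 2) * √(∫ y, Q y ^ 2)) := by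
    by_cases hY : Nonempty Y
    · obtain ⟨y0⟩ := hY
      have hW0 : 0 ≤ W := (h0 y0).trans (hW y0)
      have : (∫ y, V y * (P y * Q y)) ^ 2 ≤ (W * (√(∫ y, P y ^ 2) * √(∫ y, Q y ^ 2))) ^ 2 := by
        rw [mul_pow, mul_pow, Real.sq_sqrt n3, Real.sq_sqrt n4]
        calc _ ≤ _ := cs
          _ ≤ (W * ∫ y, P y ^ 2) * (W * ∫ y, Q y ^ 2) :=
            mul_le_mul b1 b2 n2 (mul_nonneg hW0 n3)
          _ = _ := by ring
      exact (neg_le_abs _).trans (abs_le_of_sq_le_sq' this (by positivity) |> abs_le.2)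
    · rw [not_nonempty_iff] at hY
      simp [integral_of_isEmpty]
  change ∑ A, a A ^ 2 * (∫ y, V y * e A y ^ 2) -
      2 * W * (√(∫ y, P y ^ 2) * √(∫ y, Q y ^ 2)) ≤ ∫ y, V y * F y ^ 2
  rw [e1, e2]
  nlinarith

end general

variable {R : Type} [Fintype R] [DecidableEq R] {e : R → Pos3 → ℝ} {N m : ℕ}

theorem ON.tens (h : ON e) : ON (tens e : (Fin N → R) → (Fin N → Pos3) → ℝ) := by
  refine ⟨fun α => ⟨?_, ?_, ?_⟩, fun α => ?_, fun α β hαβ y => ?_⟩
  · exact Finset.measurable_prod _ fun i _ => (h.nice (α i)).meas.comp (measurable_pi_apply i)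
  · choose C hC using fun A => (h.nice A).bdd
    refine ⟨∏ i, C (α i), fun y => ?_⟩
    unfold Crest.Agent.R338.tens
    rw [Finset.abs_prod]
    exact Finset.prod_le_prod (fun i _ => abs_nonneg _) fun i _ => hC _ _
  · refine (Bornology.IsBounded.pi fun i => (h.nice (α i)).supp).subset fun y hy i _ => ?_
    exact Finset.prod_ne_zero_iff.1 hy i (Finset.mem_univ i)
  · unfold Crest.Agent.R338.tens
    simp_rw [← Finset.prod_pow]
    rw [integral_fintype_prod_volume_eq_prod fun i (x : Pos3) => e (α i) x ^ 2]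
    simp [h.norm]
  · unfold Crest.Agent.R338.tens
    rw [← Finset.prod_mul_distrib]
    obtain ⟨i, hi⟩ := Function.ne_iff.1 hαβ
    exact Finset.prod_eq_zero (Finset.mem_univ i) (h.disj _ _ hi _)

theorem Proj_nice_mul (h : ON e) (i : Fin N) {F : (Fin N → Pos3) → ℝ} (hF : Nice F)
    (A : R) : Nice fun y => e A (y i) * F y := by
  obtain ⟨C, hC⟩ := (h.nice A).bdd
  exact hF.mul_bdd ((h.nice A).meas.comp (measurable_pi_apply i)) fun y => hC (y i)

theorem ON.nice_pcoef (h : ON e) (i : Fin (m + 1)) {F : (Fin (m + 1) → Pos3) → ℝ} (hF : Nice F)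
    (A : R) : Nice (pcoef e i F A) := by
  have := (Proj_nice_mul h i hF A).integral_slice i
  simp only [Fin.insertNth_apply_same] at this
  exact this

theorem Proj_tens_insertNth (i : Fin (m + 1)) (A : R) (β : Fin m → R) (w : Pos3)
    (z : Fin m → Pos3) :
    tens e (i.insertNth A β : Fin (m + 1) → R) (i.insertNth w z) = e A w * tens e β z := by
  unfold tens
  rw [Fin.prod_univ_succAbove _ i]
  simp only [Fin.insertNth_apply_same, Fin.insertNth_apply_succAbove]

theorem ON.coef_insertNth (h : ON e) (i : Fin (m + 1)) {F : (Fin (m + 1) → Pos3) → ℝ} (hF : Nice F)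
    (A : R) (β : Fin m → R) : coef e F (i.insertNth A β) = coef e (pcoef e i F A) β := by
  unfold coef
  rw [(integral_insertNth i ((h.tens.nice (i.insertNth A β)).mul hF).integrable).2]
  refine integral_congr_ae (Filter.Eventually.of_forall fun z => ?_)
  simp only [Proj_tens_insertNth, pcoef]
  rw [← integral_const_mul]
  refine integral_congr_ae (Filter.Eventually.of_forall fun w => ?_)
  simp only
  ring

/-- Bessel's inequality in the other variables for a linear form in the variable `i`. -/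
theorem ON.lin_le (h : ON e) (i : Fin (m + 1)) {F : (Fin (m + 1) → Pos3) → ℝ} (hF : Nice F)
    (l : R → ℝ) : ∑ β : Fin m → R, (∑ A, l A * coef e F (i.insertNth A β)) ^ 2 ≤
      ∫ z, (∑ A, l A * pcoef e i F A z) ^ 2 := by
  have hG : Nice fun z => ∑ A, l A * pcoef e i F A z :=
    Nice.sum _ fun A _ => (h.nice_pcoef i hF A).const_mul _
  refine le_of_eq_of_le ?_ ((h.tens (N := m)).bessel hG)
  refine Finset.sum_congr rfl fun β _ => ?_
  congr 1
  simp_rw [h.coef_insertNth i hF, Finset.mul_sum]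
  rw [integral_finsetSum _ fun A _ =>
    ((h.tens.nice β).mul ((h.nice_pcoef i hF A).const_mul _)).integrable]
  refine Finset.sum_congr rfl fun A _ => ?_
  unfold coef
  rw [← integral_const_mul]
  refine integral_congr_ae (Filter.Eventually.of_forall fun z => ?_)
  simp only
  ring

theorem Proj_nice_ins {f : (Fin m → Pos3) → ℝ} {g : Pos3 → ℝ} (hf : Nice f) (hg : Nice g)
    (i : Fin (m + 1)) : Nice fun y : Fin (m + 1) → Pos3 => f (i.removeNth y) * g (y i) := by
  refine ⟨?_, ?_, ?_⟩
  · refine (hf.meas.comp ?_).mul (hg.meas.comp (measurable_pi_apply i))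
    exact measurable_pi_lambda _ fun j => measurable_pi_apply _
  · obtain ⟨C, hC⟩ := hf.bdd
    obtain ⟨D, hD⟩ := hg.bdd
    refine ⟨C * D, fun y => ?_⟩
    rw [abs_mul]
    exact mul_le_mul (hC _) (hD _) (abs_nonneg _) ((abs_nonneg _).trans (hC (i.removeNth y)))
  · obtain ⟨C, hC⟩ := isBounded_iff_forall_norm_le.1 hf.supp
    obtain ⟨D, hD⟩ := isBounded_iff_forall_norm_le.1 hg.supp
    refine isBounded_iff_forall_norm_le.2 ⟨max (max C D) 0, fun y hy => ?_⟩
    have hy' := mul_ne_zero_iff.1 hy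
    refine (pi_norm_le_iff_of_nonneg (le_max_right _ _)).2 fun j => ?_
    refine le_trans ?_ (le_max_left _ _)
    cases j using Fin.succAboveCases i with
    | x => exact (hD _ hy'.2).trans (le_max_right _ _)
    | p j => exact ((norm_le_pi_norm (i.removeNth y) j).trans (hC _ hy'.1)).trans (le_max_left _ _)

/-- The residual after the projection in the variable `i`. -/
def Proj_res (e : R → Pos3 → ℝ) (i : Fin (m + 1)) (F : (Fin (m + 1) → Pos3) → ℝ)
    (y : Fin (m + 1) → Pos3) : ℝ := F y - ∑ B, pcoef e i F B (i.removeNth y) * e B (y i)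

theorem Proj_nice_res (h : ON e) (i : Fin (m + 1)) {F : (Fin (m + 1) → Pos3) → ℝ} (hF : Nice F) :
    Nice (Proj_res e i F) :=
  hF.sub (Nice.sum _ fun B _ => Proj_nice_ins (h.nice_pcoef i hF B) (h.nice B) i)

theorem Proj_int_res (h : ON e) (i : Fin (m + 1)) {F : (Fin (m + 1) → Pos3) → ℝ} (hF : Nice F) :
    ∫ y, Proj_res e i F y ^ 2 = (∫ y, F y ^ 2) - ∑ A, ∫ z, pcoef e i F A z ^ 2 := by
  obtain ⟨i1, i2⟩ := integral_insertNth i hF.sq.integrable
  rw [(integral_insertNth i (Proj_nice_res h i hF).sq.integrable).2, i2,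
    ← integral_finsetSum _ fun A _ => (h.nice_pcoef i hF A).sq.integrable,
    ← integral_sub i1 (integrable_finsetSum _ fun A _ => (h.nice_pcoef i hF A).sq.integrable)]
  refine integral_congr_ae (Filter.Eventually.of_forall fun z => ?_)
  have := h.defect (hF.slice i z)
  simp only [Proj_res, Fin.removeNth_insertNth, Fin.insertNth_apply_same]
  exact this

theorem Proj_bessel (h : ON e) (i : Fin (m + 1)) {F : (Fin (m + 1) → Pos3) → ℝ} (hF : Nice F) :
    ∑ A, ∫ z, pcoef e i F A z ^ 2 ≤ ∫ y, F y ^ 2 := by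
  have h1 := Proj_int_res h i hF
  have h2 : 0 ≤ ∫ y, Proj_res e i F y ^ 2 := integral_nonneg fun y => sq_nonneg _
  linarith

theorem Proj_swap (h : ON e) (j : Fin (m + 1)) {F : (Fin (m + 2) → Pos3) → ℝ} (hF : Nice F)
    (A B : R) (z : Fin m → Pos3) :
    ∫ w, e A w * pcoef e j.succ F B (Fin.cons w z) = pcoef e j (pcoef e 0 F A) B z := by
  unfold pcoef
  simp only [Fin.insertNth_succ_cons, Fin.insertNth_zero']
  simp_rw [← integral_const_mul]
  obtain ⟨C, hC⟩ := hF.bdd
  have hm : Measurable fun p : Pos3 × Pos3 =>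
      F (Fin.cons p.1 (j.insertNth p.2 z : Fin (m + 1) → Pos3)) := by
    refine hF.meas.comp (Continuous.measurable ?_)
    exact Continuous.finCons (A := fun _ => Pos3) continuous_fst
      (Continuous.finInsertNth (A := fun _ => Pos3) j continuous_snd continuous_const)
  have hi := ((h.nice A).integrable.mul_prod (h.nice B).integrable).mul_bdd
    hm.aestronglyMeasurable (Filter.Eventually.of_forall fun p => hC _)
  rw [integral_integral_swap (f := fun w w' : Pos3 =>
    e A w * (e B w' * F (Fin.cons w (j.insertNth w' z : Fin (m + 1) → Pos3))))]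
  · refine integral_congr_ae (Filter.Eventually.of_forall fun w' => ?_)
    refine integral_congr_ae (Filter.Eventually.of_forall fun w => ?_)
    simp only
    ring
  · refine hi.congr (Filter.Eventually.of_forall fun p => ?_)
    simp only [Function.uncurry]
    ring

theorem Proj_pcoef_res (h : ON e) (j : Fin (m + 1)) {F : (Fin (m + 2) → Pos3) → ℝ} (hF : Nice F)
    (A : R) (z : Fin (m + 1) → Pos3) :
    pcoef e 0 (Proj_res e j.succ F) A z = Proj_res e j (pcoef e 0 F A) z := by
  have hr : ∀ w : Pos3, (j.succ.removeNth (Fin.cons w z : Fin (m + 2) → Pos3) :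
      Fin (m + 1) → Pos3) = Fin.cons w (j.removeNth z) := fun w =>
    Fin.cons_comp_succ_succAbove w z j
  have hs : ∀ B, Nice fun w : Pos3 => pcoef e j.succ F B (Fin.cons w (j.removeNth z)) := by
    intro B
    have := (h.nice_pcoef j.succ hF B).slice 0 (j.removeNth z)
    simpa only [Fin.insertNth_zero'] using this
  have h0 : Nice fun w : Pos3 => F (Fin.cons w z) := by
    simpa only [Fin.insertNth_zero'] using hF.slice 0 z
  have e1 : ∀ w : Pos3, e A w * Proj_res e j.succ F ((0 : Fin (m + 2)).insertNth w z) =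
      e A w * F (Fin.cons w z) -
        ∑ B, (e A w * pcoef e j.succ F B (Fin.cons w (j.removeNth z))) * e B (z j) := by
    intro w
    simp only [Proj_res, Fin.insertNth_zero', hr, Fin.cons_succ, mul_sub, Finset.mul_sum, mul_assoc]
  have i2 : ∀ B, Integrable fun w : Pos3 =>
      (e A w * pcoef e j.succ F B (Fin.cons w (j.removeNth z))) * e B (z j) := fun B =>
    ((h.nice A).mul (hs B)).integrable.mul_const _
  change ∫ w, e A w * Proj_res e j.succ F ((0 : Fin (m + 2)).insertNth w z) = _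
  simp_rw [e1]
  rw [integral_sub ((h.nice A).mul h0).integrable (integrable_finsetSum _ fun B _ => i2 B),
    integral_finsetSum _ fun B _ => i2 B]
  simp_rw [integral_mul_const, Proj_swap h j hF]
  simp only [Proj_res, pcoef, Fin.insertNth_zero']

theorem Proj_sum_coef (h : ON e) {F : (Fin (m + 1) → Pos3) → ℝ} (hF : Nice F) :
    ∑ α, coef e F α ^ 2 = ∑ A, ∑ β, coef e (pcoef e 0 F A) β ^ 2 := by
  rw [← Fintype.sum_prod_type', ← (Fin.insertNthEquiv (fun _ => R) (0 : Fin (m + 1))).sum_comp]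
  refine Finset.sum_congr rfl fun p _ => ?_
  rw [← h.coef_insertNth 0 hF]
  rfl

/-- Recipe.  Let `Π i F y = ∑ A, e A (y i) * ∫ w, e A w * F (update y i w)`.  These operators preserve
`Nice`, commute (Fubini), `∫ (F - Π i F)²` is the `i`-th summand on the right, `Π i` does not
increase `∫ ·²`, and the product of all `Π i` is the projection on the product family.  For a list
`L` of indices, `∫ (F - Π_L F)² ≤ ∑ i ∈ L, ∫ (F - Π i F)²` by induction, since
`F - Π i Π_L F = (F - Π i F) + Π i (F - Π_L F)` is an orthogonal sum.  (Alternatively: induction on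
the number of variables with `coef_insertNth` at `0`.) -/
theorem ON.defect_le (h : ON e) {F : (Fin (m + 1) → Pos3) → ℝ} (hF : Nice F) :
    (∫ y, F y ^ 2) - ∑ α, coef e F α ^ 2 ≤
      ∑ i : Fin (m + 1), ((∫ y, F y ^ 2) - ∑ A, ∫ z, pcoef e i F A z ^ 2) := by
  induction m with
  | zero =>
    rw [Proj_sum_coef h hF, Fin.sum_univ_succ, Fin.sum_univ_zero, add_zero]
    refine le_of_eq ?_
    congr 1
    refine Finset.sum_congr rfl fun A _ => ?_
    have hv : (volume : Measure (Fin 0 → Pos3)).real univ = 1 := by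
      simp [Measure.real, volume_pi, Measure.pi_univ]
    rw [Fintype.sum_unique]
    unfold coef
    rw [integral_unique, integral_unique, hv]
    simp [Crest.Agent.R338.tens]
  | succ m ih =>
    rw [Proj_sum_coef h hF, Fin.sum_univ_succ]
    have h1 : ∑ A, ((∫ z, pcoef e 0 F A z ^ 2) - ∑ β, coef e (pcoef e 0 F A) β ^ 2) ≤
        ∑ j : Fin (m + 1), ((∫ y, F y ^ 2) - ∑ B, ∫ z, pcoef e j.succ F B z ^ 2) := by
      refine (Finset.sum_le_sum fun A _ => ih (h.nice_pcoef 0 hF A)).trans ?_
      rw [Finset.sum_comm]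
      refine Finset.sum_le_sum fun j _ => ?_
      rw [← Proj_int_res h j.succ hF]
      refine le_of_eq_of_le ?_ (Proj_bessel h 0 (Proj_nice_res h j.succ hF))
      refine Finset.sum_congr rfl fun A _ => ?_
      rw [← Proj_int_res h j (h.nice_pcoef 0 hF A)]
      simp_rw [Proj_pcoef_res h j hF]
    rw [Finset.sum_sub_distrib] at h1
    linarith

end Crest.Agent.R338
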