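/-
R338/MBNo: the many-body lower bound
Skeleton by helper15 (row 338); keep the statements unchanged, add any helper lemmas you like.
-/
import Crest.Agent.R338.Proj
import Crest.Agent.R338.DenseB
import Crest.Agent.R338.Pauli

set_option autoImplicit false
set_option linter.unusedSectionVars false
set_option linter.unusedVariables false
set_option linter.unusedSimpArgs false

noncomputable section

namespace Crest.Agent.R338

open MeasureTheory Set Crest.MathPhysics.ElectronicCoulomb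
open scoped RealInnerProductSpace

variable {n N : ℕ} {φ : Room n → Pos3 → ℝ} {Ω : Room n → Set Pos3} {Φ : Pos3 → ℝ}

theorem Orbs.on (h : Orbs φ Ω) : ON (orb φ Ω) := by
  refine ⟨fun A => (h.test A).nice.indicator (h.meas A), h.norm, fun A B hAB y => ?_⟩
  unfold orb
  by_cases hy : y ∈ Ω A
  · rw [indicator_of_notMem (Set.disjoint_left.1 (h.disj A B hAB) hy), mul_zero]
  · rw [indicator_of_notMem hy, zero_mul]

/-- The lattice coefficients of a wave function. -/
def lcoef (e : Room n → Pos3 → ℝ) (Ψ : Spin N → Config N → ℝ) (x : Fin N → Mode n) : ℝ :=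
  coef e (fun y => Ψ (fun i => (x i).1) (ofP y)) fun i => (x i).2

theorem sum_mode (G : (Fin N → Fin 2) → (Fin N → Room n) → ℝ) :
    ∑ x : Fin N → Mode n, G (fun i => (x i).1) (fun i => (x i).2) = ∑ s, ∑ α, G s α := by
  rw [← Fintype.sum_prod_type']
  exact Fintype.sum_equiv (Equiv.arrowProdEquivProdArrow (Fin N) (fun _ => Fin 2) fun _ => Room n)
    _ _ fun x => rfl

theorem anti_lcoef (e : Room n → Pos3 → ℝ) {Ψ : Spin N → Config N → ℝ} (h : AntiW Ψ) :
    Anti (lcoef e Ψ) := by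
  intro σ x
  unfold lcoef coef
  rw [← integral_comp_perm σ, ← integral_const_mul]
  refine integral_congr_ae (Filter.Eventually.of_forall fun y => ?_)
  have h1 : tens e (fun i => ((x ∘ σ) i).2) (y ∘ σ) = tens e (fun i => (x i).2) y :=
    Equiv.prod_comp σ fun i => e (x i).2 (y i)
  have h2 : Ψ (fun i => ((x ∘ σ) i).1) (ofP (y ∘ σ)) =
      ((Equiv.Perm.sign σ : ℤ) : ℝ) * Ψ (fun i => (x i).1) (ofP y) :=
    h σ (fun i => (x i).1) (ofP y)
  simp only [h1, h2]
  ring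

theorem MBNo_lin (A : Room n) : ∃ l : Room n → ℝ, ∀ a : Room n → ℝ,
    ∑ B, l B * a B = a A - (∑ r, a (A.1, r)) / 3 := by
  refine ⟨fun B => (if B = A then 1 else 0) - ∑ r : Fin 3, if B = (A.1, r) then 1 / 3 else 0,
    fun a => ?_⟩
  simp only [sub_mul, Finset.sum_sub_distrib, Finset.sum_mul, ite_mul, one_mul, zero_mul,
    Finset.sum_ite_eq', Finset.mem_univ, if_true]
  rw [Finset.sum_comm, Finset.sum_div]
  congr 1
  refine Finset.sum_congr rfl fun r _ => ?_
  simp only [Finset.sum_ite_eq', Finset.mem_univ, if_true]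
  ring

theorem MBNo_sum_ins {R : Type} [Fintype R] {m : ℕ} (i : Fin (m + 1)) (g : (Fin (m + 1) → R) → ℝ) :
    ∑ α, g α = ∑ A, ∑ β : Fin m → R, g (i.insertNth A β) := by
  rw [← Fintype.sum_prod_type']
  exact (Fintype.sum_equiv (Fin.insertNthEquiv (fun _ => R) i) _ _ fun x => rfl).symm

/-- The one-body bound for one slice direction. -/
theorem MBNo_dir (h : Orbs φ Ω) (hΦ : Pot Φ) {C t Γ : ℝ} (hL : LB φ Ω Φ C t Γ) (ht : 0 ≤ t)
    {m : ℕ} {F : Config (m + 1) → ℝ} (hF : Test F) (i : Fin (m + 1)) :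
    C * (∫ y, F (ofP y) ^ 2) +
      t * (∑ α : Fin (m + 1) → Room n, (coef (orb φ Ω) (fun y => F (ofP y)) α -
        (∑ r, coef (orb φ Ω) (fun y => F (ofP y)) (Function.update α i ((α i).1, r))) / 3) ^ 2) +
      Γ * ((∫ y, F (ofP y) ^ 2) - ∑ A, ∫ z, pcoef (orb φ Ω) i (fun y => F (ofP y)) A z ^ 2) ≤
      ∫ z : Fin m → Pos3, E1 Φ fun w => F (ofP (i.insertNth w z)) := by
  have hG : Nice fun y => F (ofP y) := hF.nice.comp_ofP
  set G : (Fin (m + 1) → Pos3) → ℝ := fun y => F (ofP y) with hGdef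
  have hon := h.on
  obtain ⟨hi1, hi2⟩ := integral_insertNth i hG.sq.integrable
  have hp : ∀ A, Nice (pcoef (orb φ Ω) i G A) := fun A => hon.nice_pcoef i hG A
  have hq : ∀ A : Room n, Nice fun z =>
      (pcoef (orb φ Ω) i G A z - (∑ r, pcoef (orb φ Ω) i G (A.1, r) z) / 3) ^ 2 := by
    intro A
    have := ((hp A).sub ((Nice.sum Finset.univ fun r _ => hp (A.1, r)).const_mul 3⁻¹)).sq
    simpa only [div_eq_inv_mul] using this
  have hd : Integrable fun z => dev fun A => pcoef (orb φ Ω) i G A z :=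
    integrable_finsetSum _ fun A _ => (hq A).integrable
  have hs : Integrable fun z => ∑ A, pcoef (orb φ Ω) i G A z ^ 2 :=
    integrable_finsetSum _ fun A _ => (hp A).sq.integrable
  have key : ∫ z : Fin m → Pos3, (C * (∫ w, G (i.insertNth w z) ^ 2) +
      t * dev (fun A => pcoef (orb φ Ω) i G A z) +
      Γ * ((∫ w, G (i.insertNth w z) ^ 2) - ∑ A, pcoef (orb φ Ω) i G A z ^ 2)) ≤
      ∫ z : Fin m → Pos3, E1 Φ fun w => F (ofP (i.insertNth w z)) :=
    integral_mono (((hi1.const_mul C).add (hd.const_mul t)).add ((hi1.sub hs).const_mul Γ))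
      ((energy_slices hΦ hF).1 i) fun z => hL _ (hF.slice i z)
  have hj1 : Integrable fun z : Fin m → Pos3 => C * (∫ w, G (i.insertNth w z) ^ 2) +
      t * dev (fun A => pcoef (orb φ Ω) i G A z) := (hi1.const_mul C).add (hd.const_mul t)
  have hj2 : Integrable fun z : Fin m → Pos3 =>
      Γ * ((∫ w, G (i.insertNth w z) ^ 2) - ∑ A, pcoef (orb φ Ω) i G A z ^ 2) :=
    (hi1.sub hs).const_mul Γ
  rw [integral_add hj1 hj2,
    integral_add (hi1.const_mul C) (hd.const_mul t), integral_const_mul, integral_const_mul,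
    integral_const_mul, integral_sub hi1 hs, ← hi2,
    integral_finsetSum _ fun A _ => (hp A).sq.integrable] at key
  refine le_trans ?_ key
  have hdev : (∑ α : Fin (m + 1) → Room n, (coef (orb φ Ω) G α -
      (∑ r, coef (orb φ Ω) G (Function.update α i ((α i).1, r))) / 3) ^ 2) ≤
      ∫ z, dev fun A => pcoef (orb φ Ω) i G A z := by
    unfold dev
    rw [integral_finsetSum _ fun A _ => (hq A).integrable, MBNo_sum_ins i]
    refine Finset.sum_le_sum fun A _ => ?_
    obtain ⟨l, hl⟩ := MBNo_lin A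
    have := hon.lin_le i hG l
    simp only [hl fun B => coef (orb φ Ω) G (i.insertNth B _),
      hl fun B => pcoef (orb φ Ω) i G B _] at this
    simpa only [Fin.update_insertNth, Fin.insertNth_apply_same] using this
  have := mul_le_mul_of_nonneg_left hdev ht
  linarith

theorem MBNo_nsq (e : Room n → Pos3 → ℝ) (Ψ : Spin N → Config N → ℝ) :
    nsq (lcoef e Ψ) = ∑ s, ∑ α, coef e (fun y => Ψ s (ofP y)) α ^ 2 := by
  rw [nsq_eq, ← sum_mode fun s α => coef e (fun y => Ψ s (ofP y)) α ^ 2]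
  rfl

theorem MBNo_latT (e : Room n → Pos3 → ℝ) (Ψ : Spin N → Config N → ℝ) :
    latT (lcoef e Ψ) = ∑ s, ∑ i, ∑ α : Fin N → Room n, (coef e (fun y => Ψ s (ofP y)) α -
      (∑ r, coef e (fun y => Ψ s (ofP y)) (Function.update α i ((α i).1, r))) / 3) ^ 2 := by
  unfold latT
  rw [Finset.sum_comm (s := Finset.univ) (t := (Finset.univ : Finset (Fin N)))]
  refine Finset.sum_congr rfl fun i _ => ?_
  rw [← sum_mode fun s α => (coef e (fun y => Ψ s (ofP y)) α -
      (∑ r, coef e (fun y => Ψ s (ofP y)) (Function.update α i ((α i).1, r))) / 3) ^ 2]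
  refine Finset.sum_congr rfl fun x _ => ?_
  have h1 : ∀ r : Fin 3, (fun j => (Function.update x i ((x i).1, (x i).2.1, r) j).1) =
      fun j => (x j).1 := by
    intro r
    funext j
    by_cases hj : j = i
    · subst hj; simp
    · simp [Function.update_of_ne hj]
  have h2 : ∀ r : Fin 3, (fun j => (Function.update x i ((x i).1, (x i).2.1, r) j).2) =
      Function.update (fun j => (x j).2) i ((x i).2.1, r) := by
    intro r
    funext j
    by_cases hj : j = i
    · subst hj; simp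
    · simp [Function.update_of_ne hj]
  simp only [avgR, lcoef, h1, h2]

theorem MBNo_latV (V : Room n → Room n → ℝ) (e : Room n → Pos3 → ℝ) (Ψ : Spin N → Config N → ℝ) :
    latV V (lcoef e Ψ) = ∑ s, ∑ α : Fin N → Room n,
      (∑ i, ∑ j, if i < j then V (α i) (α j) else 0) * coef e (fun y => Ψ s (ofP y)) α ^ 2 := by
  rw [← sum_mode fun s α =>
    (∑ i, ∑ j, if i < j then V (α i) (α j) else 0) * coef e (fun y => Ψ s (ofP y)) α ^ 2]
  rfl

/-- `energy_slices`, `LB` for every slice, `ON.lin_le` for the linear forms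
`a ↦ a A - mean`, `ON.defect_le`. -/
theorem one_body_ge (h : Orbs φ Ω) (hΦ : Pot Φ) {C t Γ : ℝ} (hL : LB φ Ω Φ C t Γ) (ht : 0 ≤ t)
    (hΓ : 0 ≤ Γ) (hN : 1 ≤ N) {Ψ : Spin N → Config N → ℝ} (hΨ : ∀ s, Test (Ψ s)) :
    N * C * (∑ s, ∫ x, Ψ s x ^ 2) + t * latT (lcoef (orb φ Ω) Ψ) +
      Γ * ((∑ s, ∫ x, Ψ s x ^ 2) - nsq (lcoef (orb φ Ω) Ψ)) ≤
      ∑ s, (1 / 2 * (∫ x, gsq (Ψ s) x) - ∫ x, (∑ i, Φ (elPos i x)) * Ψ s x ^ 2) := by
  obtain ⟨m, rfl⟩ : ∃ m, N = m + 1 := ⟨N - 1, by omega⟩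
  rw [MBNo_nsq, MBNo_latT, ← Finset.sum_sub_distrib, Finset.mul_sum, Finset.mul_sum,
    Finset.mul_sum, ← Finset.sum_add_distrib, ← Finset.sum_add_distrib]
  refine Finset.sum_le_sum fun s _ => ?_
  rw [(energy_slices hΦ (hΨ s)).2, integral_ofP fun x => Ψ s x ^ 2]
  have h1 := Finset.sum_le_sum fun i (_ : i ∈ Finset.univ) => MBNo_dir h hΦ hL ht (hΨ s) i
  have h2 := mul_le_mul_of_nonneg_left (h.on.defect_le (hΨ s).nice.comp_ofP) hΓ
  rw [Finset.sum_add_distrib, Finset.sum_add_distrib, ← Finset.mul_sum, ← Finset.mul_sum,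
    ← Finset.mul_sum, Finset.sum_const, Finset.card_univ, Fintype.card_fin, nsmul_eq_mul] at h1
  linarith

theorem MBNo_pairs_le (N : ℕ) {g : Fin N → Fin N → ℝ} {c : ℝ} (hc : 0 ≤ c) (hg : ∀ i j, g i j ≤ c) :
    (∑ i, ∑ j, if i < j then g i j else 0) ≤ N ^ 2 * c := by
  calc (∑ i, ∑ j, if i < j then g i j else 0) ≤ ∑ i : Fin N, ∑ j : Fin N, c :=
        Finset.sum_le_sum fun i _ => Finset.sum_le_sum fun j _ => by
          split_ifs
          · exact hg i j
          · exact hc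
    _ = N ^ 2 * c := by
        simp only [Finset.sum_const, Finset.card_univ, Fintype.card_fin, nsmul_eq_mul]; ring

theorem MBNo_meas_pair (Λ : ℝ) : Measurable fun y : Fin N → Pos3 =>
    ∑ i, ∑ j, if i < j then min (Kn (y i - y j)) Λ else 0 := by
  refine Finset.measurable_sum _ fun i _ => Finset.measurable_sum _ fun j _ => ?_
  split_ifs
  · exact (measurable_Kn.comp ((measurable_pi_apply i).sub (measurable_pi_apply j))).min
      measurable_const
  · exact measurable_const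

theorem MBNo_pair_nonneg {Λ : ℝ} (hΛ : 0 ≤ Λ) (y : Fin N → Pos3) :
    0 ≤ ∑ i, ∑ j, if i < j then min (Kn (y i - y j)) Λ else 0 := by
  refine Finset.sum_nonneg fun i _ => Finset.sum_nonneg fun j _ => ?_
  split_ifs
  · exact le_min (Kn_nonneg _) hΛ
  · exact le_rfl

/-- The diagonal matrix elements of the truncated repulsion. -/
theorem MBNo_diag (h : Orbs φ Ω) {Λ ε : ℝ} {V : Room n → Room n → ℝ} (hV : VL φ Ω Λ V ε)
    (hΛ : 0 ≤ Λ) (hε : 0 ≤ ε) (α : Fin N → Room n) :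
    (∑ i, ∑ j, if i < j then V (α i) (α j) else 0) - N ^ 2 * ε ≤
      ∫ y : Fin N → Pos3, (∑ i, ∑ j, if i < j then min (Kn (y i - y j)) Λ else 0) *
        tens (orb φ Ω) α y ^ 2 := by
  have hon := h.on
  have hf : ∀ l, Nice fun w => orb φ Ω (α l) w ^ 2 := fun l => (hon.nice _).sq
  have hp : ∀ i j : Fin N, i < j →
      (Integrable fun y : Fin N → Pos3 => min (Kn (y i - y j)) Λ * tens (orb φ Ω) α y ^ 2) ∧
      V (α i) (α j) - ε ≤ ∫ y : Fin N → Pos3, min (Kn (y i - y j)) Λ * tens (orb φ Ω) α y ^ 2 := by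
    intro i j hij
    have hint : Integrable fun p : Pos3 × Pos3 =>
        min (Kn (p.1 - p.2)) Λ * (orb φ Ω (α i) p.1 ^ 2 * orb φ Ω (α j) p.2 ^ 2) := by
      refine ((hf i).integrable.mul_prod (hf j).integrable).bdd_mul (c := Λ)
        ((measurable_Kn.comp (measurable_fst.sub measurable_snd)).min
          measurable_const).aestronglyMeasurable (Filter.Eventually.of_forall fun p => ?_)
      rw [Real.norm_eq_abs, abs_of_nonneg (le_min (Kn_nonneg _) hΛ)]
      exact min_le_right _ _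
    obtain ⟨h1, h2⟩ := integral_pair (f := fun l w => orb φ Ω (α l) w ^ 2)
      (V := fun x x' => min (Kn (x - x')) Λ) hf hij.ne hint
    simp only [hon.norm, Finset.prod_const_one, mul_one] at h2
    simp only [tens, ← Finset.prod_pow]
    exact ⟨h1, h2 ▸ hV (α i) (α j)⟩
  have hI : ∀ i j : Fin N, Integrable fun y : Fin N → Pos3 =>
      (if i < j then min (Kn (y i - y j)) Λ else 0) * tens (orb φ Ω) α y ^ 2 := by
    intro i j
    split_ifs with hij
    · exact (hp i j hij).1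
    · simp
  simp only [Finset.sum_mul]
  rw [integral_finsetSum _ fun i _ => integrable_finsetSum _ fun j _ => hI i j]
  have h3 := MBNo_pairs_le N (g := fun _ _ => ε) hε fun _ _ => le_rfl
  refine le_trans (sub_le_sub_left h3 _) ?_
  rw [← Finset.sum_sub_distrib]
  refine Finset.sum_le_sum fun i _ => ?_
  rw [integral_finsetSum _ fun j _ => hI i j, ← Finset.sum_sub_distrib]
  refine Finset.sum_le_sum fun j _ => ?_
  split_ifs with hij
  · exact (hp i j hij).2
  · simp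

/-- `ON.form_ge` for the product family, `integral_pair`, `VL`, Cauchy-Schwarz over the spins. -/
theorem two_body_ge (h : Orbs φ Ω) {Λ ε : ℝ} {V : Room n → Room n → ℝ} (hV : VL φ Ω Λ V ε)
    (hΛ : 0 ≤ Λ) (hε : 0 ≤ ε) {Ψ : Spin N → Config N → ℝ} (hΨ : ∀ s, Test (Ψ s)) :
    latV V (lcoef (orb φ Ω) Ψ) - N ^ 2 * ε * nsq (lcoef (orb φ Ω) Ψ) -
      2 * (N ^ 2 * Λ) * (√(nsq (lcoef (orb φ Ω) Ψ)) *
        √((∑ s, ∫ x, Ψ s x ^ 2) - nsq (lcoef (orb φ Ω) Ψ))) ≤
      ∑ s, ∫ x, (∑ i, ∑ j, if i < j then min (Kn (elPos i x - elPos j x)) Λ else 0) * Ψ s x ^ 2 := by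
  have hon : ON (tens (orb φ Ω) : (Fin N → Room n) → (Fin N → Pos3) → ℝ) := h.on.tens
  have hG : ∀ s, Nice fun y => Ψ s (ofP y) := fun s => (hΨ s).nice.comp_ofP
  have hbes : ∀ s, 0 ≤ (∫ x, Ψ s x ^ 2) - ∑ α, coef (orb φ Ω) (fun y => Ψ s (ofP y)) α ^ 2 := by
    intro s
    rw [integral_ofP fun x => Ψ s x ^ 2]
    exact sub_nonneg.2 (hon.bessel (hG s))
  have hcs := Real.sum_sqrt_mul_sqrt_le Finset.univ
    (f := fun s => ∑ α, coef (orb φ Ω) (fun y => Ψ s (ofP y)) α ^ 2)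
    (fun s => Finset.sum_nonneg fun _ _ => sq_nonneg _) hbes
  have hW : (0 : ℝ) ≤ 2 * (N ^ 2 * Λ) := by positivity
  rw [MBNo_nsq, MBNo_latV, ← Finset.sum_sub_distrib]
  refine le_trans (sub_le_sub_left (mul_le_mul_of_nonneg_left hcs hW) _) ?_
  rw [Finset.mul_sum, Finset.mul_sum, ← Finset.sum_sub_distrib, ← Finset.sum_sub_distrib]
  refine Finset.sum_le_sum fun s _ => ?_
  have h1 := hon.form_ge (hG s) (MBNo_meas_pair Λ) (MBNo_pair_nonneg hΛ)
    fun y => MBNo_pairs_le N hΛ fun i j => min_le_right _ _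
  rw [integral_ofP fun x => Ψ s x ^ 2, integral_ofP fun x =>
    (∑ i, ∑ j, if i < j then min (Kn (elPos i x - elPos j x)) Λ else 0) * Ψ s x ^ 2]
  refine le_trans (sub_le_sub_right ?_ _) h1
  rw [Finset.mul_sum, ← Finset.sum_sub_distrib]
  refine Finset.sum_le_sum fun α _ => ?_
  have := mul_le_mul_of_nonneg_left (MBNo_diag h hV hΛ hε α)
    (sq_nonneg (coef (orb φ Ω) (fun y => Ψ s (ofP y)) α))
  refine le_trans (le_of_eq ?_) this
  ring

theorem MBNo_arith {p d W Γ b e : ℝ} (hp : 0 ≤ p) (hd : 0 ≤ d) (hΓ : 0 < Γ) (hb : 2 * b ≤ Γ)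
    (he : 0 ≤ e) :
    (b - e - 2 * W ^ 2 / Γ) * (p + d) ≤ Γ * d + b * p - e * p - 2 * W * (√p * √d) := by
  have h1 : 2 * W * (√p * √d) ≤ Γ / 2 * d + 2 * W ^ 2 / Γ * p := by
    have h2 : Γ / 2 * d + 2 * W ^ 2 / Γ * p - 2 * W * (√p * √d) =
        Γ / 2 * (√d - 2 * W / Γ * √p) ^ 2 := by
      have e1 := Real.sq_sqrt hp
      have e2 := Real.sq_sqrt hd
      rw [sub_sq, mul_pow, e1, e2]
      field_simp
      ring
    have h3 : 0 ≤ Γ / 2 * (√d - 2 * W / Γ * √p) ^ 2 := by positivity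
    linarith
  have h4 : 0 ≤ 2 * W ^ 2 / Γ * d := by positivity
  have h5 : 0 ≤ e * d := mul_nonneg he hd
  have h6 : b * d ≤ Γ / 2 * d := mul_le_mul_of_nonneg_right (by linarith) hd
  nlinarith

theorem mb_no (h : Orbs φ Ω) (hΦ : Pot Φ) {C t Γ Λ ε b : ℝ} {V : Room n → Room n → ℝ}
    (hL : LB φ Ω Φ C t Γ) (hV : VL φ Ω Λ V ε) (ht : 0 ≤ t) (hΓ : 0 < Γ) (hΛ : 0 ≤ Λ) (hε : 0 ≤ ε)
    (hN : 1 ≤ N) (hb : 2 * b ≤ Γ)
    (hlat : ∀ c : (Fin N → Mode n) → ℝ, Anti c → b * nsq c ≤ t * latT c + latV V c) :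
    InfEnergyGE (Wpot Φ : Config N → ℝ) (N * C + b - N ^ 2 * ε - 2 * (N ^ 2 * Λ) ^ 2 / Γ) := by
  have hel : Measurable fun (x : Config N) (i : Fin N) => elPos i x := by
    refine measurable_pi_lambda _ fun i => Continuous.measurable ?_
    unfold elPos
    fun_prop
  refine infGE_of_test (A := fun x => ∑ i, Φ (elPos i x))
    (B := fun x => ∑ i, ∑ j, if i < j then min (Kn (elPos i x - elPos j x)) Λ else 0)
    (C := N ^ 2 * Λ) ?_ ?_ ?_ ((MBNo_meas_pair Λ).comp hel) ?_ ?_ ?_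
  · exact Finset.measurable_sum _ fun i _ => hΦ.meas.comp ((measurable_pi_apply i).comp hel)
  · exact fun x => Finset.sum_nonneg fun i _ => hΦ.nonneg _
  · intro f hf
    rw [← integrable_ofP]
    simp only [Finset.sum_mul, elPos_ofP]
    exact integrable_finsetSum _ fun i _ =>
      integrable_one_body hΦ.loc hΦ.meas hf.nice.comp_ofP.sq i
  · intro x
    rw [abs_of_nonneg (MBNo_pair_nonneg hΛ fun i => elPos i x)]
    exact MBNo_pairs_le N hΛ fun i j => min_le_right _ _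
  · intro x
    have : (∑ i, ∑ j, if i < j then min (Kn (elPos i x - elPos j x)) Λ else 0) ≤
        ∑ i, ∑ j, if i < j then Kn (elPos i x - elPos j x) else 0 := by
      refine Finset.sum_le_sum fun i _ => Finset.sum_le_sum fun j _ => ?_
      split_ifs
      · exact min_le_left _ _
      · exact le_rfl
    unfold Wpot
    linarith
  · intro Ψ hΨ hA
    have h1 := one_body_ge h hΦ hL ht hΓ.le hN hΨ
    have h2 := two_body_ge h hV hΛ hε hΨ
    have h3 := hlat _ (anti_lcoef (orb φ Ω) hA)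
    have hd : 0 ≤ (∑ s, ∫ x, Ψ s x ^ 2) - nsq (lcoef (orb φ Ω) Ψ) := by
      rw [MBNo_nsq, ← Finset.sum_sub_distrib]
      refine Finset.sum_nonneg fun s _ => ?_
      rw [integral_ofP fun x => Ψ s x ^ 2]
      exact sub_nonneg.2 (h.on.tens.bessel (hΨ s).nice.comp_ofP)
    have h4 := MBNo_arith (W := N ^ 2 * Λ) (nsq_nonneg (lcoef (orb φ Ω) Ψ)) hd hΓ hb
      (e := N ^ 2 * ε) (by positivity)
    rw [Finset.sum_add_distrib]
    rw [add_sub_cancel] at h4
    nlinarith

end Crest.Agent.R338
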