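/-
R338/MBYesA: pointwise and integral bounds for product trial states
Skeleton by helper15 (row 338); keep the statements unchanged, add any helper lemmas you like.
-/
import Crest.Agent.R338.MBNo

set_option autoImplicit false
set_option linter.unusedSectionVars false
set_option linter.unusedVariables false
set_option linter.unusedSimpArgs false

noncomputable section

namespace Crest.Agent.R338

open MeasureTheory Set Crest.MathPhysics.ElectronicCoulomb
open scoped RealInnerProductSpace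

variable {n N : ℕ} {φ : Room n → Pos3 → ℝ} {Ω : Room n → Set Pos3}

theorem Orbs.nice_rem (h : Orbs φ Ω) : Nice (rem φ Ω) := by
  exact Nice.indicator (Nice.sum _ fun A _ => (h.test A).nice.sq)
    (MeasurableSet.iUnion h.meas).compl

theorem rem_nonneg (φ : Room n → Pos3 → ℝ) (Ω : Room n → Set Pos3) (x : Pos3) : 0 ≤ rem φ Ω x := by
  exact Set.indicator_nonneg (fun x _ => Finset.sum_nonneg fun A _ => sq_nonneg _) x

theorem MBYesA_theta (h : Orbs φ Ω) (x : Pos3) : ∃ θ : Room n → ℝ, (∀ A, 0 ≤ θ A) ∧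
    ∑ A, θ A ≤ 1 ∧ ∀ A, φ A x ^ 2 ≤ θ A * (orb φ Ω A x ^ 2 + rem φ Ω x) := by
  classical
  by_cases hx : x ∈ ⋃ A, Ω A
  · obtain ⟨B, hB⟩ := Set.mem_iUnion.1 hx
    refine ⟨fun A => if A = B then 1 else 0, fun A => by positivity, by simp,
      fun A => ?_⟩
    by_cases hA : A = B
    · subst hA
      simp only [if_true, one_mul, orb, Set.indicator_of_mem hB]
      linarith [rem_nonneg φ Ω x]
    · simp [hA, h.zero A B hA x hB]
  · have hr : rem φ Ω x = ∑ A, φ A x ^ 2 := Set.indicator_of_mem (s := (⋃ A, Ω A)ᶜ) hx _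
    have h0 := rem_nonneg φ Ω x
    refine ⟨fun A => φ A x ^ 2 / rem φ Ω x, fun A => div_nonneg (sq_nonneg _) h0, ?_, fun A => ?_⟩
    · rw [← Finset.sum_div, ← hr]; exact div_self_le_one _
    · have hle : φ A x ^ 2 ≤ rem φ Ω x := by
        rw [hr]
        exact Finset.single_le_sum (f := fun A => φ A x ^ 2) (fun A _ => sq_nonneg _)
          (Finset.mem_univ A)
      rcases h0.eq_or_lt with h1 | h1
      · rw [← h1] at hle ⊢
        simpa using hle
      · rw [mul_add, div_mul_cancel₀ _ h1.ne']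
        have : 0 ≤ φ A x ^ 2 / rem φ Ω x * orb φ Ω A x ^ 2 := by positivity
        linarith

theorem MBYesA_nice_den (h : Orbs φ Ω) (A : Room n) :
    Nice fun x => orb φ Ω A x ^ 2 + rem φ Ω x :=
  (h.on.nice A).sq.add h.nice_rem

theorem MBYesA_den_nonneg (φ : Room n → Pos3 → ℝ) (Ω : Room n → Set Pos3) (A : Room n) (x : Pos3) :
    0 ≤ orb φ Ω A x ^ 2 + rem φ Ω x :=
  add_nonneg (sq_nonneg _) (rem_nonneg φ Ω x)

theorem MBYesA_int_den (h : Orbs φ Ω) {εr : ℝ} (hr : ∫ x, rem φ Ω x ≤ εr) (A : Room n) :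
    ∫ x, (orb φ Ω A x ^ 2 + rem φ Ω x) ≤ 1 + εr := by
  rw [integral_add (h.on.nice A).sq.integrable h.nice_rem.integrable, h.norm A]
  linarith

/-- Recipe: for each `i` choose weights `θ i A ≥ 0`: if `y i ∈ Ω B` then `θ i` is the indicator of
`B`, otherwise `θ i A = φ A (y i)² / rem (y i)` (or `0`).  Then `∑ A, θ i A ≤ 1` and
`φ A (y i)² ≤ θ i A * (orb A (y i)² + rem (y i))`; Cauchy-Schwarz and `Finset.prod_univ_sum`. -/
theorem trial_sq_le (h : Orbs φ Ω) (a : (Fin N → Room n) → ℝ) (y : Fin N → Pos3) :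
    (∑ α, a α * tens φ α y) ^ 2 ≤
      ∑ α, a α ^ 2 * ∏ i, (orb φ Ω (α i) (y i) ^ 2 + rem φ Ω (y i)) := by
  classical
  choose θ h0 h1 h2 using MBYesA_theta h
  have hP : ∀ α : Fin N → Room n,
      0 ≤ a α ^ 2 * ∏ i, (orb φ Ω (α i) (y i) ^ 2 + rem φ Ω (y i)) := fun α =>
    mul_nonneg (sq_nonneg _) (Finset.prod_nonneg fun i _ => MBYesA_den_nonneg φ Ω _ _)
  have key := Finset.sum_sq_le_sum_mul_sum_of_sq_le_mul (Finset.univ : Finset (Fin N → Room n))
    (r := fun α => a α * tens φ α y) (f := fun α => ∏ i, θ (y i) (α i))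
    (g := fun α => a α ^ 2 * ∏ i, (orb φ Ω (α i) (y i) ^ 2 + rem φ Ω (y i)))
    (fun α _ => Finset.prod_nonneg fun i _ => h0 _ _) (fun α _ => hP α) (fun α _ => by
      rw [mul_pow, mul_left_comm, ← Finset.prod_mul_distrib, tens, ← Finset.prod_pow]
      exact mul_le_mul_of_nonneg_left
        (Finset.prod_le_prod (fun i _ => sq_nonneg _) fun i _ => h2 _ _) (sq_nonneg _))
  refine key.trans ?_
  rw [← Fintype.prod_sum fun i A => θ (y i) A]
  exact mul_le_of_le_one_left (Finset.sum_nonneg fun α _ => hP α)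
    (Finset.prod_le_one (fun i _ => Finset.sum_nonneg fun A _ => h0 _ _) fun i _ => h1 _)

/-- Restrict to the configurations with all positions in the rooms. -/
theorem trial_sq_ge (h : Orbs φ Ω) (a : (Fin N → Room n) → ℝ) (y : Fin N → Pos3) :
    (∀ i, y i ∈ ⋃ A, Ω A) →
      (∑ α, a α * tens φ α y) ^ 2 = ∑ α, a α ^ 2 * tens (orb φ Ω) α y ^ 2 := by
  intro hy
  classical
  choose B hB using fun i => Set.mem_iUnion.1 (hy i)
  have hz : ∀ α : Fin N → Room n, α ≠ B → ∃ i, φ (α i) (y i) = 0 := fun α hα => by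
    obtain ⟨i, hi⟩ := Function.ne_iff.1 hα
    exact ⟨i, h.zero _ _ hi _ (hB i)⟩
  rw [Finset.sum_eq_single B, Finset.sum_eq_single B]
  · rw [mul_pow]
    congr 2
    exact Finset.prod_congr rfl fun i _ => (Set.indicator_of_mem (hB i) _).symm
  · intro α _ hα
    obtain ⟨i, hi⟩ := hz α hα
    have : tens (orb φ Ω) α y = 0 := Finset.prod_eq_zero (Finset.mem_univ i) (by
      simp only [orb, Set.indicator]; split_ifs <;> simp [hi])
    simp [this]
  · simp
  · intro α _ hα
    obtain ⟨i, hi⟩ := hz α hα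
    have : tens φ α y = 0 := Finset.prod_eq_zero (Finset.mem_univ i) hi
    simp [this]
  · simp

theorem MBYesA_test_tens (h : Orbs φ Ω) (α : Fin N → Room n) :
    Test fun x : Config N => tens φ α fun i => elPos i x := by
  obtain ⟨e, he⟩ := exists_ofP_equiv (N := N)
  have hs : ∀ x : Config N, (fun i => elPos i x) = e.symm x := fun x => by
    rw [eq_comm, ContinuousLinearEquiv.symm_apply_eq, he]; rfl
  simp only [hs]
  constructor
  · have : ContDiff ℝ 1 (tens φ α : (Fin N → Pos3) → ℝ) :=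
      contDiff_prod fun i _ => (h.test (α i)).diff.comp (contDiff_apply ℝ Pos3 i)
    exact this.comp e.symm.contDiff
  · have : HasCompactSupport (tens φ α : (Fin N → Pos3) → ℝ) := by
      refine HasCompactSupport.of_support_subset_isCompact
        (isCompact_univ_pi fun i => (h.test (α i)).supp.isCompact) fun y hy i _ => ?_
      exact subset_tsupport _ fun h0 => hy (Finset.prod_eq_zero (Finset.mem_univ i) h0)
    exact this.comp_homeomorph e.symm.toHomeomorph

theorem nice_trial (h : Orbs φ Ω) (a : (Fin N → Room n) → ℝ) :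
    Nice fun y : Fin N → Pos3 => ∑ α, a α * tens φ α y := by
  exact (Test.sum Finset.univ (fun α _ => MBYesA_test_tens h α) a).nice.comp_ofP

theorem test_trial (h : Orbs φ Ω) (a : (Fin N → Room n) → ℝ) :
    Test fun x : Config N => ∑ α, a α * tens φ α fun i => elPos i x := by
  exact Test.sum Finset.univ (fun α _ => MBYesA_test_tens h α) a

theorem trial_norm_ge (h : Orbs φ Ω) (a : (Fin N → Room n) → ℝ) :
    ∑ α, a α ^ 2 ≤ ∫ y : Fin N → Pos3, (∑ α, a α * tens φ α y) ^ 2 := by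
  classical
  have hT := h.on.tens (N := N)
  have e : ∑ α, a α ^ 2 = ∫ y : Fin N → Pos3, ∑ α, a α ^ 2 * tens (orb φ Ω) α y ^ 2 := by
    rw [integral_finsetSum _ fun α _ => ((hT.nice α).sq.integrable).const_mul _]
    refine Finset.sum_congr rfl fun α _ => ?_
    rw [integral_const_mul, hT.norm, mul_one]
  rw [e]
  refine integral_mono (integrable_finsetSum _ fun α _ => ((hT.nice α).sq.integrable).const_mul _)
    (nice_trial h a).sq.integrable fun y => ?_
  by_cases hy : ∀ i, y i ∈ ⋃ A, Ω A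
  · exact (trial_sq_ge h a y hy).ge
  · obtain ⟨i, hi⟩ := not_forall.1 hy
    have : ∀ α : Fin N → Room n, tens (orb φ Ω) α y = 0 := fun α =>
      Finset.prod_eq_zero (Finset.mem_univ i)
        (Set.indicator_of_notMem (fun h' => hi (Set.mem_iUnion.2 ⟨_, h'⟩)) _)
    simp only [this]
    simpa using sq_nonneg _

theorem trial_norm_le (h : Orbs φ Ω) {εr : ℝ} (hr : ∫ x, rem φ Ω x ≤ εr)
    (a : (Fin N → Room n) → ℝ) :
    ∫ y : Fin N → Pos3, (∑ α, a α * tens φ α y) ^ 2 ≤ (1 + εr) ^ N * ∑ α, a α ^ 2 := by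
  have hI : ∀ α : Fin N → Room n, Integrable fun y : Fin N → Pos3 =>
      ∏ i, (orb φ Ω (α i) (y i) ^ 2 + rem φ Ω (y i)) := fun α =>
    Integrable.fintype_prod (f := fun i x => orb φ Ω (α i) x ^ 2 + rem φ Ω x)
      fun i => (MBYesA_nice_den h (α i)).integrable
  refine (integral_mono (nice_trial h a).sq.integrable
    (integrable_finsetSum _ fun α _ => (hI α).const_mul _) fun y => trial_sq_le h a y).trans ?_
  rw [integral_finsetSum _ fun α _ => (hI α).const_mul _, Finset.mul_sum]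
  refine Finset.sum_le_sum fun α _ => ?_
  rw [integral_const_mul, mul_comm ((1 + εr) ^ N),
    integral_fintype_prod_volume_eq_prod fun i x => orb φ Ω (α i) x ^ 2 + rem φ Ω x]
  refine mul_le_mul_of_nonneg_left ?_ (sq_nonneg _)
  calc ∏ i, ∫ x, (orb φ Ω (α i) x ^ 2 + rem φ Ω x) ≤ ∏ _i : Fin N, (1 + εr) :=
        Finset.prod_le_prod
        (fun i _ => integral_nonneg fun x => MBYesA_den_nonneg φ Ω (α i) x)
        fun i _ => MBYesA_int_den h hr (α i)
    _ = (1 + εr) ^ N := by simp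

/-- `trial_sq_le`, `integral_pair`, `VU`. -/
theorem trial_pair_le (h : Orbs φ Ω) {εr ε : ℝ} (hr : ∫ x, rem φ Ω x ≤ εr)
    {V : Room n → Room n → ℝ} (hV : VU φ Ω V ε) (a : (Fin N → Room n) → ℝ) {i j : Fin N}
    (hij : i ≠ j) :
    ∫ y : Fin N → Pos3, Kn (y i - y j) * (∑ α, a α * tens φ α y) ^ 2 ≤
      (1 + εr) ^ N * ∑ α, a α ^ 2 * (V (α i) (α j) + ε) := by
  have h0 : 0 ≤ εr := (integral_nonneg fun x => rem_nonneg φ Ω x).trans hr
  have hI := fun α : Fin N → Room n => integral_pair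
    (f := fun i x => orb φ Ω (α i) x ^ 2 + rem φ Ω x) (fun i => MBYesA_nice_den h (α i))
    (V := fun x x' => Kn (x - x')) hij
    (integrable_Kn_prod (MBYesA_nice_den h (α i)) (MBYesA_nice_den h (α j)))
  refine (integral_mono (integrable_two_body (nice_trial h a).sq hij)
    (integrable_finsetSum Finset.univ fun α _ => (hI α).1.const_mul (a α ^ 2)) fun y => ?_).trans ?_
  · refine (mul_le_mul_of_nonneg_left (trial_sq_le h a y) (Kn_nonneg _)).trans (le_of_eq ?_)
    rw [Finset.mul_sum]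
    exact Finset.sum_congr rfl fun α _ => mul_left_comm _ _ _
  rw [integral_finsetSum _ fun α _ => (hI α).1.const_mul _, Finset.mul_sum]
  refine Finset.sum_le_sum fun α _ => ?_
  rw [integral_const_mul, (hI α).2, mul_left_comm ((1 + εr) ^ N), mul_comm ((1 + εr) ^ N)]
  refine mul_le_mul_of_nonneg_left ?_ (sq_nonneg (a α))
  have hnn : 0 ≤ ∫ x, ∫ x', Kn (x - x') * ((orb φ Ω (α i) x ^ 2 + rem φ Ω x) *
      (orb φ Ω (α j) x' ^ 2 + rem φ Ω x')) :=
    integral_nonneg fun x => integral_nonneg fun x' => mul_nonneg (Kn_nonneg _)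
      (mul_nonneg (MBYesA_den_nonneg φ Ω _ _) (MBYesA_den_nonneg φ Ω _ _))
  refine mul_le_mul (hV (α i) (α j)) ?_
    (Finset.prod_nonneg fun l _ => integral_nonneg fun x => MBYesA_den_nonneg φ Ω (α l) x)
    (hnn.trans (hV (α i) (α j)))
  calc ∏ l ∈ (Finset.univ.erase i).erase j, ∫ x, (orb φ Ω (α l) x ^ 2 + rem φ Ω x)
      ≤ ∏ _l ∈ (Finset.univ.erase i).erase j, (1 + εr) := Finset.prod_le_prod
        (fun l _ => integral_nonneg fun x => MBYesA_den_nonneg φ Ω (α l) x)
        fun l _ => MBYesA_int_den h hr (α l)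
    _ = (1 + εr) ^ ((Finset.univ.erase i).erase j).card := Finset.prod_const _
    _ ≤ _ := pow_le_pow_right₀ (by linarith) ((Finset.card_le_univ _).trans (by simp))

end Crest.Agent.R338
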