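/-
R338/Mass: masses of the parts of the structure
Skeleton by helper15 (row 338); keep the statements unchanged, add any helper lemmas you like.
-/
import Crest.Agent.R338.Trial

set_option autoImplicit false
set_option linter.unusedSectionVars false
set_option linter.unusedVariables false
set_option linter.unusedSimpArgs false

noncomputable section

namespace Crest.Agent.R338

open MeasureTheory Set Filter Crest.MathPhysics.ElectronicCoulomb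

theorem Mass_int_rect (a a' b b' : ℝ) :
    Integrable ((Icc a a' ×ˢ Icc b b').indicator (fun _ : ℝ × ℝ => (1 : ℝ))) := by
  rw [integrable_indicator_iff (measurableSet_Icc.prod measurableSet_Icc)]
  exact continuousOn_const.integrableOn_compact (isCompact_Icc.prod isCompact_Icc)

/-- The area of a rectangle, as a bound for an integral over any set. -/
theorem integral_rect_le {a a' b b' : ℝ} (ha : a ≤ a') (hb : b ≤ b') (s : Set (ℝ × ℝ)) :
    ∫ p in s, (Icc a a' ×ˢ Icc b b').indicator (fun _ => (1 : ℝ)) p ≤ (a' - a) * (b' - b) := by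
  have hm : MeasurableSet (Icc a a' ×ˢ Icc b b') := measurableSet_Icc.prod measurableSet_Icc
  refine (setIntegral_le_integral (Mass_int_rect a a' b b')
    (Eventually.of_forall fun p => indicator_nonneg (fun _ _ => zero_le_one) p)).trans ?_
  rw [integral_indicator hm, setIntegral_const, smul_eq_mul, mul_one, measureReal_def,
    Measure.volume_eq_prod, Measure.prod_prod, Real.volume_Icc, Real.volume_Icc, ENNReal.toReal_mul,
    ENNReal.toReal_ofReal (by linarith), ENNReal.toReal_ofReal (by linarith)]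

/-- The indicator function of a rectangle in the unit `ℓ`. -/
def Mass_ind (ℓ a a' b b' : ℝ) (p : ℝ × ℝ) : ℝ :=
  (Icc (ℓ * a) (ℓ * a') ×ˢ Icc (ℓ * b) (ℓ * b')).indicator (fun _ => (1 : ℝ)) p

theorem Mass_ind_nonneg (ℓ a a' b b' : ℝ) (p : ℝ × ℝ) : 0 ≤ Mass_ind ℓ a a' b b' p :=
  indicator_nonneg (fun _ _ => zero_le_one) p

theorem Mass_ind_int (ℓ a a' b b' : ℝ) : Integrable (Mass_ind ℓ a a' b b') := Mass_int_rect _ _ _ _

theorem Mass_ind_le {ℓ a a' b b' : ℝ} (hℓ : 0 < ℓ) (ha : a ≤ a') (hb : b ≤ b') (T : Set (ℝ × ℝ)) :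
    ∫ p in T, Mass_ind ℓ a a' b b' p ≤ (a' - a) * (b' - b) * ℓ ^ 2 := by
  refine (integral_rect_le (mul_le_mul_of_nonneg_left ha hℓ.le)
    (mul_le_mul_of_nonneg_left hb hℓ.le) T).trans (le_of_eq ?_)
  ring

theorem Mass_ind_one {ℓ a a' b b' : ℝ} (hℓ : 0 < ℓ) {p : ℝ × ℝ} (h1 : p.1 / ℓ ∈ Icc a a')
    (h2 : p.2 / ℓ ∈ Icc b b') : Mass_ind ℓ a a' b b' p = 1 := by
  simp only [mem_Icc, le_div_iff₀' hℓ, div_le_iff₀' hℓ] at h1 h2
  exact indicator_of_mem (mem_prod.2 ⟨h1, h2⟩) _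

theorem Mass_pow_nonneg (x : ℝ) : 0 ≤ x ^ 1072 := Even.pow_nonneg ⟨536, rfl⟩ x

theorem Mass_small {s x : ℝ} (hs : 4 ≤ s) (h0 : 0 ≤ x) (h : x ≤ 2 / s) :
    x ^ 1072 ≤ (s ^ 536)⁻¹ := by
  have hs0 : 0 < s := by linarith
  have h1 : x ^ 2 ≤ s⁻¹ := by
    refine (pow_le_pow_left₀ h0 h 2).trans ?_
    rw [div_pow, ← one_div, div_le_div_iff₀ (by positivity) hs0]
    nlinarith
  rw [show 1072 = 2 * 536 from rfl, pow_mul, ← inv_pow]
  exact pow_le_pow_left₀ (sq_nonneg _) h1 _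

theorem Mass_F_le : ∀ᶠ D : Des in evD, ∀ ξ η : ℝ, D.F 0 0 ξ η ^ 1072 ≤ 4 := by
  filter_upwards [ev_good, F_ge, F_le, ev_wP] with D hD h0 h1 h2 ξ η
  have a0 : 0 ≤ D.F 0 0 ξ η := (by positivity : (0 : ℝ) ≤ _).trans (h0 ξ η)
  have a1 : D.F 0 0 ξ η ^ 536 ≤ 2 := (pow_le_pow_left₀ a0 (h1 ξ η) 536).trans h2
  rw [show 1072 = 536 * 2 from rfl, pow_mul]
  refine (pow_le_pow_left₀ (pow_nonneg a0 _) a1 2).trans (by norm_num)

theorem Mass_planar {D : Des} (hD : D.Good) {a : ℝ} (ha : 0 ≤ a) {f : ℝ × ℝ → ℝ}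
    {h : ℕ → ℕ → ℝ × ℝ → ℝ} (f0 : ∀ p, 0 ≤ f p) (h0 : ∀ A l p, 0 ≤ h A l p)
    (hi : ∀ A l, Integrable (h A l)) (hb : ∀ A l T, ∫ p in T, h A l p ≤ a)
    (hf : ∀ p, f p ≤ ((D.S : ℝ) ^ 536)⁻¹ ∨ ∃ A < 3 * D.n, ∃ l ∈ D.pads A, f p ≤ 4 * h A l p) :
    ∫ p in Icc (-D.RR) D.RR ×ˢ Icc (-D.RR) D.RR, f p ≤
      4 * ((D.S : ℝ) ^ 508)⁻¹ * D.ell ℝ ^ 2 + 12 * (D.S : ℝ) * D.M * a := by
  set T := Icc (-D.RR) D.RR ×ˢ Icc (-D.RR) D.RR with hT
  have hS := hD.pos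
  have hR := hD.RR_pos
  have hTc : IsCompact T := isCompact_Icc.prod isCompact_Icc
  have i1 : IntegrableOn (fun _ : ℝ × ℝ => ((D.S : ℝ) ^ 536)⁻¹) T :=
    continuousOn_const.integrableOn_compact hTc
  have i2 : ∀ A, IntegrableOn (fun p => ∑ l ∈ D.pads A, h A l p) T := fun A =>
    integrable_finsetSum _ fun l _ => (hi A l).integrableOn
  have i3 : IntegrableOn (fun p => ∑ A ∈ Finset.range (3 * D.n), ∑ l ∈ D.pads A, h A l p) T :=
    integrable_finsetSum _ fun A _ => i2 A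
  have key : ∫ p in T, f p ≤ ∫ p in T, (((D.S : ℝ) ^ 536)⁻¹ +
      4 * ∑ A ∈ Finset.range (3 * D.n), ∑ l ∈ D.pads A, h A l p) := by
    refine integral_mono_of_nonneg (Eventually.of_forall f0) (i1.add (i3.const_mul 4))
      (Eventually.of_forall fun p => ?_)
    have s0 : 0 ≤ ∑ A ∈ Finset.range (3 * D.n), ∑ l ∈ D.pads A, h A l p :=
      Finset.sum_nonneg fun A _ => Finset.sum_nonneg fun l _ => h0 A l p
    have c0 : 0 ≤ ((D.S : ℝ) ^ 536)⁻¹ := by positivity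
    rcases hf p with h1 | ⟨A, hA, l, hl, h1⟩
    · simp only; linarith
    · have b1 : h A l p ≤ ∑ l ∈ D.pads A, h A l p :=
        Finset.single_le_sum (f := fun l => h A l p) (fun l _ => h0 A l p) hl
      have b2 : ∑ l ∈ D.pads A, h A l p ≤
          ∑ A ∈ Finset.range (3 * D.n), ∑ l ∈ D.pads A, h A l p :=
        Finset.single_le_sum (f := fun A => ∑ l ∈ D.pads A, h A l p)
          (fun A _ => Finset.sum_nonneg fun l _ => h0 A l p) (Finset.mem_range.2 hA)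
      simp only; linarith
  refine key.trans ?_
  rw [integral_add i1 (i3.const_mul 4), integral_const_mul,
    integral_finsetSum _ fun A _ => i2 A]
  refine add_le_add (le_of_eq ?_) ?_
  · rw [setIntegral_const, smul_eq_mul, measureReal_def, hT,
      Measure.volume_eq_prod, Measure.prod_prod, Real.volume_Icc, ENNReal.toReal_mul,
      ENNReal.toReal_ofReal (by linarith), hD.RR_eq]
    have e : (D.S : ℝ) ^ 536 = (D.S : ℝ) ^ 508 * ((D.S : ℝ) ^ 14 * (D.S : ℝ) ^ 14) := by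
      rw [← pow_add, ← pow_add]
    have p1 : (0 : ℝ) < (D.S : ℝ) ^ 508 := by positivity
    have p2 : (0 : ℝ) < (D.S : ℝ) ^ 14 := by positivity
    rw [e]
    generalize (D.S : ℝ) ^ 508 = u at *
    generalize (D.S : ℝ) ^ 14 = v at *
    field_simp
    ring
  · have b1 : ∀ A ∈ Finset.range (3 * D.n), ∫ p in T, ∑ l ∈ D.pads A, h A l p ≤ D.M * a := by
      intro A hA
      rw [integral_finsetSum _ fun l _ => (hi A l).integrableOn]
      refine (Finset.sum_le_sum fun l _ => hb A l T).trans ?_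
      rw [Finset.sum_const, hD.cnt A (Finset.mem_range.1 hA), nsmul_eq_mul]
    have b2 := Finset.sum_le_sum b1
    rw [Finset.sum_const, Finset.card_range, nsmul_eq_mul] at b2
    push_cast at b2
    have b3 : 3 * (D.n : ℝ) * (D.M * a) ≤ 3 * D.S * (D.M * a) := by
      have := hD.n_le
      gcongr
    linarith

/-- Pointwise (`F_small`, `G_one`, `F_le`, `ev_wP`) the integrand is at most `(2 / S) ^ 1072` plus four
times the sum of the indicator functions of the frames `[-σ, 1 + σ]² \ [σ, 1 - σ]²` of the pads (a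
frame has area `8 σ ℓ²`; cover it by four strips or subtract the areas). -/
theorem planar_frame : ∀ᶠ D : Des in evD,
    ∫ p in Icc (-D.RR) D.RR ×ˢ Icc (-D.RR) D.RR,
      (1 - D.G (p.1 / D.ell ℝ) (p.2 / D.ell ℝ)) * D.F 0 0 (p.1 / D.ell ℝ) (p.2 / D.ell ℝ) ^ 1072 ≤
      ((D.S : ℝ) ^ 52)⁻¹ * D.ell ℝ ^ 2 := by
  filter_upwards [ev_good, ev_ge 200, F_small, G_one, G_bounds, F_ge, Mass_F_le, ev_sg]
    with D hD hS hs hG1 hGb hF0 hF4 hσ
  have hℓ := hD.ell_pos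
  have hσ0 := hD.sg_pos
  have h1 := hD.one_le
  have key := Mass_planar hD (a := 12 * D.sg ℝ * D.ell ℝ ^ 2)
    (mul_nonneg (by linarith) (sq_nonneg _))
    (f := fun p => (1 - D.G (p.1 / D.ell ℝ) (p.2 / D.ell ℝ)) *
      D.F 0 0 (p.1 / D.ell ℝ) (p.2 / D.ell ℝ) ^ 1072)
    (h := fun A l p =>
      Mass_ind (D.ell ℝ) (D.xA ℝ A - D.sg ℝ) (D.xA ℝ A + D.sg ℝ) (D.yl ℝ l - D.sg ℝ)
          (D.yl ℝ l + 1 + D.sg ℝ) p +
        Mass_ind (D.ell ℝ) (D.xA ℝ A + 1 - D.sg ℝ) (D.xA ℝ A + 1 + D.sg ℝ) (D.yl ℝ l - D.sg ℝ)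
          (D.yl ℝ l + 1 + D.sg ℝ) p +
        Mass_ind (D.ell ℝ) (D.xA ℝ A - D.sg ℝ) (D.xA ℝ A + 1 + D.sg ℝ) (D.yl ℝ l - D.sg ℝ)
          (D.yl ℝ l + D.sg ℝ) p +
        Mass_ind (D.ell ℝ) (D.xA ℝ A - D.sg ℝ) (D.xA ℝ A + 1 + D.sg ℝ) (D.yl ℝ l + 1 - D.sg ℝ)
          (D.yl ℝ l + 1 + D.sg ℝ) p)
    (fun p => mul_nonneg (sub_nonneg.2 (hGb _ _).2) (Mass_pow_nonneg _))
    (fun A l p => by
      have := fun a a' b b' => Mass_ind_nonneg (D.ell ℝ) a a' b b' p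
      exact add_nonneg (add_nonneg (add_nonneg (this _ _ _ _) (this _ _ _ _)) (this _ _ _ _))
        (this _ _ _ _))
    (fun A l => (((Mass_ind_int _ _ _ _ _).add (Mass_ind_int _ _ _ _ _)).add
      (Mass_ind_int _ _ _ _ _)).add (Mass_ind_int _ _ _ _ _))
    (fun A l T => by
      have i := fun a a' b b' => (Mass_ind_int (D.ell ℝ) a a' b b').integrableOn (s := T)
      rw [integral_add (((i _ _ _ _).fun_add (i _ _ _ _)).fun_add (i _ _ _ _)) (i _ _ _ _),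
        integral_add ((i _ _ _ _).fun_add (i _ _ _ _)) (i _ _ _ _),
        integral_add (i _ _ _ _) (i _ _ _ _)]
      have e : 2 * D.sg ℝ * (1 + 2 * D.sg ℝ) * D.ell ℝ ^ 2 ≤ 3 * D.sg ℝ * D.ell ℝ ^ 2 := by
        gcongr ?_ * _
        nlinarith
      have b1 := Mass_ind_le hℓ (a := D.xA ℝ A - D.sg ℝ) (a' := D.xA ℝ A + D.sg ℝ)
        (b := D.yl ℝ l - D.sg ℝ) (b' := D.yl ℝ l + 1 + D.sg ℝ) (by linarith) (by linarith) T
      have b2 := Mass_ind_le hℓ (a := D.xA ℝ A + 1 - D.sg ℝ) (a' := D.xA ℝ A + 1 + D.sg ℝ)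
        (b := D.yl ℝ l - D.sg ℝ) (b' := D.yl ℝ l + 1 + D.sg ℝ) (by linarith) (by linarith) T
      have b3 := Mass_ind_le hℓ (a := D.xA ℝ A - D.sg ℝ) (a' := D.xA ℝ A + 1 + D.sg ℝ)
        (b := D.yl ℝ l - D.sg ℝ) (b' := D.yl ℝ l + D.sg ℝ) (by linarith) (by linarith) T
      have b4 := Mass_ind_le hℓ (a := D.xA ℝ A - D.sg ℝ) (a' := D.xA ℝ A + 1 + D.sg ℝ)
        (b := D.yl ℝ l + 1 - D.sg ℝ) (b' := D.yl ℝ l + 1 + D.sg ℝ) (by linarith) (by linarith) T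
      nlinarith)
    (fun p => by
      have g0 := (hGb (p.1 / D.ell ℝ) (p.2 / D.ell ℝ)).1
      have f0 : 0 ≤ D.F 0 0 (p.1 / D.ell ℝ) (p.2 / D.ell ℝ) ^ 1072 := Mass_pow_nonneg _
      have f1 : (1 - D.G (p.1 / D.ell ℝ) (p.2 / D.ell ℝ)) *
          D.F 0 0 (p.1 / D.ell ℝ) (p.2 / D.ell ℝ) ^ 1072 ≤
          D.F 0 0 (p.1 / D.ell ℝ) (p.2 / D.ell ℝ) ^ 1072 := mul_le_of_le_one_left f0 (by linarith)
      rcases hs (p.1 / D.ell ℝ) (p.2 / D.ell ℝ) with h | ⟨A, hA, l, hl, hξ, hη⟩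
      · exact Or.inl (f1.trans (Mass_small (by linarith) ((by positivity : (0 : ℝ) ≤ _).trans
          (hF0 _ _)) h))
      · by_cases hin : p.1 / D.ell ℝ ∈ Icc (D.xA ℝ A + D.sg ℝ) (D.xA ℝ A + 1 - D.sg ℝ) ∧
            p.2 / D.ell ℝ ∈ Icc (D.yl ℝ l + D.sg ℝ) (D.yl ℝ l + 1 - D.sg ℝ)
        · left
          rw [hG1 A hA l hl _ hin.1 _ hin.2, sub_self, zero_mul]
          positivity
        · refine Or.inr ⟨A, hA, l, hl, f1.trans ((hF4 _ _).trans ?_)⟩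
          have n := fun a a' b b' => Mass_ind_nonneg (D.ell ℝ) a a' b b' p
          have n1 := n (D.xA ℝ A - D.sg ℝ) (D.xA ℝ A + D.sg ℝ) (D.yl ℝ l - D.sg ℝ)
            (D.yl ℝ l + 1 + D.sg ℝ)
          have n2 := n (D.xA ℝ A + 1 - D.sg ℝ) (D.xA ℝ A + 1 + D.sg ℝ) (D.yl ℝ l - D.sg ℝ)
            (D.yl ℝ l + 1 + D.sg ℝ)
          have n3 := n (D.xA ℝ A - D.sg ℝ) (D.xA ℝ A + 1 + D.sg ℝ) (D.yl ℝ l - D.sg ℝ)
            (D.yl ℝ l + D.sg ℝ)
          have n4 := n (D.xA ℝ A - D.sg ℝ) (D.xA ℝ A + 1 + D.sg ℝ) (D.yl ℝ l + 1 - D.sg ℝ)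
            (D.yl ℝ l + 1 + D.sg ℝ)
          simp only [mem_Icc, not_and_or, not_le] at hin
          rcases hin with (h | h) | (h | h)
          · have := Mass_ind_one hℓ (p := p) ⟨hξ.1, h.le⟩ hη
            linarith
          · have := Mass_ind_one hℓ (p := p) ⟨h.le, hξ.2⟩ hη
            linarith
          · have := Mass_ind_one hℓ (p := p) hξ ⟨hη.1, h.le⟩
            linarith
          · have := Mass_ind_one hℓ (p := p) hξ ⟨h.le, hη.2⟩
            linarith)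
  refine key.trans ?_
  have a1 : (4 : ℝ) * ((D.S : ℝ) ^ 508)⁻¹ ≤ ((D.S : ℝ) ^ 53)⁻¹ :=
    mul_inv_pow_le h1 (by linarith) (by norm_num)
  have a2 : (144 : ℝ) * ((D.S : ℝ) ^ 54)⁻¹ ≤ ((D.S : ℝ) ^ 53)⁻¹ :=
    mul_inv_pow_le h1 (by linarith) (by norm_num)
  have a3 : (2 : ℝ) * ((D.S : ℝ) ^ 53)⁻¹ ≤ ((D.S : ℝ) ^ 52)⁻¹ :=
    mul_inv_pow_le h1 (by linarith) (by norm_num)
  have a4 : 12 * (D.S : ℝ) * D.M * (12 * D.sg ℝ * D.ell ℝ ^ 2) ≤
      144 * ((D.S : ℝ) ^ 54)⁻¹ * D.ell ℝ ^ 2 := by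
    have e : ((D.S : ℝ) ^ 54)⁻¹ = D.S * D.S * D.sg ℝ := by
      have := hD.pos
      unfold Des.sg; field_simp
    rw [e]
    have := hD.M_le
    calc 12 * (D.S : ℝ) * D.M * (12 * D.sg ℝ * D.ell ℝ ^ 2)
        ≤ 12 * (D.S : ℝ) * D.S * (12 * D.sg ℝ * D.ell ℝ ^ 2) :=
          mul_le_mul_of_nonneg_right (mul_le_mul_of_nonneg_left this (by linarith))
            (mul_nonneg (by linarith) (sq_nonneg _))
      _ = _ := by ring
  have a5 : (4 * ((D.S : ℝ) ^ 508)⁻¹ + 144 * ((D.S : ℝ) ^ 54)⁻¹) * D.ell ℝ ^ 2 ≤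
      ((D.S : ℝ) ^ 52)⁻¹ * D.ell ℝ ^ 2 := mul_le_mul_of_nonneg_right (by linarith) (by positivity)
  linarith

/-- There are `3 n M` pads. -/
theorem planar_all : ∀ᶠ D : Des in evD,
    ∫ p in Icc (-D.RR) D.RR ×ˢ Icc (-D.RR) D.RR, D.F 0 0 (p.1 / D.ell ℝ) (p.2 / D.ell ℝ) ^ 1072 ≤
      25 * (D.S : ℝ) * D.M * D.ell ℝ ^ 2 := by
  filter_upwards [ev_good, ev_ge 200, F_small, F_ge, Mass_F_le, ev_sg] with D hD hS hs hF0 hF4 hσ
  have hℓ := hD.ell_pos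
  have hσ0 := hD.sg_pos
  have h1 := hD.one_le
  have key := Mass_planar hD (a := 2 * D.ell ℝ ^ 2)
    (mul_nonneg zero_le_two (sq_nonneg _))
    (f := fun p => D.F 0 0 (p.1 / D.ell ℝ) (p.2 / D.ell ℝ) ^ 1072)
    (h := fun A l p => Mass_ind (D.ell ℝ) (D.xA ℝ A - D.sg ℝ) (D.xA ℝ A + 1 + D.sg ℝ)
      (D.yl ℝ l - D.sg ℝ) (D.yl ℝ l + 1 + D.sg ℝ) p)
    (fun p => Mass_pow_nonneg _) (fun A l p => Mass_ind_nonneg _ _ _ _ _ p)
    (fun A l => Mass_ind_int _ _ _ _ _)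
    (fun A l T => by
      refine (Mass_ind_le hℓ (by linarith) (by linarith) T).trans ?_
      gcongr ?_ * _
      nlinarith)
    (fun p => by
      rcases hs (p.1 / D.ell ℝ) (p.2 / D.ell ℝ) with h | ⟨A, hA, l, hl, hξ, hη⟩
      · exact Or.inl (Mass_small (by linarith) ((by positivity : (0 : ℝ) ≤ _).trans (hF0 _ _)) h)
      · refine Or.inr ⟨A, hA, l, hl, ?_⟩
        rw [Mass_ind_one hℓ hξ hη, mul_one]
        exact hF4 _ _)
  refine key.trans ?_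
  have a1 : (4 : ℝ) * ((D.S : ℝ) ^ 508)⁻¹ ≤ ((D.S : ℝ) ^ 0)⁻¹ :=
    mul_inv_pow_le h1 (by linarith) (by norm_num)
  rw [pow_zero, inv_one] at a1
  have a2 : (1 : ℝ) ≤ D.S * D.M := one_le_mul_of_one_le_of_one_le h1 hD.one_le_M
  have a3 : 4 * ((D.S : ℝ) ^ 508)⁻¹ * D.ell ℝ ^ 2 ≤ D.S * D.M * D.ell ℝ ^ 2 :=
    mul_le_mul_of_nonneg_right (a1.trans a2) (by positivity)
  linarith

theorem Mass_prod {a a' b b' h : ℝ} (hh : 0 ≤ h) {f : Pos3 → ℝ} (hf : Continuous f)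
    {P : ℝ × ℝ → ℝ} {Q : ℝ → ℝ} (e : ∀ p z, f (mk3 p z) = P p * Q z) :
    ∫ x in bx a a' b b' h, f x = (∫ p in Icc a a' ×ˢ Icc b b', P p) * ∫ z in (-h)..h, Q z := by
  rw [integral_bx_prod (hf.continuousOn.integrableOn_compact (isCompact_bx _ _ _ _ _)),
    intervalIntegral.integral_of_le (by linarith), ← integral_Icc_eq_integral_Ioc]
  simp only [e, integral_const_mul, integral_mul_const]

theorem Mass_phi : ∀ᶠ D : Des in evD, 0 ≤ ∫ z in (-(2 * D.z1))..(2 * D.z1), D.phi z ^ 2 ∧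
    ∫ z in (-(2 * D.z1))..(2 * D.z1), D.phi z ^ 2 ≤ 2 * D.mz := by
  filter_upwards [ev_good, int_phi_two] with D hD h
  have hz := hD.z1_pos
  refine ⟨intervalIntegral.integral_nonneg (by linarith) fun z _ => sq_nonneg _, h.trans ?_⟩
  have : ((D.S : ℝ) ^ 100)⁻¹ ≤ 1 := inv_le_one_of_one_le₀ (one_le_pow₀ hD.one_le)
  exact mul_le_mul_of_nonneg_right (by linarith) (mz_pos hD).le

theorem Mass_pos1 (D : Des) : 0 ≤ 25 * (D.S : ℝ) * D.M * D.ell ℝ ^ 2 :=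
  mul_nonneg (by positivity) (sq_nonneg _)

theorem Mass_contF (D : Des) : Continuous fun x => D.F3 0 0 x ^ 1072 :=
  (contDiff_F3 (D := D) (i := 0) (j := 0) (by norm_num) (by norm_num)).continuous.pow _

/-- `integral_bx_prod`, `rho_eq`, `int_phi_two`, `ell_sq_mz_le`. -/
theorem mass_frame : ∀ᶠ D : Des in evD,
    ∫ x in D.box, (1 - D.G3 x) * D.rho x ≤ ((D.S : ℝ) ^ 51)⁻¹ * D.mass := by
  filter_upwards [ev_good, ev_ge 2, planar_frame, Mass_phi] with D hD hS hp hφ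
  have hz := hD.z1_pos
  have hℓ := hD.ell_pos
  have h1 := hD.one_le
  have hmz := mz_pos hD
  rw [Des.box, Mass_prod (by linarith) (f := fun x => (1 - D.G3 x) * D.rho x)
    ((continuous_const.sub (continuous_G3 D)).mul (continuous_rho D))
    (P := fun p => (1 - D.G (p.1 / D.ell ℝ) (p.2 / D.ell ℝ)) *
      D.F 0 0 (p.1 / D.ell ℝ) (p.2 / D.ell ℝ) ^ 1072) (Q := fun z => D.phi z ^ 2)
    (fun p z => by
      rw [rho_eq, ← mul_assoc]; simp only [Des.G3, Des.F3, mk3_0, mk3_1, mk3_2])]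
  have n0 : 0 ≤ D.ell ℝ ^ 2 * D.mz := mul_nonneg (sq_nonneg _) hmz.le
  have n1 : ∀ k : ℕ, 0 ≤ ((D.S : ℝ) ^ k)⁻¹ := fun k => inv_nonneg.2 (pow_nonneg hD.pos.le _)
  refine (mul_le_mul hp hφ.2 hφ.1 (mul_nonneg (n1 _) (sq_nonneg _))).trans ?_
  have a1 : (2 : ℝ) * ((D.S : ℝ) ^ 52)⁻¹ ≤ ((D.S : ℝ) ^ 51)⁻¹ := mul_inv_pow_le h1 hS (by norm_num)
  calc ((D.S : ℝ) ^ 52)⁻¹ * D.ell ℝ ^ 2 * (2 * D.mz)
      = 2 * ((D.S : ℝ) ^ 52)⁻¹ * (D.ell ℝ ^ 2 * D.mz) := by ring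
    _ ≤ ((D.S : ℝ) ^ 51)⁻¹ * D.mass := mul_le_mul a1 ((le_mul_of_one_le_left n0
        hD.one_le_M).trans (ell_sq_mz_le hD)) n0 (n1 _)

/-- `z1_le_mz`. -/
theorem mass_flat : ∀ᶠ D : Des in evD, ∫ x in D.box, D.F3 0 0 x ^ 1072 ≤ (D.S : ℝ) ^ 3 * D.mass := by
  filter_upwards [ev_good, ev_ge 300, planar_all] with D hD hS hp
  have hz := hD.z1_pos
  have hℓ := hD.ell_pos
  have h1 := hD.one_le
  have hmz := mz_pos hD
  have hM := hD.one_le_M
  rw [Des.box, Mass_prod (by linarith) (Mass_contF D)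
    (P := fun p => D.F 0 0 (p.1 / D.ell ℝ) (p.2 / D.ell ℝ) ^ 1072) (Q := fun z => 1)
    (fun p z => by rw [mul_one]; simp only [Des.F3, mk3_0, mk3_1]), intervalIntegral.integral_const, smul_eq_mul, mul_one]
  have a0 : 2 * D.z1 - -(2 * D.z1) ≤ 12 * D.S * D.mz := by
    have := z1_le_mz hD
    linarith
  refine (mul_le_mul hp a0 (by linarith) (Mass_pos1 D)).trans ?_
  have a1 : (300 : ℝ) * (D.S : ℝ) ^ 2 ≤ (D.S : ℝ) ^ 3 := mul_pow_le h1 hS (by norm_num)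
  calc 25 * (D.S : ℝ) * D.M * D.ell ℝ ^ 2 * (12 * D.S * D.mz)
      = 300 * (D.S : ℝ) ^ 2 * (D.M * (D.ell ℝ ^ 2 * D.mz)) := by ring
    _ ≤ (D.S : ℝ) ^ 3 * D.mass := mul_le_mul a1 (ell_sq_mz_le hD)
        (mul_nonneg (Nat.cast_nonneg _) (mul_nonneg (sq_nonneg _) hmz.le)) (pow_nonneg hD.pos.le _)

theorem mass_box : ∀ᶠ D : Des in evD, ∫ x in D.box, D.rho x ≤ (D.S : ℝ) ^ 4 * D.mass := by
  filter_upwards [ev_good, ev_ge 50, planar_all, Mass_phi] with D hD hS hp hφ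
  have hz := hD.z1_pos
  have hℓ := hD.ell_pos
  have h1 := hD.one_le
  have hmz := mz_pos hD
  have hM := hD.one_le_M
  rw [Des.box, Mass_prod (by linarith) (continuous_rho D)
    (P := fun p => D.F 0 0 (p.1 / D.ell ℝ) (p.2 / D.ell ℝ) ^ 1072) (Q := fun z => D.phi z ^ 2)
    (fun p z => by rw [rho_eq]; simp only [Des.F3, mk3_0, mk3_1, mk3_2])]
  refine (mul_le_mul hp hφ.2 hφ.1 (Mass_pos1 D)).trans ?_
  have a1 : (50 : ℝ) * (D.S : ℝ) ^ 1 ≤ (D.S : ℝ) ^ 4 := mul_pow_le h1 hS (by norm_num)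
  calc 25 * (D.S : ℝ) * D.M * D.ell ℝ ^ 2 * (2 * D.mz)
      = 50 * (D.S : ℝ) ^ 1 * (D.M * (D.ell ℝ ^ 2 * D.mz)) := by ring
    _ ≤ (D.S : ℝ) ^ 4 * D.mass := mul_le_mul a1 (ell_sq_mz_le hD)
        (mul_nonneg (Nat.cast_nonneg _) (mul_nonneg (sq_nonneg _) hmz.le)) (pow_nonneg hD.pos.le _)

theorem Mass_meas (D : Des) : MeasurableSet (D.box \ ⋃ A, D.Om A) :=
  (measurableSet_box D).diff (MeasurableSet.iUnion fun A => measurableSet_Om D A)

/-- Off the rooms either `G3 = 0` or `φ ≤ 2 δ`. -/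
theorem mass_out : ∀ᶠ D : Des in evD,
    ∫ x in D.box \ ⋃ A, D.Om A, D.rho x ≤ ((D.S : ℝ) ^ 50)⁻¹ * D.mass := by
  filter_upwards [ev_good, ev_ge 4, mass_frame, mass_flat, G_bounds, G_zero, phi_tail']
    with D hD hS h1 h2 hGb hG0 hφ
  have hs1 := hD.one_le
  have hm := mass_pos hD
  have hδ := hD.del_pos
  have hbc : IsCompact D.box := isCompact_bx _ _ _ _ _
  have i1 : IntegrableOn (fun x => (1 - D.G3 x) * D.rho x) D.box :=
    ((continuous_const.sub (continuous_G3 D)).mul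
      (continuous_rho D)).continuousOn.integrableOn_compact hbc
  have i2 : IntegrableOn (fun x => D.F3 0 0 x ^ 1072) D.box :=
    (Mass_contF D).continuousOn.integrableOn_compact hbc
  have i3 : IntegrableOn (fun x => (1 - D.G3 x) * D.rho x + 4 * D.del ℝ ^ 2 * D.F3 0 0 x ^ 1072)
      D.box := i1.add (i2.const_mul _)
  have n1 : ∀ x, 0 ≤ (1 - D.G3 x) * D.rho x := fun x =>
    mul_nonneg (sub_nonneg.2 (hGb _ _).2) (sq_nonneg _)
  have n2 : ∀ x, 0 ≤ D.F3 0 0 x ^ 1072 := fun x => Mass_pow_nonneg _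
  have n3 : ∀ x, 0 ≤ 4 * D.del ℝ ^ 2 * D.F3 0 0 x ^ 1072 := fun x =>
    mul_nonneg (by positivity) (n2 x)
  have k1 : ∫ x in D.box \ ⋃ A, D.Om A, D.rho x ≤ ∫ x in D.box \ ⋃ A, D.Om A,
      ((1 - D.G3 x) * D.rho x + 4 * D.del ℝ ^ 2 * D.F3 0 0 x ^ 1072) := by
    refine integral_mono_of_nonneg (Eventually.of_forall fun x => sq_nonneg _)
      (i3.mono_set sdiff_subset) (ae_restrict_of_forall_mem (Mass_meas D) fun x hx => ?_)
    have m1 := n1 x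
    have m3 := n3 x
    by_cases hz : |x 2| ≤ D.z1
    · rcases hG0 (x 0 / D.ell ℝ) (x 1 / D.ell ℝ) with h | ⟨A, hA, l, hl, hξ, hη⟩
      · have : D.G3 x = 0 := h
        simp only [this, sub_zero, one_mul]
        linarith
      · exact absurd (mem_rooms.2 ⟨A, hA, l, hl, (mem_padBox hD).2 ⟨hξ, hη, hz⟩⟩) hx.2
    · have b1 := hφ (x 2) (not_le.1 hz).le
      have b2 : D.phi (x 2) ^ 2 ≤ (2 * D.del ℝ) ^ 2 := pow_le_pow_left₀ (phi_pos D _).le b1 2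
      have b3 := mul_le_mul_of_nonneg_left b2 (n2 x)
      rw [← rho_eq] at b3
      simp only
      nlinarith
  have k2 := setIntegral_mono_set i3 (Eventually.of_forall fun x => add_nonneg (n1 x) (n3 x))
    (sdiff_subset (t := ⋃ A, D.Om A)).eventuallyLE
  refine k1.trans (k2.trans ?_)
  rw [integral_add i1 (i2.const_mul _), integral_const_mul]
  have a1 : 4 * D.del ℝ ^ 2 * (D.S : ℝ) ^ 3 ≤ ((D.S : ℝ) ^ 51)⁻¹ := by
    have e : D.del ℝ ^ 2 * (D.S : ℝ) ^ 3 = ((D.S : ℝ) ^ 7677)⁻¹ := by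
      have e1 : ((D.S : ℝ) ^ 3840) ^ 2 = (D.S : ℝ) ^ 7677 * (D.S : ℝ) ^ 3 := by
        rw [← pow_mul, ← pow_add]
      have p2 : (0 : ℝ) < (D.S : ℝ) ^ 3 := by positivity
      rw [Des.del, inv_pow, e1, mul_inv, mul_assoc, inv_mul_cancel₀ p2.ne', mul_one]
    rw [mul_assoc, e]
    exact mul_inv_pow_le hs1 hS (by norm_num)
  have a2 : (2 : ℝ) * ((D.S : ℝ) ^ 51)⁻¹ ≤ ((D.S : ℝ) ^ 50)⁻¹ :=
    mul_inv_pow_le hs1 (by linarith) (by norm_num)
  have a3 := mul_le_mul_of_nonneg_left h2 (by positivity : 0 ≤ 4 * D.del ℝ ^ 2)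
  have a4 := mul_le_mul_of_nonneg_right a1 hm.le
  have a5 := mul_le_mul_of_nonneg_right a2 hm.le
  rw [← mul_assoc] at a3
  linarith

theorem rem_le_ind : ∀ᶠ D : Des in evD, ∀ x, rem D.phiT D.Om x ≤
    (D.box \ ⋃ A, D.Om A).indicator (fun x => 3 * (D.S : ℝ) / D.mass * D.rho x) x := by
  filter_upwards [ev_good, phiT_box, phiT_sq_le] with D hD h0 h1 x
  have hm := mass_pos hD
  unfold rem
  by_cases hx : x ∈ ⋃ A, D.Om A
  · rw [indicator_of_notMem (by simpa using hx), indicator_of_notMem fun h => h.2 hx]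
  rw [indicator_of_mem (show x ∈ (⋃ A, D.Om A)ᶜ from hx)]
  by_cases hb : x ∈ D.box
  · rw [indicator_of_mem (show x ∈ D.box \ ⋃ A, D.Om A from ⟨hb, hx⟩)]
    refine (Finset.sum_le_sum fun A _ => h1 A x).trans ?_
    rw [Finset.sum_const, Finset.card_univ, Fintype.card_prod, Fintype.card_fin, Fintype.card_fin,
      nsmul_eq_mul]
    push_cast
    have r0 : 0 ≤ D.rho x / D.mass := div_nonneg (sq_nonneg _) hm.le
    calc (D.n : ℝ) * 3 * (D.rho x / D.mass) ≤ D.S * 3 * (D.rho x / D.mass) := by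
          have := hD.n_le
          gcongr
      _ = _ := by ring
  · rw [indicator_of_notMem fun h => hb h.1]
    simp [h0 _ x hb]

theorem Mass_rem_nonneg (D : Des) (x : Pos3) : 0 ≤ rem D.phiT D.Om x :=
  indicator_nonneg (fun _ _ => Finset.sum_nonneg fun _ _ => sq_nonneg _) x

theorem rem_small : ∀ᶠ D : Des in evD, ∫ x, rem D.phiT D.Om x ≤ ((D.S : ℝ) ^ 40)⁻¹ := by
  filter_upwards [ev_good, ev_ge 3, rem_le_ind, mass_out] with D hD hS h1 h2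
  have hm := mass_pos hD
  have hs1 := hD.one_le
  have i1 : IntegrableOn (fun x => 3 * (D.S : ℝ) / D.mass * D.rho x) (D.box \ ⋃ A, D.Om A) :=
    ((continuous_const.mul (continuous_rho D)).continuousOn.integrableOn_compact
      (isCompact_bx _ _ _ _ _)).mono_set sdiff_subset
  refine (integral_mono_of_nonneg (Eventually.of_forall fun x => Mass_rem_nonneg D x)
    ((integrable_indicator_iff (Mass_meas D)).2 i1) (Eventually.of_forall h1)).trans ?_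
  rw [integral_indicator (Mass_meas D), integral_const_mul]
  refine (mul_le_mul_of_nonneg_left h2 (by positivity)).trans ?_
  have e : 3 * (D.S : ℝ) / D.mass * (((D.S : ℝ) ^ 50)⁻¹ * D.mass) = 3 * ((D.S : ℝ) ^ 49)⁻¹ := by
    field_simp
  rw [e]
  exact mul_inv_pow_le hs1 hS (by norm_num)

/-- A common bound for all densities. -/
theorem dens_le : ∀ᶠ D : Des in evD, ∀ A x, orb D.phiT D.Om A x ^ 2 + rem D.phiT D.Om x ≤
    D.box.indicator (fun x => 16 * (D.S : ℝ) / D.mass * D.phi (x 2) ^ 2) x := by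
  filter_upwards [ev_good, phiT_box, phiT_sq_le, rem_le_ind, Mass_F_le] with D hD h0 h1 h2 h4 A x
  have hm := mass_pos hD
  have hs1 := hD.one_le
  have o1 : orb D.phiT D.Om A x ^ 2 ≤ D.phiT A x ^ 2 := by
    unfold orb
    by_cases hx : x ∈ D.Om A
    · rw [indicator_of_mem hx]
    · rw [indicator_of_notMem hx, zero_pow two_ne_zero]; exact sq_nonneg _
  by_cases hb : x ∈ D.box
  · rw [indicator_of_mem hb]
    have r0 : 0 ≤ D.rho x := sq_nonneg _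
    have r1 : D.rho x ≤ 4 * D.phi (x 2) ^ 2 := by
      rw [rho_eq]
      exact mul_le_mul_of_nonneg_right (h4 _ _) (sq_nonneg _)
    have r2 : rem D.phiT D.Om x ≤ 3 * (D.S : ℝ) / D.mass * D.rho x :=
      (h2 x).trans (indicator_le_self' (fun y _ => mul_nonneg (by positivity) (sq_nonneg _)) x)
    have r3 : D.rho x / D.mass ≤ (D.S : ℝ) / D.mass * D.rho x := by
      rw [div_mul_eq_mul_div]
      exact div_le_div_of_nonneg_right (le_mul_of_one_le_left r0 hs1) hm.le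
    have r4 := mul_le_mul_of_nonneg_left r1 (by positivity : 0 ≤ (D.S : ℝ) / D.mass)
    have r5 := h1 A x
    have e1 : 3 * (D.S : ℝ) / D.mass * D.rho x = 3 * ((D.S : ℝ) / D.mass * D.rho x) := by ring
    have e2 : 16 * (D.S : ℝ) / D.mass * D.phi (x 2) ^ 2 =
        4 * ((D.S : ℝ) / D.mass * (4 * D.phi (x 2) ^ 2)) := by ring
    linarith
  · have r2 := h2 x
    rw [indicator_of_notMem fun h => hb h.1] at r2
    rw [indicator_of_notMem hb]
    rw [h0 A x hb, zero_pow two_ne_zero] at o1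
    linarith

end Crest.Agent.R338
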