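/-
R338/CoulC: the upper bound for the Coulomb integrals
Skeleton by helper15 (row 338); keep the statements unchanged, add any helper lemmas you like.
-/
import Crest.Agent.R338.CoulB
import Crest.Agent.R338.Mass
import Crest.Agent.R338.MBYesA

set_option autoImplicit false
set_option linter.unusedSectionVars false
set_option linter.unusedVariables false
set_option linter.unusedSimpArgs false

noncomputable section

namespace Crest.Agent.R338

open MeasureTheory Set Filter Crest.MathPhysics.ElectronicCoulomb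

theorem CoulC_loc (x : Pos3) : LocallyIntegrable fun y => Kn (x - y) := fun p =>
  ⟨Metric.ball p 1, Metric.ball_mem_nhds p one_pos, integrableOn_Kn x Metric.isBounded_ball⟩

theorem CoulC_int {g : Pos3 → ℝ} (hg : Nice g) (x : Pos3) : Integrable fun y => Kn (x - y) * g y :=
  hg.integrable_loc_mul (CoulC_loc x)

/-- `dens_le`, `pot_box_le` (with `h = 2 z1`), `int_phi_two`. -/
theorem pot_dens : ∀ᶠ D : Des in evD, ∀ A x,
    ∫ y, Kn (x - y) * (orb D.phiT D.Om A y ^ 2 + rem D.phiT D.Om y) ≤ (D.S : ℝ) ^ 2176 := by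
  filter_upwards [ev_good, ev_ge 640, dens_le, int_phi_two, orbs_D] with D hD h640 hd hi hO A x
  have hS := hD.pos
  have hm := mass_pos hD
  have hmz := mz_pos hD
  have hz := zw_phi hD
  have hw : ZW (fun z => D.phi z ^ 2) (2 * D.z1) (∫ z in (-(2 * D.z1))..(2 * D.z1), D.phi z ^ 2) :=
    ⟨hz.cont, hz.pos, hz.even, hz.anti, mul_pos two_pos hD.z1_pos, rfl⟩
  have h1 := pot_box_le hw hD.RR_pos x
  have hc : 0 ≤ 16 * (D.S : ℝ) / D.mass := div_nonneg (mul_pos (by norm_num) hS).le hm.le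
  have hnice : Nice (D.box.indicator fun y => D.phi (y 2) ^ 2) := by
    refine ⟨(((continuous_phi D).comp (by fun_prop)).pow 2).measurable.indicator
      (measurableSet_box D), ⟨4, fun y => ?_⟩, (isCompact_bx _ _ _ _ _).isBounded.subset
      support_indicator_subset⟩
    have h2 := phi_le hD (y 2)
    have h3 := phi_pos D (y 2)
    by_cases hy : y ∈ D.box
    · rw [indicator_of_mem hy, abs_of_nonneg (sq_nonneg _)]; nlinarith
    · rw [indicator_of_notMem hy]; norm_num
  have h2 : ∫ y, Kn (x - y) * (orb D.phiT D.Om A y ^ 2 + rem D.phiT D.Om y) ≤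
      ∫ y, 16 * (D.S : ℝ) / D.mass * (Kn (x - y) * D.box.indicator (fun y => D.phi (y 2) ^ 2) y) := by
    refine integral_mono (CoulC_int ((hO.on.nice A).sq.add hO.nice_rem) x)
      ((CoulC_int hnice x).const_mul _) fun y => ?_
    have h3 := mul_le_mul_of_nonneg_left (hd A y) (Kn_nonneg (x - y))
    refine h3.trans (le_of_eq ?_)
    by_cases hy : y ∈ D.box
    · simp only [indicator_of_mem hy]; ring
    · simp only [indicator_of_notMem hy]; ring
  have h3 : ∫ y, Kn (x - y) * D.box.indicator (fun y => D.phi (y 2) ^ 2) y =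
      ∫ y in D.box, Kn (x - y) * D.phi (y 2) ^ 2 := by
    rw [← integral_indicator (measurableSet_box D)]
    refine integral_congr_ae (Eventually.of_forall fun y => ?_)
    by_cases hy : y ∈ D.box
    · simp only [indicator_of_mem hy]
    · simp only [indicator_of_notMem hy, mul_zero]
  rw [integral_const_mul, h3] at h2
  have h4 : ((D.S : ℝ) ^ 100)⁻¹ ≤ 1 := inv_le_one_of_one_le₀ (one_le_pow₀ hD.one_le)
  have h5 : ∫ z in (-(2 * D.z1))..(2 * D.z1), D.phi z ^ 2 ≤ 2 * D.mz := by nlinarith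
  have h6 : ∫ y in D.box, Kn (x - y) * D.phi (y 2) ^ 2 ≤ 20 * D.RR * (2 * D.mz) :=
    h1.trans (mul_le_mul_of_nonneg_left h5 (mul_pos (by norm_num) hD.RR_pos).le)
  have h7 : D.ell ℝ ^ 2 * D.mz ≤ D.mass := by
    have := ell_sq_mz_le hD
    have h8 := mul_le_mul_of_nonneg_right hD.one_le_M (mul_nonneg (sq_nonneg (D.ell ℝ)) hmz.le)
    linarith
  have h8 : D.RR = D.ell ℝ ^ 2 * (D.S : ℝ) ^ 2174 := by
    unfold Des.RR Des.ell; field_simp
  have h9 : 16 * (D.S : ℝ) / D.mass * (20 * D.RR * (2 * D.mz)) ≤ 640 * (D.S : ℝ) ^ 2175 := by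
    rw [div_mul_eq_mul_div, div_le_iff₀ hm, h8]
    have h10 := mul_le_mul_of_nonneg_left h7 (mul_pos (by norm_num : (0 : ℝ) < 640)
      (pow_pos hS 2175)).le
    refine le_trans (le_of_eq ?_) h10
    ring
  exact h2.trans ((mul_le_mul_of_nonneg_left h6 hc).trans
    (h9.trans (mul_pow_le hD.one_le h640 (by norm_num))))

/-- A small density in a bounded potential (Fubini, `integrable_Kn_prod`). -/
theorem pair_small {f g : Pos3 → ℝ} (hf : Nice f) (hg : Nice g) (hf0 : ∀ x, 0 ≤ f x) {P : ℝ}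
    (hP : ∀ x, ∫ y, Kn (x - y) * g y ≤ P) :
    ∫ x, ∫ y, Kn (x - y) * (f x * g y) ≤ P * ∫ x, f x ∧
      ∫ x, ∫ y, Kn (x - y) * (g x * f y) ≤ P * ∫ x, f x := by
  have h1 : ∫ x, ∫ y, Kn (x - y) * (f x * g y) ≤ P * ∫ x, f x := by
    rw [← integral_const_mul]
    refine integral_mono (integrable_Kn_prod hf hg).integral_prod_left
      (hf.integrable.const_mul _) fun x => ?_
    have : ∫ y, Kn (x - y) * (f x * g y) = f x * ∫ y, Kn (x - y) * g y := by
      rw [← integral_const_mul]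
      exact integral_congr_ae (Eventually.of_forall fun y => by ring)
    simp only [this]
    rw [mul_comm P]
    exact mul_le_mul_of_nonneg_left (hP x) (hf0 x)
  refine ⟨h1, le_trans (le_of_eq ?_) h1⟩
  rw [integral_integral_swap (integrable_Kn_prod hg hf)]
  refine integral_congr_ae (Eventually.of_forall fun x => integral_congr_ae
    (Eventually.of_forall fun y => ?_))
  simp only [Kern_sub_comm y x]
  ring

/-- Expand the product; `vu_orb`, `pair_small`, `pot_dens`, `rem_small`. -/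
theorem vu_D : ∀ᶠ D : Des in evD, ∀ (kc : ℕ) (k : ℕ → ℕ → ℕ), D.Lay kc k →
    VU D.phiT D.Om (fun A B => D.v0 ℝ * Vlat D.UU kc k A B) ((D.S : ℝ) ^ 2149) := by
  filter_upwards [ev_good, ev_ge 10, vu_orb, pot_dens, rem_small, orbs_D]
    with D hD h10 hv hp hr hO kc k hL A B
  have hS := hD.pos
  have nA := (hO.on.nice A).sq
  have nB := (hO.on.nice B).sq
  have nr := hO.nice_rem
  have r0 := rem_nonneg D.phiT D.Om
  have h1 := hv kc k hL A B
  have hpA : ∀ x, ∫ y, Kn (x - y) * orb D.phiT D.Om A y ^ 2 ≤ (D.S : ℝ) ^ 2176 := fun x =>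
    le_trans (integral_mono (CoulC_int nA x) (CoulC_int (nA.add nr) x) fun y =>
      mul_le_mul_of_nonneg_left (le_add_of_nonneg_right (r0 y)) (Kn_nonneg _)) (hp A x)
  have h2 := (pair_small nr nA r0 hpA).2
  have h3 := (pair_small nr (nB.add nr) r0 (hp B)).1
  have i1 := integrable_Kn_prod nA nB
  have i2 := integrable_Kn_prod nA nr
  have i3 := integrable_Kn_prod nr (nB.add nr)
  have h4 : ∫ x, ∫ y, Kn (x - y) * ((orb D.phiT D.Om A x ^ 2 + rem D.phiT D.Om x) *
      (orb D.phiT D.Om B y ^ 2 + rem D.phiT D.Om y)) =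
      (∫ x, ∫ y, Kn (x - y) * (orb D.phiT D.Om A x ^ 2 * orb D.phiT D.Om B y ^ 2)) +
      (∫ x, ∫ y, Kn (x - y) * (orb D.phiT D.Om A x ^ 2 * rem D.phiT D.Om y)) +
      ∫ x, ∫ y, Kn (x - y) * (rem D.phiT D.Om x *
        (orb D.phiT D.Om B y ^ 2 + rem D.phiT D.Om y)) := by
    rw [← integral_prod _ i1, ← integral_prod _ i2, ← integral_prod _ i3,
      ← integral_prod _ (integrable_Kn_prod (nA.add nr) (nB.add nr)), ← Measure.volume_eq_prod,
      ← integral_add i1 i2]
    refine Eq.trans ?_ (integral_add (i1.add i2) i3)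
    exact integral_congr_ae (Eventually.of_forall fun p => by simp only [Pi.add_apply]; ring)
  have h5 : (D.S : ℝ) ^ 2176 * ∫ x, rem D.phiT D.Om x ≤ (D.S : ℝ) ^ 2148 := by
    refine (mul_le_mul_of_nonneg_left hr (pow_pos hS _).le).trans ?_
    have : (D.S : ℝ) ^ 2176 * ((D.S : ℝ) ^ 40)⁻¹ = (D.S : ℝ) ^ 2136 := by field_simp
    rw [this]
    exact pow_le_pow_right₀ hD.one_le (by norm_num)
  have h6 := mul_pow_le (a := 2148) (b := 2149) hD.one_le h10 (by norm_num)
  show _ ≤ D.v0 ℝ * Vlat D.UU kc k A B + _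
  rw [h4]
  linarith

end Crest.Agent.R338
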