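/-
R338/LatA: second quantisation on antisymmetric coefficient vectors
Skeleton by helper15 (row 338); keep the statements unchanged, add any helper lemmas you like.
-/
import Crest.Agent.R338.Pauli

set_option autoImplicit false
set_option linter.unusedSectionVars false
set_option linter.unusedVariables false
set_option linter.unusedSimpArgs false

noncomputable section

namespace Crest.Agent.R338

open scoped Matrix

variable {M : Type} [Fintype M] [DecidableEq M] {N : ℕ}

/-- A one-particle matrix acting on the particle `i`. -/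
def slot (i : Fin N) (B : Matrix M M ℝ) : Module.End ℝ ((Fin N → M) → ℝ) where
  toFun c x := ∑ m, B (x i) m * c (Function.update x i m)
  map_add' φ ψ := by ext x; simp [mul_add, Finset.sum_add_distrib]
  map_smul' a ψ := by ext x; simp [Finset.mul_sum, mul_left_comm]

/-- The second quantisation of a matrix. -/
def dG (B : Matrix M M ℝ) : Module.End ℝ ((Fin N → M) → ℝ) := ∑ i, slot i B

theorem slot_apply (i : Fin N) (B : Matrix M M ℝ) (c : (Fin N → M) → ℝ) (x : Fin N → M) :
    slot i B c x = ∑ m, B (x i) m * c (Function.update x i m) := rfl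

theorem slot_mul (i : Fin N) (B B' : Matrix M M ℝ) : slot i (B * B') = slot i B * slot i B' := by
  refine LinearMap.ext fun c => funext fun x => ?_
  simp only [Module.End.mul_apply, slot_apply, Matrix.mul_apply, Function.update_self,
    Function.update_idem, Finset.sum_mul, Finset.mul_sum, mul_assoc]
  exact Finset.sum_comm

theorem slot_one (i : Fin N) : slot i (1 : Matrix M M ℝ) = 1 := by
  refine LinearMap.ext fun c => funext fun x => ?_
  simp [slot_apply, Matrix.one_apply]

theorem slot_zero (i : Fin N) : slot i (0 : Matrix M M ℝ) = 0 := by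
  refine LinearMap.ext fun c => funext fun x => ?_
  simp [slot_apply]

theorem slot_add (i : Fin N) (B B' : Matrix M M ℝ) : slot i (B + B') = slot i B + slot i B' := by
  refine LinearMap.ext fun c => funext fun x => ?_
  simp [slot_apply, add_mul, Finset.sum_add_distrib]

theorem slot_sub (i : Fin N) (B B' : Matrix M M ℝ) : slot i (B - B') = slot i B - slot i B' := by
  refine LinearMap.ext fun c => funext fun x => ?_
  simp [slot_apply, sub_mul, Finset.sum_sub_distrib]

theorem slot_smul (i : Fin N) (a : ℝ) (B : Matrix M M ℝ) : slot i (a • B) = a • slot i B := by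
  refine LinearMap.ext fun c => funext fun x => ?_
  simp [slot_apply, Finset.mul_sum, mul_assoc]

theorem slot_sum {κ : Type} (i : Fin N) (s : Finset κ) (B : κ → Matrix M M ℝ) :
    slot i (∑ k ∈ s, B k) = ∑ k ∈ s, slot i (B k) := by
  classical
  induction s using Finset.induction_on with
  | empty => simp [slot_zero]
  | insert a s ha ih => rw [Finset.sum_insert ha, Finset.sum_insert ha, slot_add, ih]

theorem slot_diagonal (i : Fin N) (d : M → ℝ) :
    slot i (Matrix.diagonal d) = diagOp fun x : Fin N → M => d (x i) := by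
  refine LinearMap.ext fun c => funext fun x => ?_
  simp [slot_apply, Matrix.diagonal_apply]

theorem commute_slot {i j : Fin N} (h : i ≠ j) (B B' : Matrix M M ℝ) :
    Commute (slot i B) (slot j B') := by
  refine LinearMap.ext fun c => funext fun x => ?_
  simp only [Module.End.mul_apply, slot_apply, Function.update_of_ne h, Function.update_of_ne h.symm,
    Finset.mul_sum]
  rw [Finset.sum_comm]
  refine Finset.sum_congr rfl fun m _ => Finset.sum_congr rfl fun m' _ => ?_
  rw [Function.update_comm h]
  ring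

theorem commute_slot' (i j : Fin N) {B B' : Matrix M M ℝ} (h : B * B' = B' * B) :
    Commute (slot i B) (slot j B') := by
  by_cases hij : i = j
  · subst hij
    change _ * _ = _ * _
    rw [← slot_mul, ← slot_mul, h]
  · exact commute_slot hij B B'

theorem dot_slot (i : Fin N) (B : Matrix M M ℝ) (φ ψ : (Fin N → M) → ℝ) :
    slot i B φ ⬝ᵥ ψ = φ ⬝ᵥ slot i Bᵀ ψ := by
  have inv : Function.Involutive
      (fun p : (Fin N → M) × M => (Function.update p.1 i p.2, p.1 i)) := by
    intro p; simp
  simp only [dotProduct, slot_apply, Finset.sum_mul, Finset.mul_sum, Matrix.transpose_apply]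
  rw [← Finset.sum_product', ← Finset.sum_product', Finset.univ_product_univ,
    ← Equiv.sum_comp inv.toPerm]
  refine Finset.sum_congr rfl fun p _ => ?_
  simp only [Function.Involutive.coe_toPerm, Function.update_self, Function.update_idem,
    Function.update_eq_self]
  ring

theorem dot_dG (B : Matrix M M ℝ) (φ ψ : (Fin N → M) → ℝ) : dG B φ ⬝ᵥ ψ = φ ⬝ᵥ dG Bᵀ ψ := by
  simp only [dG, LinearMap.sum_apply, sum_dotProduct, dotProduct_sum, dot_slot]

theorem dG_add (B B' : Matrix M M ℝ) : (dG (B + B') : Module.End ℝ ((Fin N → M) → ℝ)) = dG B + dG B' := by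
  simp only [dG, slot_add, Finset.sum_add_distrib]

theorem dG_smul (a : ℝ) (B : Matrix M M ℝ) :
    (dG (a • B) : Module.End ℝ ((Fin N → M) → ℝ)) = a • dG B := by
  simp only [dG, slot_smul, Finset.smul_sum]

theorem dG_sum {κ : Type} (s : Finset κ) (B : κ → Matrix M M ℝ) :
    (dG (∑ k ∈ s, B k) : Module.End ℝ ((Fin N → M) → ℝ)) = ∑ k ∈ s, dG (B k) := by
  simp only [dG, slot_sum]
  exact Finset.sum_comm

theorem commute_dG {B B' : Matrix M M ℝ} (h : B * B' = B' * B) :
    Commute (dG B : Module.End ℝ ((Fin N → M) → ℝ)) (dG B') := by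
  exact Commute.sum_left _ _ _ fun i _ => Commute.sum_right _ _ _ fun j _ => commute_slot' i j h

/-- Equivariance under relabelling of the particles. -/
theorem slot_comp_perm (σ : Equiv.Perm (Fin N)) (i : Fin N) (B : Matrix M M ℝ)
    (c : (Fin N → M) → ℝ) :
    slot (σ i) B (fun x => c (x ∘ σ)) = fun x => slot i B c (x ∘ σ) := by
  funext x
  simp only [slot_apply, Function.comp_apply]
  refine Finset.sum_congr rfl fun m _ => ?_
  rw [Function.update_comp_eq_of_injective x σ.injective]

theorem dG_comp_perm (σ : Equiv.Perm (Fin N)) (B : Matrix M M ℝ) (c : (Fin N → M) → ℝ) :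
    dG B (fun x => c (x ∘ σ)) = fun x => dG B c (x ∘ σ) := by
  funext x
  simp only [dG, LinearMap.sum_apply, Finset.sum_apply]
  rw [← Equiv.sum_comp σ]
  refine Finset.sum_congr rfl fun i _ => ?_
  rw [slot_comp_perm]

theorem Anti.dG {c : (Fin N → M) → ℝ} (h : Anti c) (B : Matrix M M ℝ) : Anti (dG B c) := by
  intro σ x
  have h1 := congrFun (dG_comp_perm σ B c) x
  have h2 : (fun x => c (x ∘ σ)) = ((Equiv.Perm.sign σ : ℤ) : ℝ) • c := funext fun x => h σ x
  rw [h2, map_smul] at h1
  exact h1.symm

theorem Anti.add {c c' : (Fin N → M) → ℝ} (h : Anti c) (h' : Anti c') : Anti (c + c') := by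
  intro σ x
  simp only [Pi.add_apply, h σ x, h' σ x, mul_add]

theorem Anti.sub {c c' : (Fin N → M) → ℝ} (h : Anti c) (h' : Anti c') : Anti (c - c') := by
  intro σ x
  simp only [Pi.sub_apply, h σ x, h' σ x, mul_sub]

theorem Anti.smul {c : (Fin N → M) → ℝ} (h : Anti c) (a : ℝ) : Anti (a • c) := by
  intro σ x
  simp only [Pi.smul_apply, smul_eq_mul, h σ x]
  ring

theorem Anti.diagOp {c d : (Fin N → M) → ℝ} (h : Anti c)
    (hd : ∀ (σ : Equiv.Perm (Fin N)) x, d (x ∘ σ) = d x) : Anti (diagOp d c) := by
  intro σ x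
  simp only [diagOp_apply, h σ x, hd σ x]
  ring

theorem Anti.injective {c : (Fin N → M) → ℝ} (h : Anti c) {x : Fin N → M} (hx : c x ≠ 0) :
    Function.Injective x := by
  intro i j hij
  by_contra hne
  have h1 := h (Equiv.swap i j) x
  have h2 : x ∘ Equiv.swap i j = x := by
    funext k
    simp only [Function.comp_apply, Equiv.swap_apply_def]
    split_ifs with h1 h2
    · rw [h1, hij]
    · rw [h2, hij]
    · rfl
  rw [h2, Equiv.Perm.sign_swap hne] at h1
  apply hx
  push_cast at h1
  linarith

/-- The antisymmetrisation of an arbitrary vector. -/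
theorem anti_sum (g : (Fin N → M) → ℝ) :
    Anti fun x => ∑ σ : Equiv.Perm (Fin N), ((Equiv.Perm.sign σ : ℤ) : ℝ) * g (x ∘ σ) := by
  intro τ x
  simp only [Finset.mul_sum]
  symm
  rw [← Equiv.sum_comp (Equiv.mulLeft τ)]
  refine Finset.sum_congr rfl fun σ _ => ?_
  have h1 : ((Equiv.Perm.sign τ : ℤ) : ℝ) * ((Equiv.Perm.sign τ : ℤ) : ℝ) = 1 := by
    rcases Int.units_eq_one_or (Equiv.Perm.sign τ) with h | h <;> simp [h]
  simp only [Equiv.coe_mulLeft, Equiv.Perm.sign_mul, Units.val_mul, Int.cast_mul,
    Equiv.Perm.coe_mul, Function.comp_assoc]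
  rw [← mul_assoc, ← mul_assoc, h1, one_mul]

theorem latA_cancel {c : (Fin N → M) → ℝ} (h : Anti c) (e f g : M → ℝ) {i j : Fin N} (hij : i ≠ j) :
    slot i (Matrix.vecMulVec e f) (slot j (Matrix.vecMulVec e g) c) =
      -slot j (Matrix.vecMulVec e f) (slot i (Matrix.vecMulVec e g) c) := by
  funext x
  simp only [Pi.neg_apply, slot_apply, Matrix.vecMulVec_apply, Function.update_of_ne hij,
    Function.update_of_ne hij.symm, Finset.mul_sum, ← Finset.sum_neg_distrib]
  refine Finset.sum_congr rfl fun m _ => Finset.sum_congr rfl fun m' _ => ?_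
  have h1 := h (Equiv.swap i j) (Function.update (Function.update x i m) j m')
  have h2 : Function.update (Function.update x i m) j m' ∘ Equiv.swap i j =
      Function.update (Function.update x j m) i m' := by
    funext k
    simp only [Function.comp_apply, Equiv.swap_apply_def]
    split_ifs with h1 h2
    · subst h1; simp
    · subst h2; simp [Function.update_of_ne hij, Function.update_of_ne hij.symm]
    · simp [Function.update_of_ne h1, Function.update_of_ne h2]
  rw [h2, Equiv.Perm.sign_swap hij] at h1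
  rw [h1]
  push_cast
  ring

/-- The exclusion principle: the terms `(i, j)` and `(j, i)`, `i ≠ j`, cancel (swap `i`, `j`). -/
theorem dG_dG {c : (Fin N → M) → ℝ} (h : Anti c) (e f g : M → ℝ) :
    dG (Matrix.vecMulVec e f) (dG (Matrix.vecMulVec e g) c) =
      (f ⬝ᵥ e) • dG (Matrix.vecMulVec e g) c := by
  set T : Fin N → Fin N → (Fin N → M) → ℝ := fun i j =>
    slot i (Matrix.vecMulVec e f) (slot j (Matrix.vecMulVec e g) c) with hT
  have h1 : dG (Matrix.vecMulVec e f) (dG (Matrix.vecMulVec e g) c) = ∑ i, ∑ j, T i j := by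
    simp only [dG, LinearMap.sum_apply, map_sum, hT]
    exact Finset.sum_comm
  have h2 : (f ⬝ᵥ e) • dG (Matrix.vecMulVec e g) c = ∑ i, T i i := by
    simp only [dG, LinearMap.sum_apply, Finset.smul_sum, hT]
    refine Finset.sum_congr rfl fun i _ => ?_
    rw [← Module.End.mul_apply, ← slot_mul, Matrix.vecMulVec_mul_vecMulVec, Matrix.vecMulVec_smul,
      slot_smul, LinearMap.smul_apply]
  have h3 : ∀ i j, T i j + T j i = if i = j then (2 : ℝ) • T i i else 0 := by
    intro i j
    split_ifs with hij
    · subst hij; rw [two_smul]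
    · simp only [hT]; rw [latA_cancel h e f g hij]; abel
  have h4 : (2 : ℝ) • ∑ i, ∑ j, T i j = (2 : ℝ) • ∑ i, T i i := by
    rw [two_smul]
    nth_rewrite 2 [Finset.sum_comm]
    simp only [← Finset.sum_add_distrib, h3, Finset.sum_ite_eq, Finset.mem_univ, if_true,
      Finset.smul_sum]
  rw [h1, h2]
  exact smul_right_injective _ (two_ne_zero) h4

/-- Commuting projections on the antisymmetric vectors.  Recipe: induction on `s`; if `p` works for
`s` then `P a p` works for `insert a s` (`c - P a p = (c - P a c) + P a (c - p)`, an orthogonal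
sum).  Strengthen the third property to `∀ q, (∀ a ∈ s, P a q = q) → c ⬝ᵥ q = p ⬝ᵥ q`. -/
theorem exists_common_fixed {κ : Type} [DecidableEq κ] (s : Finset κ)
    (P : κ → Module.End ℝ ((Fin N → M) → ℝ)) (hs : ∀ a, SA (P a))
    (hc : ∀ a b, Commute (P a) (P b)) (ha : ∀ a c, Anti c → Anti (P a c))
    (hi : ∀ a c, Anti c → P a (P a c) = P a c) {c : (Fin N → M) → ℝ} (h : Anti c) :
    ∃ p, Anti p ∧ (∀ a ∈ s, P a p = p) ∧ c ⬝ᵥ p = nsq p ∧
      nsq (c - p) ≤ ∑ a ∈ s, (nsq c - c ⬝ᵥ P a c) := by
  have key : ∀ a d, Anti d → nsq (P a d) = d ⬝ᵥ P a d := by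
    intro a d hd
    rw [nsq, hs a, hi a d hd]
  have key2 : ∀ a d, Anti d → nsq (d - P a d) = nsq d - d ⬝ᵥ P a d := by
    intro a d hd
    rw [nsq_sub, key a d hd]; ring
  suffices H : ∃ p, Anti p ∧ (∀ a ∈ s, P a p = p) ∧
      (∀ q, (∀ a ∈ s, P a q = q) → c ⬝ᵥ q = p ⬝ᵥ q) ∧
      nsq (c - p) ≤ ∑ a ∈ s, (nsq c - c ⬝ᵥ P a c) by
    obtain ⟨p, h1, h2, h3, h4⟩ := H
    exact ⟨p, h1, h2, h3 p h2, h4⟩
  induction s using Finset.induction_on with
  | empty => exact ⟨c, h, by simp, fun _ _ => rfl, by simp [nsq]⟩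
  | insert a s has ih =>
    obtain ⟨p, h1, h2, h3, h4⟩ := ih
    refine ⟨P a p, ha a p h1, fun b hb => ?_, fun q hq => ?_, ?_⟩
    · rcases Finset.mem_insert.1 hb with rfl | hb
      · exact hi _ p h1
      · rw [← Module.End.mul_apply, (hc b a).eq, Module.End.mul_apply, h2 b hb]
    · rw [h3 q fun b hb => hq b (Finset.mem_insert_of_mem hb), hs a,
        hq a (Finset.mem_insert_self a s)]
    · rw [Finset.sum_insert has]
      have e1 : c - P a p = (c - P a c) + P a (c - p) := by rw [map_sub]; abel
      have e2 : (c - P a c) ⬝ᵥ P a (c - p) = 0 := by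
        rw [← hs a, map_sub, hi a c h, sub_self, zero_dotProduct]
      have e3 : nsq (P a (c - p)) ≤ nsq (c - p) := by
        have := nsq_nonneg ((c - p) - P a (c - p))
        rw [key2 a _ (h.sub h1)] at this
        rw [key a _ (h.sub h1)]
        linarith
      rw [e1, nsq_add, e2, key2 a c h]
      linarith

end Crest.Agent.R338
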