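/-
R338/LatB: filled cores and the exchange formula
Skeleton by helper15 (row 338); keep the statements unchanged, add any helper lemmas you like.
-/
import Crest.Agent.R338.LatA

set_option autoImplicit false
set_option linter.unusedSectionVars false
set_option linter.unusedVariables false
set_option linter.unusedSimpArgs false

noncomputable section

namespace Crest.Agent.R338

open scoped Matrix

variable {n N : ℕ}

/-- The core orbital of spin `b.1` of the qubit `b.2`. -/
def core (b : Fin 2 × Fin n) (m : Mode n) : ℝ := if m.1 = b.1 ∧ m.2.1 = b.2 then (√3)⁻¹ else 0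

/-- The block of a mode. -/
def blk (m : Mode n) : Fin 2 × Fin n := (m.1, m.2.1)

/-- The component of the mode `m₀` in the doublet. -/
def xiV (m₀ m : Mode n) : ℝ := if blk m = blk m₀ then (if m = m₀ then 2 / 3 else -1 / 3) else 0

/-- The occupation number of a core orbital. -/
def Ne (b : Fin 2 × Fin n) : Module.End ℝ ((Fin N → Mode n) → ℝ) :=
  dG (Matrix.vecMulVec (core b) (core b))

/-- The projected occupation number of a mode. -/
def nu (m : Mode n) : Module.End ℝ ((Fin N → Mode n) → ℝ) := dG (Matrix.vecMulVec (xiV m) (xiV m))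

/-- The occupation number of a mode. -/
def nn (m : Mode n) : Module.End ℝ ((Fin N → Mode n) → ℝ) :=
  diagOp fun x => ((Finset.univ.filter fun i => x i = m).card : ℝ)

/-- The number of particles in the qubit `j`. -/
def cnt (x : Fin N → Mode n) (j : Fin n) : ℕ := (Finset.univ.filter fun i => (x i).2.1 = j).card

/-- All core orbitals are occupied. -/
def Filled (p : (Fin N → Mode n) → ℝ) : Prop := Anti p ∧ ∀ b, Ne b p = p

theorem LatB_core (b : Fin 2 × Fin n) (m : Mode n) :
    core b m = if blk m = b then (√3)⁻¹ else 0 := by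
  simp only [core, blk, Prod.ext_iff]

theorem LatB_s : (√3 : ℝ)⁻¹ * (√3)⁻¹ = 1 / 3 := by
  rw [← mul_inv, Real.mul_self_sqrt (by norm_num), one_div]

theorem LatB_sum_blk (b : Fin 2 × Fin n) (f : Mode n → ℝ) :
    ∑ m, (if blk m = b then f m else 0) = ∑ r : Fin 3, f (b.1, b.2, r) := by
  obtain ⟨s, j⟩ := b
  simp only [Fintype.sum_prod_type, blk, Prod.mk.injEq, ite_and]
  simp only [Finset.sum_ite_irrel, Finset.sum_const_zero, Finset.sum_ite_eq', Finset.mem_univ,
    if_true]
  rw [Finset.sum_eq_single j (fun a _ h => by simp [h]) (by simp)]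
  simp

theorem LatB_core_core (b b' : Fin 2 × Fin n) :
    core b ⬝ᵥ core b' = if b = b' then 1 else 0 := by
  simp only [dotProduct, LatB_core b, ite_mul, zero_mul]
  rw [LatB_sum_blk b fun m => (√3)⁻¹ * core b' m]
  simp only [LatB_core, blk]
  split_ifs
  · simp [LatB_s]
  · simp

theorem LatB_xiV (m : Mode n) : xiV m = Pi.single m 1 - (√3 : ℝ)⁻¹ • core (blk m) := by
  funext a
  simp only [xiV, Pi.sub_apply, Pi.smul_apply, smul_eq_mul, LatB_core, Pi.single_apply]
  by_cases h : a = m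
  · simp only [h, if_true, LatB_s]
    norm_num
  · split_ifs
    · rw [LatB_s]
      norm_num
    · simp

theorem LatB_core_xiV (b : Fin 2 × Fin n) (m : Mode n) : core b ⬝ᵥ xiV m = 0 := by
  rw [LatB_xiV, dotProduct_sub, dotProduct_smul, dotProduct_single, LatB_core_core, LatB_core]
  simp [eq_comm]

theorem LatB_xiV_xiV (m m' : Mode n) : xiV m ⬝ᵥ xiV m' = xiV m' m := by
  rw [LatB_xiV m, sub_dotProduct, smul_dotProduct, LatB_core_xiV, single_dotProduct]
  simp

theorem LatB_commute {e f e' f' : Mode n → ℝ} (h : f ⬝ᵥ e' = 0) (h' : f' ⬝ᵥ e = 0) :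
    Commute (dG (Matrix.vecMulVec e f) : Module.End ℝ ((Fin N → Mode n) → ℝ))
      (dG (Matrix.vecMulVec e' f')) :=
  commute_dG (by simp [Matrix.vecMulVec_mul_vecMulVec, h, h'])

theorem LatB_SA (e : Mode n → ℝ) :
    SA (dG (Matrix.vecMulVec e e) : Module.End ℝ ((Fin N → Mode n) → ℝ)) := fun φ ψ => by
  rw [dot_dG, Matrix.transpose_vecMulVec]

/-- the projection on the cores -/
def LatB_PP (n : ℕ) : Matrix (Mode n) (Mode n) ℝ := ∑ b, Matrix.vecMulVec (core b) (core b)

theorem LatB_PP_apply (a m : Mode n) : LatB_PP n a m = if blk m = blk a then 1 / 3 else 0 := by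
  simp only [LatB_PP, Matrix.sum_apply, Matrix.vecMulVec_apply, LatB_core, ite_mul, zero_mul,
    Finset.sum_ite_eq, Finset.mem_univ, if_true, mul_ite, mul_zero, LatB_s, eq_comm (a := blk a)]

theorem LatB_PP_T : (LatB_PP n)ᵀ = LatB_PP n := by
  simp only [LatB_PP, Matrix.transpose_sum, Matrix.transpose_vecMulVec]

theorem LatB_PP_mul : LatB_PP n * LatB_PP n = LatB_PP n := by
  simp only [LatB_PP, Finset.sum_mul, Finset.mul_sum, Matrix.vecMulVec_mul_vecMulVec,
    LatB_core_core]
  refine Finset.sum_congr rfl fun b _ => ?_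
  rw [Finset.sum_eq_single b (fun a _ h => by simp [h]) (by simp)]
  simp

theorem LatB_dG_PP (c : (Fin N → Mode n) → ℝ) : c ⬝ᵥ dG (LatB_PP n) c = ∑ b, c ⬝ᵥ Ne b c := by
  rw [LatB_PP, dG_sum, LinearMap.sum_apply, dotProduct_sum]
  rfl

theorem LatB_sum_Ne {p : (Fin N → Mode n) → ℝ} (h : Filled p) :
    ∑ b, p ⬝ᵥ Ne b p = 2 * n * nsq p := by
  simp [h.2, nsq]

theorem LatB_nn (m : Mode n) : (nn m : Module.End ℝ ((Fin N → Mode n) → ℝ)) =
    dG (Matrix.vecMulVec (Pi.single m 1) (Pi.single m 1)) := by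
  have e : Matrix.vecMulVec (Pi.single m (1 : ℝ)) (Pi.single m 1) =
      Matrix.diagonal (Pi.single m 1) := by
    ext a b
    simp only [Matrix.vecMulVec_apply, Matrix.diagonal_apply, Pi.single_apply]
    split_ifs <;> simp_all
  rw [e, dG]
  refine LinearMap.ext fun c => funext fun x => ?_
  simp only [slot_diagonal, nn, LinearMap.sum_apply, Finset.sum_apply, diagOp_apply,
    Pi.single_apply, ← Finset.sum_mul, Finset.sum_boole]

theorem LatB_nn_dot (m : Mode n) {p q : (Fin N → Mode n) → ℝ} (hp : Anti p) (hq : Anti q)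
    (hp' : Ne (blk m) p = p) (hq' : Ne (blk m) q = q) :
    p ⬝ᵥ nn m q = p ⬝ᵥ ((1 / 3 : ℝ) • 1 + nu m) q := by
  have hA : ∀ r : (Fin N → Mode n) → ℝ, Anti r → Ne (blk m) r = r →
      dG (Matrix.vecMulVec (core (blk m)) (xiV m)) r = 0 := fun r hr hr' => by
    rw [← hr', Ne, dG_dG hr, dotProduct_comm, LatB_core_xiV, zero_smul]
  have hB : p ⬝ᵥ dG (Matrix.vecMulVec (xiV m) (core (blk m))) q = 0 := by
    rw [← Matrix.transpose_vecMulVec, ← dot_dG, hA p hp hp', zero_dotProduct]
  have e : Pi.single m 1 = (√3 : ℝ)⁻¹ • core (blk m) + xiV m := by rw [LatB_xiV, add_sub_cancel]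
  rw [LatB_nn, e]
  simp only [Matrix.add_vecMulVec, Matrix.vecMulVec_add, Matrix.smul_vecMulVec,
    Matrix.vecMulVec_smul, dG_add, dG_smul, LinearMap.add_apply, LinearMap.smul_apply,
    dotProduct_add, dotProduct_smul, hA q hq hq', hB, smul_smul, LatB_s, smul_zero, add_zero,
    Module.End.one_apply, dotProduct_zero, zero_add]
  rw [show dG (Matrix.vecMulVec (core (blk m)) (core (blk m))) q = q from hq']
  rfl

theorem SA_Ne (b : Fin 2 × Fin n) : SA (Ne b : Module.End ℝ ((Fin N → Mode n) → ℝ)) := by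
  exact LatB_SA _

theorem SA_nu (m : Mode n) : SA (nu m : Module.End ℝ ((Fin N → Mode n) → ℝ)) := by
  exact LatB_SA _

/-- `avgR i = slot i (∑ b, core b ⊗ core b)` is an orthogonal projection. -/
theorem latT_eq (c : (Fin N → Mode n) → ℝ) : latT c = N * nsq c - ∑ b, c ⬝ᵥ Ne b c := by
  have e1 : ∀ i x, avgR i c x = slot i (LatB_PP n) c x := fun i x => by
    simp only [slot_apply, LatB_PP_apply, ite_mul, zero_mul]
    rw [LatB_sum_blk (blk (x i)) fun m => 1 / 3 * c (Function.update x i m), ← Finset.mul_sum, avgR]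
    simp only [blk]
    ring
  have e2 : ∀ i, ∑ x, (c x - avgR i c x) ^ 2 = nsq c - c ⬝ᵥ slot i (LatB_PP n) c := fun i => by
    have e3 : nsq (slot i (LatB_PP n) c) = c ⬝ᵥ slot i (LatB_PP n) c := by
      rw [nsq, dot_slot, LatB_PP_T, ← Module.End.mul_apply, ← slot_mul, LatB_PP_mul]
    have e4 := nsq_sub c (slot i (LatB_PP n) c)
    rw [nsq_eq, e3] at e4
    simp only [e1]
    simp only [Pi.sub_apply] at e4
    linarith
  rw [← LatB_dG_PP, latT, dG, LinearMap.sum_apply, dotProduct_sum]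
  simp [e2]

theorem latT_filled (hN : N = 3 * n) {p : (Fin N → Mode n) → ℝ} (h : Filled p) :
    latT p = n * nsq p := by
  rw [latT_eq, LatB_sum_Ne h, show (N : ℝ) = 3 * n by exact_mod_cast hN]
  ring

/-- `exists_common_fixed`, `dG_dG`. -/
theorem exists_filled (hN : N = 3 * n) {c : (Fin N → Mode n) → ℝ} (h : Anti c) :
    ∃ p, Filled p ∧ c ⬝ᵥ p = nsq p ∧ n * nsq c + nsq (c - p) ≤ latT c := by
  obtain ⟨p, h1, h2, h3, h4⟩ := exists_common_fixed Finset.univ Ne SA_Ne
    (fun a b => by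
      by_cases hab : a = b
      · rw [hab]
      · exact LatB_commute (by simp [LatB_core_core, hab]) (by simp [LatB_core_core, Ne.symm hab]))
    (fun a c hc => hc.dG _)
    (fun a c hc => by rw [Ne, dG_dG hc, LatB_core_core, if_pos rfl, one_smul]) h
  refine ⟨p, ⟨h1, fun b => h2 b (Finset.mem_univ b)⟩, h3, ?_⟩
  rw [latT_eq, show (N : ℝ) = 3 * n by exact_mod_cast hN]
  simp only [Finset.sum_sub_distrib, Finset.sum_const, Finset.card_univ, Fintype.card_prod,
    Fintype.card_fin, nsmul_eq_mul] at h4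
  push_cast at h4 ⊢
  linarith

/-- Functions of the qubit labels commute with all block-diagonal one-particle operators. -/
theorem Filled.diagOp {p : (Fin N → Mode n) → ℝ} (h : Filled p) (d : (Fin n → ℕ) → ℝ) :
    Filled (diagOp (fun x => d (cnt x)) p) := by
  refine ⟨h.1.diagOp fun σ x => ?_, fun b => funext fun x => ?_⟩
  · congr 1
    funext j
    exact Finset.card_equiv σ (by simp)
  · conv_rhs => rw [← h.2 b]
    simp only [Ne, dG, LinearMap.sum_apply, Finset.sum_apply, slot_apply, diagOp_apply,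
      Finset.mul_sum, Matrix.vecMulVec_apply]
    refine Finset.sum_congr rfl fun i _ => Finset.sum_congr rfl fun m _ => ?_
    by_cases hm : (x i).2.1 = m.2.1
    · have e : cnt (Function.update x i m) = cnt x := by
        funext j
        refine congrArg Finset.card (Finset.filter_congr fun k _ => ?_)
        by_cases hk : k = i
        · rw [hk, Function.update_self, hm]
        · rw [Function.update_of_ne hk]
      rw [e]
      ring
    · have e : core b (x i) * core b m = 0 := by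
        simp only [core]
        split_ifs with h1 h2
        · exact absurd (h1.2.trans h2.2.symm) hm
        all_goals simp
      rw [e]
      ring

/-- Recipe: `nn m = dG (δ ⊗ δ)`, `δ = core / √3 + ξ`, so
`nn m = Ne / 3 + (dG (core ⊗ ξ) + dG (ξ ⊗ core)) / √3 + nu m`.  `dG (core ⊗ ξ) p = 0` by `dG_dG`
(`p = Ne p`).  Operators of different blocks commute (`commute_dG`, both products vanish); move
`dG (ξ ⊗ core)` to the other side with `dot_dG`. -/
theorem exchange {p : (Fin N → Mode n) → ℝ} (h : Filled p) {m m' : Mode n} (hm : blk m ≠ blk m') :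
    p ⬝ᵥ nn m (nn m' p) = p ⬝ᵥ ((1 / 3 : ℝ) • 1 + nu m) (((1 / 3 : ℝ) • 1 + nu m') p) := by
  have hS : SA ((1 / 3 : ℝ) • 1 + nu m : Module.End ℝ ((Fin N → Mode n) → ℝ)) :=
    (SA.one.smul _).add (SA_nu m)
  have c1 : Commute (Ne (blk m) : Module.End ℝ ((Fin N → Mode n) → ℝ)) (nn m') := by
    rw [LatB_nn]
    exact LatB_commute (by simp [LatB_core, hm.symm]) (by simp [LatB_core, hm.symm])
  have c2 : Commute (Ne (blk m') : Module.End ℝ ((Fin N → Mode n) → ℝ))
      ((1 / 3 : ℝ) • 1 + nu m) :=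
    ((Commute.one_right _).smul_right _).add_right (LatB_commute (LatB_core_xiV _ _)
      ((dotProduct_comm _ _).trans (LatB_core_xiV _ _)))
  have a1 : Anti (nn m' p) := by
    rw [LatB_nn]
    exact h.1.dG _
  have a2 : Anti (((1 / 3 : ℝ) • 1 + nu m : Module.End ℝ ((Fin N → Mode n) → ℝ)) p) :=
    (h.1.smul _).add (h.1.dG _)
  rw [LatB_nn_dot m h.1 a1 (h.2 _) (by
      rw [← Module.End.mul_apply, c1.eq, Module.End.mul_apply, h.2]), ← hS, ← hS]
  exact LatB_nn_dot m' a2 h.1 (by
    rw [← Module.End.mul_apply, c2.eq, Module.End.mul_apply, h.2]) (h.2 _)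

/-- `∑ m, ξ m ⊗ ξ m = 1 - ∑ b, core b ⊗ core b`. -/
theorem sum_nu (hN : N = 3 * n) {p : (Fin N → Mode n) → ℝ} (h : Filled p) :
    ∑ m, p ⬝ᵥ nu m p = n * nsq p := by
  have e1 : ∑ m : Mode n, Matrix.vecMulVec (xiV m) (xiV m) = 1 + (-1 : ℝ) • LatB_PP n := by
    ext a b
    have e2 : ∀ m m' : Mode n, xiV m m' = xiV m' m := fun m m' => by
      rw [← LatB_xiV_xiV, dotProduct_comm, LatB_xiV_xiV]
    have e3 := LatB_xiV_xiV a b
    simp only [Matrix.sum_apply, Matrix.vecMulVec_apply, fun m => e2 m a, fun m => e2 m b]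
    rw [dotProduct] at e3
    rw [e3, LatB_xiV]
    simp only [Pi.sub_apply, Pi.smul_apply, smul_eq_mul, Matrix.add_apply, Matrix.smul_apply,
      LatB_PP_apply, LatB_core, Pi.single_apply, Matrix.one_apply, mul_ite, LatB_s, mul_zero,
      eq_comm (a := blk a)]
    split_ifs <;> ring
  have e4 : ∑ m, p ⬝ᵥ nu m p = p ⬝ᵥ dG (∑ m : Mode n, Matrix.vecMulVec (xiV m) (xiV m)) p := by
    rw [dG_sum, LinearMap.sum_apply, dotProduct_sum]
    rfl
  rw [e4, e1, dG_add, dG_smul, LinearMap.add_apply, LinearMap.smul_apply, dotProduct_add,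
    dotProduct_smul, LatB_dG_PP, LatB_sum_Ne h, dG, LinearMap.sum_apply, dotProduct_sum]
  simp only [slot_one, Module.End.one_apply, Finset.sum_const, Finset.card_univ, Fintype.card_fin,
    nsmul_eq_mul, smul_eq_mul, hN, nsq]
  push_cast
  ring

/-- `nu m (nu m c) = (2/3) nu m c` on antisymmetric vectors (`dG_dG`). -/
theorem nu_nu_nonneg {p : (Fin N → Mode n) → ℝ} (h : Anti p) {m m' : Mode n} (hm : blk m ≠ blk m') :
    0 ≤ p ⬝ᵥ nu m (nu m' p) := by
  have e1 : ∀ (a : Mode n) (q : (Fin N → Mode n) → ℝ), Anti q →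
      nu a (nu a q) = (2 / 3 : ℝ) • nu a q := fun a q hq => by
    rw [nu, dG_dG hq, LatB_xiV_xiV]
    simp [xiV]
  have c : Commute (nu m' : Module.End ℝ ((Fin N → Mode n) → ℝ)) (nu m) :=
    LatB_commute (by simp [LatB_xiV_xiV, xiV, hm.symm]) (by simp [LatB_xiV_xiV, xiV, hm])
  have e2 := nsq_nonneg (nu m (nu m' p))
  rw [nsq, SA_nu, e1 m (nu m' p) (h.dG _), dotProduct_smul, SA_nu, ← Module.End.mul_apply (nu m'), c.eq,
    Module.End.mul_apply, e1 m' _ h, map_smul, dotProduct_smul, smul_eq_mul, smul_eq_mul] at e2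
  linarith

theorem double_occ (hN : N = 3 * n) {p : (Fin N → Mode n) → ℝ} (h : Filled p) :
    ∑ A : Room n, p ⬝ᵥ nn (0, A) (nn (1, A) p) =
      2 * n / 3 * nsq p + ∑ A : Room n, p ⬝ᵥ nu (0, A) (nu (1, A) p) := by
  have e1 := sum_nu hN h
  rw [Fintype.sum_prod_type, Fin.sum_univ_two] at e1
  have e2 : ∀ A : Room n, p ⬝ᵥ nn (0, A) (nn (1, A) p) = 1 / 9 * nsq p +
      1 / 3 * (p ⬝ᵥ nu (0, A) p) + 1 / 3 * (p ⬝ᵥ nu (1, A) p) +
        p ⬝ᵥ nu (0, A) (nu (1, A) p) := fun A => by
    rw [exchange h (by simp [blk])]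
    simp only [LinearMap.add_apply, LinearMap.smul_apply, Module.End.one_apply, map_add, map_smul,
      dotProduct_add, dotProduct_smul, smul_eq_mul, nsq]
    ring
  simp only [e2, Finset.sum_add_distrib, ← Finset.mul_sum, Finset.sum_const, Finset.card_univ,
    Fintype.card_prod, Fintype.card_fin, nsmul_eq_mul]
  push_cast
  linear_combination 1 / 3 * e1

end Crest.Agent.R338
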