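/-
R338/LatC: the interaction in terms of occupation numbers; bad sectors
Skeleton by helper15 (row 338); keep the statements unchanged, add any helper lemmas you like.
-/
import Crest.Agent.R338.LatB

set_option autoImplicit false
set_option linter.unusedSectionVars false
set_option linter.unusedVariables false
set_option linter.unusedSimpArgs false

noncomputable section

namespace Crest.Agent.R338

open scoped Matrix

variable {n N : ℕ}

/-- The number of indices with value `a`. -/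
def latC_oc {κ : Type} [DecidableEq κ] (g : Fin N → κ) (a : κ) : ℝ :=
  ((Finset.univ.filter fun i => g i = a).card : ℝ)

theorem latC_oc_eq {κ : Type} [DecidableEq κ] (g : Fin N → κ) (a : κ) :
    latC_oc g a = ∑ i, if g i = a then 1 else 0 := by
  simp [latC_oc]

theorem latC_oc_nonneg {κ : Type} [DecidableEq κ] (g : Fin N → κ) (a : κ) : 0 ≤ latC_oc g a :=
  Nat.cast_nonneg _

theorem latC_oc_sq {κ : Type} [DecidableEq κ] {g : Fin N → κ} (hg : Function.Injective g) (a : κ) :
    latC_oc g a * latC_oc g a = latC_oc g a := by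
  have : (Finset.univ.filter fun i => g i = a).card ≤ 1 := by
    rw [Finset.card_le_one]
    intro i hi j hj
    exact hg ((Finset.mem_filter.1 hi).2.trans (Finset.mem_filter.1 hj).2.symm)
  unfold latC_oc
  rcases Nat.le_one_iff_eq_zero_or_eq_one.1 this with h | h <;> rw [h] <;> simp

theorem latC_sum1 {κ : Type} [Fintype κ] [DecidableEq κ] (g : Fin N → κ) (H : κ → ℝ) :
    ∑ i, H (g i) = ∑ a, H a * latC_oc g a := by
  simp only [latC_oc_eq, Finset.mul_sum]
  rw [Finset.sum_comm]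
  refine Finset.sum_congr rfl fun i _ => ?_
  simp

theorem latC_sum2 {κ : Type} [Fintype κ] [DecidableEq κ] (g : Fin N → κ) (G : κ → κ → ℝ) :
    ∑ i, ∑ j, G (g i) (g j) = ∑ a, ∑ b, G a b * (latC_oc g a * latC_oc g b) := by
  rw [latC_sum1 g fun a => ∑ j, G a (g j)]
  refine Finset.sum_congr rfl fun a _ => ?_
  rw [latC_sum1 g (G a), Finset.sum_mul]
  refine Finset.sum_congr rfl fun b _ => by ring

theorem latC_sym {m : ℕ} (F : Fin m → Fin m → ℝ) (hF : ∀ i j, F i j = F j i) :
    2 * ∑ i, ∑ j, (if i < j then F i j else 0) = ∑ i, ∑ j, F i j - ∑ i, F i i := by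
  have h1 : ∑ i, ∑ j, (if i < j then F i j else 0) = ∑ i, ∑ j, (if j < i then F i j else 0) := by
    rw [Finset.sum_comm]
    simp only [hF]
  have h2 : ∑ i, F i i = ∑ i, ∑ j, (if i = j then F i j else 0) := by simp
  rw [two_mul]
  nth_rewrite 2 [h1]
  rw [h2, ← Finset.sum_add_distrib, ← Finset.sum_sub_distrib]
  refine Finset.sum_congr rfl fun i _ => ?_
  rw [← Finset.sum_add_distrib, ← Finset.sum_sub_distrib]
  refine Finset.sum_congr rfl fun j _ => ?_
  rcases lt_trichotomy i j with h | h | h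
  · simp [h, h.ne, h.not_gt]
  · simp [h]
  · simp [h, h.ne', h.not_gt]

theorem latC_nn (m m' : Mode n) (c : (Fin N → Mode n) → ℝ) :
    c ⬝ᵥ nn m (nn m' c) = ∑ x, latC_oc x m * latC_oc x m' * c x ^ 2 := by
  refine Finset.sum_congr rfl fun x _ => ?_
  change c x * (latC_oc x m * (latC_oc x m' * c x)) = _
  ring

theorem latC_p1 (x : Fin N → Mode n) :
    ∑ i, ∑ j, (if i < j then (if (x i).2.1 = (x j).2.1 then (1 : ℝ) else 0) else 0) =
      ∑ j, ((cnt x j).choose 2 : ℝ) := by
  have h := latC_sym (fun i j => if (x i).2.1 = (x j).2.1 then (1 : ℝ) else 0)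
    fun i j => by simp only [eq_comm]
  rw [latC_sum2 (fun i => (x i).2.1) fun a b => if a = b then (1 : ℝ) else 0,
    latC_sum1 (fun i => (x i).2.1) fun a => if a = a then (1 : ℝ) else 0] at h
  apply mul_left_cancel₀ (two_ne_zero (α := ℝ))
  rw [h, ← Finset.sum_sub_distrib, Finset.mul_sum]
  refine Finset.sum_congr rfl fun a _ => ?_
  rw [Nat.cast_choose_two]
  simp only [ite_mul, one_mul, zero_mul, Finset.sum_ite_eq, Finset.mem_univ, if_true]
  change (cnt x a : ℝ) * cnt x a - cnt x a = _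
  ring

theorem latC_p2 {x : Fin N → Mode n} (hx : Function.Injective x) :
    ∑ i, ∑ j, (if i < j then (if (x i).2 = (x j).2 then (1 : ℝ) else 0) else 0) =
      ∑ A : Room n, latC_oc x (0, A) * latC_oc x (1, A) := by
  have h := latC_sym (fun i j => if (x i).2 = (x j).2 then (1 : ℝ) else 0)
    fun i j => by simp only [eq_comm]
  rw [latC_sum2 x fun a b => if a.2 = b.2 then (1 : ℝ) else 0,
    latC_sum1 x fun a => if a.2 = a.2 then (1 : ℝ) else 0] at h
  apply mul_left_cancel₀ (two_ne_zero (α := ℝ))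
  rw [h]
  simp only [Fintype.sum_prod_type (α₁ := Fin 2), Fin.sum_univ_two, ite_mul, one_mul, zero_mul,
    Finset.sum_ite_eq, Finset.mem_univ, if_true, latC_oc_sq hx, Finset.mul_sum,
    ← Finset.sum_add_distrib, ← Finset.sum_sub_distrib]
  refine Finset.sum_congr rfl fun A _ => by ring

theorem latC_p3 {k : ℕ → ℕ → ℕ} (hk : ∀ A B, k A B = k B A) (x : Fin N → Mode n) :
    ∑ i, ∑ j, (if i < j then (if (x i).2.1 = (x j).2.1 then (0 : ℝ) else
      k (rid (x i).2) (rid (x j).2)) else 0) =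
      ∑ j : Fin n, ∑ j' : Fin n, if j < j' then ∑ α : Fin 3, ∑ β : Fin 3,
        (k (3 * j + α) (3 * j' + β) : ℝ) * ∑ σ : Fin 2, ∑ σ' : Fin 2,
          latC_oc x (σ, j, α) * latC_oc x (σ', j', β) else 0 := by
  have h := latC_sym (fun i j => if (x i).2.1 = (x j).2.1 then (0 : ℝ) else
      k (rid (x i).2) (rid (x j).2)) fun i j => by simp only [eq_comm, hk (rid (x i).2)]
  rw [latC_sum2 x fun a b => if a.2.1 = b.2.1 then (0 : ℝ) else k (rid a.2) (rid b.2)] at h
  have h' := latC_sym (fun j j' : Fin n => ∑ α : Fin 3, ∑ β : Fin 3,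
        (k (3 * j + α) (3 * j' + β) : ℝ) * ∑ σ : Fin 2, ∑ σ' : Fin 2,
          latC_oc x (σ, j, α) * latC_oc x (σ', j', β)) fun j j' => by
    rw [Finset.sum_comm]
    refine Finset.sum_congr rfl fun α _ => Finset.sum_congr rfl fun β _ => ?_
    rw [hk, Finset.sum_comm]
    simp only [mul_comm]
  apply mul_left_cancel₀ (two_ne_zero (α := ℝ))
  rw [h, h']
  have e : ∀ W : Fin n → Fin n → ℝ, ∑ j, ∑ j', W j j' - ∑ j, W j j =
      ∑ j, ∑ j', if j = j' then 0 else W j j' := by
    intro W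
    rw [← Finset.sum_sub_distrib]
    refine Finset.sum_congr rfl fun j _ => ?_
    have : W j j = ∑ j', if j = j' then W j j' else 0 := by simp
    rw [this, ← Finset.sum_sub_distrib]
    refine Finset.sum_congr rfl fun j' _ => by split_ifs <;> simp
  rw [e]
  simp only [if_true, Finset.sum_const_zero, sub_zero, Fintype.sum_prod_type, Fin.sum_univ_two,
    Fin.sum_univ_three, ← Finset.sum_add_distrib, rid]
  refine Finset.sum_congr rfl fun j _ => Finset.sum_congr rfl fun j' _ => ?_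
  split_ifs <;> ring

/-- Recipe: all operators are diagonal; compare the coefficients of `c x ^ 2` for injective `x`
(`Anti.injective`): write `Vlat = kc * [same qubit] + (U - kc) * [same room] + [other qubit] * k`
and count pairs `i < j`. -/
theorem latV_eq (U : ℝ) (kc : ℕ) {k : ℕ → ℕ → ℕ} (hk : ∀ A B, k A B = k B A)
    {c : (Fin N → Mode n) → ℝ} (h : Anti c) :
    latV (Vlat U kc k) c = kc * ∑ x, (∑ j, ((cnt x j).choose 2 : ℝ)) * c x ^ 2 +
      (U - kc) * ∑ A : Room n, c ⬝ᵥ nn (0, A) (nn (1, A) c) +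
      ∑ j : Fin n, ∑ j' : Fin n, if j < j' then ∑ α : Fin 3, ∑ β : Fin 3,
        (k (3 * j + α) (3 * j' + β) : ℝ) * ∑ σ : Fin 2, ∑ σ' : Fin 2,
          c ⬝ᵥ nn (σ, j, α) (nn (σ', j', β) c) else 0 := by
  simp only [latC_nn]
  have e3 : (∑ j : Fin n, ∑ j' : Fin n, if j < j' then ∑ α : Fin 3, ∑ β : Fin 3,
        (k (3 * j + α) (3 * j' + β) : ℝ) * ∑ σ : Fin 2, ∑ σ' : Fin 2,
          ∑ x, latC_oc x (σ, j, α) * latC_oc x (σ', j', β) * c x ^ 2 else 0) =
      ∑ x, (∑ j : Fin n, ∑ j' : Fin n, if j < j' then ∑ α : Fin 3, ∑ β : Fin 3,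
        (k (3 * j + α) (3 * j' + β) : ℝ) * ∑ σ : Fin 2, ∑ σ' : Fin 2,
          latC_oc x (σ, j, α) * latC_oc x (σ', j', β) else 0) * c x ^ 2 := by
    simp only [Finset.sum_mul]
    rw [Finset.sum_comm (s := Finset.univ (α := Fin N → Mode n))]
    refine Finset.sum_congr rfl fun j _ => ?_
    rw [Finset.sum_comm (s := Finset.univ (α := Fin N → Mode n))]
    refine Finset.sum_congr rfl fun j' _ => ?_
    split_ifs
    · simp only [Fin.sum_univ_two, Fin.sum_univ_three, Finset.mul_sum, ← Finset.sum_add_distrib]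
      refine Finset.sum_congr rfl fun x _ => by ring
    · simp
  rw [e3, Finset.sum_comm (s := Finset.univ (α := Room n)), Finset.mul_sum, Finset.mul_sum,
    ← Finset.sum_add_distrib, ← Finset.sum_add_distrib]
  refine Finset.sum_congr rfl fun x _ => ?_
  by_cases hx : c x = 0
  · simp [hx]
  rw [← Finset.sum_mul, ← latC_p1, ← latC_p2 (h.injective hx), ← latC_p3 hk, ← mul_assoc,
    ← mul_assoc, ← add_mul, ← add_mul]
  congr 1
  simp only [Finset.mul_sum, ← Finset.sum_add_distrib]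
  refine Finset.sum_congr rfl fun i _ => Finset.sum_congr rfl fun j _ => ?_
  unfold Vlat
  by_cases h1 : (x i).2 = (x j).2
  · simp only [h1, if_true]
    split_ifs <;> ring
  · simp only [h1, if_false]
    split_ifs <;> ring

/-- Convexity: `m.choose 2 = 3 + 5/2 (m - 3) + (m - 3)² / 2`, `∑ j, cnt x j = N`. -/
theorem sum_choose_ge (hN : N = 3 * n) (x : Fin N → Mode n) (hx : ¬∀ j, cnt x j = 3) :
    3 * n + 1 ≤ ∑ j, (cnt x j).choose 2 := by
  have hsum : ∑ j, cnt x j = N := by
    have := Finset.card_eq_sum_card_fiberwise (f := fun i => (x i).2.1)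
      (s := Finset.univ) (t := Finset.univ) fun _ _ => Finset.mem_coe.2 (Finset.mem_univ _)
    rw [Finset.card_univ, Fintype.card_fin] at this
    exact this.symm
  have hm : ∀ m : ℕ, 2 * (m.choose 2 : ℤ) = 6 + 5 * ((m : ℤ) - 3) + ((m : ℤ) - 3) ^ 2 := by
    intro m
    have : (2 * (m.choose 2 : ℤ) : ℚ) = 6 + 5 * ((m : ℤ) - 3) + ((m : ℤ) - 3) ^ 2 := by
      push_cast
      rw [Nat.cast_choose_two]; ring
    exact_mod_cast this
  have h1 : 2 * ((∑ j, (cnt x j).choose 2 : ℕ) : ℤ) = 6 * n + ∑ j, ((cnt x j : ℤ) - 3) ^ 2 := by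
    have h3 : ∑ j, (cnt x j : ℤ) = 3 * n := by rw [← Nat.cast_sum, hsum, hN]; push_cast; ring
    push_cast
    rw [Finset.mul_sum]
    simp only [hm, Finset.sum_add_distrib, ← Finset.mul_sum, Finset.sum_sub_distrib, h3]
    simp
    ring
  obtain ⟨j, hj⟩ := not_forall.1 hx
  have h2 : 0 < ∑ j, ((cnt x j : ℤ) - 3) ^ 2 := by
    refine Finset.sum_pos' (fun j _ => sq_nonneg _) ⟨j, Finset.mem_univ _, ?_⟩
    have : (cnt x j : ℤ) - 3 ≠ 0 := by omega
    positivity
  omega

theorem latV_bad (hN : N = 3 * n) {U : ℝ} {kc : ℕ} (hU : (kc : ℝ) ≤ U) {k : ℕ → ℕ → ℕ}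
    (hk : ∀ A B, k A B = k B A) {p : (Fin N → Mode n) → ℝ} (h : Filled p)
    (hb : ∀ x, p x ≠ 0 → ¬∀ j, cnt x j = 3) :
    (3 * n * kc + 2 * n / 3 * (U - kc) + kc) * nsq p ≤ latV (Vlat U kc k) p := by
  rw [latV_eq U kc hk h.1, double_occ hN h]
  have h1 : (3 * n + 1) * nsq p ≤ ∑ x, (∑ j, ((cnt x j).choose 2 : ℝ)) * p x ^ 2 := by
    unfold nsq dotProduct
    rw [Finset.mul_sum]
    refine Finset.sum_le_sum fun x _ => ?_
    by_cases hx : p x = 0
    · simp [hx]
    · rw [← sq]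
      refine mul_le_mul_of_nonneg_right ?_ (sq_nonneg _)
      exact_mod_cast sum_choose_ge hN x (hb x hx)
  have h2 : 0 ≤ ∑ A : Room n, p ⬝ᵥ nu (0, A) (nu (1, A) p) :=
    Finset.sum_nonneg fun A _ => nu_nu_nonneg h.1 (by simp [blk])
  have h3 : 0 ≤ ∑ j : Fin n, ∑ j' : Fin n, if j < j' then ∑ α : Fin 3, ∑ β : Fin 3,
        (k (3 * j + α) (3 * j' + β) : ℝ) * ∑ σ : Fin 2, ∑ σ' : Fin 2,
          p ⬝ᵥ nn (σ, j, α) (nn (σ', j', β) p) else 0 := by
    refine Finset.sum_nonneg fun j _ => Finset.sum_nonneg fun j' _ => ?_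
    split_ifs
    · refine Finset.sum_nonneg fun α _ => Finset.sum_nonneg fun β _ =>
        mul_nonneg (Nat.cast_nonneg _) (Finset.sum_nonneg fun σ _ => Finset.sum_nonneg fun σ' _ => ?_)
      rw [latC_nn]
      exact Finset.sum_nonneg fun x _ =>
        mul_nonneg (mul_nonneg (latC_oc_nonneg _ _) (latC_oc_nonneg _ _)) (sq_nonneg _)
    · exact le_rfl
  have h4 := mul_le_mul_of_nonneg_left h1 (Nat.cast_nonneg (α := ℝ) kc)
  have h5 := mul_nonneg (sub_nonneg.2 hU) h2
  nlinarith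

/-- Replace the rooms of the particles `ι j` by `y j`. -/
def setR (ι : Fin n → Fin N) (x : Fin N → Mode n) (y : Fin n → Fin 3) : Fin N → Mode n :=
  fun i => ((x i).1, (x i).2.1, Function.extend ι y (fun i => (x i).2.2) i)

theorem setR_apply {ι : Fin n → Fin N} (hι : Function.Injective ι) (x : Fin N → Mode n)
    (y : Fin n → Fin 3) (j : Fin n) : setR ι x y (ι j) = ((x (ι j)).1, (x (ι j)).2.1, y j) := by
  simp only [setR, hι.extend_apply]

theorem setR_update {ι : Fin n → Fin N} (hι : Function.Injective ι) (x : Fin N → Mode n)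
    (y : Fin n → Fin 3) (j : Fin n) (r : Fin 3) :
    setR ι x (Function.update y j r) =
      Function.update (setR ι x y) (ι j) ((x (ι j)).1, (x (ι j)).2.1, r) := by
  funext i
  by_cases hi : i = ι j
  · subst hi
    rw [setR_apply hι, Function.update_self, Function.update_self]
  · rw [Function.update_of_ne hi]
    by_cases h' : ∃ j', ι j' = i
    · obtain ⟨j', rfl⟩ := h'
      rw [setR_apply hι, setR_apply hι, Function.update_of_ne fun h => hi (by rw [h])]
    · simp only [setR, Function.extend_apply' _ _ _ h']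

/-- `(x, y) ↦ (setR ι x y, fun j => (x (ι j)).2.2)` is an involution. -/
theorem sum_setR {ι : Fin n → Fin N} (hι : Function.Injective ι) (G : (Fin N → Mode n) → ℝ) :
    ∑ x, ∑ y, G (setR ι x y) = 3 ^ n * ∑ x, G x := by
  let Φ : (Fin N → Mode n) × (Fin n → Fin 3) → (Fin N → Mode n) × (Fin n → Fin 3) :=
    fun q => (setR ι q.1 q.2, fun j => (q.1 (ι j)).2.2)
  have hΦ : Function.Involutive Φ := by
    rintro ⟨x, y⟩
    refine Prod.ext ?_ ?_
    · funext i
      change setR ι (setR ι x y) (fun j => (x (ι j)).2.2) i = x i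
      by_cases h' : ∃ j', ι j' = i
      · obtain ⟨j', rfl⟩ := h'
        rw [setR_apply hι, setR_apply hι]
      · simp only [setR, Function.extend_apply' _ _ _ h']
    · funext j
      change (setR ι x y (ι j)).2.2 = y j
      rw [setR_apply hι]
  have := Equiv.sum_comp hΦ.toPerm fun q => G q.1
  rw [Fintype.sum_prod_type, Fintype.sum_prod_type] at this
  refine this.trans ?_
  simp [Finset.mul_sum]

/-- Cross terms of a bounded diagonal form. -/
theorem latV_ge {V : Room n → Room n → ℝ} {Vm : ℝ} (h0 : ∀ A B, 0 ≤ V A B)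
    (hm : ∀ A B, V A B ≤ Vm) (c p : (Fin N → Mode n) → ℝ) :
    latV V p - 2 * (N ^ 2 * Vm) * (√(nsq p) * √(nsq (c - p))) ≤ latV V c := by
  set D : (Fin N → Mode n) → ℝ := fun x => ∑ i, ∑ j, if i < j then V (x i).2 (x j).2 else 0 with hD
  have hD0 : ∀ x, 0 ≤ D x := fun x => Finset.sum_nonneg fun i _ => Finset.sum_nonneg fun j _ => by
    split_ifs
    · exact h0 _ _
    · exact le_rfl
  have hD1 : ∀ x, D x ≤ N ^ 2 * Vm := fun x => by
    have : D x ≤ ∑ i : Fin N, ∑ j : Fin N, Vm :=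
      Finset.sum_le_sum fun i _ => Finset.sum_le_sum fun j _ => by
        split_ifs
        · exact hm _ _
        · exact (h0 (x i).2 (x j).2).trans (hm _ _)
    refine this.trans (le_of_eq ?_)
    simp; ring
  rcases isEmpty_or_nonempty (Fin N → Mode n) with he | ⟨⟨x₀⟩⟩
  · simp [latV, nsq, dotProduct]
  have hV : 0 ≤ (N : ℝ) ^ 2 * Vm := (hD0 x₀).trans (hD1 x₀)
  have hcs : ∑ x, |p x| * |(c - p) x| ≤ √(nsq p) * √(nsq (c - p)) := by
    have := Real.sum_mul_le_sqrt_mul_sqrt Finset.univ (fun x => |p x|) fun x => |(c - p) x|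
    simpa only [sq_abs, nsq, dotProduct, ← sq] using this
  have h1 := mul_le_mul_of_nonneg_left hcs hV
  have h2 : ∑ x, D x * p x ^ 2 - 2 * (N ^ 2 * Vm * ∑ x, |p x| * |(c - p) x|) ≤
      ∑ x, D x * c x ^ 2 := by
    rw [Finset.mul_sum, Finset.mul_sum, ← Finset.sum_sub_distrib]
    refine Finset.sum_le_sum fun x _ => ?_
    rw [← abs_mul, Pi.sub_apply]
    have a1 := neg_abs_le (p x * (c x - p x))
    have a2 := mul_le_mul_of_nonneg_right (hD1 x) (abs_nonneg (p x * (c x - p x)))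
    have a3 := mul_le_mul_of_nonneg_left a1 (hD0 x)
    have a4 := mul_nonneg (hD0 x) (sq_nonneg (c x - p x))
    nlinarith
  change ∑ x, D x * p x ^ 2 - _ ≤ ∑ x, D x * c x ^ 2
  linarith

end Crest.Agent.R338
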