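/-
R338/LatD: the good sector
Skeleton by helper15 (row 338); keep the statements unchanged, add any helper lemmas you like.
-/
import Crest.Agent.R338.LatC

set_option autoImplicit false
set_option linter.unusedSectionVars false
set_option linter.unusedVariables false
set_option linter.unusedSimpArgs false

noncomputable section

namespace Crest.Agent.R338

open scoped Matrix

variable {n N : ℕ}

/-- The projection on the doublet of the qubit `j` (both spins). -/
def Qd (j : Fin n) : Matrix (Mode n) (Mode n) ℝ := Matrix.of fun m m' =>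
  if m.1 = m'.1 ∧ m.2.1 = j ∧ m'.2.1 = j then (if m = m' then 2 / 3 else -1 / 3) else 0

/-- The component in which the particle `ι j` is the outer electron of the qubit `j`. -/
def cmp (ι : Fin n → Fin N) : Module.End ℝ ((Fin N → Mode n) → ℝ) :=
  ((List.finRange n).map fun j => slot (ι j) (Qd j)).prod

theorem latD_Qd_apply (j : Fin n) (s s' : Fin 2) (a a' : Fin n) (r r' : Fin 3) :
    Qd j (s, a, r) (s', a', r') =
      if s = s' ∧ a = j ∧ a' = j then (if r = r' then 2 / 3 else -1 / 3) else 0 := by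
  simp only [Qd, Matrix.of_apply, Prod.mk.injEq]
  by_cases h : s = s' ∧ a = j ∧ a' = j
  · obtain ⟨rfl, rfl, rfl⟩ := h
    simp
  · rw [if_neg h, if_neg h]

theorem Qd_mul (j j' : Fin n) : Qd j * Qd j' = if j = j' then Qd j else 0 := by
  ext ⟨s, a, r⟩ ⟨s', a', r'⟩
  rw [Matrix.mul_apply, Fintype.sum_prod_type]
  simp only [Fintype.sum_prod_type, latD_Qd_apply]
  rw [Finset.sum_eq_single s, Finset.sum_eq_single j]
  · by_cases hj : j = j'
    · subst hj
      simp only [if_true, latD_Qd_apply, true_and, and_true]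
      by_cases ha : a = j
      · by_cases hs : s = s' ∧ a' = j
        · simp only [ha, hs, and_self, if_true, Fin.sum_univ_three]
          fin_cases r <;> fin_cases r' <;> simp <;> norm_num
        · simp [ha, hs]
      · simp [ha]
    · simp [hj]
  · intro b _ hb
    simp [hb]
  · simp
  · intro b _ hb
    simp [hb.symm]
  · simp

theorem Qd_transpose (j : Fin n) : (Qd j)ᵀ = Qd j := by
  ext ⟨s, a, r⟩ ⟨s', a', r'⟩
  rw [Matrix.transpose_apply, latD_Qd_apply, latD_Qd_apply]
  by_cases h : s = s' ∧ a = j ∧ a' = j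
  · obtain ⟨rfl, rfl, rfl⟩ := h
    simp [eq_comm]
  · rw [if_neg h, if_neg (by tauto)]

theorem latD_comm (i i' : Fin N) (j j' : Fin n) :
    Commute (slot i (Qd j)) (slot i' (Qd j')) := by
  refine commute_slot' i i' ?_
  rw [Qd_mul, Qd_mul]
  by_cases h : j = j'
  · subst h; rfl
  · rw [if_neg h, if_neg (Ne.symm h)]

theorem latD_idem (i : Fin N) (j : Fin n) : slot i (Qd j) * slot i (Qd j) = slot i (Qd j) := by
  rw [← slot_mul, Qd_mul, if_pos rfl]

theorem latD_SA (i : Fin N) (j : Fin n) : SA (slot i (Qd j)) := by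
  intro φ ψ
  rw [dot_slot, Qd_transpose]

theorem latD_comm_cmp (i : Fin N) (j : Fin n) (ι : Fin n → Fin N) :
    Commute (slot i (Qd j)) (cmp ι) := by
  refine Commute.list_prod_right _ _ fun x hx => ?_
  obtain ⟨k, -, rfl⟩ := List.mem_map.1 hx
  exact latD_comm _ _ _ _

theorem latD_slot_prod (ι : Fin n → Fin N) (j : Fin n) (l : List (Fin n)) (hj : j ∈ l) :
    slot (ι j) (Qd j) * (l.map fun j => slot (ι j) (Qd j)).prod =
      (l.map fun j => slot (ι j) (Qd j)).prod := by
  induction l with
  | nil => simp at hj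
  | cons a l ih =>
    rw [List.map_cons, List.prod_cons, ← mul_assoc]
    rcases List.mem_cons.1 hj with rfl | hj
    · rw [latD_idem]
    · rw [(latD_comm _ _ _ _).eq, mul_assoc, ih hj]

theorem latD_SA_prod (ι : Fin n → Fin N) (l : List (Fin n)) :
    SA (l.map fun j => slot (ι j) (Qd j)).prod := by
  induction l with
  | nil => intro φ ψ; simp
  | cons a l ih =>
    intro φ ψ
    have hc : Commute (slot (ι a) (Qd a)) (l.map fun j => slot (ι j) (Qd j)).prod := by
      refine Commute.list_prod_right _ _ fun x hx => ?_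
      obtain ⟨k, -, rfl⟩ := List.mem_map.1 hx
      exact latD_comm _ _ _ _
    rw [List.map_cons, List.prod_cons, Module.End.mul_apply, latD_SA, ih, hc.eq,
      Module.End.mul_apply]

theorem slot_cmp (ι : Fin n → Fin N) (j : Fin n) : slot (ι j) (Qd j) * cmp ι = cmp ι := by
  exact latD_slot_prod ι j _ (List.mem_finRange j)

theorem SA_cmp (ι : Fin n → Fin N) : SA (cmp ι) := by
  exact latD_SA_prod ι _

theorem cmp_eq_zero {ι : Fin n → Fin N} (h : ¬Function.Injective ι) : cmp ι = 0 := by
  simp only [Function.Injective, not_forall] at h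
  obtain ⟨j, j', hι, hj⟩ := h
  rw [← slot_cmp ι j, ← slot_cmp ι j', ← mul_assoc, hι, ← slot_mul, Qd_mul, if_neg hj, slot_zero,
    zero_mul]

theorem zeroSum_cmp {ι : Fin n → Fin N} (hι : Function.Injective ι) (p : (Fin N → Mode n) → ℝ)
    (x : Fin N → Mode n) : ZeroSum fun y => cmp ι p (setR ι x y) := by
  intro y j
  have hq : cmp ι p = slot (ι j) (Qd j) (cmp ι p) := by
    rw [← Module.End.mul_apply, slot_cmp]
  rw [hq]
  simp only [setR_update hι, slot_apply, Function.update_self, Function.update_idem]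
  rw [Finset.sum_comm]
  refine Finset.sum_eq_zero fun ⟨s', a', r'⟩ _ => ?_
  rw [← Finset.sum_mul]
  simp only [latD_Qd_apply]
  by_cases h : (x (ι j)).1 = s' ∧ (x (ι j)).2.1 = j ∧ a' = j
  · simp only [h, and_self, if_true, Fin.sum_univ_three]
    fin_cases r' <;> simp <;> left <;> norm_num
  · simp only [if_neg h, Finset.sum_const_zero, zero_mul]

/-- One outer electron per qubit: `dG (Qd j) = cnt j - Ne (0, j) - Ne (1, j)`. -/
theorem dG_Qd {p : (Fin N → Mode n) → ℝ} (h : Filled p) (hg : ∀ x, p x ≠ 0 → ∀ j, cnt x j = 3)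
    (j : Fin n) : dG (Qd j) p = p := by
  have h3 : (√3)⁻¹ * (√3)⁻¹ = (1 / 3 : ℝ) := by
    rw [← mul_inv, Real.mul_self_sqrt (by norm_num), one_div]
  have hM : Qd j + Matrix.vecMulVec (core (0, j)) (core (0, j)) +
      Matrix.vecMulVec (core (1, j)) (core (1, j)) =
      Matrix.diagonal fun m : Mode n => if m.2.1 = j then (1 : ℝ) else 0 := by
    ext ⟨s, a, r⟩ ⟨s', a', r'⟩
    simp only [Matrix.add_apply, latD_Qd_apply, Matrix.vecMulVec_apply, core, Matrix.diagonal_apply,
      Prod.mk.injEq]
    by_cases ha : a = j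
    · by_cases ha' : a' = j
      · subst ha ha'
        by_cases hr : r = r'
        · fin_cases s <;> fin_cases s' <;> simp [hr, h3] <;> norm_num
        · fin_cases s <;> fin_cases s' <;> simp [hr, h3] <;> norm_num
      · have : ¬ a = a' := fun h => ha' (h ▸ ha)
        simp [ha', this]
    · simp [ha]
  have h1 := congrArg (fun B => (dG B : Module.End ℝ ((Fin N → Mode n) → ℝ)) p) hM
  simp only [dG_add, LinearMap.add_apply] at h1
  have h0 : dG (Matrix.vecMulVec (core (0, j)) (core (0, j))) p = p := h.2 (0, j)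
  have h0' : dG (Matrix.vecMulVec (core (1, j)) (core (1, j))) p = p := h.2 (1, j)
  rw [h0, h0'] at h1
  funext x
  have h2 := congrFun h1 x
  have h4 : (dG (Matrix.diagonal fun m : Mode n => if m.2.1 = j then (1 : ℝ) else 0) :
      Module.End ℝ ((Fin N → Mode n) → ℝ)) p x = (cnt x j : ℝ) * p x := by
    simp only [dG, slot_diagonal, LinearMap.sum_apply, Finset.sum_apply, diagOp, LinearMap.coe_mk,
      AddHom.coe_mk]
    rw [← Finset.sum_mul, cnt, Finset.card_filter]
    push_cast
    rfl
  rw [h4] at h2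
  simp only [Pi.add_apply] at h2
  by_cases hx : p x = 0
  · rw [hx] at h2 ⊢
    linarith
  · rw [hg x hx j] at h2
    push_cast at h2
    linarith

/-- Commuting projections `P i` with `∑ i, P i p = p`: apply `∑ i, P i` once more and take the
product with `p`: `∑ i ≠ i', nsq (P i (P i' p)) = 0`. -/
theorem slot_Qd_slot_Qd {p : (Fin N → Mode n) → ℝ} {j : Fin n} (h : dG (Qd j) p = p) {i i' : Fin N}
    (hi : i ≠ i') : slot i (Qd j) (slot i' (Qd j) p) = 0 := by
  have hsq : ∀ k, p ⬝ᵥ slot i (Qd j) (slot k (Qd j) p) = nsq (slot i (Qd j) (slot k (Qd j) p)) := by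
    intro k
    have e : slot k (Qd j) * (slot i (Qd j) * (slot i (Qd j) * slot k (Qd j))) =
        slot i (Qd j) * slot k (Qd j) := by
      rw [← mul_assoc (slot i (Qd j)), latD_idem, ← mul_assoc, (latD_comm k i j j).eq, mul_assoc,
        latD_idem]
    have e' := congrArg (fun T => T p) e
    simp only [Module.End.mul_apply] at e'
    rw [nsq, latD_SA, latD_SA, e']
  have h1 : slot i (Qd j) (dG (Qd j) p) = slot i (Qd j) p := by rw [h]
  rw [dG, LinearMap.sum_apply, map_sum, ← Finset.add_sum_erase _ _ (Finset.mem_univ i),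
    ← Module.End.mul_apply, latD_idem, add_eq_left] at h1
  have h2 := congrArg (fun v => p ⬝ᵥ v) h1
  simp only [dotProduct_sum, dotProduct_zero, hsq] at h2
  have h3 := (Finset.sum_eq_zero_iff_of_nonneg fun k _ => ?_).1 h2 i'
    (Finset.mem_erase.2 ⟨hi.symm, Finset.mem_univ _⟩)
  · exact dotProduct_self_eq_zero.1 h3
  · exact Finset.sum_nonneg fun x _ => mul_self_nonneg _

theorem latD_sum_prod {R : Type} [Semiring R] (k : ℕ) (P : Fin k → Fin N → R) :
    ∑ ι : Fin k → Fin N, (List.ofFn fun j => P j (ι j)).prod =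
      (List.ofFn fun j => ∑ i, P j i).prod := by
  induction k with
  | zero => simp
  | succ k ih =>
    rw [List.ofFn_succ, List.prod_cons, ← ih fun j => P j.succ, Finset.sum_mul_sum,
      ← Fintype.sum_prod_type']
    refine (Fintype.sum_equiv (Fin.consEquiv fun _ => Fin N) _ _ fun ⟨i, ι⟩ => ?_).symm
    rw [List.ofFn_succ, List.prod_cons]
    simp [Fin.consEquiv]

theorem latD_cmp_slot (ι : Fin n → Fin N) (j : Fin n) : cmp ι * slot (ι j) (Qd j) = cmp ι := by
  rw [← (latD_comm_cmp _ _ _).eq, slot_cmp]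

theorem latD_slot_cmp_zero {p : (Fin N → Mode n) → ℝ} {j : Fin n} (h : dG (Qd j) p = p)
    {ι : Fin n → Fin N} {i : Fin N} (hi : i ≠ ι j) : slot i (Qd j) (cmp ι p) = 0 := by
  rw [← Module.End.mul_apply, (latD_comm_cmp _ _ _).eq, ← latD_cmp_slot ι j, Module.End.mul_apply,
    Module.End.mul_apply, slot_Qd_slot_Qd h hi.symm, map_zero]

/-- Expand the product of the `dG (Qd j)` (induction over a list of qubits, or
`Finset.prod_univ_sum` in the commutative subalgebra). -/
theorem sum_cmp {p : (Fin N → Mode n) → ℝ} (h : ∀ j, dG (Qd j) p = p) : ∑ ι, cmp ι p = p := by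
  rw [← LinearMap.sum_apply]
  simp only [cmp, ← List.ofFn_eq_map]
  rw [latD_sum_prod n fun j i => slot i (Qd j), List.ofFn_eq_map]
  induction List.finRange n with
  | nil => rfl
  | cons a l ih =>
    rw [List.map_cons, List.prod_cons, Module.End.mul_apply, ih]
    exact h a

theorem cmp_cmp {p : (Fin N → Mode n) → ℝ} (h : ∀ j, dG (Qd j) p = p) (ι ι' : Fin n → Fin N) :
    cmp ι (cmp ι' p) = if ι = ι' then cmp ι p else 0 := by
  split_ifs with hι
  · subst hι
    have : ∀ l : List (Fin n), (l.map fun j => slot (ι j) (Qd j)).prod * cmp ι = cmp ι := by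
      intro l
      induction l with
      | nil => simp
      | cons a l ih => rw [List.map_cons, List.prod_cons, mul_assoc, ih, slot_cmp]
    rw [← Module.End.mul_apply]
    exact congrArg (fun T => T p) (this _)
  · obtain ⟨j, hj⟩ := Function.ne_iff.1 hι
    rw [← latD_cmp_slot ι j, Module.End.mul_apply, latD_slot_cmp_zero (h j) hj, map_zero]

/-- On the component `ι` only the particle `ι j` contributes to `nu m` (`ξ ⊗ ξ = (ξ ⊗ ξ) * Qd j`). -/
theorem nu_cmp {p : (Fin N → Mode n) → ℝ} (h : ∀ j, dG (Qd j) p = p) (ι : Fin n → Fin N)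
    (m : Mode n) :
    nu m (cmp ι p) = slot (ι m.2.1) (Matrix.vecMulVec (xiV m) (xiV m)) (cmp ι p) := by
  have hx : xiV m = Qd m.2.1 m := by
    obtain ⟨s, a, r⟩ := m
    funext ⟨s', a', r'⟩
    rw [latD_Qd_apply]
    simp only [xiV, blk, Prod.mk.injEq]
    by_cases h : s' = s ∧ a' = a
    · obtain ⟨rfl, rfl⟩ := h
      simp [eq_comm]
    · rw [if_neg h, if_neg (by tauto)]
  have hM : Matrix.vecMulVec (xiV m) (xiV m) * Qd m.2.1 = Matrix.vecMulVec (xiV m) (xiV m) := by
    rw [Matrix.vecMulVec_mul]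
    congr 1
    have := congrFun (Qd_mul m.2.1 m.2.1) m
    rw [if_pos rfl] at this
    rw [hx, ← this]
    rw [this]
    exact this
  rw [nu, dG, LinearMap.sum_apply, Finset.sum_eq_single (ι m.2.1)]
  · intro i _ hi
    rw [← hM, slot_mul, Module.End.mul_apply, latD_slot_cmp_zero (h _) hi, map_zero]
  · simp

end Crest.Agent.R338
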