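/-
R338/LatE: the energy in the good sector
Skeleton by helper15 (row 338); keep the statements unchanged, add any helper lemmas you like.
-/
import Crest.Agent.R338.LatD

set_option autoImplicit false
set_option linter.unusedSectionVars false
set_option linter.unusedVariables false
set_option linter.unusedSimpArgs false

noncomputable section

namespace Crest.Agent.R338

open scoped Matrix

variable {n N : ℕ}

theorem LatE_dot {p : (Fin N → Mode n) → ℝ} (h : ∀ j, dG (Qd j) p = p)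
    (T : Module.End ℝ ((Fin N → Mode n) → ℝ)) (hT : ∀ ι : Fin n → Fin N, Commute T (cmp ι)) :
    p ⬝ᵥ T p = ∑ ι, cmp ι p ⬝ᵥ T (cmp ι p) := by
  calc p ⬝ᵥ T p = (∑ ι, cmp ι p) ⬝ᵥ T p := by rw [sum_cmp h]
    _ = ∑ ι, cmp ι p ⬝ᵥ T p := sum_dotProduct _ _ _
    _ = _ := by
      refine Finset.sum_congr rfl fun ι _ => ?_
      have h1 := cmp_cmp h ι ι
      rw [if_pos rfl] at h1
      have h2 : cmp ι (T p) = T (cmp ι p) := (LinearMap.congr_fun (hT ι).eq p).symm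
      calc cmp ι p ⬝ᵥ T p = cmp ι (cmp ι p) ⬝ᵥ T p := by rw [h1]
        _ = cmp ι p ⬝ᵥ cmp ι (T p) := SA_cmp ι _ _
        _ = _ := by rw [h2]

theorem LatE_xi (m₀ m : Mode n) : xiV m₀ m = Qd m₀.2.1 m m₀ := by
  simp [xiV, Qd, blk]

theorem LatE_xi' (m₀ m : Mode n) : xiV m₀ m = Qd m₀.2.1 m₀ m := by
  rw [LatE_xi, ← Matrix.transpose_apply (Qd m₀.2.1), Qd_transpose]

theorem LatE_mulVec (j : Fin n) (m₀ : Mode n) :
    Qd j *ᵥ xiV m₀ = if j = m₀.2.1 then xiV m₀ else 0 := by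
  ext m
  have h1 : (Qd j *ᵥ xiV m₀) m = (Qd j * Qd m₀.2.1) m m₀ := by
    simp only [Matrix.mulVec, dotProduct, Matrix.mul_apply, LatE_xi]
  rw [h1, Qd_mul]
  split_ifs with h2
  · rw [LatE_xi, h2]
  · rfl

theorem LatE_comm_mat (j : Fin n) (m₀ : Mode n) :
    Matrix.vecMulVec (xiV m₀) (xiV m₀) * Qd j = Qd j * Matrix.vecMulVec (xiV m₀) (xiV m₀) := by
  rw [Matrix.vecMulVec_mul, Matrix.mul_vecMulVec, ← Matrix.mulVec_transpose, Qd_transpose,
    LatE_mulVec]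
  split_ifs
  · rfl
  · simp

theorem LatE_comm_nu (m : Mode n) (ι : Fin n → Fin N) : Commute (nu m) (cmp ι) := by
  unfold nu dG cmp
  refine Commute.sum_left _ _ _ fun i _ => Commute.list_prod_right _ _ fun T hT => ?_
  obtain ⟨j, _, rfl⟩ := List.mem_map.1 hT
  exact commute_slot' _ _ (LatE_comm_mat j m)

theorem LatE_comm_sum {κ : Type} (a : ℝ) (s : Finset κ) (f : κ → Mode n) (ι : Fin n → Fin N) :
    Commute (a • 1 + ∑ m ∈ s, nu (f m)) (cmp ι) :=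
  ((Commute.one_left _).smul_left a).add_left
    (Commute.sum_left _ _ _ fun m _ => LatE_comm_nu (f m) ι)

theorem LatE_SA_sum {κ : Type} (a : ℝ) (s : Finset κ) (f : κ → Mode n) :
    SA (a • 1 + ∑ m ∈ s, nu (f m) : Module.End ℝ ((Fin N → Mode n) → ℝ)) := by
  refine (SA.one.smul a).add fun φ ψ => ?_
  simp only [LinearMap.sum_apply, sum_dotProduct, dotProduct_sum]
  exact Finset.sum_congr rfl fun m _ => SA_nu (f m) φ ψ

theorem LatE_SA_slot (i : Fin N) (j : Fin n) :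
    SA (slot i (Qd j) : Module.End ℝ ((Fin N → Mode n) → ℝ)) := fun φ ψ => by
  rw [dot_slot, Qd_transpose]

theorem LatE_sandwich {ι : Type} [Fintype ι] {Q Q' D D' : Module.End ℝ (ι → ℝ)} {q : ι → ℝ}
    (hQ : SA Q) (hQ' : SA Q') (h1 : Q q = q) (h2 : Q' q = q) (c1 : Commute Q Q')
    (c2 : Commute Q D') (c3 : Commute Q' D) (a : ℝ) :
    (a • q + Q (D q)) ⬝ᵥ (a • q + Q' (D' q)) = (a • q + D q) ⬝ᵥ (a • q + D' q) := by
  have e1 : q ⬝ᵥ Q' (D' q) = q ⬝ᵥ D' q := by rw [← hQ', h2]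
  have e2 : Q (D q) ⬝ᵥ q = D q ⬝ᵥ q := by rw [hQ, h1]
  have e3 : Q (D q) ⬝ᵥ Q' (D' q) = D q ⬝ᵥ D' q := by
    have a1 : Q (Q' (D' q)) = Q' (Q (D' q)) := LinearMap.congr_fun c1.eq _
    have a2 : Q (D' q) = D' (Q q) := LinearMap.congr_fun c2.eq _
    have a3 : Q' (D q) = D (Q' q) := LinearMap.congr_fun c3.eq _
    rw [hQ, a1, a2, h1, ← hQ', a3, h2]
  simp only [add_dotProduct, dotProduct_add, smul_dotProduct, dotProduct_smul, e1, e2, e3]

theorem LatE_sum_xi (j : Fin n) (α : Fin 3) :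
    ∑ σ : Fin 2, Matrix.vecMulVec (xiV (σ, j, α)) (xiV (σ, j, α)) =
      Qd j * (Matrix.diagonal fun m : Mode n => if m.2 = (j, α) then (1 : ℝ) else 0) * Qd j := by
  ext m m'
  rw [Matrix.mul_apply, Matrix.sum_apply, Fintype.sum_prod_type]
  refine Finset.sum_congr rfl fun σ _ => ?_
  simp only [Matrix.mul_diagonal, mul_ite, mul_one, mul_zero, ite_mul, zero_mul,
    Finset.sum_ite_eq', Finset.mem_univ, if_true, Matrix.vecMulVec_apply]
  rw [LatE_xi (σ, j, α) m, LatE_xi' (σ, j, α) m']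

theorem LatE_occ_apply {p : (Fin N → Mode n) → ℝ} (h : ∀ j, dG (Qd j) p = p) (ι : Fin n → Fin N)
    (j : Fin n) (α : Fin 3) :
    ((2 / 3 : ℝ) • 1 + ∑ σ : Fin 2, nu (σ, j, α)) (cmp ι p) = (2 / 3 : ℝ) • cmp ι p +
      slot (ι j) (Qd j) (slot (ι j)
        (Matrix.diagonal fun m : Mode n => if m.2 = (j, α) then (1 : ℝ) else 0) (cmp ι p)) := by
  have h1 : slot (ι j) (Qd j) (cmp ι p) = cmp ι p := LinearMap.congr_fun (slot_cmp ι j) p
  rw [LinearMap.add_apply, LinearMap.smul_apply, Module.End.one_apply, LinearMap.sum_apply]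
  congr 1
  calc ∑ σ : Fin 2, nu (σ, j, α) (cmp ι p) = ∑ σ : Fin 2,
        slot (ι j) (Matrix.vecMulVec (xiV (σ, j, α)) (xiV (σ, j, α))) (cmp ι p) :=
        Finset.sum_congr rfl fun σ _ => nu_cmp h ι (σ, j, α)
    _ = slot (ι j) (∑ σ : Fin 2, Matrix.vecMulVec (xiV (σ, j, α)) (xiV (σ, j, α))) (cmp ι p) := by
        rw [slot_sum, LinearMap.sum_apply]
    _ = _ := by
        rw [LatE_sum_xi, slot_mul, slot_mul, Module.End.mul_apply, Module.End.mul_apply, h1]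

theorem LatE_supp (p : (Fin N → Mode n) → ℝ) (ι : Fin n → Fin N) (j : Fin n) {x : Fin N → Mode n}
    (hx : cmp ι p x ≠ 0) : (x (ι j)).2.1 = j := by
  by_contra hne
  apply hx
  have h1 : slot (ι j) (Qd j) (cmp ι p) = cmp ι p := LinearMap.congr_fun (slot_cmp ι j) p
  rw [← h1, slot_apply]
  refine Finset.sum_eq_zero fun m _ => ?_
  simp [Qd, hne]

theorem nsq_eq_sum_cmp {p : (Fin N → Mode n) → ℝ} (h : ∀ j, dG (Qd j) p = p) :
    nsq p = ∑ ι, nsq (cmp ι p) := by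
  exact LatE_dot h 1 fun _ => Commute.one_left _

/-- `nu m` commutes with every `cmp ι` (`ξ ⊗ ξ` commutes with all `Qd j`). -/
theorem dot_nu_nu {p : (Fin N → Mode n) → ℝ} (h : ∀ j, dG (Qd j) p = p) (a b : ℝ)
    (s s' : Finset (Mode n)) :
    p ⬝ᵥ (a • 1 + ∑ m ∈ s, nu m) ((b • 1 + ∑ m ∈ s', nu m) p) =
      ∑ ι, cmp ι p ⬝ᵥ (a • 1 + ∑ m ∈ s, nu m) ((b • 1 + ∑ m ∈ s', nu m) (cmp ι p)) := by
  exact LatE_dot h ((a • 1 + ∑ m ∈ s, nu m) * (b • 1 + ∑ m ∈ s', nu m)) fun ι =>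
    (LatE_comm_sum a s id ι).mul_left (LatE_comm_sum b s' id ι)

theorem nu_up_nu_down {p : (Fin N → Mode n) → ℝ} (h : ∀ j, dG (Qd j) p = p) (A : Room n) :
    p ⬝ᵥ nu (0, A) (nu (1, A) p) = 0 := by
  have h1 := LatE_dot h (nu (0, A) * nu (1, A)) fun ι =>
    (LatE_comm_nu _ ι).mul_left (LatE_comm_nu _ ι)
  simp only [Module.End.mul_apply] at h1
  rw [h1]
  refine Finset.sum_eq_zero fun ι _ => ?_
  have h2 : xiV ((0 : Fin 2), A) ⬝ᵥ xiV ((1 : Fin 2), A) = 0 := by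
    refine Finset.sum_eq_zero fun m _ => ?_
    by_cases hm : m.1 = 0
    · simp [xiV, blk, hm]
    · simp [xiV, blk, hm]
  rw [← SA_nu, nu_cmp h, nu_cmp h, dot_slot, ← Module.End.mul_apply, ← slot_mul,
    Matrix.transpose_vecMulVec, Matrix.vecMulVec_mul_vecMulVec, h2]
  simp [slot_zero]

/-- `∑ σ, ξ (σ, j, α) ⊗ ξ (σ, j, α) = Qd j * diagonal [room = (j, α)] * Qd j`, and `slot (ι j) (Qd j)`
fixes `q = cmp ι p`; on the support of `q` the particle `ι j` is in the qubit `j`. -/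
theorem dot_occ {p : (Fin N → Mode n) → ℝ} (h : ∀ j, dG (Qd j) p = p) (ι : Fin n → Fin N)
    {j j' : Fin n} (hj : j ≠ j') (α β : Fin 3) :
    cmp ι p ⬝ᵥ ((2 / 3 : ℝ) • 1 + ∑ σ : Fin 2, nu (σ, j, α))
        (((2 / 3 : ℝ) • 1 + ∑ σ : Fin 2, nu (σ, j', β)) (cmp ι p)) =
      ∑ x, occ (x (ι j)).2.2 α * occ (x (ι j')).2.2 β * cmp ι p x ^ 2 := by
  by_cases hι : Function.Injective ι
  swap
  · simp [cmp_eq_zero hι]
  have hne : ι j ≠ ι j' := fun h => hj (hι h)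
  rw [← LatE_SA_sum (2 / 3) Finset.univ (fun σ : Fin 2 => (σ, j, α)), LatE_occ_apply h,
    LatE_occ_apply h, LatE_sandwich (LatE_SA_slot _ _) (LatE_SA_slot _ _)
      (LinearMap.congr_fun (slot_cmp ι j) p) (LinearMap.congr_fun (slot_cmp ι j') p)
      (commute_slot hne _ _) (commute_slot hne _ _) (commute_slot hne.symm _ _),
    slot_diagonal, slot_diagonal]
  refine Finset.sum_congr rfl fun x _ => ?_
  simp only [Pi.add_apply, Pi.smul_apply, smul_eq_mul, diagOp_apply]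
  by_cases hx : cmp ι p x = 0
  · simp [hx]
  have h1 : ((x (ι j)).2 = (j, α)) = ((x (ι j)).2.2 = α) := by
    simp [Prod.ext_iff, LatE_supp p ι j hx]
  have h2 : ((x (ι j')).2 = (j', β)) = ((x (ι j')).2.2 = β) := by
    simp [Prod.ext_iff, LatE_supp p ι j' hx]
  simp only [h1, h2, occ]
  ring

/-- `latV_eq`, `double_occ`, `nu_up_nu_down`, `exchange`, `dot_nu_nu`, `dot_occ`. -/
theorem latV_good (hN : N = 3 * n) (U : ℝ) (kc : ℕ) {k : ℕ → ℕ → ℕ} (hk : ∀ A B, k A B = k B A)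
    {p : (Fin N → Mode n) → ℝ} (h : Filled p) (hg : ∀ x, p x ≠ 0 → ∀ j, cnt x j = 3) :
    latV (Vlat U kc k) p = (3 * n * kc + 2 * n / 3 * (U - kc)) * nsq p +
      ∑ ι : Fin n → Fin N, ∑ x, tcost n k (fun j => (x (ι j)).2.2) * cmp ι p x ^ 2 := by
  have hQ := dG_Qd h hg
  rw [latV_eq U kc hk h.1, double_occ hN h]
  have t1 : ∑ x, (∑ j, ((cnt x j).choose 2 : ℝ)) * p x ^ 2 = 3 * n * nsq p := by
    rw [nsq_eq, Finset.mul_sum]
    refine Finset.sum_congr rfl fun x _ => ?_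
    by_cases hx : p x = 0
    · simp [hx]
    · simp only [hg x hx]
      simp [Nat.choose, mul_comm]
  have t2 : ∑ A : Room n, p ⬝ᵥ nu (0, A) (nu (1, A) p) = 0 :=
    Finset.sum_eq_zero fun A _ => nu_up_nu_down hQ A
  have t3 : ∀ j j' : Fin n, j < j' → ∀ α β : Fin 3,
      ∑ σ : Fin 2, ∑ σ' : Fin 2, p ⬝ᵥ nn (σ, j, α) (nn (σ', j', β) p) =
      ∑ z : (Fin n → Fin N) × (Fin N → Mode n),
        occ (z.2 (z.1 j)).2.2 α * occ (z.2 (z.1 j')).2.2 β * cmp z.1 p z.2 ^ 2 := by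
    intro j j' hj α β
    have a1 : ∀ σ σ' : Fin 2, p ⬝ᵥ nn (σ, j, α) (nn (σ', j', β) p) =
        p ⬝ᵥ ((1 / 3 : ℝ) • 1 + nu (σ, j, α)) (((1 / 3 : ℝ) • 1 + nu (σ', j', β)) p) :=
      fun σ σ' => exchange h (by simp [blk, hj.ne])
    have a2 := LatE_dot hQ (((2 / 3 : ℝ) • 1 + ∑ σ : Fin 2, nu (σ, j, α)) *
      ((2 / 3 : ℝ) • 1 + ∑ σ : Fin 2, nu (σ, j', β))) fun ι =>
      (LatE_comm_sum _ _ (fun σ : Fin 2 => (σ, j, α)) ι).mul_left
        (LatE_comm_sum _ _ (fun σ : Fin 2 => (σ, j', β)) ι)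
    simp only [Module.End.mul_apply, dot_occ hQ _ hj.ne] at a2
    rw [Fintype.sum_prod_type, ← a2]
    simp only [a1, Fin.sum_univ_two, LinearMap.add_apply, LinearMap.smul_apply,
      Module.End.one_apply, map_add, map_smul, dotProduct_add, dotProduct_smul, smul_eq_mul]
    ring
  have t4 : (∑ j : Fin n, ∑ j' : Fin n, if j < j' then ∑ α : Fin 3, ∑ β : Fin 3,
        (k (3 * j + α) (3 * j' + β) : ℝ) * ∑ σ : Fin 2, ∑ σ' : Fin 2,
          p ⬝ᵥ nn (σ, j, α) (nn (σ', j', β) p) else 0) =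
      ∑ ι : Fin n → Fin N, ∑ x, tcost n k (fun j => (x (ι j)).2.2) * cmp ι p x ^ 2 := by
    symm
    rw [← Fintype.sum_prod_type']
    simp only [tcost, Finset.sum_mul]
    rw [Finset.sum_comm]
    refine Finset.sum_congr rfl fun j _ => ?_
    rw [Finset.sum_comm]
    refine Finset.sum_congr rfl fun j' _ => ?_
    split_ifs with hj
    · simp only [Finset.sum_mul]
      rw [Finset.sum_comm]
      refine Finset.sum_congr rfl fun α _ => ?_
      rw [Finset.sum_comm]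
      refine Finset.sum_congr rfl fun β _ => ?_
      rw [t3 j j' hj, Finset.mul_sum]
      exact Finset.sum_congr rfl fun z _ => by ring
    · simp
  rw [t1, t2, t4]
  ring

/-- Recipe: `exists_filled`; split the filled part by `Filled.diagOp` into a good and a bad part with
disjoint supports; `latV_bad`; `latV_good` with `sum_setR`, `zeroSum_cmp`, `cmp_eq_zero`; then
`latV_ge` and `2 W x y ≤ (t / 2) y² + (2 W² / t) x²`. -/
theorem lat_no (hN : N = 3 * n) {U b t Vm : ℝ} {kc : ℕ} {k : ℕ → ℕ → ℕ}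
    (hk : ∀ A B, k A B = k B A) (hU : (kc : ℝ) ≤ U) (hb : b ≤ kc) (hb0 : 0 ≤ b)
    (hV : ∀ A B : Room n, Vlat U kc k A B ≤ Vm) (ht : 0 < t)
    (ht2 : 2 * (3 * n * kc + 2 * n / 3 * (U - kc) + b) ≤ t) (h : TNo n k b)
    {c : (Fin N → Mode n) → ℝ} (hc : Anti c) :
    (t * n + 3 * n * kc + 2 * n / 3 * (U - kc) + b - 2 * (N ^ 2 * Vm) ^ 2 / t) * nsq c ≤
      t * latT c + latV (Vlat U kc k) c := by
  obtain ⟨p, hp, hcp, hT⟩ := exists_filled hN hc
  obtain ⟨E, hE⟩ : ∃ E : ℝ, E = 3 * n * kc + 2 * n / 3 * (U - kc) := ⟨_, rfl⟩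
  obtain ⟨g, hg⟩ : ∃ g, g = diagOp
    (fun x : Fin N → Mode n => if ∀ j, cnt x j = 3 then (1 : ℝ) else 0) p := ⟨_, rfl⟩
  obtain ⟨r, hr⟩ : ∃ r, r = diagOp
    (fun x : Fin N → Mode n => if ∀ j, cnt x j = 3 then (0 : ℝ) else 1) p := ⟨_, rfl⟩
  have hgF : Filled g := by
    rw [hg]; exact hp.diagOp fun c => if ∀ j, c j = 3 then (1 : ℝ) else 0
  have hrF : Filled r := by
    rw [hr]; exact hp.diagOp fun c => if ∀ j, c j = 3 then (0 : ℝ) else 1
  have hsq : ∀ x, p x ^ 2 = g x ^ 2 + r x ^ 2 := fun x => by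
    rw [hg, hr, diagOp_apply, diagOp_apply]
    split_ifs <;> ring
  have hg3 : ∀ x, g x ≠ 0 → ∀ j, cnt x j = 3 := fun x hx => by
    by_contra h3
    rw [hg, diagOp_apply, if_neg h3, zero_mul] at hx
    exact hx rfl
  have hr3 : ∀ x, r x ≠ 0 → ¬∀ j, cnt x j = 3 := fun x hx h3 => by
    rw [hr, diagOp_apply, if_pos h3, zero_mul] at hx
    exact hx rfl
  have s1 : nsq p = nsq g + nsq r := by
    simp only [nsq_eq, hsq, Finset.sum_add_distrib]
  have s2 : latV (Vlat U kc k) p = latV (Vlat U kc k) g + latV (Vlat U kc k) r := by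
    simp only [latV, hsq, mul_add, Finset.sum_add_distrib]
  have s3 := latV_bad hN hU hk hrF hr3
  have s4 := latV_good hN U kc hk hgF hg3
  have s5 : b * nsq g ≤
      ∑ ι : Fin n → Fin N, ∑ x, tcost n k (fun j => (x (ι j)).2.2) * cmp ι g x ^ 2 := by
    rw [nsq_eq_sum_cmp (dG_Qd hgF hg3), Finset.mul_sum]
    refine Finset.sum_le_sum fun ι _ => ?_
    by_cases hι : Function.Injective ι
    swap
    · simp [cmp_eq_zero hι, nsq]
    have a1 := sum_setR hι fun x => tcost n k (fun j => (x (ι j)).2.2) * cmp ι g x ^ 2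
    have a2 := sum_setR hι fun x => cmp ι g x ^ 2
    simp only [setR_apply hι] at a1
    have a3 : ∀ x, b * ∑ y, cmp ι g (setR ι x y) ^ 2 ≤
        ∑ y, tcost n k y * cmp ι g (setR ι x y) ^ 2 := fun x => by
      have := h _ (zeroSum_cmp hι g x)
      rwa [nsq_eq] at this
    have a4 := Finset.sum_le_sum fun x (_ : x ∈ Finset.univ) => a3 x
    rw [← Finset.mul_sum, a2, a1, ← nsq_eq, mul_left_comm] at a4
    exact le_of_mul_le_mul_left a4 (by positivity)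
  have s6 : (E + b) * nsq p ≤ latV (Vlat U kc k) p := by
    rw [← hE] at s3 s4
    have := mul_le_mul_of_nonneg_right hb (nsq_nonneg r)
    rw [s1, s2]
    linarith
  have hV0 : ∀ A B : Room n, 0 ≤ Vlat U kc k A B := fun A B => by
    unfold Vlat
    split_ifs
    · exact le_trans (Nat.cast_nonneg _) hU
    · exact Nat.cast_nonneg _
    · exact Nat.cast_nonneg _
  have s7 := latV_ge hV0 hV c p
  have s8 : nsq c = nsq p + nsq (c - p) := by rw [nsq_sub, hcp]; ring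
  obtain ⟨W, hW⟩ : ∃ W : ℝ, W = N ^ 2 * Vm := ⟨_, rfl⟩
  obtain ⟨x, hx⟩ : ∃ x : ℝ, x = √(nsq p) := ⟨_, rfl⟩
  obtain ⟨y, hy⟩ : ∃ y : ℝ, y = √(nsq (c - p)) := ⟨_, rfl⟩
  have hx2 : nsq p = x ^ 2 := by rw [hx, Real.sq_sqrt (nsq_nonneg _)]
  have hy2 : nsq (c - p) = y ^ 2 := by rw [hy, Real.sq_sqrt (nsq_nonneg _)]
  rw [← hW, ← hx, ← hy] at s7
  have e0 : t * n + 3 * n * kc + 2 * n / 3 * (U - kc) + b = t * n + (E + b) := by rw [hE]; ring
  rw [← hE] at ht2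
  rw [e0, ← hW]
  obtain ⟨w, hw⟩ : ∃ w : ℝ, w = 2 * W ^ 2 / t := ⟨_, rfl⟩
  have hw0 : 0 ≤ w := by rw [hw]; positivity
  have s9 : 2 * W * (x * y) ≤ t / 2 * y ^ 2 + w * x ^ 2 := by
    have e1 : t / 2 * y ^ 2 + w * x ^ 2 - 2 * W * (x * y) = (t * y - 2 * W * x) ^ 2 / (2 * t) := by
      rw [hw]
      field_simp
      ring
    have : 0 ≤ (t * y - 2 * W * x) ^ 2 / (2 * t) := by positivity
    linarith
  rw [← hw]
  have s10 := mul_le_mul_of_nonneg_left hT ht.le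
  have s11 : (E + b) * y ^ 2 ≤ t / 2 * y ^ 2 :=
    mul_le_mul_of_nonneg_right (by linarith) (sq_nonneg y)
  have s12 : 0 ≤ w * y ^ 2 := by positivity
  rw [hx2] at s6
  rw [s8, hx2, hy2] at s10 ⊢
  linarith

end Crest.Agent.R338
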