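/-
R338/LatF: the lattice trial state
Skeleton by helper15 (row 338); keep the statements unchanged, add any helper lemmas you like.
-/
import Crest.Agent.R338.LatE

set_option autoImplicit false
set_option linter.unusedSectionVars false
set_option linter.unusedVariables false
set_option linter.unusedSimpArgs false

noncomputable section

namespace Crest.Agent.R338

open scoped Matrix

variable {n N : ℕ}

/-- The product state: for each qubit two core electrons and one outer electron of spin `0`. -/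
def prodSt (e : Fin n × Fin 3 ≃ Fin N) (f : (Fin n → Fin 3) → ℝ) (x : Fin N → Mode n) : ℝ :=
  (∏ j, core (0, j) (x (e (j, 0))) * core (1, j) (x (e (j, 1))) *
    if blk (x (e (j, 2))) = (0, j) then 1 else 0) * f fun j => (x (e (j, 2))).2.2

/-- The one-particle factors of the product state. -/
def LatF_gg (p : Fin n × Fin 3) (m : Mode n) : ℝ :=
  if p.2 = 0 then core (0, p.1) m else if p.2 = 1 then core (1, p.1) m
  else if blk m = (0, p.1) then 1 else 0

theorem LatF_prodSt_eq (e : Fin n × Fin 3 ≃ Fin N) (f : (Fin n → Fin 3) → ℝ) (x : Fin N → Mode n) :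
    prodSt e f x = (∏ p, LatF_gg p (x (e p))) * f fun j => (x (e (j, 2))).2.2 := by
  unfold prodSt
  rw [Fintype.prod_prod_type]
  congr 1
  refine Finset.prod_congr rfl fun j _ => ?_
  rw [Fin.prod_univ_three]
  simp [LatF_gg]

theorem LatF_gg_blk (p : Fin n × Fin 3) {m m' : Mode n} (h : blk m = blk m') :
    LatF_gg p m = LatF_gg p m' := by
  have h1 : m.1 = m'.1 := congrArg (fun b : Fin 2 × Fin n => b.1) h
  have h2 : m.2.1 = m'.2.1 := congrArg (fun b : Fin 2 × Fin n => b.2) h
  simp [LatF_gg, core, h, h1, h2]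

theorem LatF_gg_ne {p : Fin n × Fin 3} {m : Mode n} (h : LatF_gg p m ≠ 0) :
    blk m = (if p.2 = 1 then 1 else 0, p.1) := by
  unfold LatF_gg core at h
  by_cases h0 : p.2 = 0
  · have h1 : p.2 ≠ 1 := by rw [h0]; decide
    simp only [h0, if_true] at h
    rw [if_neg h1]
    by_contra hc
    apply h
    rw [if_neg]
    rintro ⟨a, b⟩
    exact hc (Prod.ext a b)
  · by_cases h1 : p.2 = 1
    · simp only [h0, h1, if_true, if_false] at h
      rw [if_pos h1]
      by_contra hc
      apply h
      rw [if_neg (by decide), if_neg]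
      rintro ⟨a, b⟩
      exact hc (Prod.ext a b)
    · simp only [h0, h1, if_false] at h
      rw [if_neg h1]
      by_contra hc
      exact h (if_neg hc)

theorem LatF_prod_update (e : Fin n × Fin 3 ≃ Fin N) (x : Fin N → Mode n) (p₀ : Fin n × Fin 3)
    (m : Mode n) :
    ∏ p, LatF_gg p (Function.update x (e p₀) m (e p)) =
      LatF_gg p₀ m * ∏ p ∈ Finset.univ.erase p₀, LatF_gg p (x (e p)) := by
  rw [← Finset.mul_prod_erase _ _ (Finset.mem_univ p₀), Function.update_self]
  congr 1
  refine Finset.prod_congr rfl fun p hp => ?_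
  rw [Function.update_of_ne (e.injective.ne (Finset.ne_of_mem_erase hp))]

theorem LatF_update_core (e : Fin n × Fin 3 ≃ Fin N) (f : (Fin n → Fin 3) → ℝ) (x : Fin N → Mode n)
    {p₀ : Fin n × Fin 3} (hp : p₀.2 ≠ 2) (m : Mode n) :
    prodSt e f (Function.update x (e p₀) m) =
      LatF_gg p₀ m * ((∏ p ∈ Finset.univ.erase p₀, LatF_gg p (x (e p))) *
        f fun j => (x (e (j, 2))).2.2) := by
  rw [LatF_prodSt_eq, LatF_prod_update, mul_assoc]
  congr 3
  funext j
  rw [Function.update_of_ne]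
  refine e.injective.ne ?_
  rintro rfl
  exact hp rfl

theorem LatF_update_outer (e : Fin n × Fin 3 ≃ Fin N) (f : (Fin n → Fin 3) → ℝ)
    (x : Fin N → Mode n) (j₀ : Fin n) (m : Mode n) :
    prodSt e f (Function.update x (e (j₀, 2)) m) =
      (if blk m = (0, j₀) then 1 else 0) *
        ((∏ p ∈ Finset.univ.erase (j₀, (2 : Fin 3)), LatF_gg p (x (e p))) *
        f (Function.update (fun j => (x (e (j, 2))).2.2) j₀ m.2.2)) := by
  rw [LatF_prodSt_eq, LatF_prod_update, mul_assoc]
  congr 3
  funext j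
  by_cases hj : j = j₀
  · subst hj; simp
  · rw [Function.update_of_ne, Function.update_of_ne hj]
    refine e.injective.ne ?_
    intro h
    exact hj (congrArg Prod.fst h)

/-- Sums over the modes of one block. -/
theorem LatF_sum_blk (b : Fin 2 × Fin n) (g : Mode n → ℝ) (hg : ∀ m, blk m ≠ b → g m = 0) :
    ∑ m, g m = ∑ r : Fin 3, g (b.1, b.2, r) := by
  rw [Fintype.sum_prod_type, Finset.sum_eq_single b.1, Fintype.sum_prod_type,
    Finset.sum_eq_single b.2]
  · intro j _ hj
    exact Finset.sum_eq_zero fun r _ => hg _ fun h => hj (congrArg Prod.snd h)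
  · simp
  · intro s _ hs
    exact Finset.sum_eq_zero fun r _ => hg _ fun h => hs (congrArg Prod.fst h)
  · simp

theorem LatF_core_eq (b : Fin 2 × Fin n) (m : Mode n) :
    core b m = if blk m = b then (√3)⁻¹ else 0 := by
  unfold core blk
  congr 1
  exact propext ⟨fun h => Prod.ext h.1 h.2, fun h => ⟨congrArg Prod.fst h, congrArg Prod.snd h⟩⟩

theorem LatF_core_core (b b' : Fin 2 × Fin n) :
    ∑ m, core b m * core b' m = if b = b' then 1 else 0 := by
  rw [LatF_sum_blk b _ fun m hm => by rw [LatF_core_eq, if_neg hm, zero_mul]]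
  have h3 : (√3 : ℝ)⁻¹ * (√3)⁻¹ = 1 / 3 := by
    rw [← mul_inv, Real.mul_self_sqrt (by norm_num)]; norm_num
  simp only [LatF_core_eq, blk, Prod.mk.eta, if_true]
  split_ifs
  · rw [h3]; simp
  · simp

theorem LatF_Qd_core (j : Fin n) (m₀ : Mode n) (b : Fin 2 × Fin n) :
    ∑ m, Qd j m₀ m * core b m = 0 := by
  rw [LatF_sum_blk b _ fun m hm => by rw [LatF_core_eq, if_neg hm, mul_zero]]
  simp only [LatF_core_eq, blk, Prod.mk.eta, if_true, ← Finset.sum_mul]
  obtain ⟨s, j₀, r⟩ := m₀
  obtain ⟨s', j'⟩ := b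
  simp only [Qd, Matrix.of_apply]
  by_cases h : s = s' ∧ j₀ = j ∧ j' = j
  · obtain ⟨rfl, rfl, rfl⟩ := h
    simp only [and_self, if_true, Prod.mk.injEq, true_and, Fin.sum_univ_three]
    fin_cases r <;> simp <;> norm_num
  · simp [h]

theorem LatF_gg_core {p : Fin n × Fin 3} (hp : p.2 ≠ 2) (m : Mode n) :
    LatF_gg p m = core (if p.2 = 1 then 1 else 0, p.1) m := by
  obtain ⟨j, r⟩ := p
  fin_cases r
  · simp [LatF_gg]
  · simp [LatF_gg]
  · exact absurd rfl hp

theorem LatF_slot_core (e : Fin n × Fin 3 ≃ Fin N) {f : (Fin n → Fin 3) → ℝ} (hf : ZeroSum f)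
    (b : Fin 2 × Fin n) (p₀ : Fin n × Fin 3) :
    slot (e p₀) (Matrix.vecMulVec (core b) (core b)) (prodSt e f) =
      if p₀ = (b.2, b.1.castSucc) then prodSt e f else 0 := by
  funext x
  rw [slot_apply]
  by_cases hp : p₀.2 = 2
  · obtain ⟨j₀, r⟩ := p₀
    obtain rfl : r = 2 := hp
    have hne : ((j₀, 2) : Fin n × Fin 3) ≠ (b.2, b.1.castSucc) := by
      intro h
      have := congrArg (fun p => p.2.val) h
      have h2 := b.1.2
      simp at this
      omega
    rw [if_neg hne]
    simp only [LatF_update_outer, Matrix.vecMulVec_apply, Pi.zero_apply]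
    rw [LatF_sum_blk (0, j₀) _ fun m hm => by rw [if_neg hm]; simp]
    simp only [blk, if_true, one_mul]
    have hc : ∀ r : Fin 3, core b (0, j₀, r) = core b (0, j₀, 0) := fun r => by simp [core]
    simp only [hc, ← Finset.mul_sum, hf _ j₀, mul_zero]
  · simp only [LatF_update_core e f x hp, Matrix.vecMulVec_apply, LatF_gg_core hp]
    have : ∀ m, core b (x (e p₀)) * core b m * (core (if p₀.2 = 1 then 1 else 0, p₀.1) m *
        ((∏ p ∈ Finset.univ.erase p₀, LatF_gg p (x (e p))) * f fun j => (x (e (j, 2))).2.2)) =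
        core b m * core (if p₀.2 = 1 then 1 else 0, p₀.1) m * (core b (x (e p₀)) *
        ((∏ p ∈ Finset.univ.erase p₀, LatF_gg p (x (e p))) * f fun j => (x (e (j, 2))).2.2)) :=
      fun m => by ring
    simp only [this, ← Finset.sum_mul, LatF_core_core]
    have hiff : b = (if p₀.2 = 1 then 1 else 0, p₀.1) ↔ p₀ = (b.2, b.1.castSucc) := by
      obtain ⟨j₀, r⟩ := p₀
      obtain ⟨s, j⟩ := b
      fin_cases r <;> fin_cases s <;> simp [eq_comm] at hp ⊢
    by_cases hb : b = (if p₀.2 = 1 then 1 else 0, p₀.1)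
    · rw [if_pos hb, if_pos (hiff.1 hb), one_mul, hb, ← LatF_gg_core hp,
        ← LatF_update_core e f x hp, Function.update_eq_self]
    · rw [if_neg hb, if_neg (fun h => hb (hiff.2 h))]
      simp

theorem Ne_prodSt (e : Fin n × Fin 3 ≃ Fin N) {f : (Fin n → Fin 3) → ℝ} (hf : ZeroSum f)
    (b : Fin 2 × Fin n) : Ne b (prodSt e f) = prodSt e f := by
  unfold Ne dG
  rw [LinearMap.sum_apply, ← e.sum_comp]
  simp only [LatF_slot_core e hf]
  simp

theorem slot_Qd_prodSt (e : Fin n × Fin 3 ≃ Fin N) {f : (Fin n → Fin 3) → ℝ} (hf : ZeroSum f)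
    (i : Fin N) (j : Fin n) :
    slot i (Qd j) (prodSt e f) = if i = e (j, 2) then prodSt e f else 0 := by
  obtain ⟨p₀, rfl⟩ := e.surjective i
  funext x
  rw [slot_apply]
  by_cases hp : p₀.2 = 2
  · obtain ⟨j₀, r⟩ := p₀
    obtain rfl : r = 2 := hp
    simp only [LatF_update_outer]
    rw [LatF_sum_blk (0, j₀) _ fun m hm => by rw [if_neg hm]; simp]
    simp only [blk, if_true, one_mul]
    by_cases hj : j₀ = j
    · subst hj
      rw [if_pos rfl]
      have hx := LatF_update_outer e f x j₀ (x (e (j₀, 2)))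
      rw [Function.update_eq_self] at hx
      rw [hx]
      by_cases hb : blk (x (e (j₀, 2))) = (0, j₀)
      · rw [if_pos hb, one_mul]
        have h1 : (x (e (j₀, 2))).1 = 0 := congrArg Prod.fst hb
        have h2 : (x (e (j₀, 2))).2.1 = j₀ := congrArg Prod.snd hb
        have hq : ∀ r : Fin 3, Qd j₀ (x (e (j₀, 2))) (0, j₀, r) =
            (if r = (x (e (j₀, 2))).2.2 then 1 else 0) - 1 / 3 := by
          intro r
          simp only [Qd, Matrix.of_apply, h1, h2, and_self, if_true]
          by_cases hr : r = (x (e (j₀, 2))).2.2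
          · rw [if_pos hr, if_pos (Prod.ext h1 (Prod.ext h2 hr.symm))]; norm_num
          · rw [if_neg hr, if_neg fun h => hr (congrArg (fun m : Mode n => m.2.2) h).symm]
            norm_num
        simp only [hq, sub_mul, Finset.sum_sub_distrib, ← Finset.mul_sum, hf _ j₀, mul_zero,
          sub_zero]
        simp
      · rw [if_neg hb, zero_mul]
        refine Finset.sum_eq_zero fun r _ => ?_
        have : Qd j₀ (x (e (j₀, 2))) (0, j₀, r) = 0 := by
          simp only [Qd, Matrix.of_apply]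
          rw [if_neg]
          rintro ⟨a, b, -⟩
          exact hb (Prod.ext a b)
        rw [this, zero_mul]
    · rw [if_neg (e.injective.ne fun h => hj (congrArg Prod.fst h))]
      refine Finset.sum_eq_zero fun r _ => ?_
      have : Qd j (x (e (j₀, 2))) (0, j₀, r) = 0 := by
        simp only [Qd, Matrix.of_apply]
        rw [if_neg]
        rintro ⟨-, -, b⟩
        exact hj b
      rw [this, zero_mul]
  · rw [if_neg (e.injective.ne fun h => hp (congrArg Prod.snd h))]
    simp only [LatF_update_core e f x hp, LatF_gg_core hp, ← mul_assoc, ← Finset.sum_mul,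
      LatF_Qd_core, zero_mul, Pi.zero_apply]

theorem cnt_prodSt (e : Fin n × Fin 3 ≃ Fin N) {f : (Fin n → Fin 3) → ℝ} {x : Fin N → Mode n}
    (hx : prodSt e f x ≠ 0) (j : Fin n) : cnt x j = 3 := by
  rw [LatF_prodSt_eq] at hx
  have h1 : ∀ p, (x (e p)).2.1 = p.1 := fun p =>
    congrArg Prod.snd (LatF_gg_ne (Finset.prod_ne_zero_iff.1 (left_ne_zero_of_mul hx) p
      (Finset.mem_univ p)))
  unfold cnt
  have : (Finset.univ.filter fun i => (x i).2.1 = j) =
      Finset.univ.map ⟨fun r : Fin 3 => e (j, r), fun r r' h => congrArg Prod.snd (e.injective h)⟩ := by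
    ext i
    obtain ⟨p, rfl⟩ := e.surjective i
    simp only [Finset.mem_filter, Finset.mem_univ, true_and, h1, Finset.mem_map,
      Function.Embedding.coeFn_mk, EmbeddingLike.apply_eq_iff_eq]
    constructor
    · rintro rfl; exact ⟨p.2, rfl⟩
    · rintro ⟨r, rfl⟩; rfl
  rw [this, Finset.card_map]
  simp

theorem LatF_cnt_comp (σ : Equiv.Perm (Fin N)) (x : Fin N → Mode n) (j : Fin n) :
    cnt (x ∘ σ) j = cnt x j := by
  unfold cnt
  exact Finset.card_equiv σ fun i => by simp

theorem LatF_cmp_comp (e : Fin n × Fin 3 ≃ Fin N) {f : (Fin n → Fin 3) → ℝ} (hf : ZeroSum f)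
    (ι : Fin n → Fin N) (σ : Equiv.Perm (Fin N)) :
    cmp ι (fun x => prodSt e f (x ∘ σ)) =
      if ∀ j, σ (e (j, 2)) = ι j then fun x => prodSt e f (x ∘ σ) else 0 := by
  have key : ∀ l : List (Fin n), (l.map fun j => slot (ι j) (Qd j)).prod
      (fun x => prodSt e f (x ∘ σ)) =
      if ∀ j ∈ l, σ (e (j, 2)) = ι j then fun x => prodSt e f (x ∘ σ) else 0 := by
    intro l
    induction l with
    | nil => simp
    | cons j l ih =>
      rw [List.map_cons, List.prod_cons, Module.End.mul_apply, ih]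
      by_cases hl : ∀ j ∈ l, σ (e (j, 2)) = ι j
      · rw [if_pos hl]
        have h1 := slot_comp_perm σ (σ.symm (ι j)) (Qd j) (prodSt e f)
        rw [Equiv.apply_symm_apply] at h1
        rw [h1, slot_Qd_prodSt e hf]
        by_cases hj : σ (e (j, 2)) = ι j
        · rw [if_pos (by rw [← hj, Equiv.symm_apply_apply]), if_pos]
          intro j' hj'
          rcases List.mem_cons.1 hj' with rfl | h
          · exact hj
          · exact hl _ h
        · rw [if_neg (fun h => hj (by rw [← h, Equiv.apply_symm_apply])), if_neg]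
          · rfl
          · exact fun h => hj (h j List.mem_cons_self)
      · rw [if_neg hl, map_zero, if_neg]
        exact fun h => hl fun j' hj' => h j' (List.mem_cons_of_mem _ hj')
  unfold cmp
  rw [key]
  simp

/-- The trial state. -/
def LatF_st (e : Fin n × Fin 3 ≃ Fin N) (f : (Fin n → Fin 3) → ℝ) (x : Fin N → Mode n) : ℝ :=
  ∑ σ : Equiv.Perm (Fin N), ((Equiv.Perm.sign σ : ℤ) : ℝ) * prodSt e f (x ∘ σ)

theorem LatF_st_eq (e : Fin n × Fin 3 ≃ Fin N) (f : (Fin n → Fin 3) → ℝ) :
    LatF_st e f = ∑ σ : Equiv.Perm (Fin N),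
      ((Equiv.Perm.sign σ : ℤ) : ℝ) • fun x => prodSt e f (x ∘ σ) := by
  funext x
  simp [LatF_st, Finset.sum_apply]

theorem LatF_filled (e : Fin n × Fin 3 ≃ Fin N) {f : (Fin n → Fin 3) → ℝ} (hf : ZeroSum f) :
    Filled (LatF_st e f) := by
  refine ⟨anti_sum _, fun b => ?_⟩
  rw [LatF_st_eq, map_sum]
  refine Finset.sum_congr rfl fun σ _ => ?_
  rw [map_smul]
  congr 1
  have := Ne_prodSt e hf b
  unfold Ne at this ⊢
  rw [dG_comp_perm, this]

theorem LatF_good (e : Fin n × Fin 3 ≃ Fin N) (f : (Fin n → Fin 3) → ℝ) (x : Fin N → Mode n)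
    (hx : LatF_st e f x ≠ 0) (j : Fin n) : cnt x j = 3 := by
  obtain ⟨σ, -, hσ⟩ := Finset.exists_ne_zero_of_sum_ne_zero hx
  rw [← LatF_cnt_comp σ]
  exact cnt_prodSt e (right_ne_zero_of_mul hσ) j

/-- The amplitude of the component `ι`. -/
def LatF_gam (e : Fin n × Fin 3 ≃ Fin N) (ι : Fin n → Fin N) (x : Fin N → Mode n) : ℝ :=
  ∑ σ : Equiv.Perm (Fin N), if ∀ j, σ (e (j, 2)) = ι j then
    ((Equiv.Perm.sign σ : ℤ) : ℝ) * ∏ p, LatF_gg p (x (σ (e p))) else 0

theorem LatF_cmp_setR (e : Fin n × Fin 3 ≃ Fin N) {f : (Fin n → Fin 3) → ℝ} (hf : ZeroSum f)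
    {ι : Fin n → Fin N} (hι : Function.Injective ι) (x : Fin N → Mode n) (y : Fin n → Fin 3) :
    cmp ι (LatF_st e f) (setR ι x y) = LatF_gam e ι x * f y := by
  rw [LatF_st_eq, map_sum, Finset.sum_apply, LatF_gam, Finset.sum_mul]
  refine Finset.sum_congr rfl fun σ _ => ?_
  rw [map_smul, LatF_cmp_comp e hf]
  split_ifs with h
  · simp only [Pi.smul_apply, smul_eq_mul, LatF_prodSt_eq, Function.comp_apply, h,
      setR_apply hι, mul_assoc]
    congr 2
  · simp

theorem LatF_gam_ne (e : Fin n × Fin 3 ≃ Fin N) :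
    ∃ x, LatF_gam e (fun j => e (j, 2)) x ≠ 0 := by
  refine ⟨fun i => (if (e.symm i).2 = 1 then 1 else 0, (e.symm i).1, 0), ?_⟩
  unfold LatF_gam
  rw [Finset.sum_eq_single 1]
  · simp only [Equiv.Perm.coe_one, id_eq, implies_true, if_true, Equiv.Perm.sign_one,
      Units.val_one, Int.cast_one, one_mul, Equiv.symm_apply_apply]
    refine Finset.prod_ne_zero_iff.2 fun p _ => ?_
    obtain ⟨j, r⟩ := p
    fin_cases r <;> simp [LatF_gg, core, blk]
  · intro σ _ hσ
    split_ifs with h
    · refine mul_eq_zero_of_right _ ?_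
      by_contra hc
      apply hσ
      have h1 : ∀ p, _ := fun p => LatF_gg_ne (Finset.prod_ne_zero_iff.1 hc p (Finset.mem_univ p))
      simp only [blk, Prod.mk.injEq] at h1
      ext1 i
      obtain ⟨p, rfl⟩ := e.surjective i
      obtain ⟨q, hq⟩ := e.surjective (σ (e p))
      have h2 := h1 p
      rw [← hq, Equiv.symm_apply_apply] at h2
      rw [← hq, Equiv.Perm.coe_one, id_eq]
      congr 1
      by_cases hp2 : p.2 = 2
      · have h3 := h p.1
        rw [← hp2, Prod.mk.eta, ← hq] at h3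
        exact e.injective h3
      by_cases hq2 : q.2 = 2
      · have h3 : σ (e (q.1, 2)) = e (q.1, 2) := h q.1
        rw [← hq2, Prod.mk.eta] at h3
        exact e.injective (σ.injective (h3.trans hq))
      · obtain ⟨j, r⟩ := p
        obtain ⟨j', r'⟩ := q
        refine Prod.ext h2.2 ?_
        have h4 := h2.1
        revert h4 hp2 hq2
        fin_cases r <;> fin_cases r' <;> simp
    · rfl
  · simp

/-- Recipe: `c x = ∑ σ, sign σ * prodSt e f (x ∘ σ)` (`anti_sum`, `dG_comp_perm`).  By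
`slot_comp_perm` and `slot_Qd_prodSt`, `cmp ι c` is the sum over the `σ` with `σ (e (j, 2)) = ι j`
for all `j`; hence `cmp ι c (setR ι x y) = γ ι x * f y`, and `sum_setR` gives
`∑ x, tcost * (cmp ι c x)² ≤ a * nsq (cmp ι c)`.  For `ι j = e (j, 2)` and the configuration with
`(0, j, 0), (1, j, 0), (0, j, y j)` at `e (j, 0), e (j, 1), e (j, 2)` only `σ = 1` contributes, so
`c ≠ 0`. -/
theorem lat_yes (hN : N = 3 * n) (U : ℝ) (kc : ℕ) {a : ℝ} {k : ℕ → ℕ → ℕ}
    (hk : ∀ A B, k A B = k B A) (h : TYes n k a) :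
    ∃ c : (Fin N → Mode n) → ℝ, c ≠ 0 ∧ Anti c ∧ latT c = n * nsq c ∧
      latV (Vlat U kc k) c ≤ (3 * n * kc + 2 * n / 3 * (U - kc) + a) * nsq c := by
  obtain ⟨f, hf0, hf, hfa⟩ := h
  obtain ⟨e⟩ : Nonempty (Fin n × Fin 3 ≃ Fin N) :=
    ⟨Fintype.equivOfCardEq (by simp [hN, mul_comm])⟩
  have hF := LatF_filled e hf
  have hQ := dG_Qd hF (LatF_good e f)
  refine ⟨LatF_st e f, ?_, hF.1, latT_filled hN hF, ?_⟩
  · intro h0
    obtain ⟨x, hx⟩ := LatF_gam_ne e
    obtain ⟨y, hy⟩ := Function.ne_iff.1 hf0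
    have hι : Function.Injective fun j : Fin n => e (j, 2) := fun j j' h =>
      congrArg Prod.fst (e.injective h)
    have := LatF_cmp_setR e hf hι x y
    rw [h0, map_zero] at this
    exact mul_ne_zero hx hy this.symm
  · rw [latV_good hN U kc hk hF (LatF_good e f), add_mul _ a, add_le_add_iff_left,
      nsq_eq_sum_cmp hQ, Finset.mul_sum]
    refine Finset.sum_le_sum fun ι _ => ?_
    by_cases hι : Function.Injective ι
    · have h3 : (0 : ℝ) < 3 ^ n := by positivity
      refine le_of_mul_le_mul_left ?_ h3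
      have hn : nsq (cmp ι (LatF_st e f)) = ∑ x, cmp ι (LatF_st e f) x ^ 2 := by
        simp [nsq, dotProduct, sq]
      rw [hn, mul_left_comm, ← sum_setR hι, ← sum_setR hι, Finset.mul_sum]
      refine Finset.sum_le_sum fun x _ => ?_
      simp only [LatF_cmp_setR e hf hι, setR_apply hι]
      have hn' : nsq f = ∑ y, f y ^ 2 := by simp [nsq, dotProduct, sq]
      rw [hn'] at hfa
      have := mul_le_mul_of_nonneg_left hfa (sq_nonneg (LatF_gam e ι x))
      calc ∑ y, tcost n k y * (LatF_gam e ι x * f y) ^ 2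
          = LatF_gam e ι x ^ 2 * ∑ y, tcost n k y * f y ^ 2 := by
            rw [Finset.mul_sum]; exact Finset.sum_congr rfl fun y _ => by ring
        _ ≤ _ := this
        _ = _ := by
            rw [mul_left_comm, Finset.mul_sum]
            congr 1
            exact Finset.sum_congr rfl fun y _ => by ring
    · simp [cmp_eq_zero hι, nsq]

end Crest.Agent.R338
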