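/-
R338/LowA: the projection on the rooms
Skeleton by helper15 (row 338); keep the statements unchanged, add any helper lemmas you like.
-/
import Crest.Agent.R338.Trial

set_option autoImplicit false
set_option linter.unusedSectionVars false
set_option linter.unusedVariables false
set_option linter.unusedSimpArgs false

noncomputable section

namespace Crest.Agent.R338

open MeasureTheory Set Filter Crest.MathPhysics.ElectronicCoulomb

/-- Comparing the vertical weight with `ρ` on a set where `F ≥ c`. -/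
theorem int_w_le {D : Des} {u : Pos3 → ℝ} (hu : Test u) {s : Set Pos3} (hs : IsCompact s) {c : ℝ}
    (hc : 0 < c) (h : ∀ x ∈ s, c ≤ D.F3 0 0 x) :
    ∫ x in s, D.phi (x 2) ^ 2 * gsq u x ≤ (c ^ 1072)⁻¹ * ∫ x in s, D.rho x * gsq u x := by
  have hg := continuous_gsq hu.diff
  have h2 : Continuous fun x : Pos3 => D.phi (x 2) ^ 2 * gsq u x :=
    (((continuous_phi D).comp (by fun_prop)).pow 2).mul hg
  rw [← integral_const_mul]
  refine setIntegral_mono_on (h2.continuousOn.integrableOn_compact hs)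
    ((continuous_const.mul ((continuous_rho D).mul hg)).continuousOn.integrableOn_compact hs)
    hs.measurableSet fun x hx => ?_
  have h3 : c ^ 1072 ≤ D.F3 0 0 x ^ 1072 := pow_le_pow_left₀ hc.le (h x hx) _
  have h4 : 0 < c ^ 1072 := pow_pos hc _
  have h5 : 0 ≤ D.phi (x 2) ^ 2 * gsq u x := mul_nonneg (sq_nonneg _) (gsq_nonneg _ _)
  rw [rho_eq]
  generalize c ^ 1072 = a at h3 h4
  generalize D.F3 0 0 x ^ 1072 = b at h3
  rw [mul_assoc, le_inv_mul_iff₀ h4]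
  exact mul_le_mul_of_nonneg_right h3 h5

theorem lowA_nonneg (D : Des) (u : Pos3 → ℝ) : 0 ≤ ∫ x, D.rho x * gsq u x :=
  integral_nonneg fun x => mul_nonneg (sq_nonneg _) (gsq_nonneg _ _)

theorem int_rho_gsq_le (D : Des) {u : Pos3 → ℝ} (hu : Test u) (s : Set Pos3) :
    ∫ x in s, D.rho x * gsq u x ≤ ∫ x, D.rho x * gsq u x := by
  exact setIntegral_le_integral (hu.integrable_gsq (continuous_rho D))
    (Eventually.of_forall fun x => mul_nonneg (sq_nonneg _) (gsq_nonneg _ _))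

/-- The cross section at the lower end of the thick part of a wire. -/
def Des.Utop (D : Des) (u : Pos3 → ℝ) (A : ℕ) : ℝ :=
  Ul (fun z => D.phi z ^ 2) D.z1 D.mz (D.ell ℝ) u (D.ell ℝ * D.xA ℝ A) (D.ell ℝ * (1 + 2 * D.sg ℝ))

/-- `Ub_sub_Ul_sq` on `[ℓ (1 + 2 σ), ℓ ytop]`, `F_top_ge`, `extent`. -/
theorem Upad_sub_Utop : ∀ᶠ D : Des in evD, ∀ u, Test u → ∀ A < 3 * D.n, ∀ l < D.Lv,
    (D.Upad u A l - D.Utop u A) ^ 2 ≤ (D.S : ℝ) ^ 1086 / D.mz * ∫ x, D.rho x * gsq u x := by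
  filter_upwards [ev_good, ev_ge 2, ev_sg, extent, F_top_ge] with D hD h2 hsg hext hF u hu A hA l hl
  have hℓ := hD.ell_pos
  have hm := mz_pos hD
  have h0 := hD.pos
  have h1 := hD.one_le
  have hσ := hD.sg_pos
  have h12 : (2 : ℝ) ≤ (D.S : ℝ) ^ 12 := h2.trans (le_self_pow₀ h1 (by norm_num))
  have hy := (hext.2.1 l hl.le).1
  have hy' := hext.2.2 l hl
  have hy'' : D.ytop ℝ ≤ 2 * (D.S : ℝ) ^ 13 := (hext.2.1 D.Lv le_rfl).2
  have key := Ub_sub_Ul_sq (zw_phi hD) hℓ hu.diff (D.ell ℝ * D.xA ℝ A) (b := D.ell ℝ * D.yl ℝ l)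
    (y := D.ell ℝ * (1 + 2 * D.sg ℝ)) (y₀ := D.ell ℝ * (1 + 2 * D.sg ℝ)) (y₁ := D.ell ℝ * D.ytop ℝ)
    (mul_le_mul_of_nonneg_left (by linarith) hℓ.le)
    (by rw [← mul_add_one]; exact mul_le_mul_of_nonneg_left hy' hℓ.le) le_rfl
    (mul_le_mul_of_nonneg_left (by linarith) hℓ.le)
  refine key.trans ?_
  have h3 := int_w_le (D := D) hu (isCompact_bx (D.ell ℝ * D.xA ℝ A) (D.ell ℝ * D.xA ℝ A + D.ell ℝ)
    (D.ell ℝ * (1 + 2 * D.sg ℝ)) (D.ell ℝ * D.ytop ℝ) D.z1) (inv_pos.2 h0) (fun x hx => by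
      obtain ⟨⟨a1, a2⟩, ⟨a3, a4⟩, -⟩ := hx
      refine hF A hA _ ⟨?_, ?_⟩ _ ⟨?_, ?_⟩
      · rw [le_div_iff₀ hℓ]; linarith
      · rw [div_le_iff₀ hℓ]; linarith
      · rw [le_div_iff₀ hℓ]; linarith
      · rw [div_le_iff₀ hℓ]; linarith)
  rw [inv_pow, inv_inv] at h3
  have h4 := h3.trans (mul_le_mul_of_nonneg_left (int_rho_gsq_le D hu _) (by positivity))
  have h5 : (D.ell ℝ * D.ytop ℝ - D.ell ℝ * (1 + 2 * D.sg ℝ)) / (D.ell ℝ * D.mz) =
      (D.ytop ℝ - (1 + 2 * D.sg ℝ)) / D.mz := by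
    rw [← mul_sub, mul_div_mul_left _ _ hℓ.ne']
  have h6 : (D.ytop ℝ - (1 + 2 * D.sg ℝ)) / D.mz ≤ (D.S : ℝ) ^ 14 / D.mz := by
    have := mul_pow_le (a := 13) (b := 14) h1 h2 le_rfl
    exact div_le_div_of_nonneg_right (by linarith) hm.le
  have h7 : (D.S : ℝ) ^ 1086 = (D.S : ℝ) ^ 14 * (D.S : ℝ) ^ 1072 := by rw [← pow_add]
  rw [h5, h7]
  calc _ ≤ (D.S : ℝ) ^ 14 / D.mz * ((D.S : ℝ) ^ 1072 * ∫ x, D.rho x * gsq u x) :=
        mul_le_mul h6 h4 (setIntegral_nonneg (measurableSet_bx _ _ _ _ _) fun x _ =>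
          mul_nonneg (sq_nonneg _) (gsq_nonneg _ _)) (by positivity)
    _ = _ := by
        generalize (D.S : ℝ) ^ 14 = a
        generalize (D.S : ℝ) ^ 1072 = b
        ring

theorem Uroom_sub_Utop : ∀ᶠ D : Des in evD, ∀ u, Test u → ∀ A < 3 * D.n,
    (D.Uroom u A - D.Utop u A) ^ 2 ≤ (D.S : ℝ) ^ 1086 / D.mz * ∫ x, D.rho x * gsq u x := by
  filter_upwards [ev_good, Upad_sub_Utop] with D hD h u hu A hA
  have hM : (0 : ℝ) < D.M := zero_lt_one.trans_le hD.one_le_M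
  have hc := hD.cnt A hA
  have e : D.Uroom u A - D.Utop u A = (D.M : ℝ)⁻¹ * ∑ l ∈ D.pads A, (D.Upad u A l - D.Utop u A) := by
    rw [Finset.sum_sub_distrib, Finset.sum_const, hc, nsmul_eq_mul, Des.Uroom]
    field_simp
  have h1 := sq_sum_le_card_mul_sum_sq (s := D.pads A) (f := fun l => D.Upad u A l - D.Utop u A)
  have h2 := Finset.sum_le_card_nsmul (D.pads A) (fun l => (D.Upad u A l - D.Utop u A) ^ 2) _
    fun l hl => h u hu A hA l (Des.mem_pads.1 hl).1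
  rw [hc] at h1 h2
  rw [nsmul_eq_mul] at h2
  rw [e, mul_pow, inv_pow, inv_mul_le_iff₀ (by positivity), sq (D.M : ℝ), mul_assoc]
  exact h1.trans (mul_le_mul_of_nonneg_left h2 hM.le)

theorem lowA_pad {D : Des} (hD : D.Good) (u : Pos3 → ℝ) (A l : ℕ) :
    ∫ x in D.padBox A l, D.phi (x 2) ^ 2 * u x = D.ell ℝ ^ 2 * D.mz * D.Upad u A l := by
  have hℓ := hD.ell_pos
  have hm := mz_pos hD
  unfold Des.Upad Ub Des.padBox
  rw [mul_inv_cancel_left₀ (by positivity)]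

theorem lowA_var {D : Des} (hD : D.Good) {u : Pos3 → ℝ} (hu : Continuous u) (A l : ℕ) :
    ∫ x in D.padBox A l, D.phi (x 2) ^ 2 * u x ^ 2 =
      (∫ x in D.padBox A l, D.phi (x 2) ^ 2 * (u x - D.Upad u A l) ^ 2) +
        D.ell ℝ ^ 2 * D.mz * D.Upad u A l ^ 2 := by
  have hℓ := hD.ell_pos
  have hφ : Continuous fun x : Pos3 => D.phi (x 2) ^ 2 :=
    ((continuous_phi D).comp (by fun_prop)).pow 2
  have h0 : ∫ x in D.padBox A l, D.phi (x 2) ^ 2 = D.ell ℝ ^ 2 * D.mz := by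
    have := integral_bx_weight (zw_phi hD) (a := D.ell ℝ * D.xA ℝ A)
      (a' := D.ell ℝ * D.xA ℝ A + D.ell ℝ) (b := D.ell ℝ * D.yl ℝ l)
      (b' := D.ell ℝ * D.yl ℝ l + D.ell ℝ) (by linarith) (by linarith)
    refine this.trans ?_
    ring
  have h1 := lowA_pad hD u A l
  generalize D.Upad u A l = c at h1 ⊢
  have e : ∀ x : Pos3, D.phi (x 2) ^ 2 * (u x - c) ^ 2 =
      D.phi (x 2) ^ 2 * u x ^ 2 - 2 * c * (D.phi (x 2) ^ 2 * u x) + c ^ 2 * D.phi (x 2) ^ 2 :=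
    fun x => by ring
  have i : ∀ {f : Pos3 → ℝ}, Continuous f → IntegrableOn f (D.padBox A l) := fun hf =>
    box_integrableOn hf _ _ _ _ _
  have c1 : Continuous fun x => D.phi (x 2) ^ 2 * u x ^ 2 := hφ.mul (hu.pow 2)
  have c2 : Continuous fun x => 2 * c * (D.phi (x 2) ^ 2 * u x) := continuous_const.mul (hφ.mul hu)
  have c3 : Continuous fun x : Pos3 => c ^ 2 * D.phi (x 2) ^ 2 := continuous_const.mul hφ
  simp only [e]
  rw [integral_add (i (c1.fun_sub c2)) (i c3), integral_sub (i c1) (i c2), integral_const_mul,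
    integral_const_mul, h0, h1]
  ring

/-- `orb_eq`, `integral_Om`, `Psi_pad`. -/
theorem proj_eq : ∀ᶠ D : Des in evD, ∀ u, Test u → ∀ A,
    ∫ x, orb D.phiT D.Om A x * (D.Psi x * u x) = √D.mass * D.Uroom u (rid A) := by
  filter_upwards [ev_good, orb_eq, integral_Om, Psi_pad] with D hD h1 h2 h3 u hu A
  have hM : (0 : ℝ) < D.M := zero_lt_one.trans_le hD.one_le_M
  have hm := mass_pos hD
  have hΨ := (contDiff_Psi D).continuous
  have e1 : ∀ x, orb D.phiT D.Om A x * (D.Psi x * u x) =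
      (D.Om A).indicator (fun x => (√D.mass)⁻¹ * D.Psi x * (D.Psi x * u x)) x := fun x => by
    rw [h1]
    by_cases hx : x ∈ D.Om A <;> simp [hx]
  simp only [e1]
  rw [integral_indicator (measurableSet_Om D A),
    h2 A _ ((continuous_const.fun_mul hΨ).fun_mul (hΨ.fun_mul hu.continuous))]
  have e2 : ∀ l ∈ D.pads (rid A),
      ∫ x in D.padBox (rid A) l, (√D.mass)⁻¹ * D.Psi x * (D.Psi x * u x) =
        (√D.mass)⁻¹ * D.wP ℝ ^ 2 * (D.ell ℝ ^ 2 * D.mz) * D.Upad u (rid A) l := fun l hl => by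
    rw [mul_assoc _ (D.ell ℝ ^ 2 * D.mz), ← lowA_pad hD, ← integral_const_mul]
    refine setIntegral_congr_fun (measurableSet_bx _ _ _ _ _) fun x hx => ?_
    simp only [h3 _ (Des.rid_lt A) l hl x hx]
    ring
  rw [Finset.sum_congr rfl e2, ← Finset.mul_sum, Des.Uroom, ← mul_assoc (√D.mass)]
  congr 1
  have h4 : √D.mass * √D.mass = D.M * D.wP ℝ ^ 2 * D.ell ℝ ^ 2 * D.mz := Real.mul_self_sqrt hm.le
  have h5 : 0 < √D.mass := Real.sqrt_pos.2 hm
  generalize √D.mass = r at h4 h5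
  field_simp
  linear_combination -h4

/-- Recipe: the left side is `wP² ∑ l, ∫ pad, φ² (u - Uroom)²`; use
`(u - Uroom)² ≤ 2 (u - Upad)² + 2 (Upad - Uroom)²`, `box_poincare`, `Upad_sub_Utop`,
`Uroom_sub_Utop`; `ℓ² = S⁻⁴³²⁰`. -/
theorem defect_room : ∀ᶠ D : Des in evD, ∀ u, Test u → ∀ A : Room D.n,
    (∫ x in D.Om A, D.rho x * u x ^ 2) - D.mass * D.Uroom u (rid A) ^ 2 ≤
      ((D.S : ℝ) ^ 3000)⁻¹ * ∫ x, D.rho x * gsq u x := by
  filter_upwards [ev_good, ev_ge 100, ev_wP, integral_Om, Psi_pad, F_pad, Upad_sub_Utop] with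
    D hD h100 hw h2 h3 hF hU u hu A
  have hM : (0 : ℝ) < D.M := zero_lt_one.trans_le hD.one_le_M
  have hℓ := hD.ell_pos
  have hm := mz_pos hD
  have h0 := hD.pos
  have h1 := hD.one_le
  have hA := Des.rid_lt A
  have hc := hD.cnt _ hA
  have hE := lowA_nonneg D u
  have hw0 : 0 ≤ D.wP ℝ := zero_le_one.trans hD.one_le_wP
  have hw2 : D.wP ℝ ^ 2 ≤ 4 := by nlinarith
  have hz : D.z1 ^ 2 ≤ D.ell ℝ ^ 2 :=
    pow_le_pow_left₀ hD.z1_pos.le (inv_pow_le h1 (by norm_num)) 2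
  -- one pad
  have e1 : ∀ l ∈ D.pads (rid A), ∫ x in D.padBox (rid A) l, D.rho x * u x ^ 2 ≤
      D.wP ℝ ^ 2 * (24 * D.ell ℝ ^ 2 * (∫ x, D.rho x * gsq u x) +
        D.ell ℝ ^ 2 * D.mz * D.Upad u (rid A) l ^ 2) := fun l hl => by
    have a1 : ∫ x in D.padBox (rid A) l, D.rho x * u x ^ 2 =
        D.wP ℝ ^ 2 * ∫ x in D.padBox (rid A) l, D.phi (x 2) ^ 2 * u x ^ 2 := by
      rw [← integral_const_mul]
      refine setIntegral_congr_fun (measurableSet_bx _ _ _ _ _) fun x hx => ?_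
      simp only [Des.rho, h3 _ hA l hl x hx]
      ring
    have a2 := box_poincare (zw_phi hD) hℓ hu.diff (D.ell ℝ * D.xA ℝ (rid A)) (D.ell ℝ * D.yl ℝ l)
    have a3 := int_w_le (D := D) hu (s := D.padBox (rid A) l) (isCompact_bx _ _ _ _ _) zero_lt_one
      (fun x hx => by
        obtain ⟨b1, b2, -⟩ := (mem_padBox hD).1 hx
        have b3 : D.F3 0 0 x = D.FP ℝ := hF _ hA l hl _ b1 _ b2
        have b4 : 0 ≤ (D.S : ℝ)⁻¹ + ((D.S : ℝ) ^ 2)⁻¹ := by positivity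
        rw [b3, Des.FP]
        linarith)
    rw [one_pow, inv_one, one_mul] at a3
    have a4 := a3.trans (int_rho_gsq_le D hu _)
    rw [a1, lowA_var hD hu.continuous]
    refine mul_le_mul_of_nonneg_left (add_le_add_left (a2.trans ?_) _) (sq_nonneg _)
    exact mul_le_mul (by linarith) a4 (setIntegral_nonneg (measurableSet_bx _ _ _ _ _) fun x _ =>
      mul_nonneg (sq_nonneg _) (gsq_nonneg _ _)) (by positivity)
  -- the mean minimises
  have e2 : ∑ l ∈ D.pads (rid A), D.Upad u (rid A) l ^ 2 - D.M * D.Uroom u (rid A) ^ 2 ≤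
      D.M * ((D.S : ℝ) ^ 1086 / D.mz * ∫ x, D.rho x * gsq u x) := by
    have b1 := Finset.sum_le_card_nsmul (D.pads (rid A))
      (fun l => (D.Upad u (rid A) l - D.Utop u (rid A)) ^ 2) _
      fun l hl => hU u hu _ hA l (Des.mem_pads.1 hl).1
    rw [hc, nsmul_eq_mul] at b1
    refine le_trans ?_ b1
    have b2 : ∑ l ∈ D.pads (rid A), D.Upad u (rid A) l = D.M * D.Uroom u (rid A) := by
      rw [Des.Uroom, mul_inv_cancel_left₀ hM.ne']
    have b3 : ∑ l ∈ D.pads (rid A), (D.Upad u (rid A) l - D.Utop u (rid A)) ^ 2 =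
        ∑ l ∈ D.pads (rid A), D.Upad u (rid A) l ^ 2 -
          2 * D.Utop u (rid A) * (D.M * D.Uroom u (rid A)) + D.M * D.Utop u (rid A) ^ 2 := by
      rw [← b2, Finset.mul_sum, ← Finset.sum_sub_distrib, ← hc, ← nsmul_eq_mul, ← Finset.sum_const,
        ← Finset.sum_add_distrib]
      exact Finset.sum_congr rfl fun l _ => by ring
    rw [b3]
    nlinarith [mul_nonneg hM.le (sq_nonneg (D.Utop u (rid A) - D.Uroom u (rid A)))]
  rw [h2 A _ ((continuous_rho D).fun_mul (hu.continuous.fun_pow 2))]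
  have e3 := Finset.sum_le_sum e1
  rw [← Finset.mul_sum, Finset.sum_add_distrib, Finset.sum_const, hc, nsmul_eq_mul,
    ← Finset.mul_sum] at e3
  have e4 : D.wP ℝ ^ 2 * (D.M * (D.ell ℝ ^ 2 * (24 + (D.S : ℝ) ^ 1086))) ≤ ((D.S : ℝ) ^ 3000)⁻¹ := by
    have c1 : (1 : ℝ) ≤ (D.S : ℝ) ^ 1086 := one_le_pow₀ h1
    have c2 : D.ell ℝ ^ 2 = ((D.S : ℝ) ^ 4320)⁻¹ := by
      rw [Des.ell, inv_pow, ← pow_mul]
    have c3 : (D.S : ℝ) ^ 4320 = (D.S : ℝ) ^ 1087 * (D.S : ℝ) ^ 3233 := by rw [← pow_add]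
    have c4 : (D.S : ℝ) ^ 1087 = D.S * (D.S : ℝ) ^ 1086 := by rw [← pow_succ']
    have c5 := mul_inv_pow_le (a := 3000) (b := 3233) h1 h100 (by norm_num)
    have c6 : (0 : ℝ) < (D.S : ℝ) ^ 3233 := by positivity
    refine le_trans ?_ c5
    rw [c2, c3, c4]
    have c7 := hD.M_le
    generalize (D.S : ℝ) ^ 1086 = a at c1 ⊢
    generalize (D.S : ℝ) ^ 3233 = b at c6 ⊢
    calc _ ≤ 4 * (D.S * ((D.S * a * b)⁻¹ * (25 * a))) := by gcongr; linarith
      _ = 100 * b⁻¹ := by field_simp; norm_num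
  have e5 := mul_le_mul_of_nonneg_right e4 hE
  have e6 := mul_le_mul_of_nonneg_left e2
    (show 0 ≤ D.wP ℝ ^ 2 * (D.ell ℝ ^ 2 * D.mz) by positivity)
  have e7 : D.wP ℝ ^ 2 * (D.ell ℝ ^ 2 * D.mz) *
      (D.M * ((D.S : ℝ) ^ 1086 / D.mz * ∫ x, D.rho x * gsq u x)) =
      D.wP ℝ ^ 2 * (D.M * (D.ell ℝ ^ 2 * (D.S : ℝ) ^ 1086)) * ∫ x, D.rho x * gsq u x := by
    generalize (D.S : ℝ) ^ 1086 = a
    field_simp
  rw [e7] at e6
  rw [Des.mass]
  generalize (D.S : ℝ) ^ 1086 = a at e5 e6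
  generalize ((D.S : ℝ) ^ 3000)⁻¹ = b at e5 ⊢
  nlinarith [e3, e5, e6]

end Crest.Agent.R338
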