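/-
R338/LowB: the hopping bound
Skeleton by helper15 (row 338); keep the statements unchanged, add any helper lemmas you like.
-/
import Crest.Agent.R338.LowA

set_option autoImplicit false
set_option linter.unusedSectionVars false
set_option linter.unusedVariables false
set_option linter.unusedSimpArgs false

noncomputable section

namespace Crest.Agent.R338

open MeasureTheory Set Filter Crest.MathPhysics.ElectronicCoulomb

/-- The cross section at the upper edge of the bus. -/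
def Des.Ubot (D : Des) (u : Pos3 → ℝ) (A : ℕ) : ℝ :=
  Ul (fun z => D.phi z ^ 2) D.z1 D.mz (D.ell ℝ) u (D.ell ℝ * D.xA ℝ A) 0

/-- The average over the square of the bus below a wire. -/
def Des.Ubus (D : Des) (u : Pos3 → ℝ) (A : ℕ) : ℝ :=
  Ub (fun z => D.phi z ^ 2) D.z1 D.mz (D.ell ℝ) u (D.ell ℝ * D.xA ℝ A) (-D.ell ℝ)

/-- The neck of a wire. -/
def Des.neck (D : Des) (A : ℕ) : Set Pos3 :=
  bx (D.ell ℝ * D.xA ℝ A) (D.ell ℝ * D.xA ℝ A + D.ell ℝ) 0 (D.ell ℝ * (1 + 2 * D.sg ℝ)) D.z1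

theorem lowB_div_mem {l a b x : ℝ} (hl : 0 < l) (h1 : l * a ≤ x) (h2 : x ≤ l * b) :
    x / l ∈ Icc a b :=
  ⟨(le_div_iff₀' hl).2 h1, (div_le_iff₀' hl).2 h2⟩

theorem lowB_int_nonneg (D : Des) (u : Pos3 → ℝ) (s : Set Pos3) :
    0 ≤ ∫ x in s, D.rho x * gsq u x :=
  integral_nonneg fun x => mul_nonneg (sq_nonneg _) (gsq_nonneg _ _)

theorem lowB_add_sq {x y θ : ℝ} (hθ : 0 < θ) : (x + y) ^ 2 ≤ (1 + θ) * x ^ 2 + (1 + θ⁻¹) * y ^ 2 := by
  have h : 0 ≤ θ⁻¹ * (θ * x - y) ^ 2 := by positivity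
  have e : θ⁻¹ * (θ * x - y) ^ 2 = θ * x ^ 2 - 2 * x * y + θ⁻¹ * y ^ 2 := by
    field_simp
    ring
  nlinarith

/-- `Ul_sub_sq`, `F_wire_ge`, `int_w_le`. -/
theorem Utop_sub_Ubot : ∀ᶠ D : Des in evD, ∀ u, Test u → ∀ A < 3 * D.n,
    (D.Utop u A - D.Ubot u A) ^ 2 ≤
      (1 + 2 * D.sg ℝ) * (D.S : ℝ) ^ 2144 / D.mz * ∫ x in D.neck A, D.rho x * gsq u x := by
  filter_upwards [ev_good, ev_ge 2, ev_sg, F_wire_ge, extent] with D hD h2 hsg hF hext u hu A hA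
  have hl := hD.ell_pos
  have hm := mz_pos hD
  have hσ := hD.sg_pos
  have hs := hD.pos
  have hy : 1 + 2 * D.sg ℝ ≤ D.ytop ℝ := by
    have h1 := (hext.2.1 D.Lv le_rfl).1
    have h3 : (D.S : ℝ) ≤ (D.S : ℝ) ^ 12 := le_self_pow₀ hD.one_le (by norm_num)
    unfold Des.ytop
    linarith
  have h0 : 0 ≤ D.ell ℝ * (1 + 2 * D.sg ℝ) := mul_nonneg hl.le (by linarith)
  have h1 := Ul_sub_sq (zw_phi hD) hl hu.diff (D.ell ℝ * D.xA ℝ A)
    (y := 0) (y' := D.ell ℝ * (1 + 2 * D.sg ℝ)) h0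
  have h3 := int_w_le (D := D) hu (s := D.neck A) (isCompact_bx _ _ _ _ _)
    (c := ((D.S : ℝ) ^ 2)⁻¹) (by positivity) fun x hx =>
      hF A hA _ (lowB_div_mem hl hx.1.1 (by linarith [hx.1.2])) _
        (lowB_div_mem hl (by linarith [hx.2.1.1])
          (hx.2.1.2.trans (mul_le_mul_of_nonneg_left hy hl.le)))
  rw [inv_pow, inv_inv, ← pow_mul] at h3
  refine h1.trans ((mul_le_mul_of_nonneg_left h3
    (div_nonneg (sub_nonneg.2 h0) (mul_pos hl hm).le)).trans_eq ?_)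
  show _ * ((D.S : ℝ) ^ 2144 * _) = _
  generalize (D.S : ℝ) ^ 2144 = P
  field_simp
  ring

/-- `Ub_sub_Ul_sq`, `Ub_sub_Ub_sq`, `F_bus_ge`. -/
theorem Ubot_sub_Ubus : ∀ᶠ D : Des in evD, ∀ u, Test u → ∀ A < 3 * D.n,
    (D.Ubot u A - D.Ubus u (3 * (A / 3))) ^ 2 ≤
      (D.S : ℝ) ^ 1086 / D.mz * ∫ x, D.rho x * gsq u x := by
  filter_upwards [ev_good, ev_ge 6, F_bus_ge] with D hD h6 hF u hu A hA
  have hl := hD.ell_pos
  have hm := mz_pos hD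
  have hs := hD.pos
  have hq : A / 3 < D.n := by omega
  have h6' : (0 : ℝ) < (D.S : ℝ) ^ 6 := by positivity
  have x1 : D.xA ℝ (3 * (A / 3)) ≤ D.xA ℝ A := by
    have : ((3 * (A / 3) : ℕ) : ℝ) ≤ A := by exact_mod_cast (by omega : 3 * (A / 3) ≤ A)
    exact mul_le_mul_of_nonneg_left this h6'.le
  have x2 : D.xA ℝ A ≤ D.xA ℝ (3 * (A / 3) + 2) := by
    have : (A : ℝ) ≤ ((3 * (A / 3) + 2 : ℕ) : ℝ) := by
      exact_mod_cast (by omega : A ≤ 3 * (A / 3) + 2)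
    exact mul_le_mul_of_nonneg_left this h6'.le
  have x3 : D.xA ℝ (3 * (A / 3) + 2) = D.xA ℝ (3 * (A / 3)) + 2 * (D.S : ℝ) ^ 6 := by
    unfold Des.xA; push_cast; ring
  have y1 := mul_le_mul_of_nonneg_left x1 hl.le
  have y2 := mul_le_mul_of_nonneg_left x2 hl.le
  have key : ∀ a b' : ℝ, D.ell ℝ * D.xA ℝ (3 * (A / 3)) ≤ a → b' ≤ 0 →
      ∫ x in bx a (D.ell ℝ * D.xA ℝ A + D.ell ℝ) (-D.ell ℝ) b' D.z1, D.phi (x 2) ^ 2 * gsq u x ≤
        (D.S : ℝ) ^ 1072 * ∫ x, D.rho x * gsq u x := by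
    intro a b' ha hb
    have h3 := int_w_le (D := D) hu
      (s := bx a (D.ell ℝ * D.xA ℝ A + D.ell ℝ) (-D.ell ℝ) b' D.z1) (isCompact_bx _ _ _ _ _)
      (c := (D.S : ℝ)⁻¹) (by positivity) fun x hx =>
        hF _ hq _ (lowB_div_mem hl (ha.trans hx.1.1) (by linarith [hx.1.2])) _
          (lowB_div_mem hl (by linarith [hx.2.1.1]) (by linarith [hx.2.1.2]))
    rw [inv_pow, inv_inv] at h3
    exact h3.trans (mul_le_mul_of_nonneg_left (int_rho_gsq_le D hu _) (by positivity))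
  have h1 := Ub_sub_Ul_sq (zw_phi hD) hl hu.diff (D.ell ℝ * D.xA ℝ A) (b := -D.ell ℝ) (y := 0)
    (y₀ := -D.ell ℝ) (y₁ := 0) le_rfl (by linarith) (by linarith) le_rfl
  have h2 := Ub_sub_Ub_sq (zw_phi hD) hl hu.diff y1 (-D.ell ℝ)
  have hI : 0 ≤ ∫ x, D.rho x * gsq u x :=
    integral_nonneg fun x => mul_nonneg (sq_nonneg _) (gsq_nonneg _ _)
  have c1 : (0 - -D.ell ℝ) / (D.ell ℝ * D.mz) = 1 / D.mz := by field_simp; ring
  have c2 : (D.ell ℝ * D.xA ℝ A - D.ell ℝ * D.xA ℝ (3 * (A / 3))) / (D.ell ℝ * D.mz) ≤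
      2 * (D.S : ℝ) ^ 6 / D.mz := by
    rw [← mul_sub, mul_div_mul_left _ _ hl.ne']
    exact div_le_div_of_nonneg_right (by linarith) hm.le
  rw [c1] at h1
  have k1 := h1.trans (mul_le_mul_of_nonneg_left (key _ _ y1 le_rfl) (by positivity))
  have k2 := h2.trans (mul_le_mul c2 (key _ _ le_rfl (by linarith))
    (integral_nonneg fun x => mul_nonneg (sq_nonneg _) (gsq_nonneg _ _)) (by positivity))
  have c3 : (2 + 4 * (D.S : ℝ) ^ 6) * (D.S : ℝ) ^ 1072 ≤ (D.S : ℝ) ^ 1086 := by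
    have e1 : (1 : ℝ) ≤ (D.S : ℝ) ^ 6 := one_le_pow₀ hD.one_le
    have e2 := mul_pow_le (a := 6) (b := 14) hD.one_le h6 (by norm_num)
    rw [show (1086 : ℕ) = 14 + 1072 from rfl, pow_add]
    exact mul_le_mul_of_nonneg_right (by linarith) (by positivity)
  have c4 := mul_le_mul_of_nonneg_right (div_le_div_of_nonneg_right c3 hm.le) hI
  refine le_trans ?_ c4
  change (D.Ubus u A - D.Ubot u A) ^ 2 ≤ _ at k1
  change (D.Ubus u A - D.Ubus u (3 * (A / 3))) ^ 2 ≤ _ at k2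
  generalize (D.S : ℝ) ^ 1072 = P at k1 k2 ⊢
  generalize (D.S : ℝ) ^ 6 = Q at k1 k2 ⊢
  have e : (2 + 4 * Q) * P / D.mz * ∫ x, D.rho x * gsq u x =
      2 * (1 / D.mz * (P * ∫ x, D.rho x * gsq u x)) +
        2 * (2 * Q / D.mz * (P * ∫ x, D.rho x * gsq u x)) := by ring
  rw [e]
  nlinarith [sq_nonneg (D.Ubus u A - D.Ubot u A + (D.Ubus u A - D.Ubus u (3 * (A / 3))))]

/-- The necks are disjoint. -/
theorem sum_neck_le : ∀ᶠ D : Des in evD, ∀ u, Test u →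
    ∑ A : Room D.n, ∫ x in D.neck (rid A), D.rho x * gsq u x ≤ ∫ x, D.rho x * gsq u x := by
  filter_upwards [ev_good, ev_ge 2] with D hD h2 u hu
  have hl := hD.ell_pos
  have h6 : (2 : ℝ) ≤ (D.S : ℝ) ^ 6 := h2.trans (le_self_pow₀ hD.one_le (by norm_num))
  have key : ∀ A B : ℕ, A < B → Disjoint (D.neck A) (D.neck B) := by
    intro A B hAB
    rw [Set.disjoint_left]
    intro x hx hx'
    have h1 : (A : ℝ) + 1 ≤ B := by exact_mod_cast hAB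
    have h3 : D.xA ℝ A + 2 ≤ D.xA ℝ B := by
      have := mul_le_mul_of_nonneg_left h1 (show (0 : ℝ) ≤ (D.S : ℝ) ^ 6 by linarith)
      unfold Des.xA
      linarith
    have h4 := mul_le_mul_of_nonneg_left h3 hl.le
    linarith [hx.1.2, hx'.1.1]
  rw [← integral_iUnion_fintype (s := fun A : Room D.n => D.neck (rid A))
    (fun A => measurableSet_bx _ _ _ _ _)
    (fun A B hAB => (lt_or_gt_of_ne (rid_injective.ne hAB)).elim (key _ _) fun h => (key _ _ h).symm)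
    fun A => (hu.integrable_gsq (continuous_rho D)).integrableOn]
  exact int_rho_gsq_le D hu _

/-- Recipe: `dev_le` with `c q = √mass * Ubus (3 q)`; `(x + y)² ≤ (1 + θ) x² + (1 + 1 / θ) y²` with
`θ = S⁻³¹`, `x = Utop - Ubot`; `tt_mul_mass`. -/
theorem hop_le : ∀ᶠ D : Des in evD, ∀ u, Test u →
    D.tt ℝ * dev (fun A : Room D.n => √D.mass * D.Uroom u (rid A)) ≤
      (1 / 2 + ((D.S : ℝ) ^ 29)⁻¹) * ∫ x, D.rho x * gsq u x := by
  filter_upwards [ev_good, ev_ge 12, Utop_sub_Ubot, Ubot_sub_Ubus, sum_neck_le, Uroom_sub_Utop]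
    with D hD h12 h1 h2 h3 h4 u hu
  have hm := mz_pos hD
  have hσ := hD.sg_pos
  have hs := hD.pos
  have hM := mass_pos hD
  have hI : 0 ≤ ∫ x, D.rho x * gsq u x :=
    integral_nonneg fun x => mul_nonneg (sq_nonneg _) (gsq_nonneg _ _)
  have htt : 0 ≤ D.tt ℝ := by unfold Des.tt; positivity
  have hθ : 0 < ((D.S : ℝ) ^ 31)⁻¹ := by positivity
  have t1 : D.sg ℝ ≤ ((D.S : ℝ) ^ 31)⁻¹ := inv_pow_le hD.one_le (by norm_num)
  have t2 : ((D.S : ℝ) ^ 31)⁻¹ ≤ 1 := inv_le_one_of_one_le₀ (one_le_pow₀ hD.one_le)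
  have t3 : 4 * ((D.S : ℝ) ^ 31)⁻¹ ≤ ((D.S : ℝ) ^ 29)⁻¹ :=
    mul_inv_pow_le hD.one_le (by linarith) (by norm_num)
  have t4 : 6 * (D.n : ℝ) * (1 + (((D.S : ℝ) ^ 31)⁻¹)⁻¹) * (D.S : ℝ) ^ 1086 *
      ((D.S : ℝ) ^ 2144)⁻¹ ≤ ((D.S : ℝ) ^ 31)⁻¹ := by
    have e1 : (1 : ℝ) ≤ (D.S : ℝ) ^ 31 := one_le_pow₀ hD.one_le
    have e2 := mul_pow_le (a := 1149) (b := 2144) hD.one_le h12 (by norm_num)
    rw [inv_inv, ← div_eq_mul_inv, ← one_div, div_le_div_iff₀ (by positivity) (by positivity),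
      one_mul]
    refine le_trans ?_ e2
    calc 6 * (D.n : ℝ) * (1 + (D.S : ℝ) ^ 31) * (D.S : ℝ) ^ 1086 * (D.S : ℝ) ^ 31
        ≤ 6 * (D.S : ℝ) * ((D.S : ℝ) ^ 31 + (D.S : ℝ) ^ 31) * (D.S : ℝ) ^ 1086 * (D.S : ℝ) ^ 31 := by
          gcongr
          exact hD.nS
      _ = 12 * (D.S : ℝ) ^ 1149 := by ring
  have hT := tt_mul_mass hD
  have hP : 0 < (D.S : ℝ) ^ 2144 := by positivity
  have hQ : 0 < (D.S : ℝ) ^ 1086 := by positivity
  generalize ((D.S : ℝ) ^ 31)⁻¹ = θ at hθ t1 t2 t3 t4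
  generalize ((D.S : ℝ) ^ 29)⁻¹ = η at t3 ⊢
  generalize (D.S : ℝ) ^ 2144 = P at h1 t4 hT hP
  generalize (D.S : ℝ) ^ 1086 = Q at h2 h4 t4 hQ
  set I := ∫ x, D.rho x * gsq u x with hIdef
  have hA : ∀ A : Room D.n,
      (√D.mass * D.Uroom u (rid A) - √D.mass * D.Ubus u (3 * (A.1 : ℕ))) ^ 2 ≤
        D.mass * ((1 + θ) * ((1 + 2 * D.sg ℝ) * P / D.mz) *
          (∫ x in D.neck (rid A), D.rho x * gsq u x) + (1 + θ⁻¹) * (4 * (Q / D.mz * I))) := by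
    intro A
    have a1 := h1 u hu _ (Des.rid_lt A)
    have a2 := h2 u hu _ (Des.rid_lt A)
    have a4 := h4 u hu _ (Des.rid_lt A)
    rw [rid_div] at a2
    rw [← mul_sub, mul_pow, Real.sq_sqrt hM.le]
    refine mul_le_mul_of_nonneg_left ?_ hM.le
    have a5 := lowB_add_sq (x := D.Utop u (rid A) - D.Ubot u (rid A))
      (y := (D.Uroom u (rid A) - D.Utop u (rid A)) + (D.Ubot u (rid A) - D.Ubus u (3 * (A.1 : ℕ))))
      hθ
    have a6 : ((D.Uroom u (rid A) - D.Utop u (rid A)) +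
        (D.Ubot u (rid A) - D.Ubus u (3 * (A.1 : ℕ)))) ^ 2 ≤ 4 * (Q / D.mz * I) := by
      nlinarith [sq_nonneg ((D.Uroom u (rid A) - D.Utop u (rid A)) -
        (D.Ubot u (rid A) - D.Ubus u (3 * (A.1 : ℕ))))]
    have a7 := mul_le_mul_of_nonneg_left a6 (show 0 ≤ 1 + θ⁻¹ by positivity)
    have a8 := mul_le_mul_of_nonneg_left a1 (show 0 ≤ 1 + θ by positivity)
    calc _ = (D.Utop u (rid A) - D.Ubot u (rid A) + ((D.Uroom u (rid A) - D.Utop u (rid A)) +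
          (D.Ubot u (rid A) - D.Ubus u (3 * (A.1 : ℕ))))) ^ 2 := by ring
      _ ≤ _ := by linarith
  have hd := (dev_le (fun A : Room D.n => √D.mass * D.Uroom u (rid A))
    fun q => √D.mass * D.Ubus u (3 * (q : ℕ))).trans (Finset.sum_le_sum fun A _ => hA A)
  rw [← Finset.mul_sum, Finset.sum_add_distrib, ← Finset.mul_sum, Finset.sum_const,
    Finset.card_univ, Fintype.card_prod, Fintype.card_fin, Fintype.card_fin, nsmul_eq_mul] at hd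
  have h5 := mul_le_mul_of_nonneg_left (h3 u hu)
    (show 0 ≤ (1 + θ) * ((1 + 2 * D.sg ℝ) * P / D.mz) by positivity)
  have h6 := hd.trans (mul_le_mul_of_nonneg_left (add_le_add h5 le_rfl) hM.le)
  refine (mul_le_mul_of_nonneg_left h6 htt).trans ?_
  rw [← mul_assoc, hT]
  have e : P⁻¹ * D.mz / 2 * ((1 + θ) * ((1 + 2 * D.sg ℝ) * P / D.mz) * I +
      ((D.n * 3 : ℕ) : ℝ) * ((1 + θ⁻¹) * (4 * (Q / D.mz * I)))) =
      ((1 + θ) * (1 + 2 * D.sg ℝ) / 2 + 6 * (D.n : ℝ) * (1 + θ⁻¹) * Q * P⁻¹) * I := by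
    push_cast
    field_simp
    ring
  rw [e]
  refine mul_le_mul_of_nonneg_right ?_ hI
  nlinarith [mul_le_mul_of_nonneg_right t2 hσ.le]

end Crest.Agent.R338
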