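/-
R338/OB: reduction of the one-electron energy to the weighted Dirichlet form
Skeleton by helper15 (row 338); keep the statements unchanged, add any helper lemmas you like.
-/
import Crest.Agent.R338.Vres
import Crest.Agent.R338.Const

set_option autoImplicit false
set_option linter.unusedSectionVars false
set_option linter.unusedVariables false
set_option linter.unusedSimpArgs false

noncomputable section

namespace Crest.Agent.R338

open MeasureTheory Set Filter Crest.MathPhysics.ElectronicCoulomb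

theorem pot_Phi (D : Des) : Pot D.Phi := pot_sum _ _

theorem integrable_rho_sq (D : Des) {u : Pos3 → ℝ} (hu : Test u) :
    Integrable fun x => D.rho x * u x ^ 2 := hu.integrable_sq (continuous_rho D)

theorem integrable_rho_gsq (D : Des) {u : Pos3 → ℝ} (hu : Test u) :
    Integrable fun x => D.rho x * gsq u x := hu.integrable_gsq (continuous_rho D)

theorem OB_nice (D : Des) {u : Pos3 → ℝ} (hu : Test u) : Nice fun x => D.rho x * u x ^ 2 := by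
  refine basic_nice ((continuous_rho D).mul (hu.continuous.pow 2)) (hu.supp.mono fun x hx => ?_)
  intro h0
  apply hx
  simp [h0]

theorem OB_rho_nonneg (D : Des) (x : Pos3) : 0 ≤ D.rho x := sq_nonneg _

theorem integrable_Vres : ∀ᶠ D : Des in evD, ∀ u : Pos3 → ℝ, Test u →
    Integrable fun x => D.Vres x * (D.rho x * u x ^ 2) := by
  filter_upwards [Vres_meas_bdd] with D hD u hu
  obtain ⟨hm, C, hC⟩ := hD
  exact ((OB_nice D hu).mul_bdd hm hC).integrable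

theorem OB_e1 {s : ℝ} (h : 0 < s) :
    ((s ^ 3840)⁻¹) ^ 2 * s ^ 4450 * s ^ 2225 = (s ^ 1005)⁻¹ := by
  field_simp

theorem OB_c1 {s C : ℝ} (h1 : 1 ≤ s) (hC : 3 * |C| ≤ s) :
    |C| * ((s ^ 3840)⁻¹ + (s ^ 31)⁻¹ + ((s ^ 3840)⁻¹) ^ 2 * s ^ 4450 * s ^ 2225) ≤ (s ^ 30)⁻¹ := by
  have h0 : 0 < s := by linarith
  rw [OB_e1 h0]
  have a1 : (s ^ 3840)⁻¹ ≤ (s ^ 31)⁻¹ := inv_pow_le h1 (by norm_num)
  have a2 : (s ^ 1005)⁻¹ ≤ (s ^ 31)⁻¹ := inv_pow_le h1 (by norm_num)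
  have a3 : 3 * |C| * (s ^ 31)⁻¹ ≤ (s ^ 30)⁻¹ := mul_inv_pow_le h1 hC (by norm_num)
  calc |C| * ((s ^ 3840)⁻¹ + (s ^ 31)⁻¹ + (s ^ 1005)⁻¹) ≤ |C| * (3 * (s ^ 31)⁻¹) :=
        mul_le_mul_of_nonneg_left (by linarith) (abs_nonneg _)
    _ = 3 * |C| * (s ^ 31)⁻¹ := by ring
    _ ≤ _ := a3

theorem OB_c2 {s C : ℝ} (h1 : 1 ≤ s) (h2 : 5400 ≤ s) (hC : 7 * |C| ≤ s) :
    |C| * (((s ^ 31)⁻¹)⁻¹ + (s ^ 3840)⁻¹ * (s ^ 2882) ^ 2 + ((s ^ 3840)⁻¹ * s ^ 1920)⁻¹ +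
      ((s ^ 3840)⁻¹) ^ 2 * s ^ 4450 * s ^ 2225 * (1 + s ^ 2882) +
      (((s ^ 3840)⁻¹) ^ 3 * (s ^ 4450) ^ 2 * (s ^ 2225) ^ 2 +
        ((s ^ 3840)⁻¹) ^ 2 * s ^ 4450 * (s ^ 2225) ^ 2) *
        (1 + Real.log ((s ^ 2146)⁻¹ / (((s ^ 3840)⁻¹) ^ 3 * s ^ 4450 * s ^ 2225))) +
      ((s ^ 3840)⁻¹) ^ 2 * s ^ 4450 * (s ^ 2225) ^ 3 * (s ^ 2146)⁻¹ +
      4 / s ^ 14400 * s ^ 4450) ≤ s ^ 2000 := by
  have h0 : 0 < s := by linarith
  have pw : ∀ {a b : ℕ}, a ≤ b → s ^ a ≤ s ^ b := fun h => pow_le_pow_right₀ h1 h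
  have b1 : ((s ^ 31)⁻¹)⁻¹ ≤ s ^ 1924 := by rw [inv_inv]; exact pw (by norm_num)
  have b2 : (s ^ 3840)⁻¹ * (s ^ 2882) ^ 2 = s ^ 1924 := by field_simp
  have b3 : ((s ^ 3840)⁻¹ * s ^ 1920)⁻¹ ≤ s ^ 1924 := by
    have : ((s ^ 3840)⁻¹ * s ^ 1920)⁻¹ = s ^ 1920 := by field_simp
    rw [this]; exact pw (by norm_num)
  have b4 : ((s ^ 3840)⁻¹) ^ 2 * s ^ 4450 * s ^ 2225 * (1 + s ^ 2882) ≤ s ^ 1924 := by
    rw [OB_e1 h0]
    have c1 : 1 + s ^ 2882 ≤ s ^ 2883 := by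
      have c2 : (1 : ℝ) ≤ s ^ 2882 := one_le_pow₀ h1
      have c3 : 2 * s ^ 2882 ≤ s ^ 2883 := mul_pow_le h1 (by linarith) (by norm_num)
      linarith
    calc (s ^ 1005)⁻¹ * (1 + s ^ 2882) ≤ (s ^ 1005)⁻¹ * s ^ 2883 :=
          mul_le_mul_of_nonneg_left c1 (by positivity)
      _ = s ^ 1878 := by field_simp
      _ ≤ _ := pw (by norm_num)
  have b5 : (((s ^ 3840)⁻¹) ^ 3 * (s ^ 4450) ^ 2 * (s ^ 2225) ^ 2 +
        ((s ^ 3840)⁻¹) ^ 2 * s ^ 4450 * (s ^ 2225) ^ 2) *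
        (1 + Real.log ((s ^ 2146)⁻¹ / (((s ^ 3840)⁻¹) ^ 3 * s ^ 4450 * s ^ 2225))) ≤ s ^ 1924 := by
    have c1 : ((s ^ 3840)⁻¹) ^ 3 * (s ^ 4450) ^ 2 * (s ^ 2225) ^ 2 = s ^ 1830 := by field_simp
    have c2 : ((s ^ 3840)⁻¹) ^ 2 * s ^ 4450 * (s ^ 2225) ^ 2 = s ^ 1220 := by field_simp
    have c3 : (s ^ 2146)⁻¹ / (((s ^ 3840)⁻¹) ^ 3 * s ^ 4450 * s ^ 2225) = s ^ 2699 := by
      field_simp
    rw [c1, c2, c3, Real.log_pow]
    have c4 : Real.log s ≤ s := (Real.log_le_sub_one_of_pos h0).trans (by linarith)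
    have c5 : 0 ≤ Real.log s := Real.log_nonneg h1
    have c6 : s ^ 1220 ≤ s ^ 1830 := pw (by norm_num)
    have c7 : 1 + ((2699 : ℕ) : ℝ) * Real.log s ≤ 2700 * s := by push_cast; linarith
    calc (s ^ 1830 + s ^ 1220) * (1 + ((2699 : ℕ) : ℝ) * Real.log s) ≤
          (2 * s ^ 1830) * (2700 * s) :=
          mul_le_mul (by linarith) c7 (by positivity) (by positivity)
      _ = 5400 * s ^ 1831 := by ring
      _ ≤ _ := mul_pow_le h1 h2 (by norm_num)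
  have b6 : ((s ^ 3840)⁻¹) ^ 2 * s ^ 4450 * (s ^ 2225) ^ 3 * (s ^ 2146)⁻¹ ≤ s ^ 1924 := by
    have : ((s ^ 3840)⁻¹) ^ 2 * s ^ 4450 * (s ^ 2225) ^ 3 * (s ^ 2146)⁻¹ = s ^ 1299 := by
      field_simp
    rw [this]; exact pw (by norm_num)
  have b7 : 4 / s ^ 14400 * s ^ 4450 ≤ s ^ 1924 := by
    have c1 : 4 / s ^ 14400 * s ^ 4450 = 4 * (s ^ 9950)⁻¹ := by field_simp
    have c2 : 4 * (s ^ 9950)⁻¹ ≤ (s ^ 0)⁻¹ := mul_inv_pow_le h1 (by linarith) (by norm_num)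
    have c3 : (1 : ℝ) ≤ s ^ 1924 := one_le_pow₀ h1
    rw [pow_zero, inv_one] at c2
    rw [c1]; linarith
  refine le_trans (mul_le_mul_of_nonneg_left (c := 7 * s ^ 1924) ?_ (abs_nonneg _)) ?_
  · rw [b2]; linarith
  · calc |C| * (7 * s ^ 1924) = 7 * |C| * s ^ 1924 := by ring
      _ ≤ _ := mul_pow_le h1 hC (by norm_num)

theorem OB_comb {C a b c X Y Z a' b' c' T : ℝ} (hX : 0 ≤ X) (hY : 0 ≤ Y) (hZ : 0 ≤ Z)
    (hT0 : 0 ≤ T) (hT : T ≤ C * (a * X + b * Y + c * Z)) (hC : 0 ≤ a * X + b * Y + c * Z)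
    (ha : |C| * a ≤ a') (hb : |C| * b ≤ b') (hc : |C| * c ≤ c') :
    T ≤ a' * X + b' * Y + c' * Z := by
  calc T ≤ |C| * (a * X + b * Y + c * Z) :=
        hT.trans (mul_le_mul_of_nonneg_right (le_abs_self C) hC)
    _ = |C| * a * X + |C| * b * Y + |C| * c * Z := by ring
    _ ≤ _ := add_le_add (add_le_add (mul_le_mul_of_nonneg_right ha hX)
        (mul_le_mul_of_nonneg_right hb hY)) (mul_le_mul_of_nonneg_right hc hZ)

/-- `hom` with `Λ = S²⁸⁸²`, `ε = S⁻³¹`, `p = piHat YY`, `η = 4 / YY`, `A = S⁴⁴⁵⁰`, `lam = S²²²⁵`,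
`R = RR`; `δ² A lam = S⁻¹⁰⁰⁵`, `R / (δ³ A lam) = S²⁶⁹⁹`, `log (S ^ k) ≤ k S`; all coefficients of the
second integral are at most `S¹⁹²⁴`. -/
theorem hom_D : ∀ᶠ D : Des in evD, ∀ u : Pos3 → ℝ, Test u →
    |∫ x, (D.Phi x - (D.PJ x - D.g x + ebar (D.del ℝ) D.mm)) * (D.rho x * u x ^ 2)| ≤
      ((D.S : ℝ) ^ 30)⁻¹ * (∫ x, D.rho x * gsq u x) + (D.S : ℝ) ^ 2000 * (∫ x, D.rho x * u x ^ 2) +
        (D.S : ℝ) ^ 3841 * ∫ x in D.nb, D.rho x * u x ^ 2 := by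
  obtain ⟨C, hC⟩ := hom
  filter_upwards [ev_good, ev_ge 5400, ev_ge (7 * |C|), three_le_piHat, DB_g, g_far, g_nb, wt_rho]
    with D hD hs hsC hp hg hfar hnb hρ u hu
  have h1 := hD.one_le
  have h0 := hD.pos
  have hS1 : 1 ≤ D.S := hD.n1.trans hD.nS
  have hS2 : 2 ≤ D.S := by
    have : (2 : ℝ) ≤ D.S := by linarith
    exact_mod_cast this
  have hm : 1 ≤ D.mm := Nat.one_le_pow _ _ hS1
  have hI : 2 * D.mm ≤ D.II := by
    unfold Des.mm Des.II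
    have gen : ∀ a b : ℕ, a + 1 ≤ b → 2 * D.S ^ a ≤ D.S ^ b := fun a b hab =>
      calc 2 * D.S ^ a ≤ D.S * D.S ^ a := Nat.mul_le_mul_right _ hS2
        _ = D.S ^ (a + 1) := (pow_succ' _ _).symm
        _ ≤ D.S ^ b := Nat.pow_le_pow_right hS1 hab
    exact gen _ _ (by norm_num)
  have hY : 1 ≤ D.YY := Nat.one_le_pow _ _ hS1
  have eδ : D.del ℝ = ((D.S : ℝ) ^ 3840)⁻¹ := rfl
  have eR : D.RR = ((D.S : ℝ) ^ 2146)⁻¹ := rfl
  have em : (D.mm : ℝ) = (D.S : ℝ) ^ 1920 := by unfold Des.mm; exact Nat.cast_pow _ _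
  have eY : (D.YY : ℝ) = (D.S : ℝ) ^ 14400 := by unfold Des.YY; exact Nat.cast_pow _ _
  have one : ∀ k : ℕ, ((D.S : ℝ) ^ k)⁻¹ ≤ 1 := fun k => inv_le_one_of_one_le₀ (one_le_pow₀ h1)
  have key := hC (D.del ℝ) ((D.S : ℝ) ^ 2882) (((D.S : ℝ) ^ 31)⁻¹) (piHat D.YY) (4 / D.YY)
    ((D.S : ℝ) ^ 4450) ((D.S : ℝ) ^ 2225) D.RR D.II D.mm D.g D.rho u hD.del_pos
    (by rw [eδ]; exact one _) (by positivity) hm hI hp (piHat_close hY) (by positivity)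
    (by positivity) hg (by rw [eδ, OB_e1 h0]; exact one _)
    (by rw [eδ, eR]; exact inv_pow_le h1 (by norm_num)) hfar hnb hρ
    (by
      rw [eδ, ← div_eq_mul_inv, div_le_one (by positivity)]
      exact pow_le_pow_right₀ h1 (by norm_num)) hu
  have hX : 0 ≤ ∫ x, D.rho x * gsq u x :=
    integral_nonneg fun x => mul_nonneg (OB_rho_nonneg D x) (gsq_nonneg u x)
  have hYY : 0 ≤ ∫ x, D.rho x * u x ^ 2 :=
    integral_nonneg fun x => mul_nonneg (OB_rho_nonneg D x) (sq_nonneg _)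
  have hZ : 0 ≤ ∫ x in D.nb, D.rho x * u x ^ 2 :=
    integral_nonneg fun x => mul_nonneg (OB_rho_nonneg D x) (sq_nonneg _)
  have hδ := hD.del_pos
  have hRR := hD.RR_pos
  have hlog : 0 ≤ Real.log (D.RR / (D.del ℝ ^ 3 * (D.S : ℝ) ^ 4450 * (D.S : ℝ) ^ 2225)) := by
    have c3 : ((D.S : ℝ) ^ 2146)⁻¹ / ((((D.S : ℝ) ^ 3840)⁻¹) ^ 3 * (D.S : ℝ) ^ 4450 *
        (D.S : ℝ) ^ 2225) = (D.S : ℝ) ^ 2699 := by
      field_simp
    rw [eδ, eR, c3]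
    exact Real.log_nonneg (one_le_pow₀ h1)
  have hC0 := abs_nonneg C
  have hmm : (0 : ℝ) < D.mm := by exact_mod_cast hm
  have hYY0 : (0 : ℝ) < D.YY := by exact_mod_cast hY
  refine OB_comb hX hYY hZ (abs_nonneg _) key ?_ ?_ ?_ ?_
  · have p1 : ∀ k : ℕ, 0 < (D.S : ℝ) ^ k := fun k => pow_pos h0 k
    have q1 := p1 31
    have q2 := p1 4450
    have q3 := p1 2225
    have q4 := p1 2882
    generalize (D.S : ℝ) ^ 31 = a1 at *
    generalize (D.S : ℝ) ^ 4450 = a2 at *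
    generalize (D.S : ℝ) ^ 2225 = a3 at *
    generalize (D.S : ℝ) ^ 2882 = a4 at *
    generalize Real.log (D.RR / (D.del ℝ ^ 3 * a2 * a3)) = l at *
    generalize D.del ℝ = δ at *
    generalize D.RR = R at *
    generalize (D.mm : ℝ) = m at *
    generalize (D.YY : ℝ) = Y at *
    generalize ∫ x in D.nb, D.rho x * u x ^ 2 = Z at *
    generalize ∫ x in NB δ D.II D.mm, D.rho x * u x ^ 2 = Z' at *
    positivity
  · rw [eδ]; exact OB_c1 h1 (by linarith)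
  · rw [eδ, eR, em, eY]; exact OB_c2 h1 hs hsC
  · rw [eδ, inv_inv]; exact mul_pow_le h1 (by linarith) (by norm_num)

/-- `gst`, `lap_Psi`, `hom_D`: the difference on the left is the integral of `hom_D`. -/
theorem one_body : ∀ᶠ D : Des in evD, ∀ u : Pos3 → ℝ, Test u →
    |E1 D.Phi (fun x => D.Psi x * u x) - (1 / 2 * (∫ x, D.rho x * gsq u x) +
        D.C1 * (∫ x, D.rho x * u x ^ 2) + ∫ x, D.Vres x * (D.rho x * u x ^ 2))| ≤
      ((D.S : ℝ) ^ 30)⁻¹ * (∫ x, D.rho x * gsq u x) + (D.S : ℝ) ^ 2000 * (∫ x, D.rho x * u x ^ 2) +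
        (D.S : ℝ) ^ 3841 * ∫ x in D.nb, D.rho x * u x ^ 2 := by
  filter_upwards [hom_D, lap_Psi, integrable_Vres] with D hh hlap hV u hu
  have hΨ := contDiff_Psi D
  have iΦ : Integrable fun x => D.Phi x * (D.rho x * u x ^ 2) :=
    (OB_nice D hu).integrable_loc_mul (pot_Phi D).loc
  have iL : Integrable fun x => D.Psi x * lap D.Psi x * u x ^ 2 :=
    hu.integrable_sq (hΨ.continuous.mul (continuous_lap hΨ))
  have iρ := integrable_rho_sq D hu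
  have iV := hV u hu
  have e1 : ∀ x, (D.Phi x - (D.PJ x - D.g x + ebar (D.del ℝ) D.mm)) * (D.rho x * u x ^ 2) =
      1 / 2 * (D.Psi x * lap D.Psi x * u x ^ 2) + D.Phi x * (D.rho x * u x ^ 2) +
        D.C1 * (D.rho x * u x ^ 2) + D.Vres x * (D.rho x * u x ^ 2) := by
    intro x
    rw [hlap x]
    unfold Des.C1 Des.Vres Des.rho
    ring
  have j1 : Integrable fun x => 1 / 2 * (D.Psi x * lap D.Psi x * u x ^ 2) := iL.const_mul _
  have j2 : Integrable fun x => 1 / 2 * (D.Psi x * lap D.Psi x * u x ^ 2) +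
      D.Phi x * (D.rho x * u x ^ 2) := j1.add iΦ
  have j3 : Integrable fun x => D.C1 * (D.rho x * u x ^ 2) := iρ.const_mul _
  have j4 : Integrable fun x => 1 / 2 * (D.Psi x * lap D.Psi x * u x ^ 2) +
      D.Phi x * (D.rho x * u x ^ 2) + D.C1 * (D.rho x * u x ^ 2) := j2.add j3
  have e2 : ∫ x, (D.Phi x - (D.PJ x - D.g x + ebar (D.del ℝ) D.mm)) * (D.rho x * u x ^ 2) =
      1 / 2 * (∫ x, D.Psi x * lap D.Psi x * u x ^ 2) + (∫ x, D.Phi x * (D.rho x * u x ^ 2)) +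
        D.C1 * (∫ x, D.rho x * u x ^ 2) + ∫ x, D.Vres x * (D.rho x * u x ^ 2) := by
    simp only [e1]
    rw [integral_add j4 iV, integral_add j2 j3, integral_add j1 iΦ, integral_const_mul,
      integral_const_mul]
  have e3 : ∫ x, D.Phi x * (D.Psi x * u x) ^ 2 = ∫ x, D.Phi x * (D.rho x * u x ^ 2) := by
    congr 1
    funext x
    unfold Des.rho
    ring
  have e4 : ∫ x, D.Psi x ^ 2 * gsq u x = ∫ x, D.rho x * gsq u x := rfl
  have e5 : E1 D.Phi (fun x => D.Psi x * u x) - (1 / 2 * (∫ x, D.rho x * gsq u x) +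
      D.C1 * (∫ x, D.rho x * u x ^ 2) + ∫ x, D.Vres x * (D.rho x * u x ^ 2)) =
      -∫ x, (D.Phi x - (D.PJ x - D.g x + ebar (D.del ℝ) D.mm)) * (D.rho x * u x ^ 2) := by
    rw [e2]
    unfold E1
    rw [gst hΨ hu, e3, e4]
    ring
  rw [e5, abs_neg]
  exact hh u hu

/-- `one_body` and `Vres_ge`. -/
theorem one_body_low : ∀ᶠ D : Des in evD, ∀ u : Pos3 → ℝ, Test u →
    (1 / 2 - ((D.S : ℝ) ^ 30)⁻¹) * (∫ x, D.rho x * gsq u x) +
      (D.C1 - 2 * (D.S : ℝ) ^ 2000) * (∫ x, D.rho x * u x ^ 2) +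
      D.BB ℝ * ∫ x in (⋃ A, D.Om A)ᶜ, D.rho x * u x ^ 2 ≤ E1 D.Phi fun x => D.Psi x * u x := by
  filter_upwards [one_body, Vres_ge, integrable_Vres] with D hb hge hV u hu
  have iρ := integrable_rho_sq D hu
  have iV := hV u hu
  have m1 : MeasurableSet (⋃ A, D.Om A)ᶜ := (MeasurableSet.iUnion (measurableSet_Om D)).compl
  have m2 := measurableSet_nb D
  have j1 : Integrable fun x => D.BB ℝ * (⋃ A, D.Om A)ᶜ.indicator (fun x => D.rho x * u x ^ 2) x :=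
    (iρ.indicator m1).const_mul _
  have j2 : Integrable fun x =>
      (D.S : ℝ) ^ 3841 * D.nb.indicator (fun x => D.rho x * u x ^ 2) x :=
    (iρ.indicator m2).const_mul _
  have j3 : Integrable fun x => (D.S : ℝ) ^ 2000 * (D.rho x * u x ^ 2) := iρ.const_mul _
  have j4 : Integrable fun x =>
      D.BB ℝ * (⋃ A, D.Om A)ᶜ.indicator (fun x => D.rho x * u x ^ 2) x +
        (D.S : ℝ) ^ 3841 * D.nb.indicator (fun x => D.rho x * u x ^ 2) x := j1.add j2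
  have ind : ∀ (s : Set Pos3) (x : Pos3), s.indicator (fun x => D.rho x * u x ^ 2) x =
      s.indicator (1 : Pos3 → ℝ) x * (D.rho x * u x ^ 2) := by
    intro s x
    by_cases hx : x ∈ s
    · rw [indicator_of_mem hx, indicator_of_mem hx, Pi.one_apply, one_mul]
    · rw [indicator_of_notMem hx, indicator_of_notMem hx, zero_mul]
  have h1 : D.BB ℝ * (∫ x in (⋃ A, D.Om A)ᶜ, D.rho x * u x ^ 2) +
      (D.S : ℝ) ^ 3841 * (∫ x in D.nb, D.rho x * u x ^ 2) -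
      (D.S : ℝ) ^ 2000 * (∫ x, D.rho x * u x ^ 2) ≤ ∫ x, D.Vres x * (D.rho x * u x ^ 2) := by
    rw [← integral_indicator m1, ← integral_indicator m2, ← integral_const_mul,
      ← integral_const_mul, ← integral_const_mul, ← integral_add j1 j2, ← integral_sub j4 j3]
    refine integral_mono (j4.sub j3) iV fun x => ?_
    have h2 := mul_le_mul_of_nonneg_right (hge x)
      (mul_nonneg (OB_rho_nonneg D x) (sq_nonneg (u x)))
    refine le_trans (le_of_eq ?_) h2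
    simp only [ind]
    generalize (D.S : ℝ) ^ 3841 = a
    generalize (D.S : ℝ) ^ 2000 = b
    ring
  have h2 := (abs_le.1 (hb u hu)).1
  generalize (D.S : ℝ) ^ 3841 = a at *
  generalize (D.S : ℝ) ^ 2000 = b at *
  generalize ((D.S : ℝ) ^ 30)⁻¹ = c at *
  linarith

end Crest.Agent.R338
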