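/-
R338/Low: the one-body lower bound
Skeleton by helper15 (row 338); keep the statements unchanged, add any helper lemmas you like.
-/
import Crest.Agent.R338.LowB
import Crest.Agent.R338.OB

set_option autoImplicit false
set_option linter.unusedSectionVars false
set_option linter.unusedVariables false
set_option linter.unusedSimpArgs false

noncomputable section

namespace Crest.Agent.R338

open MeasureTheory Set Filter Crest.MathPhysics.ElectronicCoulomb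

theorem split_rooms : ∀ᶠ D : Des in evD, ∀ f : Pos3 → ℝ, Integrable f →
    ∫ x, f x = (∫ x in (⋃ A, D.Om A)ᶜ, f x) + ∑ A, ∫ x in D.Om A, f x := by
  filter_upwards [orbs_D] with D hO f hf
  have hm : MeasurableSet (⋃ A, D.Om A) := MeasurableSet.iUnion hO.meas
  rw [← integral_add_compl hm hf, add_comm, integral_iUnion_fintype hO.meas
    (fun A B h => hO.disj A B h) fun A => hf.integrableOn]

theorem low_num {s : ℝ} (h2 : 2 ≤ s) :
    (1 - (s ^ 27)⁻¹) * (1 / 2 + (s ^ 29)⁻¹) + (s ^ 30)⁻¹ ≤ 1 / 2 - (s ^ 30)⁻¹ := by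
  have h0 : 0 < s := by linarith
  have e1 : (s ^ 27)⁻¹ = s ^ 3 * (s ^ 30)⁻¹ := by field_simp
  have e2 : (s ^ 29)⁻¹ = s * (s ^ 30)⁻¹ := by field_simp
  have he : 0 < (s ^ 30)⁻¹ := by positivity
  rw [e1, e2]
  generalize (s ^ 30)⁻¹ = e at he
  have h3 : s + 2 ≤ s ^ 3 / 2 := by nlinarith [sq_nonneg (s - 2), mul_nonneg h0.le (sq_nonneg (s - 2))]
  have h4 : 0 ≤ s ^ 3 * e * (s * e) := by positivity
  nlinarith [mul_le_mul_of_nonneg_right h3 he.le]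

theorem low_num2 {s n : ℝ} (h3 : 3 ≤ s) (hn : n ≤ s) :
    s ^ 2199 * (3 * n * (s ^ 3000)⁻¹) ≤ (s ^ 30)⁻¹ := by
  have h0 : 0 < s := by linarith
  have h1 : 1 ≤ s := by linarith
  have e : s ^ 3000 = s ^ 2199 * s * s ^ 800 := by rw [← pow_succ, ← pow_add]
  have hp : 0 < s ^ 2199 := pow_pos h0 _
  have hq : 0 < s ^ 800 := pow_pos h0 _
  have h4 := mul_inv_pow_le (a := 30) (b := 800) h1 h3 (by norm_num)
  calc s ^ 2199 * (3 * n * (s ^ 3000)⁻¹) ≤ s ^ 2199 * (3 * s * (s ^ 3000)⁻¹) := by gcongr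
    _ = 3 * (s ^ 800)⁻¹ := by
        rw [e]
        generalize s ^ 2199 = a at hp
        generalize s ^ 800 = b at hq
        field_simp
    _ ≤ _ := h4

/-- Recipe: `u = ψ / Ψ` (`Test.div`); `one_body_low`, `proj_eq`, `split_rooms`, `defect_room`
(`3 n B S⁻³⁰⁰⁰ ≤ S⁻³⁰`), `hop_le`;
`(1 - S⁻²⁷) (1 / 2 + S⁻²⁹) + S⁻³⁰ ≤ 1 / 2 - S⁻³⁰`. -/
theorem lb_D : ∀ᶠ D : Des in evD, LB D.phiT D.Om D.Phi (D.C1 - (D.S : ℝ) ^ 2150)
    (D.tt ℝ * (1 - ((D.S : ℝ) ^ 27)⁻¹)) (D.BB ℝ) := by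
  filter_upwards [ev_good, ev_ge 3, split_rooms, one_body_low, proj_eq, defect_room, hop_le, Psi_pos]
    with D hD h3 hsp hob hpr hdef hhop hpos ψ hψ
  have hu : Test fun x => ψ x / D.Psi x := hψ.div ((contDiff_Psi D).of_le (by norm_num)) hpos
  set u : Pos3 → ℝ := fun x => ψ x / D.Psi x with hudef
  have e1 : ∀ x, D.Psi x * u x = ψ x := fun x => mul_div_cancel₀ _ (hpos x).ne'
  have e2 : ∀ x, ψ x ^ 2 = D.rho x * u x ^ 2 := fun x => by
    rw [← e1 x, mul_pow]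
    rfl
  have k1 := hob u hu
  have k2 := hsp _ (integrable_rho_sq D hu)
  have k3 := hhop u hu
  have k4 : ∀ A, ∫ x, orb D.phiT D.Om A x * ψ x = √D.mass * D.Uroom u (rid A) := fun A => by
    rw [← hpr u hu A]
    simp only [e1]
  have k5 : ∑ A : Room D.n, ((∫ x in D.Om A, D.rho x * u x ^ 2) -
      (√D.mass * D.Uroom u (rid A)) ^ 2) ≤
      3 * D.n * ((D.S : ℝ) ^ 3000)⁻¹ * ∫ x, D.rho x * gsq u x := by
    refine (Finset.sum_le_card_nsmul _ _ (((D.S : ℝ) ^ 3000)⁻¹ * ∫ x, D.rho x * gsq u x)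
      fun A _ => ?_).trans (le_of_eq ?_)
    · rw [mul_pow, Real.sq_sqrt (mass_pos hD).le]
      exact hdef u hu A
    · rw [Finset.card_univ, Fintype.card_prod, Fintype.card_fin, Fintype.card_fin, nsmul_eq_mul,
        Nat.cast_mul, Nat.cast_ofNat, ← mul_assoc, mul_comm (D.n : ℝ) 3]
  rw [Finset.sum_sub_distrib] at k5
  have hρ : ∀ x, 0 ≤ D.rho x := fun x => sq_nonneg _
  have hK : 0 ≤ ∫ x, D.rho x * gsq u x :=
    integral_nonneg fun x => mul_nonneg (hρ x) (gsq_nonneg u x)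
  have hN : 0 ≤ ∫ x, D.rho x * u x ^ 2 := integral_nonneg fun x => mul_nonneg (hρ x) (sq_nonneg _)
  have hB : 0 ≤ D.BB ℝ := pow_nonneg hD.pos.le _
  have n1 := low_num (s := D.S) (by linarith)
  have n2 : D.BB ℝ * (3 * D.n * ((D.S : ℝ) ^ 3000)⁻¹) ≤ ((D.S : ℝ) ^ 30)⁻¹ := low_num2 h3 hD.n_le
  have n3 : 2 * (D.S : ℝ) ^ 2000 ≤ (D.S : ℝ) ^ 2150 := mul_pow_le hD.one_le (by linarith) (by norm_num)
  have n4 : 0 ≤ 1 - ((D.S : ℝ) ^ 27)⁻¹ :=
    sub_nonneg.2 (inv_le_one_of_one_le₀ (one_le_pow₀ hD.one_le))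
  have eψ : (fun x => D.Psi x * u x) = ψ := funext e1
  rw [eψ] at k1
  simp only [e2, k4]
  refine le_trans ?_ k1
  have m1 := mul_le_mul_of_nonneg_left k3 n4
  have m2 := mul_le_mul_of_nonneg_left k5 hB
  have m3 := mul_le_mul_of_nonneg_right n1 hK
  have m4 := mul_le_mul_of_nonneg_right n2 hK
  have m5 := mul_le_mul_of_nonneg_right n3 hN
  have m6 := congrArg (D.BB ℝ * ·) k2
  generalize (D.S : ℝ) ^ 2000 = a at *
  generalize (D.S : ℝ) ^ 2150 = b at *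
  generalize ((D.S : ℝ) ^ 3000)⁻¹ = c at *
  generalize ((D.S : ℝ) ^ 27)⁻¹ = d at *
  generalize ((D.S : ℝ) ^ 29)⁻¹ = e at *
  generalize ((D.S : ℝ) ^ 30)⁻¹ = f at *
  linarith

end Crest.Agent.R338
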