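/-
R338/MBYes: the many-body upper bound
Skeleton by helper15 (row 338); keep the statements unchanged, add any helper lemmas you like.
-/
import Crest.Agent.R338.MBYesA

set_option autoImplicit false
set_option linter.unusedSectionVars false
set_option linter.unusedVariables false
set_option linter.unusedSimpArgs false

noncomputable section

namespace Crest.Agent.R338

open MeasureTheory Set Crest.MathPhysics.ElectronicCoulomb
open scoped RealInnerProductSpace

variable {n N : ℕ} {φ : Room n → Pos3 → ℝ} {Ω : Room n → Set Pos3} {Φ : Pos3 → ℝ}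

/-- The trial wave function of a lattice vector. -/
def trialW (φ : Room n → Pos3 → ℝ) (c : (Fin N → Mode n) → ℝ) (s : Spin N) (x : Config N) : ℝ :=
  ∑ α : Fin N → Room n, c (fun i => (s i, α i)) * tens φ α fun i => elPos i x

theorem antiW_trialW (φ : Room n → Pos3 → ℝ) {c : (Fin N → Mode n) → ℝ} (h : Anti c) :
    AntiW (trialW φ c) := by
  intro σ s x
  unfold trialW
  rw [Finset.mul_sum]
  symm
  refine Fintype.sum_equiv (Equiv.arrowCongr σ.symm (Equiv.refl (Room n))) _ _ fun β => ?_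
  have h1 := h σ fun i => (s i, β i)
  have e1 : (fun i => (s (σ i), (Equiv.arrowCongr σ.symm (Equiv.refl (Room n))) β i)) =
      (fun i => (s i, β i)) ∘ σ := by
    funext i; simp
  have e2 : tens φ ((Equiv.arrowCongr σ.symm (Equiv.refl (Room n))) β)
      (fun i => elPos i (permConfig σ x)) = tens φ β fun i => elPos i x := by
    unfold tens
    rw [← Equiv.prod_comp σ fun i => φ (β i) (elPos i x)]
    refine Finset.prod_congr rfl fun i _ => ?_
    simp only [Equiv.arrowCongr_apply, Equiv.symm_symm, Equiv.coe_refl, Function.comp, id]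
    rfl
  rw [e1, e2, h1, mul_assoc]

theorem MBYes_sum_insertNth {R : Type} [Fintype R] {m : ℕ} (i : Fin (m + 1))
    (G : (Fin (m + 1) → R) → ℝ) :
    ∑ α, G α = ∑ A, ∑ β : Fin m → R, G (i.insertNth A β) := by
  rw [← (Fin.insertNthEquiv (fun _ => R) i).sum_comp, Fintype.sum_prod_type]
  rfl

theorem MBYes_tens_insertNth {R : Type} {m : ℕ} (e : R → Pos3 → ℝ) (i : Fin (m + 1)) (A : R)
    (β : Fin m → R) (w : Pos3) (z : Fin m → Pos3) :
    tens e (i.insertNth A β : Fin (m + 1) → R) (i.insertNth w z) = e A w * tens e β z := by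
  unfold tens
  rw [Fin.prod_univ_succAbove _ i]
  simp only [Fin.insertNth_apply_same, Fin.insertNth_apply_succAbove]

theorem MBYes_slice {m : ℕ} (φ : Room n → Pos3 → ℝ) (a : (Fin (m + 1) → Room n) → ℝ)
    (i : Fin (m + 1)) (w : Pos3) (z : Fin m → Pos3) :
    ∑ α, a α * tens φ α (i.insertNth w z) =
      ∑ A, (∑ β : Fin m → Room n, a (i.insertNth A β) * tens φ β z) * φ A w := by
  rw [MBYes_sum_insertNth i]
  refine Finset.sum_congr rfl fun A _ => ?_
  rw [Finset.sum_mul]
  refine Finset.sum_congr rfl fun β _ => ?_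
  rw [MBYes_tens_insertNth]; ring

theorem MBYes_eps_nonneg {εr : ℝ} (hr : ∫ x, rem φ Ω x ≤ εr) : 0 ≤ εr :=
  (integral_nonneg fun x => rem_nonneg φ Ω x).trans hr

theorem MBYes_nsq (c : (Fin N → Mode n) → ℝ) :
    nsq c = ∑ s : Fin N → Fin 2, ∑ α : Fin N → Room n, c (fun i => (s i, α i)) ^ 2 := by
  rw [← sum_mode fun s α => c (fun i => (s i, α i)) ^ 2]
  simp only [nsq, dotProduct, sq]

theorem MBYes_latT (c : (Fin N → Mode n) → ℝ) :
    latT c = ∑ s : Fin N → Fin 2, ∑ i, ∑ α : Fin N → Room n, (c (fun j => (s j, α j)) -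
      (∑ r : Fin 3, c (fun j => (s j, Function.update α i ((α i).1, r) j))) / 3) ^ 2 := by
  rw [Finset.sum_comm]
  unfold latT
  refine Finset.sum_congr rfl fun i _ => ?_
  rw [← sum_mode fun s α => (c (fun j => (s j, α j)) -
      (∑ r : Fin 3, c (fun j => (s j, Function.update α i ((α i).1, r) j))) / 3) ^ 2]
  refine Finset.sum_congr rfl fun x _ => ?_
  unfold avgR
  congr 3
  refine Finset.sum_congr rfl fun r _ => ?_
  congr 1
  funext j
  by_cases hj : j = i
  · subst hj; simp
  · simp [Function.update_of_ne hj]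

theorem MBYes_one (h : Orbs φ Ω) (hΦ : Pot Φ) {C t ε εr : ℝ} (hU : UB φ Φ C t ε) (ht : 0 ≤ t)
    (hε : 0 ≤ ε) (hr : ∫ x, rem φ Ω x ≤ εr) {m : ℕ} (a : (Fin (m + 1) → Room n) → ℝ)
    (i : Fin (m + 1))
    (hi : Integrable fun z : Fin m → Pos3 =>
      E1 Φ fun w => ∑ α, a α * tens φ α (i.insertNth w z)) :
    ∫ z : Fin m → Pos3, (E1 Φ fun w => ∑ α, a α * tens φ α (i.insertNth w z)) ≤
      C * (∫ y : Fin (m + 1) → Pos3, (∑ α, a α * tens φ α y) ^ 2) + (1 + εr) ^ (m + 1) *
        (t * ∑ α, (a α - (∑ r : Fin 3, a (Function.update α i ((α i).1, r))) / 3) ^ 2 +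
          ε * ∑ α, a α ^ 2) := by
  have hεr := MBYes_eps_nonneg hr
  set b : Room n → (Fin m → Pos3) → ℝ := fun A z =>
    ∑ β : Fin m → Room n, a (i.insertNth A β) * tens φ β z with hb
  set d : Room n → (Fin m → Room n) → ℝ := fun A β =>
    a (i.insertNth A β) - (∑ r : Fin 3, a (i.insertNth (A.1, r) β)) / 3 with hd
  have hdev : ∀ z, dev (fun A => b A z) = ∑ A, (∑ β, d A β * tens φ β z) ^ 2 := fun z => by
    unfold dev
    refine Finset.sum_congr rfl fun A _ => ?_
    congr 1
    simp only [hb, hd, sub_mul, Finset.sum_sub_distrib]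
    congr 1
    rw [Finset.sum_comm, Finset.sum_div]
    refine Finset.sum_congr rfl fun β _ => ?_
    rw [← Finset.sum_mul]; ring
  obtain ⟨i1, e1⟩ := integral_insertNth i (G := fun y => (∑ α, a α * tens φ α y) ^ 2)
    (nice_trial h a).sq.integrable
  have i2 : ∀ A, Integrable fun z : Fin m → Pos3 => (∑ β, d A β * tens φ β z) ^ 2 := fun A =>
    (nice_trial h (d A)).sq.integrable
  have i3 : ∀ A, Integrable fun z : Fin m → Pos3 => b A z ^ 2 := fun A =>
    (nice_trial h fun β => a (i.insertNth A β)).sq.integrable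
  have i2' : Integrable fun z : Fin m → Pos3 => ∑ A, (∑ β, d A β * tens φ β z) ^ 2 :=
    integrable_finsetSum _ fun A _ => i2 A
  have i3' : Integrable fun z : Fin m → Pos3 => ∑ A, b A z ^ 2 :=
    integrable_finsetSum _ fun A _ => i3 A
  have pt : ∀ z : Fin m → Pos3, (E1 Φ fun w => ∑ α, a α * tens φ α (i.insertNth w z)) ≤
      C * (∫ w, (∑ α, a α * tens φ α (i.insertNth w z)) ^ 2) +
        t * (∑ A, (∑ β, d A β * tens φ β z) ^ 2) + ε * ∑ A, b A z ^ 2 := fun z => by
    simp only [MBYes_slice φ a i]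
    rw [← hdev]
    exact hU fun A => b A z
  have hpow : (1 + εr) ^ m ≤ (1 + εr) ^ (m + 1) := pow_le_pow_right₀ (by linarith) (Nat.le_succ m)
  have hpos : 0 ≤ (1 + εr) ^ m := by positivity
  have b2 : ∑ A, ∫ z : Fin m → Pos3, (∑ β, d A β * tens φ β z) ^ 2 ≤ (1 + εr) ^ (m + 1) *
      ∑ α, (a α - (∑ r : Fin 3, a (Function.update α i ((α i).1, r))) / 3) ^ 2 := by
    rw [MBYes_sum_insertNth i, Finset.mul_sum]
    refine Finset.sum_le_sum fun A _ => (trial_norm_le h hr (d A)).trans ?_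
    have e : ∑ β : Fin m → Room n, (a (i.insertNth A β) - (∑ r : Fin 3,
        a (Function.update (i.insertNth A β : Fin (m + 1) → Room n) i
          (((i.insertNth A β : Fin (m + 1) → Room n) i).1, r))) / 3) ^ 2 = ∑ β, d A β ^ 2 := by
      simp only [hd, Fin.insertNth_apply_same, Fin.update_insertNth]
    rw [e]
    exact mul_le_mul_of_nonneg_right hpow (Finset.sum_nonneg fun _ _ => sq_nonneg _)
  have b3 : ∑ A, ∫ z : Fin m → Pos3, b A z ^ 2 ≤ (1 + εr) ^ (m + 1) * ∑ α, a α ^ 2 := by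
    rw [MBYes_sum_insertNth i, Finset.mul_sum]
    refine Finset.sum_le_sum fun A _ =>
      (trial_norm_le h hr fun β => a (i.insertNth A β)).trans ?_
    exact mul_le_mul_of_nonneg_right hpow (Finset.sum_nonneg fun _ _ => sq_nonneg _)
  have i12 : Integrable fun z : Fin m → Pos3 =>
      C * (∫ w, (∑ α, a α * tens φ α (i.insertNth w z)) ^ 2) +
        t * (∑ A, (∑ β, d A β * tens φ β z) ^ 2) := (i1.const_mul C).add (i2'.const_mul t)
  have i123 : Integrable fun z : Fin m → Pos3 =>
      C * (∫ w, (∑ α, a α * tens φ α (i.insertNth w z)) ^ 2) +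
        t * (∑ A, (∑ β, d A β * tens φ β z) ^ 2) + ε * ∑ A, b A z ^ 2 :=
    i12.add (i3'.const_mul ε)
  refine (integral_mono hi i123 pt).trans ?_
  rw [integral_add i12 (i3'.const_mul ε),
    integral_add (i1.const_mul C) (i2'.const_mul t), integral_const_mul, integral_const_mul,
    integral_const_mul, ← e1, integral_finsetSum _ fun A _ => i2 A,
    integral_finsetSum _ fun A _ => i3 A]
  nlinarith [mul_le_mul_of_nonneg_left b2 ht, mul_le_mul_of_nonneg_left b3 hε]

/-- `energy_slices`; the slice is `∑ A, a A z * φ A` with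
`a A z = ∑ β, c (insertNth A β) * tens φ β z`; `UB`; `trial_norm_le` in the other variables for
`a A` and for `a A - mean`. -/
theorem one_body_le (h : Orbs φ Ω) (hΦ : Pot Φ) {C t ε εr : ℝ} (hU : UB φ Φ C t ε) (ht : 0 ≤ t)
    (hε : 0 ≤ ε) (hr : ∫ x, rem φ Ω x ≤ εr) (hN : 1 ≤ N) (c : (Fin N → Mode n) → ℝ) :
    ∑ s, (1 / 2 * (∫ x, gsq (trialW φ c s) x) - ∫ x, (∑ i, Φ (elPos i x)) * trialW φ c s x ^ 2) ≤
      N * C * (∑ s, ∫ x, trialW φ c s x ^ 2) + (1 + εr) ^ N * (t * latT c + N * ε * nsq c) := by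
  obtain ⟨m, rfl⟩ : ∃ m, N = m + 1 := ⟨N - 1, by omega⟩
  rw [MBYes_latT, MBYes_nsq, Finset.mul_sum, Finset.mul_sum, Finset.mul_sum,
    ← Finset.sum_add_distrib, Finset.mul_sum, ← Finset.sum_add_distrib]
  refine Finset.sum_le_sum fun s _ => ?_
  obtain ⟨hi, e⟩ := energy_slices hΦ (F := trialW φ c s) (test_trial h fun α => c fun i => (s i, α i))
  rw [e]
  refine (Finset.sum_le_sum fun i _ =>
    MBYes_one h hΦ hU ht hε hr (fun α => c fun i => (s i, α i)) i (hi i)).trans (le_of_eq ?_)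
  rw [integral_ofP fun x => trialW φ c s x ^ 2]
  simp only [Finset.sum_add_distrib, Finset.sum_const, Finset.card_univ, Fintype.card_fin,
    nsmul_eq_mul, ← Finset.mul_sum, trialW, elPos_ofP]
  ring

theorem two_body_le (h : Orbs φ Ω) {ε εr : ℝ} (hr : ∫ x, rem φ Ω x ≤ εr) (hε : 0 ≤ ε)
    {V : Room n → Room n → ℝ} (hV : VU φ Ω V ε) (c : (Fin N → Mode n) → ℝ) :
    ∑ s, ∫ x, (∑ i, ∑ j, if i < j then Kn (elPos i x - elPos j x) else 0) * trialW φ c s x ^ 2 ≤
      (1 + εr) ^ N * (latV V c + N ^ 2 * ε * nsq c) := by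
  have hεr := MBYes_eps_nonneg hr
  have eV : latV V c = ∑ s : Fin N → Fin 2, ∑ α : Fin N → Room n,
      (∑ i, ∑ j, if i < j then V (α i) (α j) else 0) * c (fun i => (s i, α i)) ^ 2 := by
    rw [← sum_mode fun s α =>
      (∑ i, ∑ j, if i < j then V (α i) (α j) else 0) * c (fun i => (s i, α i)) ^ 2]
    rfl
  rw [eV, MBYes_nsq, Finset.mul_sum, ← Finset.sum_add_distrib, Finset.mul_sum]
  refine Finset.sum_le_sum fun s _ => ?_
  set a : (Fin N → Room n) → ℝ := fun α => c fun i => (s i, α i) with ha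
  have hint : ∀ i j : Fin N, Integrable fun y : Fin N → Pos3 =>
      (if i < j then Kn (y i - y j) else 0) * (∑ α, a α * tens φ α y) ^ 2 := fun i j => by
    split_ifs with hij
    · exact integrable_two_body (nice_trial h a).sq hij.ne
    · simp
  rw [integral_ofP]
  have e : ∀ y : Fin N → Pos3, (∑ i, ∑ j, if i < j then Kn (elPos i (ofP y) - elPos j (ofP y))
      else 0) * trialW φ c s (ofP y) ^ 2 =
      ∑ i, ∑ j, (if i < j then Kn (y i - y j) else 0) * (∑ α, a α * tens φ α y) ^ 2 := fun y => by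
    simp only [Finset.sum_mul, elPos_ofP, trialW, ha]
  simp only [e]
  rw [integral_finsetSum _ fun i _ => integrable_finsetSum _ fun j _ => hint i j]
  have hS : 0 ≤ ∑ α, a α ^ 2 := Finset.sum_nonneg fun _ _ => sq_nonneg _
  have hP : 0 ≤ (1 + εr) ^ N := by positivity
  have key : ∀ i j : Fin N, ∫ y : Fin N → Pos3,
      (if i < j then Kn (y i - y j) else 0) * (∑ α, a α * tens φ α y) ^ 2 ≤
      (1 + εr) ^ N * (∑ α, (if i < j then V (α i) (α j) else 0) * a α ^ 2 + ε * ∑ α, a α ^ 2) := by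
    intro i j
    split_ifs with hij
    · refine (trial_pair_le h hr hV a hij.ne).trans (le_of_eq ?_)
      rw [Finset.mul_sum _ _ ε, ← Finset.sum_add_distrib]
      congr 1
      exact Finset.sum_congr rfl fun α _ => by ring
    · simp only [zero_mul, integral_zero, Finset.sum_const_zero, zero_add]
      positivity
  calc ∑ i, ∫ y : Fin N → Pos3, ∑ j,
        (if i < j then Kn (y i - y j) else 0) * (∑ α, a α * tens φ α y) ^ 2
      ≤ ∑ i : Fin N, ∑ j : Fin N, (1 + εr) ^ N *
          (∑ α, (if i < j then V (α i) (α j) else 0) * a α ^ 2 + ε * ∑ α, a α ^ 2) := by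
        refine Finset.sum_le_sum fun i _ => ?_
        rw [integral_finsetSum _ fun j _ => hint i j]
        exact Finset.sum_le_sum fun j _ => key i j
    _ = _ := by
        simp only [← Finset.mul_sum, Finset.sum_add_distrib, Finset.sum_const, Finset.card_univ,
          Fintype.card_fin, nsmul_eq_mul]
        congr 1
        congr 1
        · simp only [Finset.sum_mul]
          rw [Finset.sum_comm (s := Finset.univ) (t := (Finset.univ : Finset (Fin N)))
            (f := fun (α : Fin N → Room n) i => ∑ j, (if i < j then V (α i) (α j) else 0) * a α ^ 2)]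
          refine Finset.sum_congr rfl fun i _ => ?_
          rw [Finset.sum_comm]
        · ring

theorem mb_yes (h : Orbs φ Ω) (hΦ : Pot Φ) {C t ε εr εV a : ℝ} {V : Room n → Room n → ℝ}
    (hU : UB φ Φ C t ε) (hV : VU φ Ω V εV) (hr : ∫ x, rem φ Ω x ≤ εr) (ht : 0 ≤ t) (hε : 0 ≤ ε)
    (hεV : 0 ≤ εV) (ha : 0 ≤ a) (hN : 1 ≤ N) {c : (Fin N → Mode n) → ℝ} (h0 : c ≠ 0)
    (hc : Anti c) (hlat : t * latT c + latV V c ≤ a * nsq c) :
    InfEnergyLE (Wpot Φ : Config N → ℝ) (N * C + (1 + εr) ^ N * (a + N * ε + N ^ 2 * εV)) := by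
  have hεr := MBYes_eps_nonneg hr
  have hT : ∀ s, Test (trialW φ c s) := fun s => test_trial h fun α => c fun i => (s i, α i)
  have i1 : ∀ s, Integrable fun x : Config N => (∑ i, Φ (elPos i x)) * trialW φ c s x ^ 2 := by
    intro s
    rw [← integrable_ofP]
    simp only [Finset.sum_mul, elPos_ofP]
    exact integrable_finsetSum _ fun i _ =>
      integrable_one_body hΦ.loc hΦ.meas (hT s).nice.sq.comp_ofP i
  have i2 : ∀ s, Integrable fun x : Config N =>
      (∑ i, ∑ j, if i < j then Kn (elPos i x - elPos j x) else 0) * trialW φ c s x ^ 2 := by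
    intro s
    rw [← integrable_ofP]
    simp only [Finset.sum_mul, elPos_ofP]
    refine integrable_finsetSum _ fun i _ => integrable_finsetSum _ fun j _ => ?_
    split_ifs with hij
    · exact integrable_two_body (hT s).nice.sq.comp_ofP hij.ne
    · simp
  have eW : ∀ s (x : Config N), Wpot Φ x * trialW φ c s x ^ 2 =
      (∑ i, ∑ j, if i < j then Kn (elPos i x - elPos j x) else 0) * trialW φ c s x ^ 2 -
        (∑ i, Φ (elPos i x)) * trialW φ c s x ^ 2 := fun s x => by
    unfold Wpot; ring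
  have hS : nsq c ≤ ∑ s, ∫ x, trialW φ c s x ^ 2 := by
    rw [MBYes_nsq]
    refine Finset.sum_le_sum fun s _ => ?_
    rw [integral_ofP]
    exact trial_norm_ge h fun α => c fun i => (s i, α i)
  have hpos : 0 < nsq c := by
    obtain ⟨x, hx⟩ := Function.ne_iff.1 h0
    exact Finset.sum_pos' (fun y _ => mul_self_nonneg _) ⟨x, Finset.mem_univ _, mul_self_pos.2 hx⟩
  refine infLE_of_test hT (antiW_trialW φ hc) (fun s => ?_) (hpos.trans_le hS) ?_
  · simp only [eW]; exact (i2 s).sub (i1 s)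
  · have h1 := one_body_le h hΦ hU ht hε hr hN c
    have h2 := two_body_le h hr hεV hV c
    have e : ∑ s, (1 / 2 * (∫ x, gsq (trialW φ c s) x) + ∫ x, Wpot Φ x * trialW φ c s x ^ 2) =
        ∑ s, (1 / 2 * (∫ x, gsq (trialW φ c s) x) -
          ∫ x, (∑ i, Φ (elPos i x)) * trialW φ c s x ^ 2) +
        ∑ s, ∫ x, (∑ i, ∑ j, if i < j then Kn (elPos i x - elPos j x) else 0) *
          trialW φ c s x ^ 2 := by
      rw [← Finset.sum_add_distrib]
      refine Finset.sum_congr rfl fun s _ => ?_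
      simp only [eW]
      rw [integral_sub (i2 s) (i1 s)]
      ring
    rw [e]
    have hP : 0 ≤ (1 + εr) ^ N := by positivity
    have hK : 0 ≤ (1 + εr) ^ N * (a + N * ε + N ^ 2 * εV) := by positivity
    nlinarith [mul_le_mul_of_nonneg_left hlat hP, mul_le_mul_of_nonneg_left hS hK]

end Crest.Agent.R338
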