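/-
R338/Grad: the gradient of the planar trial functions
Skeleton by helper15 (row 338); keep the statements unchanged, add any helper lemmas you like.
-/
import Crest.Agent.R338.Trial

set_option autoImplicit false
set_option linter.unusedSectionVars false
set_option linter.unusedVariables false
set_option linter.unusedSimpArgs false

noncomputable section

namespace Crest.Agent.R338

open MeasureTheory Set Filter Crest.MathPhysics.ElectronicCoulomb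

/-- The horizontal derivative. -/
def Des.uPx (D : Des) (A : ℕ) (ξ η : ℝ) : ℝ :=
  ramp (D.sg ℝ) η * (pl 1 (D.xA ℝ A - 1) (D.xA ℝ A + 2) 1 ξ * (1 - st 0 (η - D.ytop ℝ - 1))) +
    (1 - ramp (D.sg ℝ) η) / 3 *
      (pl 1 (D.xA ℝ (3 * (A / 3)) - 1) (D.xA ℝ (3 * (A / 3) + 2) + 2) 1 ξ * st 0 (η + 3))

/-- The vertical derivative. -/
def Des.uPy (D : Des) (A : ℕ) (ξ η : ℝ) : ℝ :=
  pl 1 (D.xA ℝ A - 1) (D.xA ℝ A + 2) 0 ξ *
      (ramp' (D.sg ℝ) η * (1 - st 0 (η - D.ytop ℝ - 1)) -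
        ramp (D.sg ℝ) η * st 1 (η - D.ytop ℝ - 1)) +
    pl 1 (D.xA ℝ (3 * (A / 3)) - 1) (D.xA ℝ (3 * (A / 3) + 2) + 2) 0 ξ / 3 *
      ((1 - ramp (D.sg ℝ) η) * st 1 (η + 3) - ramp' (D.sg ℝ) η * st 0 (η + 3))

theorem Grad_hasDerivAt_x (D : Des) (A : ℕ) (ξ η : ℝ) :
    HasDerivAt (fun ξ => D.uP A ξ η) (D.uPx A ξ η) ξ := by
  unfold Des.uP Des.uPx
  exact (((hasDerivAt_pl one_pos _ _ (j := 0) zero_le_one ξ).mul_const _).const_mul _).add
    (((hasDerivAt_pl one_pos _ _ (j := 0) zero_le_one ξ).mul_const _).const_mul _)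

theorem Grad_hasDerivAt_y (D : Des) (A : ℕ) (ξ η : ℝ) :
    HasDerivAt (fun η => D.uP A ξ η) (D.uPy A ξ η) η := by
  have h1 := hasDerivAt_ramp (D.sg ℝ) η
  have h2 : HasDerivAt (fun η : ℝ => st 0 (η - D.ytop ℝ - 1)) (st 1 (η - D.ytop ℝ - 1)) η :=
    ((hasDerivAt_st (j := 0) zero_le_one (η - D.ytop ℝ - 1)).comp_sub_const (η - D.ytop ℝ)
      1).comp_sub_const η (D.ytop ℝ)
  have h3 : HasDerivAt (fun η : ℝ => st 0 (η + 3)) (st 1 (η + 3)) η :=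
    (hasDerivAt_st (j := 0) zero_le_one (η + 3)).comp_add_const η 3
  unfold Des.uP Des.uPy
  refine ((h1.mul ((h2.const_sub 1).const_mul _)).add
    (((h1.const_sub 1).div_const 3).mul (h3.const_mul _))).congr_deriv ?_
  ring

theorem Grad_comp_div {f : ℝ → ℝ} {f' s ℓ : ℝ} (h : HasDerivAt f f' (s / ℓ)) :
    HasDerivAt (fun s => f (s / ℓ)) (f' * (1 / ℓ)) s :=
  HasDerivAt.comp (h₂ := f) (h := fun s => s / ℓ) s h ((hasDerivAt_id s).div_const ℓ)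

theorem Grad_pow1 {s : ℝ} (hs : 0 < s) (T : ℝ) :
    (s ^ 3)⁻¹ ^ 1072 * (600 * s * T * s ^ 4320) = 600 * s ^ 1105 * T := by
  have e1 : s ^ 4320 = s ^ 1104 * (s ^ 3) ^ 1072 := by rw [← pow_mul, ← pow_add]
  have e2 : s ^ 1105 = s ^ 1104 * s := pow_succ s 1104
  have h : (s ^ 3) ^ 1072 ≠ 0 := by positivity
  rw [e1, e2, inv_pow]
  generalize (s ^ 3) ^ 1072 = u at h ⊢
  generalize s ^ 1104 = v
  field_simp

theorem Grad_pow2 {s : ℝ} (hs : 0 < s) (T U : ℝ) :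
    (s ^ 2)⁻¹ ^ 1072 * (T * U * s ^ 4320) = s ^ 2176 * T * U := by
  have e1 : s ^ 4320 = s ^ 2176 * (s ^ 2) ^ 1072 := by rw [← pow_mul, ← pow_add]
  have h : (s ^ 2) ^ 1072 ≠ 0 := by positivity
  rw [e1, inv_pow]
  generalize (s ^ 2) ^ 1072 = u at h ⊢
  generalize s ^ 2176 = v
  field_simp

theorem Grad_diff (D : Des) (a : Room D.n → ℝ) : Differentiable ℝ (D.P3 a) :=
  (contDiff_P3 D a).differentiable one_ne_zero

theorem Grad_pd0 (D : Des) (a : Room D.n → ℝ) (x : Pos3) : pd 0 (D.P3 a) x =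
    (∑ A, a A * D.uPx (rid A) (x 0 / D.ell ℝ) (x 1 / D.ell ℝ)) / D.ell ℝ := by
  have h1 := hasDerivAt_mk3_0 (Grad_diff D a) (x 0) (x 1) (x 2)
  rw [mk3_eta] at h1
  refine h1.unique ?_
  have h2 : HasDerivAt (fun s : ℝ => ∑ A, a A * D.uP (rid A) (s / D.ell ℝ) (x 1 / D.ell ℝ))
      (∑ A, a A * (D.uPx (rid A) (x 0 / D.ell ℝ) (x 1 / D.ell ℝ) * (1 / D.ell ℝ))) (x 0) :=
    HasDerivAt.fun_sum fun A _ => (Grad_comp_div (Grad_hasDerivAt_x D (rid A) _ _)).const_mul (a A)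
  refine h2.congr_deriv ?_
  rw [Finset.sum_div]
  exact Finset.sum_congr rfl fun A _ => by ring

theorem Grad_pd1 (D : Des) (a : Room D.n → ℝ) (x : Pos3) : pd 1 (D.P3 a) x =
    (∑ A, a A * D.uPy (rid A) (x 0 / D.ell ℝ) (x 1 / D.ell ℝ)) / D.ell ℝ := by
  have h1 := hasDerivAt_mk3_1 (Grad_diff D a) (x 0) (x 1) (x 2)
  rw [mk3_eta] at h1
  refine h1.unique ?_
  have h2 : HasDerivAt (fun s : ℝ => ∑ A, a A * D.uP (rid A) (x 0 / D.ell ℝ) (s / D.ell ℝ))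
      (∑ A, a A * (D.uPy (rid A) (x 0 / D.ell ℝ) (x 1 / D.ell ℝ) * (1 / D.ell ℝ))) (x 1) :=
    HasDerivAt.fun_sum fun A _ => (Grad_comp_div (Grad_hasDerivAt_y D (rid A) _ _)).const_mul (a A)
  refine h2.congr_deriv ?_
  rw [Finset.sum_div]
  exact Finset.sum_congr rfl fun A _ => by ring

theorem Grad_pd2 (D : Des) (a : Room D.n → ℝ) (x : Pos3) : pd 2 (D.P3 a) x = 0 := by
  have h1 := hasDerivAt_mk3_2 (Grad_diff D a) (x 0) (x 1) (x 2)
  rw [mk3_eta] at h1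
  exact h1.unique (hasDerivAt_const (x 2)
    (∑ A, a A * D.uP (rid A) (x 0 / D.ell ℝ) (x 1 / D.ell ℝ)))

theorem gsq_P3 (D : Des) (a : Room D.n → ℝ) (x : Pos3) : gsq (D.P3 a) x =
    ((∑ A, a A * D.uPx (rid A) (x 0 / D.ell ℝ) (x 1 / D.ell ℝ)) ^ 2 +
      (∑ A, a A * D.uPy (rid A) (x 0 / D.ell ℝ) (x 1 / D.ell ℝ)) ^ 2) / D.ell ℝ ^ 2 := by
  rw [gsq, Fin.sum_univ_three, Grad_pd0, Grad_pd1, Grad_pd2]
  ring

theorem pd_two_P3 (D : Des) (a : Room D.n → ℝ) (x : Pos3) : pd 2 (D.P3 a) x = 0 := by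
  exact Grad_pd2 D a x

theorem Grad_xA_mono (D : Des) {A B : ℕ} (hAB : A ≤ B) : D.xA ℝ A ≤ D.xA ℝ B := by
  unfold Des.xA
  gcongr

theorem uPxy_le : ∀ᶠ D : Des in evD, ∀ (A : ℕ) (ξ η : ℝ), |D.uPx A ξ η| ≤ 10 ∧ |D.uPy A ξ η| ≤ 10 := by
  filter_upwards [ev_good, ev_sg] with D hD hσ A ξ η
  have h0 := hD.sg_pos
  obtain ⟨r0, r1⟩ := ramp_bounds h0 (by linarith) η
  obtain ⟨r2, r3⟩ := ramp'_bounds h0 (by linarith) η
  have hr : |ramp (D.sg ℝ) η| ≤ 1 := abs_le.2 ⟨by linarith, r1⟩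
  have hr1 : |1 - ramp (D.sg ℝ) η| ≤ 1 := abs_le.2 ⟨by linarith, by linarith⟩
  have hr' : |ramp' (D.sg ℝ) η| ≤ 2 := abs_le.2 ⟨by linarith, by linarith⟩
  have s0 : ∀ t : ℝ, |st 0 t| ≤ 1 := fun t =>
    abs_le.2 ⟨by linarith [st_nonneg t], st_le_one t⟩
  have s0' : ∀ t : ℝ, |1 - st 0 t| ≤ 1 := fun t =>
    abs_le.2 ⟨by linarith [st_le_one t], by linarith [st_nonneg t]⟩
  have s1 : ∀ t : ℝ, |st 1 t| ≤ 3 := fun t =>
    abs_le.2 ⟨by linarith [st1_nonneg t], st1_le t⟩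
  have p1 : ∀ a b : ℝ, |pl 1 a b 1 ξ| ≤ 3 := fun a b => by simpa using abs_pl1_le one_pos a b ξ
  have p0 : ∀ a b : ℝ, a ≤ b → |pl 1 a b 0 ξ| ≤ 1 := fun a b hab =>
    abs_le.2 ⟨by linarith [pl_nonneg one_pos hab ξ], pl_le_one _ _ _ _⟩
  have hx := Grad_xA_mono D (show 3 * (A / 3) ≤ 3 * (A / 3) + 2 by omega)
  have h3 : |(3 : ℝ)| = 3 := abs_of_pos (by norm_num)
  constructor
  · unfold Des.uPx
    refine (abs_add_le _ _).trans ?_
    simp only [abs_mul, abs_div, h3]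
    refine le_trans (b := 1 * (3 * 1) + 1 / 3 * (3 * 1)) ?_ (by norm_num)
    gcongr
    exacts [p1 _ _, s0' _, p1 _ _, s0 _]
  · unfold Des.uPy
    refine (abs_add_le _ _).trans ?_
    simp only [abs_mul, abs_div, h3]
    have e1 : |ramp' (D.sg ℝ) η * (1 - st 0 (η - D.ytop ℝ - 1)) -
        ramp (D.sg ℝ) η * st 1 (η - D.ytop ℝ - 1)| ≤ 2 * 1 + 1 * 3 := by
      refine (abs_sub _ _).trans ?_
      simp only [abs_mul]
      gcongr
      exacts [s0' _, s1 _]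
    have e2 : |(1 - ramp (D.sg ℝ) η) * st 1 (η + 3) - ramp' (D.sg ℝ) η * st 0 (η + 3)| ≤
        1 * 3 + 2 * 1 := by
      refine (abs_sub _ _).trans ?_
      simp only [abs_mul]
      gcongr
      exacts [s1 _, s0 _]
    refine le_trans (b := 1 * (2 * 1 + 1 * 3) + 1 / 3 * (1 * 3 + 2 * 1)) ?_ (by norm_num)
    gcongr
    exacts [p0 _ _ (by linarith), p0 _ _ (by linarith)]

theorem Grad_xA_gap {D : Des} (h : (10 : ℝ) ≤ D.S) {A B : ℕ} (hAB : A < B) :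
    D.xA ℝ A + 10 ≤ D.xA ℝ B := by
  have h1 : (10 : ℝ) ≤ (D.S : ℝ) ^ 6 := h.trans (le_self_pow₀ (by linarith) (by norm_num))
  have h2 : (A : ℝ) + 1 ≤ B := by exact_mod_cast hAB
  unfold Des.xA
  nlinarith

theorem Grad_pl_wire {D : Des} (h : (10 : ℝ) ≤ D.S) (hσ : D.sg ℝ ≤ 1 / 100) (A B j : ℕ) {ξ : ℝ}
    (hξ : ξ ∈ Icc (D.xA ℝ B - D.sg ℝ) (D.xA ℝ B + 1 + D.sg ℝ)) :
    pl 1 (D.xA ℝ A - 1) (D.xA ℝ A + 2) j ξ = if A = B ∧ j = 0 then 1 else 0 := by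
  obtain ⟨h1, h2⟩ := hξ
  rcases lt_trichotomy A B with hAB | rfl | hAB
  · have := Grad_xA_gap h hAB
    rw [pl_of_ge j one_pos (by linarith) (by linarith), if_neg fun h => hAB.ne h.1]
  · rw [pl_of_mem j one_pos (by linarith) (by linarith)]
    simp only [true_and]
  · have := Grad_xA_gap h hAB
    rw [pl_of_le j one_pos (by linarith) (by linarith), if_neg fun h => hAB.ne' h.1]

theorem Grad_pl_bus {D : Des} (h : (10 : ℝ) ≤ D.S) (hσ : D.sg ℝ ≤ 1 / 100) (p q j : ℕ) {ξ : ℝ}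
    (hξ : ξ ∈ Icc (D.xA ℝ (3 * q) - D.sg ℝ) (D.xA ℝ (3 * q + 2) + 1 + D.sg ℝ)) :
    pl 1 (D.xA ℝ (3 * p) - 1) (D.xA ℝ (3 * p + 2) + 2) j ξ = if p = q ∧ j = 0 then 1 else 0 := by
  obtain ⟨h1, h2⟩ := hξ
  have h3 := Grad_xA_mono D (show 3 * p ≤ 3 * p + 2 by omega)
  rcases lt_trichotomy p q with hAB | rfl | hAB
  · have := Grad_xA_gap h (show 3 * p + 2 < 3 * q by omega)
    rw [pl_of_ge j one_pos (by linarith) (by linarith), if_neg fun h => hAB.ne h.1]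
  · rw [pl_of_mem j one_pos (by linarith) (by linarith)]
    simp only [true_and]
  · have := Grad_xA_gap h (show 3 * q + 2 < 3 * p by omega)
    rw [pl_of_le j one_pos (by linarith) (by linarith), if_neg fun h => hAB.ne' h.1]

/-- Near the wire `B` the combination is `θ * a B + (1 - θ) * mean`. -/
theorem grad_wire : ∀ᶠ D : Des in evD, ∀ (a : Room D.n → ℝ) (B : Room D.n),
    ∀ ξ ∈ Icc (D.xA ℝ (rid B) - D.sg ℝ) (D.xA ℝ (rid B) + 1 + D.sg ℝ),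
    ∀ η ∈ Icc (-1 - D.sg ℝ) (D.ytop ℝ + D.sg ℝ),
    ∑ A, a A * D.uPx (rid A) ξ η = 0 ∧
      ∑ A, a A * D.uPy (rid A) ξ η = ramp' (D.sg ℝ) η * (a B - (∑ r, a (B.1, r)) / 3) := by
  filter_upwards [ev_ge 10, ev_sg] with D h hσ a B ξ hξ η hη
  have hξ' : ξ ∈ Icc (D.xA ℝ (3 * (rid B / 3)) - D.sg ℝ)
      (D.xA ℝ (3 * (rid B / 3) + 2) + 1 + D.sg ℝ) := by
    have h1 := Grad_xA_mono D (show 3 * (rid B / 3) ≤ rid B by omega)
    have h2 := Grad_xA_mono D (show rid B ≤ 3 * (rid B / 3) + 2 by omega)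
    exact ⟨by linarith [hξ.1], by linarith [hξ.2]⟩
  have s1 : ∀ j, st j (η - D.ytop ℝ - 1) = 0 := fun j => st_of_le j (by linarith [hη.2])
  have s2 : ∀ j, st j (η + 3) = if j = 0 then 1 else 0 := fun j => st_of_ge j (by linarith [hη.1])
  constructor
  · refine Finset.sum_eq_zero fun A _ => ?_
    simp [Des.uPx, Grad_pl_wire h hσ _ _ _ hξ, Grad_pl_bus h hσ _ _ _ hξ']
  · have e : ∀ A : Room D.n, a A * D.uPy (rid A) ξ η = ramp' (D.sg ℝ) η *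
        ((if A = B then a A else 0) - (if A.1 = B.1 then a A else 0) / 3) := by
      intro A
      rw [Des.uPy, Grad_pl_wire h hσ _ _ _ hξ, Grad_pl_bus h hσ _ _ _ hξ']
      simp only [s1, s2, and_true, rid_injective.eq_iff, rid_div, Fin.val_inj, if_true,
        one_ne_zero, if_false]
      split_ifs <;> ring
    simp only [e]
    rw [← Finset.mul_sum, Finset.sum_sub_distrib, ← Finset.sum_div, Finset.sum_ite_eq',
      if_pos (Finset.mem_univ _), Fintype.sum_prod_type, Finset.sum_comm]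
    simp only [Finset.sum_ite_eq', Finset.mem_univ, if_true]

/-- Near a bus the combination is constant. -/
theorem grad_bus : ∀ᶠ D : Des in evD, ∀ A < 3 * D.n, ∀ q < D.n,
    ∀ ξ ∈ Icc (D.xA ℝ (3 * q) - D.sg ℝ) (D.xA ℝ (3 * q + 2) + 1 + D.sg ℝ),
    ∀ η ∈ Icc (-1 - D.sg ℝ) (D.sg ℝ), D.uPx A ξ η = 0 ∧ D.uPy A ξ η = 0 := by
  filter_upwards [ev_good, ev_ge 10, ev_sg] with D hD h hσ A _ q _ ξ hξ η hη
  obtain ⟨r1, r2⟩ := ramp_of_le hD.sg_pos (by linarith) hη.2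
  have s2 : st 1 (η + 3) = 0 := by
    rw [st_of_ge 1 (by linarith [hη.1])]
    simp
  constructor
  · simp [Des.uPx, r1, Grad_pl_bus h hσ _ _ _ hξ]
  · simp [Des.uPy, r1, r2, s2]

/-- The enlarged neck. -/
def Des.neckB (D : Des) (A : ℕ) : Set Pos3 :=
  bx (D.ell ℝ * (D.xA ℝ A - D.sg ℝ)) (D.ell ℝ * (D.xA ℝ A + 1 + D.sg ℝ)) (D.ell ℝ * D.sg ℝ)
    (D.ell ℝ * (1 + D.sg ℝ)) (2 * D.z1)

/-- `F_ext`: three cases; near a wire `ramp'` vanishes unless `η ∈ [σ, 1 + σ]`, where `F_neck_le`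
applies. -/
theorem grad_P3 : ∀ᶠ D : Des in evD, ∀ (a : Room D.n → ℝ) (x : Pos3), |x 2| ≤ 2 * D.z1 →
    D.F3 0 0 x ^ 1072 * gsq (D.P3 a) x ≤
      (∑ B, (D.neckB (rid B)).indicator (fun _ => (D.S : ℝ) ^ 2176 * (1 + 4 * D.sg ℝ) ^ 2 *
        (a B - (∑ r, a (B.1, r)) / 3) ^ 2) x) + (D.S : ℝ) ^ 1106 * ∑ A, a A ^ 2 := by
  filter_upwards [ev_good, ev_ge 600, ev_sg, uPxy_le, grad_wire, grad_bus, F_ext, F_ge, F_neck_le]
    with D hD h hσ hu hw hb hF hF0 hFn a x hx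
  have hs := hD.pos
  have hl := hD.ell_pos
  have hσ0 := hD.sg_pos
  have hnn : ∀ B : Room D.n, 0 ≤ (D.neckB (rid B)).indicator (fun _ => (D.S : ℝ) ^ 2176 *
      (1 + 4 * D.sg ℝ) ^ 2 * (a B - (∑ r, a (B.1, r)) / 3) ^ 2) x := fun B =>
    indicator_nonneg (fun _ _ =>
      mul_nonneg (mul_nonneg (pow_nonneg hs.le _) (sq_nonneg _)) (sq_nonneg _)) x
  have hn1 := Finset.sum_nonneg fun B (_ : B ∈ Finset.univ) => hnn B
  have ha : 0 ≤ ∑ A, a A ^ 2 := Finset.sum_nonneg fun A _ => sq_nonneg _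
  have hn2 : 0 ≤ (D.S : ℝ) ^ 1106 * ∑ A, a A ^ 2 := by positivity
  have hell : D.ell ℝ ^ 2 = ((D.S : ℝ) ^ 4320)⁻¹ := by
    rw [Des.ell, inv_pow, ← pow_mul]
  rw [gsq_P3, hell, div_inv_eq_mul, Des.F3]
  set ξ := x 0 / D.ell ℝ with hξd
  set η := x 1 / D.ell ℝ with hηd
  rcases hF ξ η with h1 | ⟨A, hA, hξ, hη⟩ | ⟨q, hq, hξ, hη⟩
  · have cs : ∀ u : Room D.n → ℝ, (∀ A, |u A| ≤ 10) →
        (∑ A, a A * u A) ^ 2 ≤ 300 * D.S * ∑ A, a A ^ 2 := by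
      intro u hu
      have h2 : ∑ A, u A ^ 2 ≤ 300 * D.S := by
        refine (Finset.sum_le_card_nsmul _ _ 100 fun A _ => ?_).trans ?_
        · rw [← sq_abs]
          nlinarith [hu A, abs_nonneg (u A)]
        · have := hD.n_le
          simp only [Finset.card_univ, Fintype.card_prod, Fintype.card_fin, nsmul_eq_mul]
          push_cast
          linarith
      refine (Finset.sum_mul_sq_le_sq_mul_sq _ _ _).trans ?_
      rw [mul_comm]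
      exact mul_le_mul_of_nonneg_right h2 ha
    have h2 := cs _ fun A => (hu (rid A) ξ η).1
    have h3 := cs _ fun A => (hu (rid A) ξ η).2
    refine le_trans ?_ (le_add_of_nonneg_left hn1)
    rw [h1]
    calc _ ≤ ((D.S : ℝ) ^ 3)⁻¹ ^ 1072 * ((600 * D.S * ∑ A, a A ^ 2) * (D.S : ℝ) ^ 4320) := by
          gcongr
          linarith
      _ = 600 * (D.S : ℝ) ^ 1105 * ∑ A, a A ^ 2 := Grad_pow1 hs _
      _ ≤ _ := mul_le_mul_of_nonneg_right (mul_pow_le hD.one_le h le_rfl) ha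
  · let B : Room D.n := (⟨A / 3, by omega⟩, ⟨A % 3, by omega⟩)
    have hB : rid B = A := by
      simp only [rid, B]
      omega
    rw [← hB] at hξ
    obtain ⟨e1, e2⟩ := hw a B ξ hξ η hη
    rw [e1, e2]
    by_cases hc : η ∈ Icc (D.sg ℝ) (1 + D.sg ℝ)
    · have hm : x ∈ D.neckB (rid B) := by
        refine ⟨⟨?_, ?_⟩, ⟨?_, ?_⟩, abs_le.1 hx⟩
        · exact (le_div_iff₀' hl).1 hξ.1
        · exact (div_le_iff₀' hl).1 hξ.2
        · exact (le_div_iff₀' hl).1 hc.1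
        · exact (div_le_iff₀' hl).1 hc.2
      refine le_trans ?_ (le_add_of_nonneg_right hn2)
      refine le_trans ?_ (Finset.single_le_sum (fun B _ => hnn B) (Finset.mem_univ B))
      rw [indicator_of_mem hm]
      obtain ⟨r1, r2⟩ := ramp'_bounds hσ0 (by linarith) η
      have f0 : 0 ≤ D.F 0 0 ξ η := le_trans (by positivity) (hF0 ξ η)
      have f1 := hFn ξ η hc
      rw [zero_pow two_ne_zero, zero_add, mul_pow]
      calc _ ≤ ((D.S : ℝ) ^ 2)⁻¹ ^ 1072 * ((1 + 4 * D.sg ℝ) ^ 2 *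
            (a B - (∑ r, a (B.1, r)) / 3) ^ 2 * (D.S : ℝ) ^ 4320) := by
            gcongr
        _ = _ := Grad_pow2 hs _ _
    · have r0 : ramp' (D.sg ℝ) η = 0 := by
        rw [mem_Icc, not_and_or, not_le, not_le] at hc
        rcases hc with hc | hc
        · exact (ramp_of_le hσ0 (by linarith) hc.le).2
        · exact (ramp_of_ge hσ0 (by linarith) hc.le).2
      rw [r0, zero_mul, zero_pow two_ne_zero, add_zero, zero_mul, mul_zero]
      exact add_nonneg hn1 hn2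
  · have e1 : ∑ A, a A * D.uPx (rid A) ξ η = 0 := Finset.sum_eq_zero fun A _ => by
      rw [(hb (rid A) (Des.rid_lt A) q hq ξ hξ η hη).1, mul_zero]
    have e2 : ∑ A, a A * D.uPy (rid A) ξ η = 0 := Finset.sum_eq_zero fun A _ => by
      rw [(hb (rid A) (Des.rid_lt A) q hq ξ hξ η hη).2, mul_zero]
    rw [e1, e2, zero_pow two_ne_zero, add_zero, zero_mul, mul_zero]
    exact add_nonneg hn1 hn2

end Crest.Agent.R338
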