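/-
R338/Up: the one-body upper bound
Skeleton by helper15 (row 338); keep the statements unchanged, add any helper lemmas you like.
-/
import Crest.Agent.R338.Grad
import Crest.Agent.R338.Mass
import Crest.Agent.R338.OB

set_option autoImplicit false
set_option linter.unusedSectionVars false
set_option linter.unusedVariables false
set_option linter.unusedSimpArgs false

noncomputable section

namespace Crest.Agent.R338

open MeasureTheory Set Filter Crest.MathPhysics.ElectronicCoulomb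

theorem Up_cz_deriv {D : Des} (h : D.Good) (z : ℝ) : HasDerivAt (D.cz 0) (D.cz 1 z) z :=
  hasDerivAt_pl h.z1_pos _ _ (by norm_num) z

theorem Up_bx (D : Des) {a a' b b' h : ℝ} (ha : a ≤ a') (hb : b ≤ b') (hh : 0 ≤ h) :
    ∫ x in bx a a' b b' h, D.phi (x 2) ^ 2 = (a' - a) * (b' - b) * ∫ z in (-h)..h, D.phi z ^ 2 := by
  have hc := continuous_phi D
  rw [integral_bx_012 ha hb hh (box_integrableOn (by fun_prop) _ _ _ _ _)]
  simp only [mk3_2, intervalIntegral.integral_const, smul_eq_mul]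
  ring

theorem Up_cz_sq {D : Des} (h : D.Good) (z : ℝ) : D.cz 0 z ^ 2 ≤ 1 := by
  have h1 : 0 ≤ D.cz 0 z := pl_nonneg h.z1_pos (by linarith [h.z1_pos]) z
  have h2 : D.cz 0 z ≤ 1 := pl_le_one _ _ _ z
  nlinarith

theorem Up_rho_nonneg (D : Des) (x : Pos3) : 0 ≤ D.rho x := sq_nonneg _

theorem Up_F_nonneg (D : Des) (x : Pos3) : 0 ≤ D.F3 0 0 x ^ 1072 :=
  Even.pow_nonneg (by decide) _

theorem Up_box_int (D : Des) {f : Pos3 → ℝ} (hf : Continuous f) : IntegrableOn f D.box :=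
  box_integrableOn hf _ _ _ _ _

theorem Up_contF (D : Des) : Continuous fun x => D.F3 0 0 x ^ 1072 :=
  (contDiff_F3 (D := D) (i := 0) (j := 0) (by norm_num) (by norm_num)).continuous.pow 1072

theorem Up_contphi (D : Des) : Continuous fun x : Pos3 => D.phi (x 2) ^ 2 := by
  have hc := continuous_phi D
  fun_prop

theorem Up_int3 {s : Set Pos3} {f g h : Pos3 → ℝ} (hf : IntegrableOn f s) (hg : IntegrableOn g s)
    (hh : IntegrableOn h s) (b c : ℝ) : IntegrableOn (fun x => f x + b * g x + c * h x) s ∧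
      ∫ x in s, (f x + b * g x + c * h x) = (∫ x in s, f x) + b * (∫ x in s, g x) +
        c * ∫ x in s, h x := by
  have h1 : IntegrableOn (fun x => b * g x) s := hg.const_mul b
  have h2 : IntegrableOn (fun x => c * h x) s := hh.const_mul c
  have h3 : IntegrableOn (fun x => f x + b * g x) s := hf.add h1
  refine ⟨h3.add h2, ?_⟩
  rw [integral_add h3 h2, integral_add hf h1, integral_const_mul, integral_const_mul]

theorem Up_tt_pos {D : Des} (h : D.Good) : 0 < D.tt ℝ := by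
  have h1 := tt_mul_mass h
  have h2 := mass_pos h
  have h3 := mz_pos h
  have h4 := h.pos
  have h5 : 0 < D.tt ℝ * D.mass := by rw [h1]; positivity
  exact (pos_iff_pos_of_mul_pos h5).2 h2

theorem Up_tt_eq {D : Des} (h : D.Good) :
    (D.S : ℝ) ^ 2176 * D.ell ℝ ^ 2 * D.mz = 2 * D.tt ℝ * D.mass := by
  have h1 := tt_mul_mass h
  have h4 := h.pos
  have e : (D.S : ℝ) ^ 2176 * D.ell ℝ ^ 2 = ((D.S : ℝ) ^ 2144)⁻¹ := by
    unfold Des.ell
    rw [inv_pow, ← pow_mul, show 2160 * 2 = 2176 + 2144 from rfl, pow_add, mul_inv, ← mul_assoc,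
      mul_inv_cancel₀ (by positivity), one_mul]
  rw [e, mul_assoc 2, h1]
  ring

theorem gsq_uT {D : Des} (h : D.Good) (a : Room D.n → ℝ) (x : Pos3) : gsq (D.uT a) x =
    D.mass⁻¹ * (D.cz 0 (x 2) ^ 2 * gsq (D.P3 a) x + D.P3 a x ^ 2 * D.cz 1 (x 2) ^ 2) := by
  have hP : DifferentiableAt ℝ (D.P3 a) x := ((contDiff_P3 D a).differentiable (by norm_num)) x
  have hc : DifferentiableAt ℝ (fun y : Pos3 => D.cz 0 (y 2)) x :=
    (Up_cz_deriv h (x 2)).differentiableAt.comp x (by fun_prop)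
  have e : ∀ c, pd c (D.uT a) x = (√D.mass)⁻¹ * (pd c (D.P3 a) x * D.cz 0 (x 2) +
      D.P3 a x * if c = 2 then D.cz 1 (x 2) else 0) := fun c => by
    rw [show D.uT a = fun y => (√D.mass)⁻¹ * (D.P3 a y * D.cz 0 (y 2)) from rfl,
      pd_const_mul (f := fun y => D.P3 a y * D.cz 0 (y 2)) c _ (hP.mul hc), pd_mul c hP hc, pd_coord c 2 (Up_cz_deriv h (x 2))]
  have hm : ((√D.mass)⁻¹) ^ 2 = D.mass⁻¹ := by rw [inv_pow, Real.sq_sqrt (mass_pos h).le]
  simp only [gsq, Fin.sum_univ_three, e, pd_two_P3]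
  rw [if_neg (by decide), if_neg (by decide), if_pos trivial, ← hm]
  ring

/-- The support of `uT a` lies in the closed set `box`. -/
theorem gsq_uT_box : ∀ᶠ D : Des in evD, ∀ a x, x ∉ D.box → gsq (D.uT a) x = 0 := by
  filter_upwards [uT_box] with D h a x hx
  have hc : IsClosed D.box := (isCompact_bx _ _ _ _ _).isClosed
  have e : D.uT a =ᶠ[nhds x] fun _ => 0 := by
    filter_upwards [hc.isOpen_compl.mem_nhds hx] with y hy using h a y hy
  simp [gsq, pd, e.fderiv_eq]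

/-- The cut-off varies only where `φ ≤ 2 δ`. -/
theorem phi_cz_le : ∀ᶠ D : Des in evD, ∀ z, D.phi z ^ 2 * D.cz 1 z ^ 2 ≤ 1 := by
  filter_upwards [ev_good, ev_ge 6, phi_tail'] with D hD h6 ht z
  by_cases hz : |z| ≤ D.z1
  · have h0 : D.cz 1 z = 0 := by
      have := pl_of_mem (a := -D.z1) (b := D.z1) (x := z) 1 hD.z1_pos (abs_le.1 hz).1 (abs_le.1 hz).2
      rw [if_neg (by decide)] at this
      exact this
    rw [h0]; norm_num
  · have h1 := ht z (not_le.1 hz).le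
    have h2 : |D.cz 1 z| ≤ 3 / D.z1 := abs_pl1_le hD.z1_pos _ _ _
    have h0 := phi_pos D z
    have h3 : 2 * D.del ℝ * (3 / D.z1) ≤ 1 := by
      have h4 := mul_pow_le (a := 2879) (b := 3840) hD.one_le h6 (by norm_num)
      have h5 : 0 < (D.S : ℝ) ^ 3840 := pow_pos hD.pos _
      unfold Des.del Des.z1
      generalize (D.S : ℝ) ^ 2879 = p at *
      generalize (D.S : ℝ) ^ 3840 = q at *
      rw [div_inv_eq_mul, show 2 * q⁻¹ * (3 * p) = 6 * p / q by ring]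
      exact (div_le_one h5).2 h4
    have h4 : |D.phi z * D.cz 1 z| ≤ 1 := by
      rw [abs_mul, abs_of_pos h0]
      exact (mul_le_mul h1 h2 (abs_nonneg _) (by linarith)).trans h3
    rw [← mul_pow]
    exact (sq_le_one_iff_abs_le_one _).2 h4

theorem int_neckB : ∀ᶠ D : Des in evD, ∀ A, ∫ x in D.neckB A, D.phi (x 2) ^ 2 ≤
    D.ell ℝ ^ 2 * (1 + 2 * D.sg ℝ) * ((1 + ((D.S : ℝ) ^ 100)⁻¹) * D.mz) := by
  filter_upwards [ev_good, int_phi_two] with D hD h A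
  have h1 := hD.ell_pos
  have h2 := hD.sg_pos
  have h3 := hD.z1_pos
  unfold Des.neckB
  rw [Up_bx D (mul_le_mul_of_nonneg_left (by linarith only [h2]) h1.le)
    (mul_le_mul_of_nonneg_left (by linarith only []) h1.le) (by linarith only [h3])]
  have e : (D.ell ℝ * (D.xA ℝ A + 1 + D.sg ℝ) - D.ell ℝ * (D.xA ℝ A - D.sg ℝ)) *
      (D.ell ℝ * (1 + D.sg ℝ) - D.ell ℝ * D.sg ℝ) = D.ell ℝ ^ 2 * (1 + 2 * D.sg ℝ) := by ring
  rw [e]
  exact mul_le_mul_of_nonneg_left h (mul_nonneg (sq_nonneg _) (by linarith only [h2]))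

theorem int_box_phi : ∀ᶠ D : Des in evD, ∫ x in D.box, D.phi (x 2) ^ 2 ≤ (D.S : ℝ) ^ 29 * D.mass := by
  filter_upwards [ev_good, ev_ge 8, int_phi_two] with D hD h8 h
  have h1 := hD.ell_pos
  have h2 := hD.RR_pos
  have h3 := hD.z1_pos
  have h4 := mz_pos hD
  have h5 := hD.pos
  have h6 := ell_sq_mz_le hD
  have h7 := hD.one_le_M
  have h9 : ((D.S : ℝ) ^ 100)⁻¹ ≤ 1 := inv_le_one_of_one_le₀ (one_le_pow₀ hD.one_le)
  have h10 : D.ell ℝ ^ 2 * D.mz ≤ D.mass :=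
    (le_mul_of_one_le_left (by positivity) h7).trans h6
  have h11 := mul_pow_le (a := 28) (b := 29) hD.one_le h8 (by norm_num)
  unfold Des.box
  rw [Up_bx D (by linarith) (by linarith) (by linarith)]
  calc (D.RR - -D.RR) * (D.RR - -D.RR) * ∫ z in (-(2 * D.z1))..(2 * D.z1), D.phi z ^ 2
      ≤ (D.RR - -D.RR) * (D.RR - -D.RR) * (2 * D.mz) :=
        mul_le_mul_of_nonneg_left (h.trans (by nlinarith)) (mul_self_nonneg _)
    _ = 8 * (D.S : ℝ) ^ 28 * (D.ell ℝ ^ 2 * D.mz) := by rw [hD.RR_eq]; ring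
    _ ≤ (D.S : ℝ) ^ 29 * D.mass := by gcongr

/-- `gsq_uT`, `grad_P3`, `int_neckB`, `int_box_phi`, `phi_cz_le`, `P3_sq_le`, `mass_flat`;
`S²¹⁷⁶ ℓ² mz = 2 tt mass`. -/
theorem energy_uT : ∀ᶠ D : Des in evD, ∀ a, ∫ x, D.rho x * gsq (D.uT a) x ≤
    2 * D.tt ℝ * (1 + ((D.S : ℝ) ^ 50)⁻¹) * dev a + (D.S : ℝ) ^ 2000 * ∑ A, a A ^ 2 := by
  filter_upwards [ev_good, ev_ge 20, ev_sg, gsq_uT_box, phi_cz_le, int_neckB, int_box_phi, grad_P3,
    P3_sq_le, mass_flat, test_uT] with D hD h20 hsg hbox hcz hneck hbphi hgrad hP3 hflat htest a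
  have hm := mass_pos hD
  have hS := hD.pos
  have hσ := hD.sg_pos
  have hℓ := hD.ell_pos
  have hz := mz_pos hD
  have hT : 0 ≤ ∑ A, a A ^ 2 := Finset.sum_nonneg fun _ _ => sq_nonneg _
  set T := ∑ A, a A ^ 2 with hTdef
  set c : Room D.n → ℝ := fun B => (D.S : ℝ) ^ 2176 * (1 + 4 * D.sg ℝ) ^ 2 *
    (a B - (∑ r, a (B.1, r)) / 3) ^ 2 with hcdef
  have hc0 : ∀ B, 0 ≤ c B := fun B => by rw [hcdef]; positivity
  have hmeas : ∀ B : Room D.n, MeasurableSet (D.neckB (rid B)) := fun B => measurableSet_bx _ _ _ _ _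
  have hi1 : ∀ B : Room D.n, Integrable
      ((D.neckB (rid B)).indicator fun x : Pos3 => c B * D.phi (x 2) ^ 2) := fun B =>
    (integrable_indicator_iff (hmeas B)).2
      (box_integrableOn (continuous_const.mul (Up_contphi D)) _ _ _ _ _)
  have hi2 := Up_box_int D (Up_contphi D)
  have hi3 := Up_box_int D (Up_contF D)
  have hi4 : IntegrableOn
      (fun x => ∑ B, (D.neckB (rid B)).indicator (fun x : Pos3 => c B * D.phi (x 2) ^ 2) x) D.box :=
    (integrable_finsetSum _ fun B _ => hi1 B).integrableOn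
  rw [← setIntegral_eq_integral_of_forall_compl_eq_zero (s := D.box)
    (fun x hx => by rw [hbox a x hx, mul_zero])]
  have key : ∫ x in D.box, D.rho x * gsq (D.uT a) x ≤ ∫ x in D.box, D.mass⁻¹ *
      ((∑ B, (D.neckB (rid B)).indicator (fun x : Pos3 => c B * D.phi (x 2) ^ 2) x) +
        (D.S : ℝ) ^ 1106 * T * D.phi (x 2) ^ 2 + 3 * (D.S : ℝ) * T * D.F3 0 0 x ^ 1072) := by
    refine setIntegral_mono_on (integrable_rho_gsq D (htest a)).integrableOn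
      ((Up_int3 hi4 hi2 hi3 _ _).1.const_mul _) (measurableSet_box D)
      fun x hx => ?_
    have hx2 : |x 2| ≤ 2 * D.z1 := abs_le.2 hx.2.2
    have g1 := hgrad a x hx2
    have g2 := hP3 a x
    have g3 := hcz (x 2)
    have g4 := Up_cz_sq hD (x 2)
    have g5 := Up_F_nonneg D x
    have g6 := gsq_nonneg (D.P3 a) x
    have e : ∑ B, (D.neckB (rid B)).indicator (fun x : Pos3 => c B * D.phi (x 2) ^ 2) x =
        (∑ B, (D.neckB (rid B)).indicator (fun _ => c B) x) * D.phi (x 2) ^ 2 := by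
      rw [Finset.sum_mul]
      refine Finset.sum_congr rfl fun B _ => ?_
      by_cases hB : x ∈ D.neckB (rid B) <;> simp [hB]
    rw [gsq_uT hD, rho_eq, e, mul_left_comm]
    refine mul_le_mul_of_nonneg_left ?_ (inv_nonneg.2 hm.le)
    generalize D.F3 0 0 x ^ 1072 = Fx at *
    generalize (∑ B, (D.neckB (rid B)).indicator (fun _ => c B) x) = I at *
    generalize (D.S : ℝ) ^ 1106 = s at *
    generalize gsq (D.P3 a) x = G at *
    have g7 : 0 ≤ D.phi (x 2) ^ 2 := sq_nonneg _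
    have g8 : 0 ≤ D.P3 a x ^ 2 := sq_nonneg _
    have g9 : 0 ≤ D.cz 1 (x 2) ^ 2 := sq_nonneg _
    generalize D.phi (x 2) ^ 2 = p at *
    generalize D.P3 a x ^ 2 = P at *
    generalize D.cz 1 (x 2) ^ 2 = c1 at *
    generalize D.cz 0 (x 2) ^ 2 = c0 at *
    have k1 : p * (c0 * (Fx * G)) ≤ p * (I + s * T) :=
      mul_le_mul_of_nonneg_left
        ((mul_le_of_le_one_left (mul_nonneg g5 g6) g4).trans g1) g7
    have k2 : Fx * (P * (p * c1)) ≤ Fx * (3 * (D.S : ℝ) * T) :=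
      mul_le_mul_of_nonneg_left ((mul_le_of_le_one_right g8 g3).trans g2) g5
    calc Fx * p * (c0 * G + P * c1) = p * (c0 * (Fx * G)) + Fx * (P * (p * c1)) := by ring
      _ ≤ p * (I + s * T) + Fx * (3 * (D.S : ℝ) * T) := add_le_add k1 k2
      _ = _ := by ring
  refine key.trans ?_
  rw [integral_const_mul, (Up_int3 hi4 hi2 hi3 _ _).2,
    integral_finsetSum _ fun B _ => (hi1 B).integrableOn]
  have k1 : ∀ B : Room D.n,
      ∫ x in D.box, (D.neckB (rid B)).indicator (fun x : Pos3 => c B * D.phi (x 2) ^ 2) x ≤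
      c B * (D.ell ℝ ^ 2 * (1 + 2 * D.sg ℝ) * ((1 + ((D.S : ℝ) ^ 100)⁻¹) * D.mz)) := fun B => by
    refine (setIntegral_le_integral (hi1 B) (Eventually.of_forall fun x =>
      indicator_nonneg (fun y _ => mul_nonneg (hc0 B) (sq_nonneg _)) x)).trans ?_
    rw [integral_indicator (hmeas B), integral_const_mul]
    exact mul_le_mul_of_nonneg_left (hneck _) (hc0 B)
  have k2 : ∑ B, c B = (D.S : ℝ) ^ 2176 * (1 + 4 * D.sg ℝ) ^ 2 * dev a := by
    rw [dev, Finset.mul_sum]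
  have k3 : (1 + 4 * D.sg ℝ) ^ 2 * (1 + 2 * D.sg ℝ) * (1 + ((D.S : ℝ) ^ 100)⁻¹) ≤
      1 + ((D.S : ℝ) ^ 50)⁻¹ := by
    have a1 : ((D.S : ℝ) ^ 100)⁻¹ ≤ D.sg ℝ := inv_pow_le hD.one_le (by norm_num)
    have a2 : 20 * D.sg ℝ ≤ ((D.S : ℝ) ^ 50)⁻¹ := mul_inv_pow_le hD.one_le h20 (by norm_num)
    have a3 : (1 + 4 * D.sg ℝ) ^ 2 * (1 + 2 * D.sg ℝ) * (1 + D.sg ℝ) ≤ 1 + 20 * D.sg ℝ := by
      generalize D.sg ℝ = σ at *
      have b1 : (1 + 4 * σ) ^ 2 ≤ 1 + 9 * σ := by nlinarith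
      have b2 : (1 + 2 * σ) * (1 + σ) ≤ 1 + 4 * σ := by nlinarith
      calc (1 + 4 * σ) ^ 2 * (1 + 2 * σ) * (1 + σ) = (1 + 4 * σ) ^ 2 * ((1 + 2 * σ) * (1 + σ)) := by
            ring
        _ ≤ (1 + 9 * σ) * (1 + 4 * σ) := by gcongr
        _ ≤ 1 + 20 * σ := by nlinarith
    calc (1 + 4 * D.sg ℝ) ^ 2 * (1 + 2 * D.sg ℝ) * (1 + ((D.S : ℝ) ^ 100)⁻¹)
        ≤ (1 + 4 * D.sg ℝ) ^ 2 * (1 + 2 * D.sg ℝ) * (1 + D.sg ℝ) := by gcongr
      _ ≤ _ := by linarith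
  have k4 : ∑ B : Room D.n,
      ∫ x in D.box, (D.neckB (rid B)).indicator (fun x : Pos3 => c B * D.phi (x 2) ^ 2) x ≤
      D.mass * (2 * D.tt ℝ * (1 + ((D.S : ℝ) ^ 50)⁻¹) * dev a) := by
    refine (Finset.sum_le_sum fun B _ => k1 B).trans ?_
    rw [← Finset.sum_mul, k2]
    have b1 := Up_tt_eq hD
    have b2 := Up_tt_pos hD
    have b3 := dev_nonneg a
    generalize (D.S : ℝ) ^ 2176 = s at *
    generalize ((D.S : ℝ) ^ 100)⁻¹ = u at *
    generalize ((D.S : ℝ) ^ 50)⁻¹ = v at *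
    calc s * (1 + 4 * D.sg ℝ) ^ 2 * dev a * (D.ell ℝ ^ 2 * (1 + 2 * D.sg ℝ) * ((1 + u) * D.mz))
        = (s * D.ell ℝ ^ 2 * D.mz) * dev a * ((1 + 4 * D.sg ℝ) ^ 2 * (1 + 2 * D.sg ℝ) * (1 + u)) := by
          ring
      _ ≤ (2 * D.tt ℝ * D.mass) * dev a * (1 + v) := by
          rw [b1]
          exact mul_le_mul_of_nonneg_left k3 (by positivity)
      _ = _ := by ring
  have k5 : (D.S : ℝ) ^ 1106 * T * ∫ x in D.box, D.phi (x 2) ^ 2 ≤
      (D.S : ℝ) ^ 1106 * T * ((D.S : ℝ) ^ 29 * D.mass) :=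
    mul_le_mul_of_nonneg_left hbphi (mul_nonneg (pow_pos hS _).le hT)
  have k6 : 3 * (D.S : ℝ) * T * ∫ x in D.box, D.F3 0 0 x ^ 1072 ≤
      3 * (D.S : ℝ) * T * ((D.S : ℝ) ^ 3 * D.mass) :=
    mul_le_mul_of_nonneg_left hflat (mul_nonneg (by linarith only [hS]) hT)
  have k7 : (D.S : ℝ) ^ 1106 * (D.S : ℝ) ^ 29 + 3 * (D.S : ℝ) * (D.S : ℝ) ^ 3 ≤ (D.S : ℝ) ^ 2000 := by
    have a1 : 3 * (D.S : ℝ) ^ 4 ≤ (D.S : ℝ) ^ 1135 :=
      mul_pow_le hD.one_le (by linarith) (by norm_num)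
    have a2 : 2 * (D.S : ℝ) ^ 1135 ≤ (D.S : ℝ) ^ 2000 :=
      mul_pow_le hD.one_le (by linarith) (by norm_num)
    rw [← pow_add, mul_assoc, ← pow_succ']
    exact le_trans (add_le_add le_rfl a1) (by rw [← two_mul]; exact a2)
  rw [inv_mul_le_iff₀ hm]
  refine (add_le_add (add_le_add k4 k5) k6).trans ?_
  have k8 := mul_le_mul_of_nonneg_left k7 (mul_nonneg hm.le hT)
  generalize (D.S : ℝ) ^ 1106 = s1 at *
  generalize (D.S : ℝ) ^ 29 = s2 at *
  generalize (D.S : ℝ) ^ 3 = s3 at *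
  generalize (D.S : ℝ) ^ 2000 = s4 at *
  generalize 2 * D.tt ℝ * (1 + ((D.S : ℝ) ^ 50)⁻¹) * dev a = E at *
  linarith

theorem norm_uT : ∀ᶠ D : Des in evD, ∀ a, ∫ x, D.rho x * D.uT a x ^ 2 ≤ (D.S : ℝ) ^ 6 * ∑ A, a A ^ 2 := by
  filter_upwards [ev_good, ev_ge 3, uT_box, uT_sq_le, mass_box, test_uT] with D hD h3 hbox hsq hmb
    htest a
  have hm := mass_pos hD
  have hS := hD.pos
  have hT : 0 ≤ ∑ A, a A ^ 2 := Finset.sum_nonneg fun _ _ => sq_nonneg _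
  rw [← setIntegral_eq_integral_of_forall_compl_eq_zero (s := D.box)
    (fun x hx => by rw [hbox a x hx]; simp)]
  calc ∫ x in D.box, D.rho x * D.uT a x ^ 2
      ≤ ∫ x in D.box, D.rho x * (3 * (D.S : ℝ) / D.mass * ∑ A, a A ^ 2) :=
        setIntegral_mono_on (integrable_rho_sq D (htest a)).integrableOn
          (Up_box_int D ((continuous_rho D).mul continuous_const)) (measurableSet_box D)
          fun x _ => mul_le_mul_of_nonneg_left (hsq a x) (Up_rho_nonneg D x)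
    _ ≤ (D.S : ℝ) ^ 4 * D.mass * (3 * (D.S : ℝ) / D.mass * ∑ A, a A ^ 2) := by
        rw [integral_mul_const]
        exact mul_le_mul_of_nonneg_right hmb (by positivity)
    _ = 3 * (D.S : ℝ) ^ 5 * ∑ A, a A ^ 2 := by field_simp
    _ ≤ _ := mul_le_mul_of_nonneg_right (mul_pow_le hD.one_le h3 (by norm_num)) hT

/-- `Vres_le`, `uT_sq_le`, `mass_box`, `mass_frame`, `mass_flat`. -/
theorem Vres_uT : ∀ᶠ D : Des in evD, ∀ a,
    ∫ x, D.Vres x * (D.rho x * D.uT a x ^ 2) ≤ 4 * (D.S : ℝ) ^ 2149 * ∑ A, a A ^ 2 := by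
  filter_upwards [ev_good, ev_ge 6, uT_box, uT_sq_le, mass_box, mass_frame, mass_flat, test_uT,
    Vres_le, integrable_Vres, G_bounds] with D hD h6 hbox hsq hmb hfr hfl htest hV hiV hG a
  have hm := mass_pos hD
  have hS := hD.pos
  have hT : 0 ≤ ∑ A, a A ^ 2 := Finset.sum_nonneg fun _ _ => sq_nonneg _
  have hB : 0 ≤ D.BB ℝ := by unfold Des.BB; positivity
  have hi1 : IntegrableOn (fun x => (D.S : ℝ) ^ 2000 * D.rho x) D.box :=
    Up_box_int D (continuous_const.mul (continuous_rho D))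
  have hi2 : IntegrableOn (fun x => (1 - D.G3 x) * D.rho x) D.box :=
    Up_box_int D ((continuous_const.sub (continuous_G3 D)).mul (continuous_rho D))
  have hi3 := Up_box_int D (Up_contF D)
  rw [← setIntegral_eq_integral_of_forall_compl_eq_zero (s := D.box)
    (fun x hx => by rw [hbox a x hx]; simp)]
  have key : ∫ x in D.box, D.Vres x * (D.rho x * D.uT a x ^ 2) ≤ ∫ x in D.box,
      ((D.S : ℝ) ^ 2000 * D.rho x + D.BB ℝ * ((1 - D.G3 x) * D.rho x) +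
        (D.S : ℝ) ^ 1923 * D.F3 0 0 x ^ 1072) * (3 * (D.S : ℝ) / D.mass * ∑ A, a A ^ 2) := by
    refine setIntegral_mono_on (hiV _ (htest a)).integrableOn
      ((Up_int3 hi1 hi2 hi3 _ _).1.mul_const _)
      (measurableSet_box D) fun x hx => ?_
    have g1 := hV x hx
    have g2 : 0 ≤ 1 - D.G3 x := sub_nonneg.2 (hG _ _).2
    have g3 := Up_rho_nonneg D x
    have g4 := Up_F_nonneg D x
    have g5 : ((D.S : ℝ) ^ 2000 + D.BB ℝ * (1 - D.G3 x)) * D.rho x =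
        (D.S : ℝ) ^ 2000 * D.rho x + D.BB ℝ * ((1 - D.G3 x) * D.rho x) := by
      rw [add_mul, mul_assoc]
    rw [g5] at g1
    rw [← mul_assoc]
    exact (mul_le_mul_of_nonneg_right g1 (sq_nonneg _)).trans
      (mul_le_mul_of_nonneg_left (hsq a x) (add_nonneg (add_nonneg (mul_nonneg (pow_pos hS _).le g3)
        (mul_nonneg hB (mul_nonneg g2 g3))) (mul_nonneg (pow_pos hS _).le g4)))
  refine key.trans ?_
  rw [integral_mul_const, (Up_int3 hi1 hi2 hi3 _ _).2, integral_const_mul]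
  have k1 : (D.S : ℝ) ^ 2000 * ∫ x in D.box, D.rho x ≤ (D.S : ℝ) ^ 2004 * D.mass := by
    rw [show 2004 = 2000 + 4 from rfl, pow_add, mul_assoc]
    exact mul_le_mul_of_nonneg_left hmb (by positivity)
  have k2 : D.BB ℝ * ∫ x in D.box, (1 - D.G3 x) * D.rho x ≤ (D.S : ℝ) ^ 2148 * D.mass := by
    refine (mul_le_mul_of_nonneg_left hfr hB).trans (le_of_eq ?_)
    unfold Des.BB
    rw [show 2199 = 2148 + 51 from rfl, pow_add, ← mul_assoc, mul_inv_cancel_right₀ (by positivity)]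
  have k3 : (D.S : ℝ) ^ 1923 * ∫ x in D.box, D.F3 0 0 x ^ 1072 ≤ (D.S : ℝ) ^ 1926 * D.mass := by
    rw [show 1926 = 1923 + 3 from rfl, pow_add, mul_assoc]
    exact mul_le_mul_of_nonneg_left hfl (by positivity)
  have k4 : 6 * (D.S : ℝ) ^ 2004 ≤ (D.S : ℝ) ^ 2148 := mul_pow_le hD.one_le h6 (by norm_num)
  have k5 : 6 * (D.S : ℝ) ^ 1926 ≤ (D.S : ℝ) ^ 2148 := mul_pow_le hD.one_le h6 (by norm_num)
  have k6 : ((D.S : ℝ) ^ 2004 * D.mass + (D.S : ℝ) ^ 2148 * D.mass + (D.S : ℝ) ^ 1926 * D.mass) ≤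
      4 / 3 * (D.S : ℝ) ^ 2148 * D.mass := by
    rw [← add_mul, ← add_mul]
    refine mul_le_mul_of_nonneg_right ?_ hm.le
    generalize (D.S : ℝ) ^ 2004 = s1 at *
    generalize (D.S : ℝ) ^ 2148 = s2 at *
    generalize (D.S : ℝ) ^ 1926 = s3 at *
    linarith
  refine (mul_le_mul_of_nonneg_right ((add_le_add (add_le_add k1 k2) k3).trans k6)
    (by positivity)).trans (le_of_eq ?_)
  have k7 : (D.S : ℝ) ^ 2149 = (D.S : ℝ) ^ 2148 * D.S := pow_succ _ 2148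
  rw [k7]
  generalize (D.S : ℝ) ^ 2148 = s2
  field_simp

theorem nb_uT : ∀ᶠ D : Des in evD, ∀ a, ∫ x in D.nb, D.rho x * D.uT a x ^ 2 = 0 := by
  filter_upwards [uT_box, box_nb] with D hbox hnb a
  refine setIntegral_eq_zero_of_forall_eq_zero fun x hx => ?_
  rw [hbox a x fun h => hnb x h hx]
  simp

/-- `sum_phiT`, `one_body`. -/
theorem ub_D : ∀ᶠ D : Des in evD, UB D.phiT D.Phi D.C1 (D.tt ℝ * (1 + ((D.S : ℝ) ^ 27)⁻¹))
    ((D.S : ℝ) ^ 2150) := by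
  filter_upwards [ev_good, ev_ge 5, one_body, test_uT, energy_uT, norm_uT, Vres_uT, nb_uT] with D hD
    h5 hob htest hE hN hV hnb a
  have hS := hD.pos
  have h1 := hD.one_le
  have hT : 0 ≤ ∑ A, a A ^ 2 := Finset.sum_nonneg fun _ _ => sq_nonneg _
  have e1 : (fun x => ∑ A, a A * D.phiT A x) = fun x => D.Psi x * D.uT a x :=
    funext fun x => sum_phiT D a x
  have e2 : ∫ x, (∑ A, a A * D.phiT A x) ^ 2 = ∫ x, D.rho x * D.uT a x ^ 2 := by
    refine integral_congr_ae (Eventually.of_forall fun x => ?_)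
    simp only [sum_phiT, mul_pow, Des.rho]
  rw [e1, e2]
  have g1 := (abs_le.1 (hob _ (htest a))).2
  rw [hnb a, mul_zero, add_zero] at g1
  have g2 := hE a
  have g3 := hN a
  have g4 := hV a
  have g5 := Up_tt_pos hD
  have g6 := dev_nonneg a
  have p1 : (0 : ℝ) < ((D.S : ℝ) ^ 30)⁻¹ := by positivity
  have p2 : ((D.S : ℝ) ^ 50)⁻¹ ≤ ((D.S : ℝ) ^ 30)⁻¹ := inv_pow_le h1 (by norm_num)
  have p3 : 5 * ((D.S : ℝ) ^ 30)⁻¹ ≤ ((D.S : ℝ) ^ 27)⁻¹ := mul_inv_pow_le h1 h5 (by norm_num)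
  have p4 : ((D.S : ℝ) ^ 27)⁻¹ ≤ 1 := inv_le_one_of_one_le₀ (one_le_pow₀ h1)
  have p5 : 5 * (D.S : ℝ) ^ 2149 ≤ (D.S : ℝ) ^ 2150 := mul_pow_le h1 h5 (by norm_num)
  have p6 : 2 * (D.S : ℝ) ^ 2006 ≤ (D.S : ℝ) ^ 2149 := mul_pow_le h1 (by linarith) (by norm_num)
  have p7 : (D.S : ℝ) ^ 2000 ≤ (D.S : ℝ) ^ 2006 := pow_le_pow_right₀ h1 (by norm_num)
  have p8 : (0 : ℝ) < (D.S : ℝ) ^ 2000 := by positivity
  have p9 : (D.S : ℝ) ^ 2000 * ∫ x, D.rho x * D.uT a x ^ 2 ≤ (D.S : ℝ) ^ 2006 * ∑ A, a A ^ 2 := by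
    rw [show 2006 = 2000 + 6 from rfl, pow_add, mul_assoc]
    exact mul_le_mul_of_nonneg_left g3 p8.le
  generalize ((D.S : ℝ) ^ 30)⁻¹ = u30 at *
  generalize ((D.S : ℝ) ^ 50)⁻¹ = u50 at *
  generalize ((D.S : ℝ) ^ 27)⁻¹ = u27 at *
  generalize (D.S : ℝ) ^ 2000 = s0 at *
  generalize (D.S : ℝ) ^ 2006 = s6 at *
  generalize (D.S : ℝ) ^ 2149 = s9 at *
  generalize (D.S : ℝ) ^ 2150 = s10 at *
  generalize ∑ A, a A ^ 2 = T at *
  generalize ∫ x, D.rho x * gsq (D.uT a) x = G at *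
  generalize ∫ x, D.rho x * D.uT a x ^ 2 = N at *
  generalize ∫ x, D.Vres x * (D.rho x * D.uT a x ^ 2) = V at *
  generalize E1 D.Phi (fun x => D.Psi x * D.uT a x) = E at *
  generalize dev a = d at *
  generalize D.tt ℝ = t at *
  have q1 : (1 / 2 + u30) * G ≤ (1 / 2 + u30) * (2 * t * (1 + u50) * d + s0 * T) :=
    mul_le_mul_of_nonneg_left g2 (by linarith)
  have q2 : (1 / 2 + u30) * (2 * (1 + u50)) ≤ 1 + u27 := by nlinarith
  have q3 : (1 / 2 + u30) * (2 * (1 + u50)) * (t * d) ≤ (1 + u27) * (t * d) :=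
    mul_le_mul_of_nonneg_right q2 (by positivity)
  have q4 : (1 / 2 + u30) * (s0 * T) ≤ s6 * T :=
    (mul_le_of_le_one_left (by positivity) (by linarith)).trans (mul_le_mul_of_nonneg_right p7 hT)
  have q5 : (2 * s6 + 4 * s9) * T ≤ s10 * T := mul_le_mul_of_nonneg_right (by linarith) hT
  linarith

end Crest.Agent.R338
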