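/-
R338/PartB: from the trine problem to the molecule
Skeleton by helper15 (row 338); keep the statements unchanged, add any helper lemmas you like.
-/
import Crest.Agent.R338.Arith
import Crest.Agent.R338.Low
import Crest.Agent.R338.Up
import Crest.Agent.R338.CoulC
import Crest.Agent.R338.MBYes
import Crest.Agent.R338.LatE
import Crest.Agent.R338.LatF

set_option autoImplicit false
set_option linter.unusedSectionVars false
set_option linter.unusedVariables false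
set_option linter.unusedSimpArgs false

noncomputable section

namespace Crest.Agent.R338

open MeasureTheory Set Filter Crest.MathPhysics.ElectronicCoulomb

theorem infLE_mono {N : ℕ} {W : Config N → ℝ} {a a' : ℝ} (h : InfEnergyLE W a) (ha : a ≤ a') :
    InfEnergyLE W a' := fun ε hε => by
  obtain ⟨Ψ, h1, h2, h3⟩ := h ε hε
  exact ⟨Ψ, h1, h2, by linarith⟩

theorem infGE_mono {N : ℕ} {W : Config N → ℝ} {b b' : ℝ} (h : InfEnergyGE W b) (hb : b' ≤ b) :
    InfEnergyGE W b' := fun Ψ h1 h2 => hb.trans (h Ψ h1 h2)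

theorem latV_smul {n N : ℕ} (v : ℝ) (V : Room n → Room n → ℝ) (c : (Fin N → Mode n) → ℝ) :
    latV (fun A B => v * V A B) c = v * latV V c := by
  unfold latV
  rw [Finset.mul_sum]
  refine Finset.sum_congr rfl fun x _ => ?_
  rw [← mul_assoc]
  congr 1
  rw [Finset.mul_sum]
  refine Finset.sum_congr rfl fun i _ => ?_
  rw [Finset.mul_sum]
  refine Finset.sum_congr rfl fun j _ => ?_
  split_ifs <;> simp

theorem partB_yes' : ∀ᶠ D : Des in evD, ∀ (kc a : ℕ) (k : ℕ → ℕ → ℕ), D.Lay kc k →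
    (∀ A B, k A B = k B A) → a ≤ kc → kc ≤ D.M → TYes D.n k a →
    InfEnergyLE (Wpot D.Phi : Config (3 * D.n) → ℝ) (D.thr kc (a + 3) : ℝ) := by
  filter_upwards [ev_good, orbs_D, ub_D, vu_D, rem_small, yes_arith, E0_bounds]
    with D hD hO hU hV hr hA hE kc a k hL hk ha hkc hY
  have hS := hD.pos
  have hM := hD.one_le_M
  have hv : 0 < D.v0 ℝ := lt_of_lt_of_le (pow_pos hS _) (v0_bounds hD).1
  have ht : 0 ≤ D.tt ℝ := div_nonneg (pow_pos hS _).le
    (mul_nonneg (mul_nonneg zero_le_two (Nat.cast_nonneg _)) (sq_nonneg _))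
  have ht' : 0 ≤ D.tt ℝ * (1 + ((D.S : ℝ) ^ 27)⁻¹) :=
    mul_nonneg ht (add_nonneg zero_le_one (inv_nonneg.2 (pow_pos hS _).le))
  have hE0 := (hE kc hkc).1
  obtain ⟨c, h0, hc, h1, h2⟩ := lat_yes (N := 3 * D.n) rfl D.UU kc hk hY
  refine infLE_mono (mb_yes (a := D.tt ℝ * (1 + ((D.S : ℝ) ^ 27)⁻¹) * D.n + D.v0 ℝ * (D.E0 kc + a))
    hO (pot_Phi D) hU (hV kc k hL) hr ht' (pow_pos hS _).le (pow_pos hS _).le
    (add_nonneg (mul_nonneg ht' (Nat.cast_nonneg _))
      (mul_nonneg hv.le (add_nonneg hE0 (Nat.cast_nonneg _))))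
    (by have := hD.n1; omega) h0 hc ?_) (hA kc a ha hkc)
  rw [latV_smul, h1]
  have h3 := mul_le_mul_of_nonneg_left h2 hv.le
  unfold Des.E0
  linarith

theorem partB_no' : ∀ᶠ D : Des in evD, ∀ (kc b : ℕ) (k : ℕ → ℕ → ℕ), D.Lay kc k →
    (∀ A B, k A B = k B A) → (∀ A B, k A B ≤ kc) → b ≤ kc → kc ≤ D.M → TNo D.n k b →
    InfEnergyGE (Wpot D.Phi : Config (3 * D.n) → ℝ) (D.thr kc (b - 3) : ℝ) := by
  filter_upwards [ev_good, orbs_D, lb_D, vl_D, no_side, no_arith, UU_bounds]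
    with D hD hO hL hV hs hA hU kc b k hlay hk hkk hb hkc hN
  have hS := hD.pos
  have hv : 0 < D.v0 ℝ := lt_of_lt_of_le (pow_pos hS _) (v0_bounds hD).1
  obtain ⟨h1, h2, h3⟩ := hs kc b hb hkc
  have hkU : (kc : ℝ) ≤ D.UU := (Nat.cast_le.2 hkc).trans hU.1
  have htL : D.tt ℝ * (1 - ((D.S : ℝ) ^ 27)⁻¹) = D.v0 ℝ * D.tL := by
    unfold Des.tL; rw [mul_div_cancel₀ _ hv.ne']
  refine infGE_mono (mb_no (b := D.bL kc b) hO (pot_Phi D) hL (hV kc k hlay)
    (by rw [htL]; exact (mul_pos hv h1).le) (pow_pos hS _) (pow_pos hS _).le (pow_pos hS _).le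
    (by have := hD.n1; omega) h3 fun c hc => ?_) (hA kc b)
  have h4 := lat_no (N := 3 * D.n) rfl (U := D.UU) (b := b) (t := D.tL) (Vm := D.UU) (kc := kc) hk hkU
    (Nat.cast_le.2 hb) (Nat.cast_nonneg _) (fun A B => by
      unfold Vlat
      split_ifs
      · exact le_rfl
      · exact hkU
      · exact (Nat.cast_le.2 (hkk _ _)).trans hkU) h1 h2 hN hc
  have h5 := mul_le_mul_of_nonneg_left h4 hv.le
  rw [latV_smul, htL]
  unfold Des.bL Des.E0
  linarith

theorem partB_yes : ∀ᶠ D : Des in evD, ∀ (kc a b : ℕ) (k : ℕ → ℕ → ℕ), D.Lay kc k →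
    (∀ A B, k A B = k B A) → a ≤ kc → kc ≤ D.M → TYes D.n k a →
    InfEnergyLE (D.inst kc a b).potential ((D.inst kc a b).lower : ℝ) := by
  filter_upwards [partB_yes'] with D h kc a b k h1 h2 h3 h4 h5
  rw [potential_inst]
  exact h kc a k h1 h2 h3 h4 h5

theorem partB_no : ∀ᶠ D : Des in evD, ∀ (kc a b : ℕ) (k : ℕ → ℕ → ℕ), D.Lay kc k →
    (∀ A B, k A B = k B A) → (∀ A B, k A B ≤ kc) → b ≤ kc → kc ≤ D.M → TNo D.n k b →
    InfEnergyGE (D.inst kc a b).potential ((D.inst kc a b).upper : ℝ) := by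
  filter_upwards [partB_no'] with D h kc a b k h1 h2 h3 h4 h5 h6
  rw [potential_inst]
  exact h kc b k h1 h2 h3 h4 h5 h6

end Crest.Agent.R338
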