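/-
R338/Final: the reduction
Skeleton by helper15 (row 338); keep the statements unchanged, add any helper lemmas you like.
-/
import Crest.Agent.R338.PartB
import Crest.Agent.R338.Layout
import Crest.Agent.R338.PTA
import Crest.Agent.R338.PTB
import Crest.Agent.Lib.PolyTime.Converse

set_option autoImplicit false
set_option linter.unusedSectionVars false
set_option linter.unusedVariables false
set_option linter.unusedSimpArgs false

noncomputable section

namespace Crest.Agent.R338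

open Crest.Agent.Lib.PolyTime Crest.Quantum.QMA Crest.MathPhysics.CoulombProblem

theorem instOf_spec : ∃ S₀ : ℕ, ∀ (Q n : ℕ) (H : Ham), WFH 2 Q n H →
    (TYes n (ktab Q H) (aT Q n) → (instOf S₀ Q n H).code ∈ groundEnergyProblem.yes) ∧
    (TNo n (ktab Q H) (bT Q n) → (instOf S₀ Q n H).code ∈ groundEnergyProblem.no) := by
  obtain ⟨S₀, h⟩ := ev_exists (valid_inst.and (partB_yes.and partB_no))
  refine ⟨S₀, fun Q n H hH => ?_⟩
  have hQ := trine_Q_pos hH
  have h46 : Q ^ 4 ≤ Q ^ 6 := Nat.pow_le_pow_right hQ (by norm_num)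
  have h68 : Q ^ 6 ≤ Q ^ 8 := Nat.pow_le_pow_right hQ (by norm_num)
  have h2 : 1 ≤ Q ^ 2 := Nat.one_le_pow _ _ hQ
  have hk : ∀ A B, ktab Q H A B ≤ 100 * Q ^ 6 := fun A B => by have := ktab_le hH A B; omega
  obtain ⟨hG, hL⟩ := desOf_good S₀ (by have := hH.two; omega) hH.nQ (ktab_symm Q H) hk
  obtain ⟨hv, hy, hn⟩ := h _ hG (Nat.le_add_right _ _)
  have hab : aT Q n + 10 ≤ bT Q n := by unfold aT bT; omega
  have hb := bT_le hH
  have hM : 100 * Q ^ 6 ≤ (desOf S₀ Q n (ktab Q H)).M := by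
    show 100 * Q ^ 6 ≤ 1000 * Q ^ 8
    omega
  exact ⟨fun hY => ⟨_, hv _ _ _ hab, rfl, hy _ _ _ _ hL (ktab_symm Q H) (by omega) hM hY⟩,
    fun hN => ⟨_, hv _ _ _ hab, rfl, hn _ _ _ _ hL (ktab_symm Q H) hk hb hM hN⟩⟩

theorem pt_instOf {α : Type} [Enc α] (S₀ : ℕ) {Q n : α → ℕ} {H : α → Ham} (hQ : PT Q) (hQ' : PB Q)
    (hn : PT n) (hn' : PB n) (hH : PT H) : PT fun a => (instOf S₀ (Q a) (n a) (H a)).code := by
  have hD : PTD fun a => desOf S₀ (Q a) (n a) (ktab (Q a) (H a)) :=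
    ptd_desOf S₀ hQ hQ' hn hn' (pt_ktab (hQ.comp PT.fst') (hH.comp PT.fst') PT.snd'.fst PT.snd'.snd)
  have hk : PT fun a => 100 * Q a ^ 6 := by fun_prop
  exact hD.code hk (pt_aT hQ hn) (pt_bT hQ hn)

theorem qmaHard : QMAHard groundEnergyProblem := by
  rintro P ⟨V, hV, ⟨gen, hgen, hg⟩, ⟨p, hp⟩, hy, hn⟩
  obtain ⟨S₀, hS⟩ := instOf_spec
  obtain ⟨dec, hdec, hd⟩ := exists_vdec
  have hgen' : PT gen := PT.of_polyTime hgen
  obtain ⟨s, hs0⟩ : ∃ s : List Bool → ℕ, ∀ x, s x = p.eval x.length + (gen x).length + 2 :=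
    ⟨_, fun _ => rfl⟩
  have hs : PT s :=
    (((PT.polyEval p (PT.length PT.id')).nat_add hgen'.length).nat_add (PT.const 2)).of_eq
      fun x => (hs0 x).symm
  have hs' : PB s := (((PB.eval p (PB.length PT.id')).add (PB.length hgen')).add (PB.const 2)).mono
    fun x => (hs0 x).le
  have hfit : ∀ x, Fits (s x) (V x) := fun x => by
    rw [hs0, hg x]
    exact fits_of (hp x)
  have hdg : PT fun x => dec (gen x) := hdec.comp hgen'
  have hham : PT fun x => hamV (s x) (V x) :=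
    (pt_ham3 hs hs' hdg.fst hdg.snd.fst hdg.snd.snd.fst hdg.snd.snd.snd).of_eq fun x => by
      rw [hg x, hd _ (hV x)]
  have hQ := pt_Q3 hs
  have hQ' := pb_Q3 hs'
  have hn' : PB fun x => (hamV (s x) (V x)).1 := hQ'.mono fun x => (hamV_wf (hV x) (hfit x)).nQ
  refine ⟨_, PT.polyTime (pt_instOf S₀ hQ hQ' hham.fst hn' hham.snd), fun x hx => ?_, fun x hx => ?_⟩
  · exact (hS _ _ _ (hamV_wf (hV x) (hfit x))).1 (partA_yes (hV x) (hfit x) (hy x hx))
  · exact (hS _ _ _ (hamV_wf (hV x) (hfit x))).2 (partA_no (hV x) (hfit x) (hn x hx))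

end Crest.Agent.R338
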