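/-
R338/Blueprint: map of the proof of S0529 (QMA-hardness of the electronic ground energy with unit
nuclei).  Author: helper15.

Part A (finite-dimensional; `ADefs`, `Pauli`, `Compile*`, `Kit*`, `Gad*`, `Trine*`, `Lat*`, `PartA`):
verifier circuit → real circuit → Kitaev clock Hamiltonian (6-local X/Z strings) → three rounds of a
perturbative gadget (6 → 4 → 3 → 2) → "trine problem" (a classical pair cost on vectors with zero sum in
every three-valued coordinate) → lattice fermions: three rooms per qubit, three electrons per qubit.

Part B1 (generic analysis; `BDefs` … `MBYes`): a slab of unit nuclei on a fine cubic lattice acts on an
electron, in the sense of quadratic forms, like a uniformly charged slab; small displacements of the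
nuclei add any prescribed smooth potential `g` (`hom`).  `mb_no`, `mb_yes` reduce the many-electron
energy to the lattice fermions, given one-body bounds `LB`, `UB` and Coulomb integrals `VL`, `VU`.

Part B2 (the design; `DDefs` … `PartB`): `g` is chosen such that `Ψ = F ^ 536 * φ` is an approximate
ground state; `F` describes pads (the rooms), wires with a neck (the hopping) and buses; the numbers of
pads on common levels give the couplings.  `PTA`, `PTB`, `Final`: polynomial time.
-/
import Crest.Agent.R338.Final
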